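import Vale.Agent.P337.Dual

/-!
# P337 [T3]: the residue functional on the quotient and the trace formula
-/

namespace Vale.Agent.P337

open MvPolynomial

section
variable {R : Type*} [CommRing R] {N : ℕ}

/-- the residue functional on the polynomial ring as a linear map -/
theorem exists_resP {m : ℕ} (hm : 0 < m) {f : Fin N → MvPolynomial (Fin N) R}
    (hf : ∀ i, (f i).totalDegree < m) :
    ∃ T : MvPolynomial (Fin N) R →ₗ[R] R,
      (∀ (g : MvPolynomial (Fin N) R) (E : ℕ), g.totalDegree ≤ E → T g = tau m E f g) ∧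
      ∀ g ∈ sysI m f, T g = 0 := by
  classical
  let T : MvPolynomial (Fin N) R →ₗ[R] R :=
    { toFun := fun g => tau m g.totalDegree f g
      map_add' := fun g g' => by
        have h1 : (g + g').totalDegree ≤ max g.totalDegree g'.totalDegree := totalDegree_add _ _
        rw [tau_indep hm hf (le_refl _) h1, tau_add,
          tau_indep hm hf (le_refl _) (le_max_left g.totalDegree g'.totalDegree),
          tau_indep hm hf (le_refl g'.totalDegree) (le_max_right g.totalDegree g'.totalDegree)]
      map_smul' := fun a g => by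
        have h1 : (a • g).totalDegree ≤ g.totalDegree := totalDegree_smul_le _ _
        rw [tau_indep hm hf (le_refl _) h1, MvPolynomial.smul_eq_C_mul, tau_C_mul]
        rfl }
  have hT : ∀ (g : MvPolynomial (Fin N) R) (E : ℕ), g.totalDegree ≤ E → T g = tau m E f g :=
    fun g E hE => tau_indep hm hf (le_refl _) hE
  refine ⟨T, hT, ?_⟩
  intro g hg
  have hdeg : ∀ j, (sysF m f j).totalDegree ≤ m := by
    intro j
    refine (totalDegree_sub _ _).trans (max_le ?_ (hf j).le)
    refine (totalDegree_pow _ _).trans ?_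
    calc m * (X j : MvPolynomial (Fin N) R).totalDegree ≤ m * 1 := by
          gcongr
          rcases subsingleton_or_nontrivial R with h | h
          · have : (X j : MvPolynomial (Fin N) R) = 0 := Subsingleton.elim _ _
            simp [this]
          · rw [totalDegree_X]
      _ = m := mul_one m
  rw [sysI, Ideal.mem_span_range_iff_exists_fun] at hg
  obtain ⟨c, rfl⟩ := hg
  rw [map_sum]
  refine Finset.sum_eq_zero fun j _ => ?_
  rw [hT _ ((c j).totalDegree + m) ((totalDegree_mul _ _).trans (by have := hdeg j; omega))]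
  exact tau_sysF hm hf j le_rfl

/-- the residue functional on the quotient -/
theorem exists_resL {m : ℕ} (hm : 0 < m) {f : Fin N → MvPolynomial (Fin N) R}
    (hf : ∀ i, (f i).totalDegree < m) :
    ∃ T : SysA m f →ₗ[R] R,
      ∀ (g : MvPolynomial (Fin N) R) (E : ℕ), g.totalDegree ≤ E → T (cls m f g) = tau m E f g := by
  obtain ⟨T, hT, h0⟩ := exists_resP hm hf
  have hs : Function.Surjective (Ideal.Quotient.mk (sysI m f)) := Ideal.Quotient.mk_surjective
  have hc : ∀ g g' : MvPolynomial (Fin N) R, cls m f g = cls m f g' → T g = T g' := by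
    intro g g' h
    have h1 := Ideal.Quotient.eq.1 h
    have h2 := h0 _ h1
    rw [map_sub, sub_eq_zero] at h2
    exact h2
  have hi : ∀ a : SysA m f, cls m f (Function.surjInv hs a) = a := Function.surjInv_eq hs
  refine ⟨{ toFun := fun a => T (Function.surjInv hs a), map_add' := ?_, map_smul' := ?_ }, ?_⟩
  · intro a b
    rw [← map_add]
    apply hc
    rw [hi, cls, map_add]
    exact congrArg₂ (· + ·) (hi a).symm (hi b).symm
  · intro c a
    rw [RingHom.id_apply, ← map_smul]
    apply hc
    calc cls m f (Function.surjInv hs (c • a)) = c • a := hi _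
      _ = c • cls m f (Function.surjInv hs a) := by rw [hi]
      _ = cls m f (c • Function.surjInv hs a) := rfl
  · intro g E hE
    change T (Function.surjInv hs (cls m f g)) = _
    rw [hc _ g (hi _), hT g E hE]

end

section
variable {k : Type*} [Field k] {N : ℕ}

/-- [T3a] -/
theorem sysA_finite {m : ℕ} (hm : 0 < m) {f : Fin N → MvPolynomial (Fin N) k}
    (hf : ∀ i, (f i).totalDegree < m) : Module.Finite k (SysA m f) := by
  classical
  obtain ⟨s, v, -, h2, -⟩ := exists_dual hm hf
  refine ⟨⟨s.image fun a => cls m f (v a), ?_⟩⟩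
  rw [Submodule.eq_top_iff']
  intro x
  obtain ⟨g, rfl⟩ := Ideal.Quotient.mk_surjective x
  have := h2 g _ le_rfl
  rw [cls] at this
  rw [this]
  refine Submodule.sum_mem _ fun a ha => ?_
  rw [← Algebra.smul_def]
  refine Submodule.smul_mem _ _ (Submodule.subset_span ?_)
  simp only [Finset.coe_image, Set.mem_image]
  exact ⟨a, ha, rfl⟩

/-- [T3b] the trace formula -/
theorem trace_eq {m : ℕ} (hm : 0 < m) {f : Fin N → MvPolynomial (Fin N) k}
    (hf : ∀ i, (f i).totalDegree < m) (g : MvPolynomial (Fin N) k) {E : ℕ}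
    (hE : g.totalDegree + N * (m - 1) ≤ E) :
    LinearMap.trace k (SysA m f) (LinearMap.mulLeft k (cls m f g)) = tau m E f (g * jac m f) := by
  classical
  have := sysA_finite hm hf
  obtain ⟨s, v, h1, h2, h3⟩ := exists_dual hm hf
  obtain ⟨T, hT⟩ := exists_resL hm hf
  -- the two maps through `s → k`
  let P : (s → k) →ₗ[k] SysA m f :=
    { toFun := fun c => ∑ a : s, c a • cls m f (v a)
      map_add' := fun c d => by simp [add_smul, Finset.sum_add_distrib]
      map_smul' := fun c d => by simp [Finset.smul_sum, mul_smul] }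
  let Q : SysA m f →ₗ[k] (s → k) :=
    LinearMap.pi fun a => T ∘ₗ LinearMap.mulLeft k (cls m f (g * monomial (a : Fin N →₀ ℕ) 1))
  have hPQ : LinearMap.mulLeft k (cls m f g) = P ∘ₗ Q := by
    apply LinearMap.ext
    intro x
    obtain ⟨u, rfl⟩ := Ideal.Quotient.mk_surjective x
    have e := h2 (g * u) _ le_rfl
    have e1 : cls m f (g * u) = LinearMap.mulLeft k (cls m f g) (cls m f u) := by
      rw [LinearMap.mulLeft_apply, cls, cls, cls, map_mul]
    rw [← e1, e, LinearMap.comp_apply]
    change _ = ∑ a : s, (Q (cls m f u)) a • cls m f (v a)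
    rw [← Finset.sum_attach]
    refine Finset.sum_congr rfl fun a _ => ?_
    rw [← Algebra.smul_def]
    congr 1
    change _ = T (cls m f (g * monomial (a : Fin N →₀ ℕ) 1) * cls m f u)
    have e2 : cls m f (g * monomial (a : Fin N →₀ ℕ) 1) * cls m f u =
        cls m f (g * u * monomial (a : Fin N →₀ ℕ) 1) := by
      rw [cls, cls, cls, ← map_mul]
      congr 1
      ring
    rw [e2]
    symm
    apply hT
    refine (totalDegree_mul _ _).trans ?_
    gcongr
    exact (totalDegree_monomial_le _ _).trans (h1 a a.2)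
  rw [hPQ, LinearMap.trace_comp_comm']
  rw [LinearMap.trace_eq_matrix_trace k (Pi.basisFun k s), Matrix.trace]
  have hterm : ∀ a : s, Matrix.diag (LinearMap.toMatrix (Pi.basisFun k s) (Pi.basisFun k s)
      (Q ∘ₗ P)) a = T (cls m f (g * (monomial (a : Fin N →₀ ℕ) 1 * v a))) := by
    intro a
    rw [Matrix.diag_apply, LinearMap.toMatrix_apply, Pi.basisFun_repr, Pi.basisFun_apply,
      LinearMap.comp_apply]
    have hP : P (Pi.single a 1) = cls m f (v a) := by
      change ∑ b : s, (Pi.single a (1 : k) : s → k) b • cls m f (v b) = _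
      rw [Finset.sum_eq_single a]
      · simp
      · intro b _ hb
        rw [Pi.single_eq_of_ne hb, zero_smul]
      · intro h
        exact absurd (Finset.mem_univ a) h
    rw [hP]
    change T (cls m f (g * monomial (a : Fin N →₀ ℕ) 1) * cls m f (v a)) = _
    rw [cls, cls, cls, ← map_mul, mul_assoc]
  rw [Finset.sum_congr rfl fun a _ => hterm a, ← map_sum]
  have e3 : ∑ a : s, cls m f (g * (monomial (a : Fin N →₀ ℕ) 1 * v a)) =
      cls m f (g * jac m f) := by
    calc ∑ a : s, cls m f (g * (monomial (a : Fin N →₀ ℕ) 1 * v a))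
        = cls m f (∑ a ∈ s, g * (monomial a 1 * v a)) := by
          rw [cls, map_sum, ← Finset.sum_coe_sort s]
      _ = cls m f g * cls m f (∑ a ∈ s, monomial a 1 * v a) := by
          rw [← Finset.mul_sum, cls, cls, map_mul]
      _ = cls m f (g * jac m f) := by
          rw [h3, cls, cls, cls, map_mul]
  rw [e3]
  apply hT
  refine (totalDegree_mul _ _).trans (le_trans ?_ hE)
  gcongr
  exact jac_totalDegree hm hf

/-- [T3c] -/
theorem finrank_eq [CharZero k] {m : ℕ} (hm : 0 < m) {f : Fin N → MvPolynomial (Fin N) k}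
    (hf : ∀ i, (f i).totalDegree < m) : Module.finrank k (SysA m f) = m ^ N := by
  have := sysA_finite hm hf
  have h := trace_eq hm hf 1 (E := N * (m - 1)) (by simp)
  have h1 : LinearMap.mulLeft k (cls m f 1) = LinearMap.id := by
    apply LinearMap.ext
    intro x
    rw [LinearMap.mulLeft_apply, cls, map_one, one_mul, LinearMap.id_apply]
  rw [h1, LinearMap.trace_id, one_mul, tau_jac hm hf] at h
  exact_mod_cast h

end
end Vale.Agent.P337
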