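import Vale.Agent.P337.Typed

/-!
# P337: typed iteration and folds over bits
-/

namespace Vale.Agent.P337

variable {α β γ σ : Type} [Code α] [Code β] [Code γ] [Code σ]

/-- Bounded iteration of a polynomial time step with a parameter `a`; the number of rounds is the
length of `l a`, and only the codes of the intermediate results have to be bounded. -/
theorem PTime.iter {l : α → List Bool} {init : α → σ} {step : α × σ → σ}
    (hl : PTime l) (hi : PTime init) (hs : PTime step) (q : Polynomial ℕ)
    (hq : ∀ a i, i ≤ (l a).length →
      (Code.code ((fun s => step (a, s))^[i] (init a))).length ≤ q.eval (Code.code a).length) :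
    PTime (fun a => (fun s => step (a, s))^[(l a).length] (init a)) := by
  obtain ⟨L, hL, hL'⟩ := hl
  obtain ⟨I, hI, hI'⟩ := hi
  obtain ⟨F, hF, hF'⟩ := hs
  refine ⟨_, PT.clamp hF hL hI q, fun a => ?_⟩
  beta_reduce
  have key : ∀ i, i ≤ (l a).length →
      (fun y => (F (pairL (Code.code a) y)).take (q.eval (Code.code a).length))^[i]
        ((I (Code.code a)).take (q.eval (Code.code a).length))
      = Code.code ((fun s => step (a, s))^[i] (init a)) := by
    intro i
    induction i with
    | zero =>
      intro h
      have h1 := hq a 0 h
      simp only [Function.iterate_zero, id_eq] at h1 ⊢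
      rw [hI', List.take_of_length_le h1]
    | succ i ih =>
      intro h
      have h1 := hq a (i + 1) h
      rw [Function.iterate_succ_apply', Function.iterate_succ_apply', ih (by omega)]
      rw [Function.iterate_succ_apply'] at h1
      have h2 : F (pairL (Code.code a) (Code.code ((fun s => step (a, s))^[i] (init a))))
          = Code.code (step (a, (fun s => step (a, s))^[i] (init a))) := by
        rw [← code_pair, hF']
      rw [h2, List.take_of_length_le h1]
  have h3 : (L (Code.code a)).length = (l a).length := by rw [hL', code_list]
  rw [h3]
  exact key _ le_rfl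

/-- `true` iff the string is empty -/
theorem PTime.isEmpty {f : α → List Bool} (hf : PTime f) : PTime (fun a => (f a).isEmpty) := by
  obtain ⟨F, h1, h2⟩ := hf
  exact ⟨_, PTB.isEmpty h1, fun a => by beta_reduce; rw [h2, code_list, code_bool]⟩

theorem PTime.reverse {f : α → List Bool} (hf : PTime f) : PTime (fun a => (f a).reverse) := by
  obtain ⟨F, h1, h2⟩ := hf
  exact ⟨_, h1.reverse, fun a => by beta_reduce; rw [h2, code_list, code_list]⟩

/-- A string of length `(f a).length` consisting of `true`. -/
theorem PTime.ones {f : α → List Bool} (hf : PTime f) :
    PTime (fun a => List.replicate (f a).length true) := by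
  obtain ⟨F, h1, h2⟩ := hf
  exact ⟨_, h1.ones, fun a => by beta_reduce; rw [h2, code_list, code_list]⟩

/-- the bit as a string -/
theorem PTime.boolToList {f : α → Bool} (hf : PTime f) : PTime (fun a => [f a]) := by
  obtain ⟨F, h1, h2⟩ := hf
  exact ⟨F, h1, fun a => by rw [h2, code_list, code_bool]⟩

theorem PTime.consBool {c : α → Bool} {f : α → List Bool} (hc : PTime c) (hf : PTime f) :
    PTime (fun a => c a :: f a) :=
  (PTime.append hc.boolToList hf).congr fun a => by simp

/-- one step of a fold over bits -/
private def foldStep (step : α × σ × Bool → σ) (x : α × List Bool × σ) : List Bool × σ :=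
  if x.2.1.isEmpty then x.2 else (x.2.1.tail, step (x.1, x.2.2, x.2.1.headD false))

omit [Code α] [Code σ] in
private theorem foldStep_iterate (step : α × σ × Bool → σ) (a : α) :
    ∀ (i : ℕ) (l : List Bool) (s : σ), i ≤ l.length →
      (fun y => foldStep step (a, y))^[i] (l, s)
        = (l.drop i, (l.take i).foldl (fun s b => step (a, s, b)) s)
  | 0, l, s, _ => by simp
  | i + 1, [], s, h => by simp at h
  | i + 1, b :: l, s, h => by
    rw [Function.iterate_succ_apply]
    have h1 : foldStep step (a, b :: l, s) = (l, step (a, s, b)) := by simp [foldStep]
    rw [h1, foldStep_iterate step a i l _ (by simpa using h)]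
    simp

/-- Folds over the bits of a string. -/
theorem PTime.foldBits {l : α → List Bool} {init : α → σ} {step : α × σ × Bool → σ}
    (hl : PTime l) (hi : PTime init) (hs : PTime step) (q : Polynomial ℕ)
    (hq : ∀ a i, i ≤ (l a).length →
      (Code.code (((l a).take i).foldl (fun s b => step (a, s, b)) (init a))).length
        ≤ q.eval (Code.code a).length) :
    PTime (fun a => (l a).foldl (fun s b => step (a, s, b)) (init a)) := by
  obtain ⟨r, hr⟩ := hl.length_le
  have hstep : PTime (foldStep step) := by
    refine PTime.ite (PTime.isEmpty (PTime.fst.comp PTime.snd)) PTime.snd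
      (PTime.pair (PTime.tail (PTime.fst.comp PTime.snd))
        (hs.comp (PTime.fst.pair ((PTime.snd.comp PTime.snd).pair
          (PTime.headD (PTime.fst.comp PTime.snd))))))
  have h1 := PTime.iter (step := foldStep step) hl (hl.pair hi) hstep (2 * r + 2 + q)
    (fun a i hia => by
      rw [foldStep_iterate step a i (l a) (init a) hia]
      have h2 := hr a
      have h3 := hq a i hia
      rw [code_pair, length_pairL, code_list, List.length_drop]
      rw [code_list] at h2
      simp only [Polynomial.eval_add, Polynomial.eval_mul, Polynomial.eval_ofNat]
      omega)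
  refine (PTime.snd.comp h1).congr fun a => ?_
  rw [foldStep_iterate step a _ (l a) (init a) le_rfl, List.take_length]

section sizes

theorem code_nat_length (n : ℕ) : (Code.code n).length = n.size := by
  rw [code_nat, Nat.size_eq_bits_len]

theorem code_nat_le {n k : ℕ} (h : n < 2 ^ k) : (Code.code n).length ≤ k := by
  rw [code_nat_length]
  exact Nat.size_le.2 h

theorem lt_two_pow_code (n : ℕ) : n < 2 ^ (Code.code n).length := by
  rw [code_nat_length]
  exact Nat.lt_size_self n

theorem code_nat_mono {m n : ℕ} (h : m ≤ n) : (Code.code m).length ≤ (Code.code n).length :=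
  code_nat_le (lt_of_le_of_lt h (lt_two_pow_code n))

end sizes

/-- The value of a bit string, most significant bit first. -/
def mval (l : List Bool) : ℕ := l.foldl (fun n b => 2 * n + b.toNat) 0

theorem foldl_digit (l : List Bool) (s : ℕ) :
    l.foldl (fun n b => 2 * n + b.toNat) s = s * 2 ^ l.length + mval l := by
  induction l generalizing s with
  | nil => simp [mval]
  | cons b l ih =>
    have h : mval (b :: l) = (2 * 0 + b.toNat) * 2 ^ l.length + mval l := ih _
    rw [List.foldl_cons, ih, h, List.length_cons]
    ring

theorem mval_append (l l' : List Bool) : mval (l ++ l') = mval l * 2 ^ l'.length + mval l' := by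
  rw [mval, List.foldl_append, foldl_digit]
  rfl

theorem mval_take_le (l : List Bool) (i : ℕ) : mval (l.take i) ≤ mval l := by
  conv_rhs => rw [← List.take_append_drop i l, mval_append]
  exact le_trans (Nat.le_mul_of_pos_right _ (by positivity)) (Nat.le_add_right _ _)

theorem mval_lt (l : List Bool) : mval l < 2 ^ l.length := by
  induction l using List.reverseRecOn with
  | nil => simp [mval]
  | append_singleton l b ih =>
    rw [mval_append, List.length_append, List.length_singleton, pow_succ]
    have : mval [b] ≤ 1 := by cases b <;> simp [mval]
    omega

theorem mval_reverse (l : List Bool) : mval l.reverse = bval l := by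
  induction l with
  | nil => rfl
  | cons b l ih =>
    rw [List.reverse_cons, mval_append, ih, bval, List.length_singleton]
    cases b <;> simp [mval] <;> ring

theorem mval_bits_reverse (n : ℕ) : mval n.bits.reverse = n := by
  rw [mval_reverse, bval_bits]

/-- Folds that compute a function of the value of the prefix read so far. -/
theorem foldl_of_digit {σ : Type} (step : σ → Bool → σ) (F : ℕ → σ)
    (h : ∀ n b, step (F n) b = F (2 * n + b.toNat)) (l : List Bool) :
    l.foldl step (F 0) = F (mval l) := by
  have key : ∀ (l : List Bool) (n : ℕ),
      l.foldl step (F n) = F (l.foldl (fun n b => 2 * n + b.toNat) n) := by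
    intro l
    induction l with
    | nil => intro n; rfl
    | cons b l ih => intro n; rw [List.foldl_cons, h, ih, List.foldl_cons]
  exact key l 0

section

variable {α σ : Type} [Code α] [Code σ]

/-- Functions of a natural number defined by their behaviour under appending a binary digit. -/
theorem PTime.natRec {n : α → ℕ} {F : α → ℕ → σ} {step : α × σ × Bool → σ} (hn : PTime n)
    (h0 : PTime (fun a => F a 0)) (hs : PTime step)
    (h : ∀ a k b, k ≤ n a → step (a, F a k, b) = F a (2 * k + b.toNat)) (q : Polynomial ℕ)
    (hq : ∀ a k, k ≤ n a → (Code.code (F a k)).length ≤ q.eval (Code.code a).length) :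
    PTime (fun a => F a (n a)) := by
  have hl : PTime (fun a => (n a).bits.reverse) := PTime.reverse (PTime.code.comp hn)
  have key : ∀ a (i : ℕ), ((n a).bits.reverse.take i).foldl (fun s b => step (a, s, b)) (F a 0)
      = F a (mval ((n a).bits.reverse.take i)) := by
    intro a i
    have hle : mval ((n a).bits.reverse.take i) ≤ n a := by
      have := mval_take_le (n a).bits.reverse i
      rwa [mval_bits_reverse] at this
    generalize (n a).bits.reverse.take i = l at hle ⊢
    induction l using List.reverseRecOn with
    | nil => rfl
    | append_singleton l b ih =>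
      have e : mval (l ++ [b]) = 2 * mval l + b.toNat := by
        rw [mval_append, List.length_singleton]
        cases b <;> simp [mval] <;> ring
      rw [e] at hle
      rw [List.foldl_append, ih (by omega), List.foldl_cons, List.foldl_nil, e, h a _ b (by omega)]
  have h1 := PTime.foldBits (step := step) hl h0 hs q (fun a i _ => by
    rw [key]
    have := mval_take_le (n a).bits.reverse i
    rw [mval_bits_reverse] at this
    exact hq a _ this)
  refine h1.congr fun a => ?_
  have h2 := key a (n a).bits.reverse.length
  rw [List.take_length, mval_bits_reverse] at h2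
  exact h2

end

end Vale.Agent.P337
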