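import Vale.Agent.P337.Arith2

/-!
# P337: lists of coded objects
-/

namespace Vale.Agent.P337

/-- The code of a list: nested pairs, the empty list is the empty string. -/
def codeL {α : Type} [Code α] : List α → List Bool
  | [] => []
  | a :: l => pairL (Code.code a) (codeL l)

theorem codeL_injective {α : Type} [Code α] : Function.Injective (codeL : List α → List Bool) := by
  intro l
  induction l with
  | nil =>
    intro l' h
    cases l' with
    | nil => rfl
    | cons a l' =>
      have := congrArg List.length h
      simp only [codeL, List.length_nil, length_pairL] at this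
      omega
  | cons a l ih =>
    intro l' h
    cases l' with
    | nil =>
      have := congrArg List.length h
      simp only [codeL, List.length_nil, length_pairL] at this
      omega
    | cons a' l' =>
      have h1 := congrArg fstL h
      have h2 := congrArg sndL h
      simp only [codeL, fstL_pairL, sndL_pairL] at h1 h2
      rw [Code.inj h1, ih h2]

instance (priority := low) instCodeListGen {α : Type} [Code α] : Code (List α) :=
  ⟨codeL, codeL_injective⟩

section

variable {α β : Type} [Code α] [Code β]

/-- The list type with its general code. -/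
structure LL (β : Type) where
  /-- the list -/
  list : List β

instance : Code (LL β) := ⟨fun l => codeL l.list, fun a b h => by
  cases a; cases b
  exact congrArg LL.mk (codeL_injective h)⟩

theorem code_LL (l : LL β) : Code.code l = codeL l.list := rfl

theorem code_LL_length (l : LL β) :
    (Code.code l).length = (l.list.map fun b => 2 * (Code.code b).length + 2).sum := by
  obtain ⟨l⟩ := l
  rw [code_LL]
  induction l with
  | nil => rfl
  | cons b l ih => rw [codeL, length_pairL, ih, List.map_cons, List.sum_cons]

theorem PTime.lnil : PTime (fun _ : α => (⟨[]⟩ : LL β)) := PTime.const _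

theorem PTime.lcons {f : α → β} {g : α → LL β} (hf : PTime f) (hg : PTime g) :
    PTime (fun a => (⟨f a :: (g a).list⟩ : LL β)) := by
  obtain ⟨F, h1, h2⟩ := hf
  obtain ⟨G, h3, h4⟩ := hg
  exact ⟨_, h1.pair h3, fun a => by beta_reduce; rw [h2, h4]; rfl⟩

theorem PTime.lisEmpty {g : α → LL β} (hg : PTime g) : PTime (fun a => (g a).list.isEmpty) := by
  obtain ⟨G, h3, h4⟩ := hg
  refine ⟨_, PTB.isEmpty h3, fun a => ?_⟩
  beta_reduce
  rw [h4, code_bool, code_LL]
  cases h : (g a).list with
  | nil => rfl
  | cons b l =>
    rw [codeL]
    have : (pairL (Code.code b) (codeL l)).isEmpty = false := by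
      rw [Bool.eq_false_iff]
      intro h'
      have := List.isEmpty_iff.1 h'
      have := congrArg List.length this
      rw [length_pairL, List.length_nil] at this
      omega
    rw [this]
    rfl

theorem PTime.ltail {g : α → LL β} (hg : PTime g) :
    PTime (fun a => (⟨(g a).list.tail⟩ : LL β)) := by
  obtain ⟨G, h3, h4⟩ := hg
  refine ⟨_, h3.snd, fun a => ?_⟩
  beta_reduce
  rw [h4, code_LL, code_LL]
  cases (g a).list with
  | nil => rfl
  | cons b l => rw [codeL, sndL_pairL]; rfl

theorem PTime.lheadD (d : β) {g : α → LL β} (hg : PTime g) :
    PTime (fun a => (g a).list.headD d) := by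
  obtain ⟨E, e1, e2⟩ := PTime.lisEmpty hg
  obtain ⟨G, h3, h4⟩ := hg
  refine ⟨_, PT.ite (PTB.head e1) (PT.const (Code.code d)) h3.fst, fun a => ?_⟩
  beta_reduce
  have e3 : (E (Code.code a)).headD false = (g a).list.isEmpty := by rw [e2]; rfl
  rw [e3, h4, code_LL]
  cases (g a).list with
  | nil => rfl
  | cons b l =>
    rw [codeL, fstL_pairL]
    rfl

end

end Vale.Agent.P337
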