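import Mathlib

/-!
# P337: the zero-dimensional systems `x_i ^ m = f_i`, `deg f_i < m`

Definitions used by all algebra files.
-/

namespace Vale.Agent.P337

open MvPolynomial

section
variable {R : Type*} [CommRing R] {N : ℕ}

/-- The exponent `m (k + 1) - 1`. -/
noncomputable def topExp (m : ℕ) (k : Fin N → ℕ) : Fin N →₀ ℕ :=
  Finsupp.equivFunOnFinite.symm fun i => m * (k i + 1) - 1

/-- The residue functional
`τ(g) = ∑_k [x^{m(k+1)-1}] (g ∏ f_i^{k_i})`, the sum over the box `[0, E]^N`. -/
noncomputable def tau (m E : ℕ) (f : Fin N → MvPolynomial (Fin N) R) (g : MvPolynomial (Fin N) R) :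
    R :=
  ∑ k ∈ Fintype.piFinset (fun _ : Fin N => Finset.range (E + 1)),
    coeff (topExp m k) (g * ∏ i, f i ^ k i)

/-- The polynomials `F_i = x_i ^ m - f_i`. -/
noncomputable def sysF (m : ℕ) (f : Fin N → MvPolynomial (Fin N) R) (i : Fin N) :
    MvPolynomial (Fin N) R := X i ^ m - f i

/-- The Jacobian determinant `J = det (∂F_i/∂x_j)`. -/
noncomputable def jac (m : ℕ) (f : Fin N → MvPolynomial (Fin N) R) : MvPolynomial (Fin N) R :=
  Matrix.det (Matrix.of fun i j => pderiv j (sysF m f i))

/-- The ideal of the system. -/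
noncomputable def sysI (m : ℕ) (f : Fin N → MvPolynomial (Fin N) R) :
    Ideal (MvPolynomial (Fin N) R) := Ideal.span (Set.range (sysF m f))

/-- The algebra `A = R[x] / (F)`. -/
abbrev SysA (m : ℕ) (f : Fin N → MvPolynomial (Fin N) R) : Type _ :=
  MvPolynomial (Fin N) R ⧸ sysI m f

/-- The class of a polynomial in `A`. -/
noncomputable abbrev cls (m : ℕ) (f : Fin N → MvPolynomial (Fin N) R) (g : MvPolynomial (Fin N) R) :
    SysA m f := Ideal.Quotient.mk (sysI m f) g

/-- `eh s r = r! e_r`, where `e_r` is the `r`-th elementary symmetric function and `s l` is the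
`l`-th power sum (Newton's identities). -/
def eh (s : ℕ → R) : ℕ → R
  | 0 => 1
  | r + 1 => ∑ i : Fin (r + 1), (-1) ^ (i : ℕ) * (r.descFactorial i : R) * eh s (r - i) * s (i + 1)
  decreasing_by omega

end

end Vale.Agent.P337
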