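import Vale.Agent.P337.Fold

/-!
# P337: addition and subtraction of binary numbers in polynomial time
-/

namespace Vale.Agent.P337

variable {f g h : List Bool → List Bool} {c d e : List Bool → Bool}

theorem PTB.fun1 (t : Bool → Bool) (hc : PTB c) : PTB fun x => t (c x) := by
  have h1 := hc.ite (PTB.const (t true)) (PTB.const (t false))
  have e1 : (fun x => t (c x)) = fun x => if c x then t true else t false := by
    funext x; cases c x <;> rfl
  rw [e1]; exact h1

theorem PTB.fun2 (t : Bool → Bool → Bool) (hc : PTB c) (hd : PTB d) :
    PTB fun x => t (c x) (d x) := by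
  have h1 := hc.ite (hd.fun1 (t true)) (hd.fun1 (t false))
  have e1 : (fun x => t (c x) (d x)) = fun x => if c x then t true (d x) else t false (d x) := by
    funext x; cases c x <;> rfl
  rw [e1]; exact h1

theorem PTB.fun3 (t : Bool → Bool → Bool → Bool) (hc : PTB c) (hd : PTB d) (he : PTB e) :
    PTB fun x => t (c x) (d x) (e x) := by
  have h1 := hc.ite (hd.fun2 (t true) he) (hd.fun2 (t false) he)
  have e1 : (fun x => t (c x) (d x) (e x)) =
      fun x => if c x then t true (d x) (e x) else t false (d x) (e x) := by
    funext x; cases c x <;> rfl
  rw [e1]; exact h1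

theorem PT.consB (hc : PTB c) (hf : PT f) : PT fun x => c x :: f x := by
  have h1 := PT.ite hc (hf.cons true) (hf.cons false)
  have e1 : (fun x => c x :: f x) = fun x => if c x then true :: f x else false :: f x := by
    funext x; cases c x <;> rfl
  rw [e1]; exact h1

/-! ### Automata with output reading two strings in parallel -/

/-- one step of an automaton with state `c`; the outputs are pushed on the last component -/
def mealyStep (t o : Bool → Bool → Bool → Bool) (s : List Bool) : List Bool :=
  pairL (fstL s).tail (pairL (fstL (sndL s)).tail
    (t ((sndL (sndL s)).headD false) ((fstL s).headD false) ((fstL (sndL s)).headD false) ::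
      o ((sndL (sndL s)).headD false) ((fstL s).headD false) ((fstL (sndL s)).headD false) ::
        (sndL (sndL s)).tail))

theorem PT.mealyStep (t o : Bool → Bool → Bool → Bool) : PT (mealyStep t o) :=
  .pair (.tail .fstL) (.pair (.tail (.comp .fstL .sndL))
    (.consB (.fun3 t (.head (.comp .sndL .sndL)) (.head .fstL) (.head (.comp .fstL .sndL)))
      (.consB (.fun3 o (.head (.comp .sndL .sndL)) (.head .fstL) (.head (.comp .fstL .sndL)))
        (.tail (.comp .sndL .sndL)))))

/-- final state and outputs (least significant first) of the automaton -/
def mealy (t o : Bool → Bool → Bool → Bool) :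
    ℕ → Bool → List Bool → List Bool → Bool × List Bool
  | 0, c, _, _ => (c, [])
  | n + 1, c, x, y =>
    ((mealy t o n (t c (x.headD false) (y.headD false)) x.tail y.tail).1,
      o c (x.headD false) (y.headD false) ::
        (mealy t o n (t c (x.headD false) (y.headD false)) x.tail y.tail).2)

theorem mealy_length (t o : Bool → Bool → Bool → Bool) : ∀ (n : ℕ) (c : Bool) (x y : List Bool),
    (mealy t o n c x y).2.length = n
  | 0, c, x, y => rfl
  | n + 1, c, x, y => by simp [mealy, mealy_length t o n]

theorem mealyStep_iterate (t o : Bool → Bool → Bool → Bool) :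
    ∀ (n : ℕ) (c : Bool) (x y z : List Bool),
    (mealyStep t o)^[n] (pairL x (pairL y (c :: z))) =
      pairL (x.drop n) (pairL (y.drop n)
        ((mealy t o n c x y).1 :: ((mealy t o n c x y).2.reverse ++ z)))
  | 0, c, x, y, z => by simp [mealy]
  | n + 1, c, x, y, z => by
    rw [Function.iterate_succ_apply]
    have h1 : mealyStep t o (pairL x (pairL y (c :: z))) = pairL x.tail (pairL y.tail
        (t c (x.headD false) (y.headD false) :: (o c (x.headD false) (y.headD false) :: z))) := by
      simp [mealyStep]
    rw [h1, mealyStep_iterate t o n, List.drop_tail, List.drop_tail]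
    simp [mealy]

theorem PT.mealyRun (t o : Bool → Bool → Bool → Bool) (c : Bool) (hf : PT f) (hg : PT g)
    (hh : PT h) :
    PT fun x => (mealy t o (h x).length c (f x) (g x)).2 := by
  obtain ⟨p, hp⟩ := hf.len
  obtain ⟨q, hq⟩ := hg.len
  obtain ⟨r, hr⟩ := hh.len
  have := PT.iterL (PT.mealyStep t o) hh (.pair hf (.pair hg (.const [c])))
    (2 * p + 2 + (2 * q + 2 + (1 + r))) (fun x i hi => by
      have h1 := hp x
      have h2 := hq x
      have h3 := hr x
      rw [mealyStep_iterate]
      simp only [length_pairL, Polynomial.eval_add, Polynomial.eval_mul, Polynomial.eval_ofNat,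
        Polynomial.eval_one, List.length_drop, List.length_append, List.length_nil,
        List.length_reverse, List.length_cons, mealy_length]
      omega)
  have h3 := this.snd.snd.tail.reverse
  simpa only [mealyStep_iterate, sndL_pairL, List.tail_cons, List.append_nil,
    List.reverse_reverse] using h3

/-! ### Addition and subtraction -/

theorem bval_lt_two_pow (y : List Bool) : bval y < 2 ^ y.length := by
  induction y with
  | nil => simp [bval]
  | cons b l ih =>
    rw [bval, List.length_cons, pow_succ]
    have := Bool.toNat_lt b
    omega

/-- majority -/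
def majB (a b c : Bool) : Bool := (a && b) || (a && c) || (b && c)

/-- borrow -/
def borB (c a b : Bool) : Bool := (!a && (b || c)) || (b && c)

/-- parity -/
def xorB (a b c : Bool) : Bool := xor a (xor b c)

theorem mealy_add : ∀ (n : ℕ) (c : Bool) (x y : List Bool), x.length ≤ n → y.length ≤ n →
    bval (mealy majB xorB n c x y).2 + 2 ^ n * (mealy majB xorB n c x y).1.toNat =
      bval x + bval y + c.toNat
  | 0, c, x, y, hx, hy => by
    have h1 : x = [] := List.eq_nil_of_length_eq_zero (by omega)
    have h2 : y = [] := List.eq_nil_of_length_eq_zero (by omega)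
    simp [h1, h2, mealy, bval]
  | n + 1, c, x, y, hx, hy => by
    have ih := mealy_add n (majB c (x.headD false) (y.headD false)) x.tail y.tail
      (by simp; omega) (by simp; omega)
    rw [bval_head_tail x, bval_head_tail y]
    simp only [mealy, bval]
    rw [pow_succ]
    generalize hA : 2 ^ n * (mealy majB xorB n (majB c (x.headD false) (y.headD false)) x.tail
      y.tail).1.toNat = A at ih
    have h3 : 2 ^ n * 2 * (mealy majB xorB n (majB c (x.headD false) (y.headD false)) x.tail
      y.tail).1.toNat = 2 * A := by rw [← hA]; ring
    rw [h3]
    revert ih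
    cases c <;> cases x.headD false <;> cases y.headD false <;>
      simp [majB, xorB] <;> intro ih <;> omega

theorem mealy_sub : ∀ (n : ℕ) (c : Bool) (x y : List Bool), x.length ≤ n → y.length ≤ n →
    bval (mealy borB xorB n c x y).2 + bval y + c.toNat =
      bval x + 2 ^ n * (mealy borB xorB n c x y).1.toNat
  | 0, c, x, y, hx, hy => by
    have h1 : x = [] := List.eq_nil_of_length_eq_zero (by omega)
    have h2 : y = [] := List.eq_nil_of_length_eq_zero (by omega)
    simp [h1, h2, mealy, bval]
  | n + 1, c, x, y, hx, hy => by
    have ih := mealy_sub n (borB c (x.headD false) (y.headD false)) x.tail y.tail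
      (by simp; omega) (by simp; omega)
    rw [bval_head_tail x, bval_head_tail y]
    simp only [mealy, bval]
    rw [pow_succ]
    generalize hA : 2 ^ n * (mealy borB xorB n (borB c (x.headD false) (y.headD false)) x.tail
      y.tail).1.toNat = A at ih
    have h3 : 2 ^ n * 2 * (mealy borB xorB n (borB c (x.headD false) (y.headD false)) x.tail
      y.tail).1.toNat = 2 * A := by rw [← hA]; ring
    rw [h3]
    revert ih
    cases c <;> cases x.headD false <;> cases y.headD false <;>
      simp [borB, xorB] <;> intro ih <;> omega

theorem PT.add (hf : PT f) (hg : PT g) : PT fun x => (bval (f x) + bval (g x)).bits := by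
  have h1 := (PT.mealyRun majB xorB false hf hg ((hf.append hg).cons true)).bits
  have key : ∀ x, bval (mealy majB xorB (true :: (f x ++ g x)).length false (f x) (g x)).2 =
      bval (f x) + bval (g x) := by
    intro x
    have h2 := mealy_add (true :: (f x ++ g x)).length false (f x) (g x)
      (by simp; omega) (by simp; omega)
    have h3 := bval_lt_two_pow (f x)
    have h4 := bval_lt_two_pow (g x)
    have h5 : 2 ^ (f x).length ≤ 2 ^ ((f x).length + (g x).length) :=
      Nat.pow_le_pow_right (by norm_num) (by omega)
    have h6 : 2 ^ (g x).length ≤ 2 ^ ((f x).length + (g x).length) :=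
      Nat.pow_le_pow_right (by norm_num) (by omega)
    have h7 : 2 ^ (true :: (f x ++ g x)).length = 2 ^ ((f x).length + (g x).length) * 2 := by
      simp [pow_succ]
    cases hc : (mealy majB xorB (true :: (f x ++ g x)).length false (f x) (g x)).1 with
    | false => rw [hc] at h2; simpa using h2
    | true => rw [hc, h7] at h2; simp at h2; omega
  simpa only [key] using h1

theorem PT.sub (hf : PT f) (hg : PT g) : PT fun x => (bval (f x) - bval (g x)).bits := by
  have h1 := (PT.mealyRun borB xorB false hf hg (hf.append hg)).bits
  have h2 := PT.ite (PTB.le hg hf) h1 .nil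
  have key : (fun x => (bval (f x) - bval (g x)).bits) = fun x =>
      if decide (bval (g x) ≤ bval (f x)) then
        (bval (mealy borB xorB (f x ++ g x).length false (f x) (g x)).2).bits else [] := by
    funext x
    by_cases hx : bval (g x) ≤ bval (f x)
    · have h2 := mealy_sub (f x ++ g x).length false (f x) (g x) (by simp) (by simp)
      have h8 := bval_lt_two_pow (mealy borB xorB (f x ++ g x).length false (f x) (g x)).2
      rw [mealy_length] at h8
      have h9 : bval (mealy borB xorB (f x ++ g x).length false (f x) (g x)).2 =
          bval (f x) - bval (g x) := by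
        cases hc : (mealy borB xorB (f x ++ g x).length false (f x) (g x)).1 with
        | false =>
          rw [hc] at h2
          simp only [Bool.toNat_false, mul_zero, add_zero] at h2
          omega
        | true =>
          rw [hc] at h2
          simp only [Bool.toNat_false, Bool.toNat_true, mul_one, add_zero] at h2
          omega
      rw [if_pos (decide_eq_true hx), h9]
    · have h9 : bval (f x) - bval (g x) = 0 := by omega
      simp [hx, h9]
  rw [key]; exact h2

/-! ### Typed versions -/

section
variable {α : Type} [Code α]

theorem PTime.add {f g : α → ℕ} (hf : PTime f) (hg : PTime g) : PTime fun a => f a + g a := by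
  obtain ⟨F, h1, h2⟩ := hf
  obtain ⟨G, h3, h4⟩ := hg
  refine ⟨_, h1.add h3, fun a => ?_⟩
  beta_reduce
  rw [h2, h4, code_nat, code_nat, bval_bits, bval_bits, code_nat]

theorem PTime.sub {f g : α → ℕ} (hf : PTime f) (hg : PTime g) : PTime fun a => f a - g a := by
  obtain ⟨F, h1, h2⟩ := hf
  obtain ⟨G, h3, h4⟩ := hg
  refine ⟨_, h1.sub h3, fun a => ?_⟩
  beta_reduce
  rw [h2, h4, code_nat, code_nat, bval_bits, bval_bits, code_nat]

theorem PTime.bits {f : α → ℕ} (hf : PTime f) : PTime fun a => (f a).bits := by
  obtain ⟨F, h1, h2⟩ := hf
  exact ⟨F, h1, fun a => by rw [h2, code_nat, code_list]⟩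

/-- `2 n + b` -/
theorem PTime.bit {b : α → Bool} {f : α → ℕ} (hb : PTime b) (hf : PTime f) :
    PTime fun a => 2 * f a + (b a).toNat := by
  have h1 := PTime.add (PTime.add hf hf) (PTime.ite hb (PTime.const 1) (PTime.const 0))
  refine h1.congr fun a => ?_
  cases b a <;> simp <;> ring

theorem PTime.div2 {f : α → ℕ} (hf : PTime f) : PTime fun a => f a / 2 := by
  have h1 := hf.bits.tail.bval
  refine h1.congr fun a => ?_
  have h2 := bval_head_tail (f a).bits
  rw [bval_bits] at h2
  have h3 := Bool.toNat_lt ((f a).bits.headD false)
  omega

theorem PTime.odd {f : α → ℕ} (hf : PTime f) : PTime fun a => decide (f a % 2 = 1) := by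
  have h1 := hf.bits.headD
  refine h1.congr fun a => ?_
  have h2 := bval_head_tail (f a).bits
  rw [bval_bits] at h2
  cases h : (f a).bits.headD false with
  | false => rw [h] at h2; simp at h2; simp; omega
  | true => rw [h] at h2; simp at h2; simp; omega

/-- the length of a string as a binary number -/
theorem PTime.length {f : α → List Bool} (hf : PTime f) : PTime fun a => (f a).length := by
  obtain ⟨F, h1, h2⟩ := hf
  obtain ⟨r, hr⟩ := h1.len
  have key : ∀ i : ℕ, (fun y => (P337.bval y + 1).bits)^[i] [] = i.bits := by
    intro i
    induction i with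
    | zero => simp
    | succ i ih => rw [Function.iterate_succ_apply', ih, bval_bits]
  have hs : PT fun y => (P337.bval y + 1).bits := by
    simpa [P337.bval] using PT.add .id (.const [true])
  have := PT.iterL hs h1 .nil r (fun x i hi => by
    rw [key, Nat.size_eq_bits_len]
    exact ((Nat.size_le.2 Nat.lt_two_pow_self).trans hi).trans (hr x))
  refine ⟨_, this, fun a => ?_⟩
  beta_reduce
  rw [key, h2, code_list, code_nat]

theorem bval_replicate_false (n : ℕ) (l : List Bool) :
    bval (List.replicate n false ++ l) = 2 ^ n * bval l := by
  induction n with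
  | zero => simp
  | succ n ih => rw [List.replicate_succ, List.cons_append, bval, ih, pow_succ]; simp; ring

theorem PTime.two_pow_length {f : α → List Bool} (hf : PTime f) :
    PTime fun a => 2 ^ (f a).length := by
  obtain ⟨F, h1, h2⟩ := hf
  have h3 : PT fun x => (List.replicate (F x).length true).map (fun _ => false) := by
    obtain ⟨r, hr⟩ := h1.len
    have key : ∀ i : ℕ, (fun y => false :: y)^[i] [] = List.replicate i false := by
      intro i
      induction i with
      | zero => simp
      | succ i ih => rw [Function.iterate_succ_apply', ih, List.replicate_succ]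
    have := PT.iterL (PT.consL false) h1 .nil r (fun x i hi => by
      rw [key]
      simpa using hi.trans (hr x))
    simpa only [key, List.map_replicate] using this
  refine ⟨_, (h3.append (.const [true])).bits, fun a => ?_⟩
  beta_reduce
  rw [List.map_replicate, bval_replicate_false, h2, code_list, code_nat]
  simp [P337.bval]

end

end Vale.Agent.P337
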