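import Vale.Agent.P337.Fold
import Vale.Agent.P337.Arith

/-!
# P337: multiplication, division with remainder and modular powers in polynomial time
-/

namespace Vale.Agent.P337

section

variable {α : Type} [Code α]

theorem PTime.toNat {c : α → Bool} (hc : PTime c) : PTime (fun a => (c a).toNat) :=
  (PTime.bit hc (PTime.const 0)).congr fun a => by simp

end

/-! ### Multiplication -/

theorem PTime.mulP : PTime (fun x : ℕ × ℕ => x.1 * x.2) := by
  refine PTime.natRec (F := fun (x : ℕ × ℕ) k => x.1 * k) (n := fun x => x.2)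
    (step := fun y : (ℕ × ℕ) × ℕ × Bool => 2 * y.2.1 + (if y.2.2 then y.1.1 else 0)) PTime.snd
    ((PTime.const 0).congr fun a => by simp) ?_ ?_ Polynomial.X ?_
  · refine PTime.add ?_ ?_
    · refine (PTime.bit (PTime.const false) (PTime.fst.comp PTime.snd)).congr fun a => by simp
    · exact PTime.ite (PTime.snd.comp PTime.snd) (PTime.fst.comp PTime.fst) (PTime.const 0)
  · rintro ⟨x, y⟩ k b _
    cases b <;> simp <;> ring
  · rintro ⟨x, y⟩ k hk
    rw [Polynomial.eval_X, code_pair, length_pairL]
    refine le_trans (code_nat_mono (Nat.mul_le_mul_left x hk)) ?_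
    refine le_trans (code_nat_le (k := (Code.code x).length + (Code.code y).length) ?_) (by omega)
    rw [pow_add]
    exact Nat.mul_lt_mul'' (lt_two_pow_code x) (lt_two_pow_code y)

/-! ### Division -/

theorem PTime.divModP : PTime (fun x : ℕ × ℕ => (x.1 / x.2, x.1 % x.2)) := by
  refine PTime.natRec (F := fun (x : ℕ × ℕ) k => (k / x.2, k % x.2)) (n := fun x => x.1)
    (step := fun y : (ℕ × ℕ) × (ℕ × ℕ) × Bool =>
      if decide (y.1.2 ≤ 2 * y.2.1.2 + y.2.2.toNat) && decide (0 < y.1.2) then
        (2 * y.2.1.1 + 1, 2 * y.2.1.2 + y.2.2.toNat - y.1.2)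
      else (2 * y.2.1.1, 2 * y.2.1.2 + y.2.2.toNat)) PTime.fst
    ((PTime.const (0, 0)).congr fun a => by simp) ?_ ?_ (3 * Polynomial.X + 2) ?_
  · have hy : PTime (fun y : (ℕ × ℕ) × (ℕ × ℕ) × Bool => y.1.2) := PTime.snd.comp PTime.fst
    have hq : PTime (fun y : (ℕ × ℕ) × (ℕ × ℕ) × Bool => y.2.1.1) :=
      PTime.fst.comp (PTime.fst.comp PTime.snd)
    have hr : PTime (fun y : (ℕ × ℕ) × (ℕ × ℕ) × Bool => y.2.1.2) :=
      PTime.snd.comp (PTime.fst.comp PTime.snd)
    have hb : PTime (fun y : (ℕ × ℕ) × (ℕ × ℕ) × Bool => y.2.2) := PTime.snd.comp PTime.snd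
    have hr2 : PTime (fun y : (ℕ × ℕ) × (ℕ × ℕ) × Bool => 2 * y.2.1.2 + y.2.2.toNat) :=
      PTime.bit hb hr
    refine PTime.ite (PTime.and (PTime.le hy hr2) (PTime.lt (PTime.const 0) hy))
      (PTime.pair ?_ ?_) (PTime.pair ?_ hr2)
    · exact (PTime.bit (PTime.const true) hq).congr fun a => by simp
    · exact PTime.sub hr2 hy
    · exact (PTime.bit (PTime.const false) hq).congr fun a => by simp
  · rintro ⟨x, y⟩ k b _
    simp only
    rcases Nat.eq_zero_or_pos y with hy | hy
    · subst hy
      simp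
    · have h1 := Nat.div_add_mod k y
      have h2 := Nat.mod_lt k hy
      by_cases hc : y ≤ 2 * (k % y) + b.toNat
      · have hb : b.toNat ≤ 1 := by cases b <;> simp
        rw [if_pos (by simp [hc, hy])]
        have e : 2 * k + b.toNat = y * (2 * (k / y) + 1) + (2 * (k % y) + b.toNat - y) := by
          have : 2 * k = y * (2 * (k / y)) + 2 * (k % y) := by
            conv_lhs => rw [← h1]
            ring
          rw [Nat.mul_add, Nat.mul_one]
          omega
        have hlt : 2 * (k % y) + b.toNat - y < y := by omega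
        rw [e, Nat.mul_add_div hy, Nat.mul_add_mod, Nat.div_eq_of_lt hlt, Nat.mod_eq_of_lt hlt,
          add_zero]
      · rw [if_neg (by simp [hc])]
        have e : 2 * k + b.toNat = y * (2 * (k / y)) + (2 * (k % y) + b.toNat) := by
          have : 2 * k = y * (2 * (k / y)) + 2 * (k % y) := by
            conv_lhs => rw [← h1]
            ring
          omega
        have hlt : 2 * (k % y) + b.toNat < y := by omega
        rw [e, Nat.mul_add_div hy, Nat.mul_add_mod, Nat.div_eq_of_lt hlt, Nat.mod_eq_of_lt hlt,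
          add_zero]
  · rintro ⟨x, y⟩ k hk
    have h1 : (Code.code (k / y)).length ≤ (Code.code x).length :=
      code_nat_mono ((Nat.div_le_self k y).trans hk)
    have h2 : (Code.code (k % y)).length ≤ (Code.code x).length :=
      code_nat_mono ((Nat.mod_le k y).trans hk)
    simp only [code_pair, length_pairL, Polynomial.eval_add, Polynomial.eval_mul,
      Polynomial.eval_ofNat, Polynomial.eval_X]
    omega

section

variable {α : Type} [Code α]

theorem PTime.mul {f g : α → ℕ} (hf : PTime f) (hg : PTime g) : PTime fun a => f a * g a :=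
  PTime.mulP.comp (hf.pair hg)

theorem PTime.div {f g : α → ℕ} (hf : PTime f) (hg : PTime g) : PTime fun a => f a / g a :=
  (PTime.fst.comp PTime.divModP).comp (hf.pair hg)

theorem PTime.mod {f g : α → ℕ} (hf : PTime f) (hg : PTime g) : PTime fun a => f a % g a :=
  (PTime.snd.comp PTime.divModP).comp (hf.pair hg)

end

/-! ### Modular powers -/

theorem PTime.powmodP :
    PTime (fun x : ℕ × ℕ × ℕ => if x.2.2 = 0 then 0 else x.1 ^ x.2.1 % x.2.2) := by
  refine PTime.natRec
    (F := fun (x : ℕ × ℕ × ℕ) k => if x.2.2 = 0 then 0 else x.1 ^ k % x.2.2)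
    (n := fun x => x.2.1)
    (step := fun y : (ℕ × ℕ × ℕ) × ℕ × Bool =>
      if decide (y.1.2.2 = 0) then 0 else
        ((y.2.1 * y.2.1) * (if y.2.2 then y.1.1 else 1)) % y.1.2.2)
    (PTime.fst.comp PTime.snd) ?_ ?_ ?_ Polynomial.X ?_
  · refine (PTime.ite (c := fun x : ℕ × ℕ × ℕ => decide (x.2.2 = 0))
      (PTime.eq (PTime.snd.comp PTime.snd) (PTime.const 0)) (PTime.const 0)
      (PTime.mod (PTime.const 1) (PTime.snd.comp PTime.snd))).congr fun a => by
        simp
  · have hm : PTime (fun y : (ℕ × ℕ × ℕ) × ℕ × Bool => y.1.2.2) :=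
      PTime.snd.comp (PTime.snd.comp PTime.fst)
    have hs : PTime (fun y : (ℕ × ℕ × ℕ) × ℕ × Bool => y.2.1) := PTime.fst.comp PTime.snd
    refine PTime.ite (PTime.eq hm (PTime.const 0)) (PTime.const 0)
      (PTime.mod (PTime.mul (PTime.mul hs hs)
        (PTime.ite (PTime.snd.comp PTime.snd) (PTime.fst.comp PTime.fst) (PTime.const 1))) hm)
  · rintro ⟨x, e, m⟩ k b _
    simp only
    rcases Nat.eq_zero_or_pos m with hm | hm
    · subst hm
      simp
    · have hm0 : m ≠ 0 := by omega
      rw [if_neg (by simp [hm0]), if_neg hm0, if_neg hm0, pow_add, two_mul, pow_add]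
      cases b
      · simp [Nat.mul_mod]
      · simp [Nat.mul_mod]
  · rintro ⟨x, e, m⟩ k hk
    simp only
    rw [Polynomial.eval_X, code_pair, code_pair, length_pairL, length_pairL]
    rcases Nat.eq_zero_or_pos m with hm | hm
    · subst hm
      simp [code_nat]
    · have hm0 : m ≠ 0 := by omega
      rw [if_neg hm0]
      have := code_nat_mono (Nat.mod_lt (x ^ k) hm).le
      omega

/-- Modular powers; for the modulus `0` the value is `0`. -/
theorem PTime.powmod {α : Type} [Code α] {f g h : α → ℕ} (hf : PTime f) (hg : PTime g)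
    (hh : PTime h) : PTime fun a => if h a = 0 then 0 else f a ^ g a % h a :=
  PTime.powmodP.comp (hf.pair (hg.pair hh))

/-- Modular powers for a nonzero modulus. -/
theorem PTime.powmod' {α : Type} [Code α] {f g h : α → ℕ} (hf : PTime f) (hg : PTime g)
    (hh : PTime h) (h0 : ∀ a, h a ≠ 0) : PTime fun a => f a ^ g a % h a :=
  (PTime.powmod hf hg hh).congr fun a => if_neg (h0 a)

end Vale.Agent.P337
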