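import Vale.Agent.P337.Lev

/-!
# P337: predicates in the counting hierarchy on coded types
-/

namespace Vale.Agent.P337

/-- The predicate `p` on the coded type `α` is in the counting hierarchy. -/
def CHP {α : Type} [Code α] (p : α → Prop) : Prop :=
  ∃ (j : ℕ) (L : Set (List Bool)), Lev j L ∧ ∀ a, p a ↔ code a ∈ L

section

variable {α β : Type} [Code α] [Code β] {p q : α → Prop}

theorem CHP.of_ptime {c : α → Bool} (hc : PTime c) : CHP fun a => c a = true := by
  classical
  obtain ⟨g, hg, h⟩ := hc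
  refine ⟨0, {x | (g x).headD false = true}, ?_, fun a => ?_⟩
  · have h1 : PTB fun x => (g x).headD false := PTB.head hg
    unfold Lev
    convert h1 using 1
    funext x
    simp
  · simp [h]

theorem CHP.comp {p : β → Prop} (hp : CHP p) {f : α → β} (hf : PTime f) :
    CHP fun a => p (f a) := by
  obtain ⟨j, L, hL, h⟩ := hp
  obtain ⟨g, hg, h2⟩ := hf
  refine ⟨j, _, hL.preimage hg, fun a => ?_⟩
  beta_reduce; rw [Set.mem_ofPred_eq, h2, h]

theorem CHP.not (hp : CHP p) : CHP fun a => ¬ p a := by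
  obtain ⟨j, L, hL, h⟩ := hp
  exact ⟨j, _, hL.compl, fun a => by beta_reduce; rw [Set.mem_ofPred_eq, h]⟩

theorem CHP.and (hp : CHP p) (hq : CHP q) : CHP fun a => p a ∧ q a := by
  obtain ⟨j, L, hL, h⟩ := hp
  obtain ⟨i, M, hM, h'⟩ := hq
  exact ⟨_, _, (hL.up_le (le_max_left j i)).and (hM.up_le (le_max_right j i)), fun a => by
    beta_reduce; rw [Set.mem_ofPred_eq, h, h']⟩

/-- more than `t a` strings `y` of length `r(|a|)` satisfy `p (a, y)` -/
theorem CHP.count_gt {p : α × List Bool → Prop} (hp : CHP p) (r : Polynomial ℕ) {t : α → ℕ}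
    (ht : PTime t) :
    CHP fun a => t a < Nat.card {y : List Bool // y.length = r.eval (code a).length ∧ p (a, y)} := by
  obtain ⟨j, L, hL, h⟩ := hp
  obtain ⟨g, hg, h2⟩ := ht
  refine ⟨_, _, hL.count_gt r hg, fun a => ?_⟩
  rw [Set.mem_ofPred_eq, h2, code_nat, bval_bits]
  simp only [cnt, h]
  rfl

/-- the language of a predicate in the counting hierarchy -/
theorem CHP.ch {p : List Bool → Prop} (hp : CHP p) : CH {x | p x} := by
  obtain ⟨j, L, hL, h⟩ := hp
  have : {x | p x} = L := by
    ext x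
    exact h x
  rw [this]
  exact ⟨j, hL.chLevel⟩

end

end Vale.Agent.P337
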