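import Mathlib

/-!
# P337: the sign of an integer from its residues
-/

namespace Vale.Agent.P337

open Finset

/-- the primes in `(a, L]` -/
def prs (a L : ℕ) : Finset ℕ := (Ioc a L).filter Nat.Prime

/-- their product -/
def prM (a L : ℕ) : ℕ := ∏ p ∈ prs a L, p

/-- the product of the primes in `(a, L]` different from `p` -/
def prMx (a L p : ℕ) : ℕ := ∏ r ∈ (prs a L).erase p, r

/-- the denominator of the approximations -/
def sgT (b : ℕ) : ℕ := 64 * (b + 1) ^ 2

/-- the approximation of `X / M mod 1` (numerator over `sgT b`) from the residues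
`σ L p = X (M / p)⁻¹ mod p` -/
def sgRho (a b : ℕ) (σ : ℕ → ℕ → ℕ) (L : ℕ) : ℕ := (∑ p ∈ prs a L, sgT b * σ L p / p) % sgT b

/-- not close to an integer -/
def sgFlag (a b : ℕ) (σ : ℕ → ℕ → ℕ) (L : ℕ) : Prop :=
  4 * (b + 1) ≤ sgRho a b σ L ∧ sgRho a b σ L + 4 * (b + 1) ≤ sgT b

namespace CRTAux

theorem mem_prs {a L p : ℕ} : p ∈ prs a L ↔ (a < p ∧ p ≤ L) ∧ p.Prime := by
  simp [prs, and_assoc]

theorem prime_of_mem {a L p : ℕ} (h : p ∈ prs a L) : p.Prime := (mem_prs.1 h).2

theorem prM_pos (a L : ℕ) : 0 < prM a L := Finset.prod_pos fun _ h => (prime_of_mem h).pos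

theorem mul_prMx {a L p : ℕ} (h : p ∈ prs a L) : p * prMx a L p = prM a L :=
  Finset.mul_prod_erase (prs a L) (fun r => r) h

theorem prM_self (a : ℕ) : prM a a = 1 := by simp [prM, prs]

theorem prM_of_le {a L : ℕ} (h : L ≤ a) : prM a L = 1 := by
  have : prs a L = ∅ := by
    refine Finset.eq_empty_of_forall_notMem fun p hp => ?_
    have := (mem_prs.1 hp).1
    omega
  simp [prM, this]

theorem prM_mono {a L L' : ℕ} (h : L ≤ L') : prM a L ≤ prM a L' := by
  refine Finset.prod_le_prod_of_subset_of_one_le' ?_ ?_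
  · intro p hp
    rw [mem_prs] at hp ⊢
    exact ⟨⟨hp.1.1, hp.1.2.trans h⟩, hp.2⟩
  · intro p hp _
    exact (prime_of_mem hp).one_lt.le

theorem prM_succ (a L : ℕ) : prM a (L + 1) ≤ (L + 1) * prM a L := by
  have hsub : prs a (L + 1) ⊆ insert (L + 1) (prs a L) := by
    intro p hp
    rw [mem_insert, mem_prs]
    rw [mem_prs] at hp
    rcases Nat.lt_or_ge L p with h | h
    · left; omega
    · right; exact ⟨⟨hp.1.1, h⟩, hp.2⟩
  have hnot : L + 1 ∉ prs a L := by
    rw [mem_prs]; omega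
  calc prM a (L + 1) ≤ ∏ p ∈ insert (L + 1) (prs a L), p := by
        refine Finset.prod_le_prod_of_subset_of_one_le' hsub ?_
        intro p hp _
        rcases mem_insert.1 hp with rfl | hp
        · omega
        · exact (prime_of_mem hp).one_lt.le
    _ = (L + 1) * prM a L := by rw [Finset.prod_insert hnot]; rfl

theorem card_le (a L : ℕ) : (prs a L).card ≤ L := by
  refine (Finset.card_filter_le _ _).trans ?_
  rw [Nat.card_Ioc]
  omega

/-- the Chinese remainder formula -/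
theorem crt {a L : ℕ} {X : ℤ} {s : ℕ → ℕ}
    (h : ∀ p ∈ prs a L, (s p * prMx a L p : ℤ) ≡ X [ZMOD p]) :
    ∃ k : ℤ, (∑ p ∈ prs a L, (s p : ℤ) * prMx a L p) = X + k * prM a L := by
  have h1 : (∏ p ∈ prs a L, (p : ℤ)) ∣ (∑ p ∈ prs a L, (s p : ℤ) * prMx a L p) - X := by
    refine Finset.prod_dvd_of_coprime ?_ ?_
    · intro p hp r hr hpr
      have := (Nat.coprime_primes (prime_of_mem hp) (prime_of_mem hr)).2 hpr
      exact Nat.isCoprime_iff_coprime.2 this
    · intro p hp
      have e : (∑ r ∈ prs a L, (s r : ℤ) * prMx a L r) =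
          (s p : ℤ) * prMx a L p + ∑ r ∈ (prs a L).erase p, (s r : ℤ) * prMx a L r :=
        (Finset.add_sum_erase _ _ hp).symm
      have h2 : (p : ℤ) ∣ ∑ r ∈ (prs a L).erase p, (s r : ℤ) * prMx a L r := by
        refine Finset.dvd_sum fun r hr => ?_
        have h3 : p ∣ prMx a L r := by
          refine Finset.dvd_prod_of_mem (fun x => x) ?_
          rw [mem_erase]
          exact ⟨(ne_of_mem_erase hr).symm, hp⟩
        exact Dvd.dvd.mul_left (Int.natCast_dvd_natCast.2 h3) _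
      have h4 : (p : ℤ) ∣ (s p : ℤ) * prMx a L p - X := by
        have := (h p hp).symm.dvd
        exact this
      have h5 := dvd_add h4 h2
      rw [e]
      convert h5 using 1
      ring
  obtain ⟨k, hk⟩ := h1
  refine ⟨k, ?_⟩
  have e : ((prM a L : ℕ) : ℤ) = ∏ p ∈ prs a L, (p : ℤ) := by
    simp [prM]
  rw [e]
  linarith

/-- `S ≡ S' mod T` with `M S' = T X - E`, `0 ≤ E ≤ L M` -/
theorem approx {a L T : ℕ} {X : ℤ} {s : ℕ → ℕ}
    (h : ∀ p ∈ prs a L, (s p * prMx a L p : ℤ) ≡ X [ZMOD p]) :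
    ∃ k E : ℤ, 0 ≤ E ∧ E ≤ L * prM a L ∧
      (prM a L : ℤ) * (((∑ p ∈ prs a L, T * s p / p : ℕ) : ℤ) - k * T) = T * X - E := by
  obtain ⟨k, hk⟩ := crt h
  refine ⟨k, ∑ p ∈ prs a L, (prMx a L p : ℤ) * ((T * s p % p : ℕ) : ℤ), ?_, ?_, ?_⟩
  · exact Finset.sum_nonneg fun p _ => by positivity
  · calc ∑ p ∈ prs a L, (prMx a L p : ℤ) * ((T * s p % p : ℕ) : ℤ)
        ≤ ∑ p ∈ prs a L, (prM a L : ℤ) := by
          refine Finset.sum_le_sum fun p hp => ?_
          have h1 : T * s p % p ≤ p := (Nat.mod_lt _ (prime_of_mem hp).pos).le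
          have h2 : prMx a L p * (T * s p % p) ≤ prM a L := by
            rw [← mul_prMx hp, mul_comm p]
            exact Nat.mul_le_mul_left _ h1
          exact_mod_cast h2
      _ = (prs a L).card * (prM a L : ℤ) := by rw [Finset.sum_const, nsmul_eq_mul]
      _ ≤ L * prM a L := by
          have := card_le a L
          exact_mod_cast Nat.mul_le_mul_right _ this
  · have h1 : (prM a L : ℤ) * ((∑ p ∈ prs a L, T * s p / p : ℕ) : ℤ) =
        ∑ p ∈ prs a L, ((T : ℤ) * ((s p : ℤ) * prMx a L p) -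
          (prMx a L p : ℤ) * ((T * s p % p : ℕ) : ℤ)) := by
      rw [Nat.cast_sum, Finset.mul_sum]
      refine Finset.sum_congr rfl fun p hp => ?_
      have h2 : ((T * s p : ℕ) : ℤ) = p * ((T * s p / p : ℕ) : ℤ) + ((T * s p % p : ℕ) : ℤ) := by
        exact_mod_cast (Nat.div_add_mod (T * s p) p).symm
      have h3 : (prM a L : ℤ) = p * prMx a L p := by exact_mod_cast (mul_prMx hp).symm
      rw [h3]
      push_cast at h2 ⊢
      linear_combination (-(prMx a L p : ℤ)) * h2
    rw [mul_sub, h1, Finset.sum_sub_distrib, ← Finset.mul_sum, hk]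
    ring

section
variable {a b L : ℕ} {X : ℤ} {σ : ℕ → ℕ → ℕ}

/-- the remainder of the sum -/
theorem rho_cases (hL : L ≤ b)
    (h : ∀ p ∈ prs a L, (σ L p * prMx a L p : ℤ) ≡ X [ZMOD p]) :
    ∃ S E : ℤ, 0 ≤ E ∧ E ≤ b * prM a L ∧ (prM a L : ℤ) * S = sgT b * X - E ∧
      (sgRho a b σ L : ℤ) = S % sgT b := by
  obtain ⟨k, E, h0, h1, h2⟩ := approx (T := sgT b) h
  refine ⟨((∑ p ∈ prs a L, sgT b * σ L p / p : ℕ) : ℤ) - k * sgT b, E, h0, ?_, h2, ?_⟩
  · refine h1.trans ?_
    exact_mod_cast Nat.mul_le_mul_right _ hL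
  · rw [Int.sub_mul_emod_self_right]
    simp [sgRho]

theorem T_eq (b : ℕ) : (sgT b : ℤ) = 64 * ((b : ℤ) + 1) ^ 2 := by simp [sgT]

theorem T_ge (b : ℕ) : 64 * ((b : ℤ) + 1) ≤ sgT b := by
  rw [T_eq]
  have : (0 : ℤ) ≤ b := by positivity
  nlinarith

/-- value of the remainder for small `S` -/
theorem emod_nonneg' {S T : ℤ} (h0 : 0 ≤ S) (h1 : S < T) : S % T = S := Int.emod_eq_of_lt h0 h1

theorem emod_neg' {S T : ℤ} (h0 : -T ≤ S) (h1 : S < 0) : S % T = S + T := by
  have : S % T = (S + T) % T := by simp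
  rw [this]
  exact Int.emod_eq_of_lt (by linarith) (by linarith)

theorem flag_iff : sgFlag a b σ L ↔
    4 * ((b : ℤ) + 1) ≤ sgRho a b σ L ∧ (sgRho a b σ L : ℤ) + 4 * ((b : ℤ) + 1) ≤ sgT b := by
  unfold sgFlag
  constructor
  · rintro ⟨h1, h2⟩
    exact ⟨by exact_mod_cast h1, by exact_mod_cast h2⟩
  · rintro ⟨h1, h2⟩
    exact ⟨by exact_mod_cast h1, by exact_mod_cast h2⟩

theorem mul_lt_cancel {M S c : ℤ} (hM : 0 < M) (h : M * S < c * M) : S < c := by
  by_contra hc
  push Not at hc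
  nlinarith

theorem mul_le_cancel {M S c : ℤ} (hM : 0 < M) (h : M * S ≤ c * M) : S ≤ c := by
  by_contra hc
  push Not at hc
  nlinarith

/-- small: not flagged -/
theorem not_flag (hL : L ≤ b) (h : ∀ p ∈ prs a L, (σ L p * prMx a L p : ℤ) ≡ X [ZMOD p])
    (hs : (sgT b : ℤ) * |X| < 2 * ((b : ℤ) + 1) * prM a L) : ¬ sgFlag a b σ L := by
  obtain ⟨S, E, h0, h1, h2, h3⟩ := rho_cases hL h
  rw [flag_iff, h3]
  have hM : (0 : ℤ) < prM a L := by exact_mod_cast prM_pos a L
  have hb : (0 : ℤ) ≤ b := by positivity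
  have hT := T_ge b
  have hT0 : (0 : ℤ) ≤ sgT b := by positivity
  have hX1 : (sgT b : ℤ) * X ≤ sgT b * |X| := mul_le_mul_of_nonneg_left (le_abs_self X) hT0
  have hX2 : -((sgT b : ℤ) * |X|) ≤ sgT b * X := by
    have := mul_le_mul_of_nonneg_left (neg_abs_le X) hT0
    linarith
  have hup : S < 2 * ((b : ℤ) + 1) := by
    refine mul_lt_cancel hM ?_
    linarith
  have hlo : -(3 * ((b : ℤ) + 1)) < S := by
    have : -S < 3 * ((b : ℤ) + 1) := by
      refine mul_lt_cancel hM ?_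
      nlinarith
    linarith
  rcases le_or_gt 0 S with hS | hS
  · rw [emod_nonneg' hS (by linarith)]
    rintro ⟨h4, -⟩
    linarith
  · rw [emod_neg' (by linarith) hS]
    rintro ⟨-, h5⟩
    linarith

/-- medium: flagged -/
theorem flag_of (hL : L ≤ b) (h : ∀ p ∈ prs a L, (σ L p * prMx a L p : ℤ) ≡ X [ZMOD p])
    (h8 : 8 * ((b : ℤ) + 1) * prM a L ≤ sgT b * |X|) (hu : 8 * |X| ≤ prM a L) :
    sgFlag a b σ L := by
  obtain ⟨S, E, h0, h1, h2, h3⟩ := rho_cases hL h
  rw [flag_iff, h3]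
  have hM : (0 : ℤ) < prM a L := by exact_mod_cast prM_pos a L
  have hb : (0 : ℤ) ≤ b := by positivity
  have hT := T_ge b
  have hT0 : (0 : ℤ) ≤ sgT b := by positivity
  have hTu : 8 * ((sgT b : ℤ) * |X|) ≤ sgT b * prM a L := by nlinarith
  rcases le_or_gt 0 X with hX | hX
  · rw [abs_of_nonneg hX] at h8 hTu
    have hlo : 7 * ((b : ℤ) + 1) ≤ S := by
      have : -S ≤ -(7 * ((b : ℤ) + 1)) := by
        refine mul_le_cancel hM ?_
        nlinarith
      linarith
    have hup : 8 * S ≤ sgT b := by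
      refine mul_le_cancel hM ?_
      nlinarith
    rw [emod_nonneg' (by linarith) (by linarith)]
    constructor <;> linarith
  · rw [abs_of_neg hX] at h8 hTu
    have hup : S ≤ -(7 * ((b : ℤ) + 1)) := by
      refine mul_le_cancel hM ?_
      nlinarith
    have hlo : -(8 * S) ≤ sgT b + 8 * b := by
      refine mul_le_cancel hM ?_
      nlinarith
    rw [emod_neg' (by linarith) (by linarith)]
    constructor <;> linarith

/-- the sign can be read off a flagged value -/
theorem sign_of (hL : L ≤ b) (h : ∀ p ∈ prs a L, (σ L p * prMx a L p : ℤ) ≡ X [ZMOD p])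
    (hu : 8 * |X| ≤ prM a L) (hf : sgFlag a b σ L) : sgT b < 2 * sgRho a b σ L ↔ X < 0 := by
  obtain ⟨S, E, h0, h1, h2, h3⟩ := rho_cases hL h
  rw [flag_iff, h3] at hf
  have hcast : sgT b < 2 * sgRho a b σ L ↔ (sgT b : ℤ) < 2 * (S % sgT b) := by
    rw [← h3]; norm_cast
  rw [hcast]
  have hM : (0 : ℤ) < prM a L := by exact_mod_cast prM_pos a L
  have hb : (0 : ℤ) ≤ b := by positivity
  have hT := T_ge b
  have hT0 : (0 : ℤ) ≤ sgT b := by positivity
  have hTu : 8 * ((sgT b : ℤ) * |X|) ≤ sgT b * prM a L := by nlinarith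
  rcases le_or_gt 0 X with hX | hX
  · rw [abs_of_nonneg hX] at hTu
    have hup : 8 * S ≤ sgT b := by
      refine mul_le_cancel hM ?_
      nlinarith
    have hX0 : 0 ≤ (sgT b : ℤ) * X := mul_nonneg hT0 hX
    have hlo : -S ≤ b := by
      refine mul_le_cancel hM ?_
      nlinarith
    rcases le_or_gt 0 S with hS | hS
    · rw [emod_nonneg' hS (by linarith)]
      constructor
      · intro h5; linarith
      · intro h5; linarith
    · rw [emod_neg' (by linarith) hS] at hf
      linarith [hf.2]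
  · rw [abs_of_neg hX] at hTu
    have hX0 : (sgT b : ℤ) * X ≤ 0 := mul_nonpos_of_nonneg_of_nonpos hT0 hX.le
    have hup : S ≤ 0 := by
      refine mul_le_cancel hM ?_
      nlinarith
    have hlo : -(8 * S) ≤ sgT b + 8 * b := by
      refine mul_le_cancel hM ?_
      nlinarith
    rcases eq_or_lt_of_le hup with hS | hS
    · rw [hS] at hf
      simp at hf
      linarith [hf.1]
    · rw [emod_neg' (by linarith) hS]
      constructor
      · intro _; exact hX
      · intro _; linarith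

end
end CRTAux

open CRTAux

/-- the sign of an integer from its residues -/
theorem sign_iff {a b : ℕ} {X : ℤ} {σ : ℕ → ℕ → ℕ}
    (h : ∀ L, L ≤ b → ∀ p ∈ prs a L, (σ L p * prMx a L p : ℤ) ≡ X [ZMOD p])
    (hX : 8 * ((b : ℤ) + 1) * |X| < prM a b) :
    X < 0 ↔ ∃ L, a ≤ L ∧ L ≤ b ∧ sgFlag a b σ L ∧ sgT b < 2 * sgRho a b σ L ∧
      ∀ L', L < L' → L' ≤ b → ¬ sgFlag a b σ L' := by
  classical
  have hb : (0 : ℤ) ≤ b := by positivity
  have hT := T_ge b
  -- a flagged level with `8 |X| ≤ M`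
  have key : X ≠ 0 → ∃ L', a ≤ L' ∧ L' ≤ b ∧ sgFlag a b σ L' ∧ 8 * |X| ≤ prM a L' := by
    intro hX0
    have hu : 1 ≤ |X| := Int.one_le_abs hX0
    have hab : a ≤ b := by
      by_contra hab
      rw [prM_of_le (by omega)] at hX
      push_cast at hX
      nlinarith
    -- the largest level with a large value
    let P : ℕ → Prop := fun L => a ≤ L ∧ 8 * ((b : ℤ) + 1) * prM a L ≤ sgT b * |X|
    have hPa : P a := by
      refine ⟨le_rfl, ?_⟩
      rw [prM_self]
      push_cast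
      nlinarith
    have hPb : ¬ P b := by
      rintro ⟨-, h5⟩
      rw [T_eq] at h5
      have : 64 * ((b : ℤ) + 1) ^ 2 * |X| = 8 * ((b : ℤ) + 1) * (8 * ((b : ℤ) + 1) * |X|) := by ring
      rw [this] at h5
      nlinarith
    let L' := Nat.findGreatest P b
    have hPL : P L' := Nat.findGreatest_spec (P := P) hab hPa
    have hLb : L' ≤ b := Nat.findGreatest_le b
    have hLlt : L' < b := by
      rcases hLb.lt_or_eq with h6 | h6
      · exact h6
      · exact absurd (h6 ▸ hPL) hPb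
    have hnP : ¬ P (L' + 1) := Nat.findGreatest_is_greatest (P := P) (Nat.lt_succ_self _) (by omega)
    have h7 : (sgT b : ℤ) * |X| < 8 * ((b : ℤ) + 1) * prM a (L' + 1) := by
      by_contra h8
      push Not at h8
      exact hnP ⟨by have := hPL.1; omega, h8⟩
    have h9 : (prM a (L' + 1) : ℤ) ≤ ((b : ℤ) + 1) * prM a L' := by
      have h10 := prM_succ a L'
      have h11 : (L' + 1) * prM a L' ≤ (b + 1) * prM a L' := Nat.mul_le_mul_right _ (by omega)
      exact_mod_cast h10.trans h11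
    have h12 : 8 * |X| ≤ prM a L' := by
      rw [T_eq] at h7
      have h13 : 64 * ((b : ℤ) + 1) ^ 2 * |X| < 8 * ((b : ℤ) + 1) * (((b : ℤ) + 1) * prM a L') :=
        h7.trans_le (mul_le_mul_of_nonneg_left h9 (by positivity))
      have h14 : 0 < 8 * ((b : ℤ) + 1) ^ 2 := by positivity
      by_contra h15
      push Not at h15
      nlinarith
    exact ⟨L', hPL.1, hLb, flag_of hLb (h L' hLb) hPL.2 h12, h12⟩
  constructor
  · intro hneg
    obtain ⟨L', h1, h2, h3, h4⟩ := key hneg.ne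
    let Q : ℕ → Prop := fun L => sgFlag a b σ L
    let L := Nat.findGreatest Q b
    have hQL : Q L := Nat.findGreatest_spec (P := Q) h2 h3
    have hLb : L ≤ b := Nat.findGreatest_le b
    have hLL : L' ≤ L := Nat.le_findGreatest h2 h3
    refine ⟨L, h1.trans hLL, hLb, hQL, ?_, ?_⟩
    · refine (sign_of hLb (h L hLb) (h4.trans ?_) hQL).2 hneg
      exact_mod_cast prM_mono hLL
    · intro L'' h5 h6 h7
      exact Nat.findGreatest_is_greatest (P := Q) h5 h6 h7
  · rintro ⟨L, h1, h2, h3, h4, h5⟩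
    have hX0 : X ≠ 0 := by
      intro h0
      refine not_flag h2 (h L h2) ?_ h3
      rw [h0, abs_zero, mul_zero]
      have : (0 : ℤ) < prM a L := by exact_mod_cast prM_pos a L
      positivity
    obtain ⟨L', h6, h7, h8, h9⟩ := key hX0
    have hLL : L' ≤ L := by
      by_contra hlt
      push Not at hlt
      exact h5 L' hlt h7 h8
    refine (sign_of h2 (h L h2) (h9.trans ?_) h3).1 h4
    exact_mod_cast prM_mono hLL

end Vale.Agent.P337
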