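import Vale.Agent.P337.Newton

/-!
# P337, piece T4b: power sums and the characteristic polynomial
-/

namespace Vale.Agent.P337

open Polynomial

theorem prod_sub_flip {K : Type*} [CommRing K] (s : Multiset K) (a : K) :
    (-1) ^ s.card * (s.map fun x => a - x).prod = (s.map fun x => x - a).prod := by
  induction s using Multiset.induction_on with
  | empty => simp
  | cons x s ih =>
    rw [Multiset.card_cons, Multiset.map_cons, Multiset.map_cons, Multiset.prod_cons,
      Multiset.prod_cons, ← ih, pow_succ]
    ring

section eig
variable {K n : Type*} [Field K] [IsAlgClosed K] [Fintype n] [DecidableEq n]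

/-- `det g(M) = ∏ g(λ)` over the eigenvalues. -/
theorem det_aeval_roots (A : Matrix n n K) (g : K[X]) :
    (aeval A g).det = (A.charpoly.roots.map fun x => g.eval x).prod := by
  classical
  let φ : K[X] →* K := Matrix.detMonoidHom.comp (aeval A : K[X] →ₐ[K] Matrix n n K).toRingHom.toMonoidHom
  let ψ : K[X] →* K :=
    { toFun := fun g => (A.charpoly.roots.map fun x => g.eval x).prod
      map_one' := by simp
      map_mul' := fun a b => by simp [Multiset.prod_map_mul] }
  have hcard : A.charpoly.roots.card = Fintype.card n := by
    rw [← (IsAlgClosed.splits A.charpoly).natDegree_eq_card_roots, Matrix.charpoly_natDegree_eq_dim]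
  have hC : ∀ c : K, φ (C c) = ψ (C c) := by
    intro c
    simp [φ, ψ, hcard, Algebra.algebraMap_eq_smul_one]
  have hX : ∀ a : K, φ (X - C a) = ψ (X - C a) := by
    intro a
    have h1 : φ (X - C a) = (A - algebraMap K _ a).det := by simp [φ]
    have h2 : (A - algebraMap K _ a).det = (-1) ^ Fintype.card n * A.charpoly.eval a := by
      rw [Matrix.eval_charpoly, ← Matrix.det_neg]
      congr 1
      simp [Matrix.algebraMap_eq_diagonal, Matrix.scalar_apply, Pi.algebraMap_def]
    have h3 : A.charpoly.eval a = (A.charpoly.roots.map fun x => a - x).prod := by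
      conv_lhs => rw [(IsAlgClosed.splits A.charpoly).eq_prod_roots_of_monic A.charpoly_monic]
      rw [eval_multiset_prod, Multiset.map_map]
      simp
    rw [h1, h2, h3]
    simp only [ψ, MonoidHom.coe_mk, OneHom.coe_mk, eval_sub, eval_X, eval_C]
    rw [← hcard, prod_sub_flip]
  have key : φ g = ψ g := by
    rw [(IsAlgClosed.splits g).eq_prod_roots, map_mul, map_mul, hC, map_multiset_prod,
      map_multiset_prod, Multiset.map_map, Multiset.map_map]
    congr 2
    refine Multiset.map_congr rfl fun a _ => ?_
    exact hX a
  exact key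

theorem charpoly_pow_roots (A : Matrix n n K) (l : ℕ) :
    (A ^ l).charpoly = ((A.charpoly.roots.map fun x => x ^ l).map fun x => X - C x).prod := by
  refine Polynomial.funext fun t => ?_
  rw [Matrix.eval_charpoly, eval_multiset_prod, Multiset.map_map, Multiset.map_map]
  have h := det_aeval_roots A (C t - X ^ l)
  simp only [map_sub, map_pow, aeval_X, aeval_C, eval_sub, eval_C, eval_pow, eval_X] at h
  rw [Matrix.algebraMap_eq_diagonal] at h
  simp only [Function.comp_def, eval_sub, eval_X, eval_C]
  rw [← h]
  congr 1

theorem trace_pow_roots (A : Matrix n n K) (l : ℕ) :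
    (A ^ l).trace = (A.charpoly.roots.map fun x => x ^ l).sum := by
  rw [Matrix.trace_eq_sum_roots_charpoly, charpoly_pow_roots, roots_multiset_prod_X_sub_C]

theorem charpoly_coeff_closed (A : Matrix n n K) {r : ℕ} (hr : r ≤ Fintype.card n) :
    eh (fun l => (A ^ l).trace) r =
      (-1) ^ r * (r.factorial : K) * A.charpoly.coeff (Fintype.card n - r) := by
  classical
  have hdeg : A.charpoly.natDegree = Fintype.card n := Matrix.charpoly_natDegree_eq_dim A
  have hcard : A.charpoly.roots.card = A.charpoly.natDegree :=
    (IsAlgClosed.splits A.charpoly).natDegree_eq_card_roots.symm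
  obtain ⟨l, hl⟩ := Quot.exists_rep A.charpoly.roots
  have hl' : (l : Multiset K) = A.charpoly.roots := hl
  have h1 : Multiset.map l.get (Finset.univ : Finset (Fin l.length)).val = A.charpoly.roots := by
    rw [Fin.univ_val_map, List.ofFn_get, hl']
  have h2 : (fun j => (A ^ j).trace) = fun j => ∑ i, l.get i ^ j := by
    funext j
    rw [trace_pow_roots, ← h1, Multiset.map_map]
    rfl
  rw [h2, eh_family, h1, coeff_eq_esymm_roots_of_card hcard (by rw [hdeg]; exact Nat.sub_le _ _),
    A.charpoly_monic.leadingCoeff, hdeg, Nat.sub_sub_self hr]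
  have h3 : ((-1 : K) ^ r) * (-1) ^ r = 1 := by rw [← mul_pow]; simp
  linear_combination (-(r.factorial : K) * A.charpoly.roots.esymm r) * h3

end eig

/-- [T4b] for matrices -/
theorem charpoly_coeff_matrix {k n : Type*} [Field k] [Fintype n] [DecidableEq n]
    (A : Matrix n n k) {r : ℕ} (hr : r ≤ Fintype.card n) :
    eh (fun l => (A ^ l).trace) r =
      (-1) ^ r * (r.factorial : k) * A.charpoly.coeff (Fintype.card n - r) := by
  let φ : k →+* AlgebraicClosure k := algebraMap k (AlgebraicClosure k)
  have hinj : Function.Injective φ := φ.injective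
  apply hinj
  have h := charpoly_coeff_closed (φ.mapMatrix A) hr
  rw [← eh_map]
  have h1 : (fun l => φ (A ^ l).trace) = fun l => ((φ.mapMatrix A) ^ l).trace := by
    funext l
    rw [← map_pow, RingHom.mapMatrix_apply]
    exact AddMonoidHom.map_trace φ _
  rw [h1, h, RingHom.mapMatrix_apply, Matrix.charpoly_map, coeff_map]
  simp

section end_
variable {k V : Type*} [Field k] [CharZero k] [AddCommGroup V] [Module k V] [Module.Finite k V]

/-- [T4b] coefficients of the characteristic polynomial -/
theorem charpoly_coeff (M : V →ₗ[k] V) {r : ℕ} (hr : r ≤ Module.finrank k V) :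
    eh (fun l => LinearMap.trace k V (M ^ l)) r =
      (-1) ^ r * (r.factorial : k) * M.charpoly.coeff (Module.finrank k V - r) := by
  classical
  let b := Module.finBasis k V
  have h := charpoly_coeff_matrix (LinearMap.toMatrix b b M) (r := r) (by simpa using hr)
  rw [LinearMap.charpoly_toMatrix, Fintype.card_fin] at h
  rw [← h]
  congr 1
  funext l
  rw [LinearMap.trace_eq_matrix_trace k b, LinearMap.toMatrix_pow]

/-- [T4c] determinant -/
theorem eh_det (M : V →ₗ[k] V) :
    eh (fun l => LinearMap.trace k V (M ^ l)) (Module.finrank k V) =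
      ((Module.finrank k V).factorial : k) * LinearMap.det M := by
  rw [charpoly_coeff M le_rfl, Nat.sub_self, LinearMap.det_eq_sign_charpoly_coeff]
  ring

/-- the characteristic polynomial of `u - M` -/
theorem charpoly_sub (M : V →ₗ[k] V) (u : k) :
    (algebraMap k (Module.End k V) u - M).charpoly =
      C ((-1) ^ Module.finrank k V) * (taylor u M.charpoly).comp (-X) := by
  refine Polynomial.funext fun t => ?_
  rw [LinearMap.eval_charpoly, eval_mul, eval_C, eval_comp, taylor_apply, eval_comp,
    LinearMap.eval_charpoly, ← LinearMap.det_smul]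
  congr 1
  simp only [eval_add, eval_neg, eval_X, eval_C, map_add, map_neg]
  module

/-- [T4d] derivatives of the characteristic polynomial -/
theorem eh_derivative (M : V →ₗ[k] V) (u : k) {r : ℕ} (hr : r ≤ Module.finrank k V) :
    ((Module.finrank k V - r).factorial : k) *
      eh (fun l => LinearMap.trace k V ((algebraMap k (Module.End k V) u - M) ^ l)) r =
      (r.factorial : k) *
        (Polynomial.derivative^[Module.finrank k V - r] M.charpoly).eval u := by
  have hX : (-X : k[X]) = C (-1) * X := by simp
  have h4 : ((Module.finrank k V - r).factorial : k) *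
      (hasseDeriv (Module.finrank k V - r) M.charpoly).eval u =
        (Polynomial.derivative^[Module.finrank k V - r] M.charpoly).eval u := by
    rw [← factorial_smul_hasseDeriv]
    simp
  rw [charpoly_coeff _ hr, charpoly_sub, coeff_C_mul, hX, comp_C_mul_X_coeff, taylor_coeff, ← h4]
  obtain ⟨q, hq⟩ := Nat.exists_eq_add_of_le hr
  rw [hq, Nat.add_sub_cancel_left]
  have h3 : ((-1 : k) ^ r) * (-1) ^ r = 1 := by rw [← mul_pow]; simp
  have h5 : ((-1 : k) ^ q) * (-1) ^ q = 1 := by rw [← mul_pow]; simp
  rw [pow_add]
  linear_combination (((q.factorial : k) * r.factorial * (hasseDeriv q M.charpoly).eval u) *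
    (((-1 : k) ^ q) * (-1) ^ q)) * h3 +
    ((q.factorial : k) * r.factorial * (hasseDeriv q M.charpoly).eval u) * h5

end end_

end Vale.Agent.P337
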