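import Vale.Agent.P337.Alg

/-!
# P337 [N]: submultiplicative size functions

`Nrm R` is a submultiplicative, subadditive size function on a commutative ring;
`Nrm.int` is the absolute value on `ℤ`, `Nrm.mv` and `Nrm.poly` are the sums of the sizes of
the coefficients.
-/

namespace Vale.Agent.P337

open MvPolynomial

/-- a submultiplicative size function -/
structure Nrm (R : Type*) [CommRing R] where
  ν : R → ℝ
  zero' : ν 0 = 0
  one' : ν 1 ≤ 1
  nn : ∀ x, 0 ≤ ν x
  neg' : ∀ x, ν (-x) = ν x
  add' : ∀ x y, ν (x + y) ≤ ν x + ν y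
  mul' : ∀ x y, ν (x * y) ≤ ν x * ν y

namespace Nrm

section basic
variable {R : Type*} [CommRing R] (n : Nrm R)

theorem sum_le {ι : Type*} (s : Finset ι) (f : ι → R) :
    n.ν (∑ i ∈ s, f i) ≤ ∑ i ∈ s, n.ν (f i) := by
  classical
  induction s using Finset.induction_on with
  | empty => simp [n.zero']
  | insert a s ha ih =>
    rw [Finset.sum_insert ha, Finset.sum_insert ha]
    exact (n.add' _ _).trans (by linarith)

theorem prod_le {ι : Type*} (s : Finset ι) (f : ι → R) :
    n.ν (∏ i ∈ s, f i) ≤ ∏ i ∈ s, n.ν (f i) := by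
  classical
  induction s using Finset.induction_on with
  | empty => simpa using n.one'
  | insert a s ha ih =>
    rw [Finset.prod_insert ha, Finset.prod_insert ha]
    exact (n.mul' _ _).trans (mul_le_mul_of_nonneg_left ih (n.nn _))

theorem pow_le (x : R) (k : ℕ) : n.ν (x ^ k) ≤ n.ν x ^ k := by
  have := n.prod_le (Finset.range k) (fun _ => x)
  simpa using this

theorem sub_le (x y : R) : n.ν (x - y) ≤ n.ν x + n.ν y := by
  have h := n.add' x (-y)
  rw [n.neg', ← sub_eq_add_neg] at h
  exact h

theorem nsmul_le (k : ℕ) (x : R) : n.ν (k • x) ≤ k * n.ν x := by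
  have := n.sum_le (Finset.range k) (fun _ => x)
  simpa using this

theorem natCast_mul_le (k : ℕ) (x : R) : n.ν ((k : R) * x) ≤ k * n.ν x := by
  rw [← nsmul_eq_mul]
  exact n.nsmul_le k x

theorem natCast_le (k : ℕ) : n.ν (k : R) ≤ k := by
  have h := n.natCast_mul_le k 1
  rw [mul_one] at h
  exact h.trans (by
    have := mul_le_mul_of_nonneg_left n.one' (Nat.cast_nonneg (α := ℝ) k)
    linarith)

end basic

/-- the absolute value on `ℤ` -/
noncomputable def int : Nrm ℤ where
  ν x := |(x : ℝ)|
  zero' := by simp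
  one' := by simp
  nn _ := abs_nonneg _
  neg' x := by simp
  add' x y := by push_cast; exact abs_add_le _ _
  mul' x y := by push_cast; rw [abs_mul]

/-! ### multivariate polynomials -/

section mv
variable {R : Type*} [CommRing R] (n : Nrm R) {σ : Type*}

theorem mv_eq_of_subset {f : MvPolynomial σ R} {s : Finset (σ →₀ ℕ)} (h : f.support ⊆ s) :
    ∑ a ∈ f.support, n.ν (coeff a f) = ∑ a ∈ s, n.ν (coeff a f) := by
  refine Finset.sum_subset h fun a _ ha => ?_
  rw [notMem_support_iff.1 ha, n.zero']

theorem mv_add (f g : MvPolynomial σ R) :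
    ∑ a ∈ (f + g).support, n.ν (coeff a (f + g)) ≤
      ∑ a ∈ f.support, n.ν (coeff a f) + ∑ a ∈ g.support, n.ν (coeff a g) := by
  classical
  rw [n.mv_eq_of_subset (support_add (p := f) (q := g)),
    n.mv_eq_of_subset (f := f) (s := f.support ∪ g.support) Finset.subset_union_left,
    n.mv_eq_of_subset (f := g) (s := f.support ∪ g.support) Finset.subset_union_right,
    ← Finset.sum_add_distrib]
  refine Finset.sum_le_sum fun a _ => ?_
  rw [coeff_add]
  exact n.add' _ _

theorem mv_sum {ι : Type*} (s : Finset ι) (f : ι → MvPolynomial σ R) :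
    ∑ a ∈ (∑ i ∈ s, f i).support, n.ν (coeff a (∑ i ∈ s, f i)) ≤
      ∑ i ∈ s, ∑ a ∈ (f i).support, n.ν (coeff a (f i)) := by
  classical
  induction s using Finset.induction_on with
  | empty => simp
  | insert b s hb ih =>
    rw [Finset.sum_insert hb, Finset.sum_insert hb]
    exact (n.mv_add _ _).trans (by linarith)

theorem mv_monomial (b : σ →₀ ℕ) (c : R) :
    ∑ a ∈ (monomial b c).support, n.ν (coeff a (monomial b c)) ≤ n.ν c := by
  classical
  rw [n.mv_eq_of_subset (support_monomial_subset (s := b) (a := c)), Finset.sum_singleton,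
    coeff_monomial, if_pos rfl]

theorem mv_mul (f g : MvPolynomial σ R) :
    ∑ a ∈ (f * g).support, n.ν (coeff a (f * g)) ≤
      (∑ a ∈ f.support, n.ν (coeff a f)) * ∑ a ∈ g.support, n.ν (coeff a g) := by
  classical
  have h1 : f * g = ∑ a ∈ f.support, ∑ b ∈ g.support,
      monomial (a + b) (coeff a f * coeff b g) := by
    conv_lhs => rw [as_sum f, as_sum g]
    rw [Finset.sum_mul_sum]
    refine Finset.sum_congr rfl fun a _ => Finset.sum_congr rfl fun b _ => ?_
    rw [monomial_mul]
  rw [Finset.sum_mul_sum]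
  calc ∑ a ∈ (f * g).support, n.ν (coeff a (f * g))
      = ∑ c ∈ (∑ a ∈ f.support, ∑ b ∈ g.support,
          monomial (a + b) (coeff a f * coeff b g)).support,
          n.ν (coeff c (∑ a ∈ f.support, ∑ b ∈ g.support,
          monomial (a + b) (coeff a f * coeff b g))) := by rw [← h1]
    _ ≤ ∑ a ∈ f.support, ∑ c ∈ (∑ b ∈ g.support,
          monomial (a + b) (coeff a f * coeff b g)).support,
          n.ν (coeff c (∑ b ∈ g.support, monomial (a + b) (coeff a f * coeff b g))) :=
        n.mv_sum _ _
    _ ≤ ∑ a ∈ f.support, ∑ b ∈ g.support, n.ν (coeff a f) * n.ν (coeff b g) := by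
        refine Finset.sum_le_sum fun a _ => (n.mv_sum _ _).trans ?_
        refine Finset.sum_le_sum fun b _ => (n.mv_monomial _ _).trans (n.mul' _ _)

end mv

/-- the sum of the sizes of the coefficients -/
noncomputable def mv {R : Type*} [CommRing R] (n : Nrm R) (σ : Type*) :
    Nrm (MvPolynomial σ R) where
  ν f := ∑ a ∈ f.support, n.ν (coeff a f)
  zero' := by simp
  one' := (n.mv_monomial (σ := σ) 0 1).trans n.one'
  nn f := Finset.sum_nonneg fun _ _ => n.nn _
  neg' f := by
    rw [support_neg]
    exact Finset.sum_congr rfl fun a _ => by rw [coeff_neg, n.neg']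
  add' f g := n.mv_add f g
  mul' f g := n.mv_mul f g

/-! ### univariate polynomials -/

section poly
variable {R : Type*} [CommRing R] (n : Nrm R)

theorem poly_eq_of_subset {f : Polynomial R} {s : Finset ℕ} (h : f.support ⊆ s) :
    ∑ a ∈ f.support, n.ν (f.coeff a) = ∑ a ∈ s, n.ν (f.coeff a) := by
  refine Finset.sum_subset h fun a _ ha => ?_
  rw [Polynomial.notMem_support_iff.1 ha, n.zero']

theorem poly_add (f g : Polynomial R) :
    ∑ a ∈ (f + g).support, n.ν ((f + g).coeff a) ≤
      ∑ a ∈ f.support, n.ν (f.coeff a) + ∑ a ∈ g.support, n.ν (g.coeff a) := by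
  classical
  rw [n.poly_eq_of_subset (Polynomial.support_add (p := f) (q := g)),
    n.poly_eq_of_subset (f := f) (s := f.support ∪ g.support) Finset.subset_union_left,
    n.poly_eq_of_subset (f := g) (s := f.support ∪ g.support) Finset.subset_union_right,
    ← Finset.sum_add_distrib]
  refine Finset.sum_le_sum fun a _ => ?_
  rw [Polynomial.coeff_add]
  exact n.add' _ _

theorem poly_sum {ι : Type*} (s : Finset ι) (f : ι → Polynomial R) :
    ∑ a ∈ (∑ i ∈ s, f i).support, n.ν ((∑ i ∈ s, f i).coeff a) ≤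
      ∑ i ∈ s, ∑ a ∈ (f i).support, n.ν ((f i).coeff a) := by
  classical
  induction s using Finset.induction_on with
  | empty => simp
  | insert b s hb ih =>
    rw [Finset.sum_insert hb, Finset.sum_insert hb]
    exact (n.poly_add _ _).trans (by linarith)

theorem poly_monomial (b : ℕ) (c : R) :
    ∑ a ∈ (Polynomial.monomial b c).support, n.ν ((Polynomial.monomial b c).coeff a) ≤ n.ν c := by
  classical
  rw [n.poly_eq_of_subset (Polynomial.support_monomial_subset b c), Finset.sum_singleton,
    Polynomial.coeff_monomial, if_pos rfl]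

theorem poly_mul (f g : Polynomial R) :
    ∑ a ∈ (f * g).support, n.ν ((f * g).coeff a) ≤
      (∑ a ∈ f.support, n.ν (f.coeff a)) * ∑ a ∈ g.support, n.ν (g.coeff a) := by
  classical
  have h1 : f * g = ∑ a ∈ f.support, ∑ b ∈ g.support,
      Polynomial.monomial (a + b) (f.coeff a * g.coeff b) := by
    conv_lhs => rw [f.as_sum_support, g.as_sum_support]
    rw [Finset.sum_mul_sum]
    refine Finset.sum_congr rfl fun a _ => Finset.sum_congr rfl fun b _ => ?_
    rw [Polynomial.monomial_mul_monomial]
  rw [Finset.sum_mul_sum]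
  calc ∑ a ∈ (f * g).support, n.ν ((f * g).coeff a)
      = ∑ c ∈ (∑ a ∈ f.support, ∑ b ∈ g.support,
          Polynomial.monomial (a + b) (f.coeff a * g.coeff b)).support,
          n.ν ((∑ a ∈ f.support, ∑ b ∈ g.support,
          Polynomial.monomial (a + b) (f.coeff a * g.coeff b)).coeff c) := by rw [← h1]
    _ ≤ ∑ a ∈ f.support, ∑ c ∈ (∑ b ∈ g.support,
          Polynomial.monomial (a + b) (f.coeff a * g.coeff b)).support,
          n.ν ((∑ b ∈ g.support, Polynomial.monomial (a + b) (f.coeff a * g.coeff b)).coeff c) :=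
        n.poly_sum _ _
    _ ≤ ∑ a ∈ f.support, ∑ b ∈ g.support, n.ν (f.coeff a) * n.ν (g.coeff b) := by
        refine Finset.sum_le_sum fun a _ => (n.poly_sum _ _).trans ?_
        refine Finset.sum_le_sum fun b _ => (n.poly_monomial _ _).trans (n.mul' _ _)

end poly

/-- the sum of the sizes of the coefficients -/
noncomputable def poly {R : Type*} [CommRing R] (n : Nrm R) : Nrm (Polynomial R) where
  ν f := ∑ a ∈ f.support, n.ν (f.coeff a)
  zero' := by simp
  one' := (n.poly_monomial 0 1).trans n.one'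
  nn f := Finset.sum_nonneg fun _ _ => n.nn _
  neg' f := by
    rw [Polynomial.support_neg]
    exact Finset.sum_congr rfl fun a _ => by rw [Polynomial.coeff_neg, n.neg']
  add' f g := n.poly_add f g
  mul' f g := n.poly_mul f g

/-! ### useful special values -/

section more
variable {R : Type*} [CommRing R] (n : Nrm R) {σ : Type*}

theorem mv_def (f : MvPolynomial σ R) :
    (n.mv σ).ν f = ∑ a ∈ f.support, n.ν (coeff a f) := rfl

theorem poly_def (f : Polynomial R) :
    n.poly.ν f = ∑ a ∈ f.support, n.ν (f.coeff a) := rfl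

theorem coeff_le (a : σ →₀ ℕ) (f : MvPolynomial σ R) : n.ν (coeff a f) ≤ (n.mv σ).ν f := by
  classical
  rw [mv_def]
  by_cases ha : a ∈ f.support
  · exact Finset.single_le_sum (f := fun a => n.ν (coeff a f)) (fun _ _ => n.nn _) ha
  · rw [notMem_support_iff.1 ha, n.zero']
    exact Finset.sum_nonneg fun _ _ => n.nn _

theorem poly_coeff_le (a : ℕ) (f : Polynomial R) : n.ν (f.coeff a) ≤ n.poly.ν f := by
  classical
  rw [poly_def]
  by_cases ha : a ∈ f.support
  · exact Finset.single_le_sum (f := fun a => n.ν (f.coeff a)) (fun _ _ => n.nn _) ha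
  · rw [Polynomial.notMem_support_iff.1 ha, n.zero']
    exact Finset.sum_nonneg fun _ _ => n.nn _

theorem monomial_le (a : σ →₀ ℕ) (c : R) : (n.mv σ).ν (monomial a c) ≤ n.ν c :=
  n.mv_monomial a c

theorem C_le (c : R) : (n.mv σ).ν (C c) ≤ n.ν c := n.mv_monomial 0 c

theorem X_le (i : σ) : (n.mv σ).ν (X i) ≤ 1 := (n.mv_monomial _ 1).trans n.one'

theorem X_pow_le (i : σ) (k : ℕ) : (n.mv σ).ν (X i ^ k) ≤ 1 := by
  refine ((n.mv σ).pow_le _ _).trans ?_
  exact pow_le_one₀ ((n.mv σ).nn _) (n.X_le i)

theorem poly_C_le (c : R) : n.poly.ν (Polynomial.C c) ≤ n.ν c := by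
  have := n.poly_monomial 0 c
  simpa only [poly_def, Polynomial.monomial_zero_left] using this

theorem poly_X_le : n.poly.ν Polynomial.X ≤ 1 := by
  have := n.poly_monomial 1 1
  rw [Polynomial.monomial_one_one_eq_X] at this
  exact this.trans n.one'

end more

end Nrm

end Vale.Agent.P337
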