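import Mathlib

/-!
# P337, piece [R-Gad]: the rational sign gadget (Newman; Beigel, Reingold, Spielman)
-/

namespace Vale.Agent.P337

open Finset

/-! ## The gadget -/

section gadget

variable {R : Type*} [CommRing R]

/-- `q(t) = (2t+1) ∏_{s ≤ S} (t + 2^s)`. -/
def qg (S : ℕ) (t : R) : R := (2 * t + 1) * ∏ s ∈ range (S + 1), (t + 2 ^ s)

/-- `Den(t) = q(t)^{2k} + q(-t)^{2k}`. -/
def dg (S k : ℕ) (t : R) : R := qg S t ^ (2 * k) + qg S (-t) ^ (2 * k)

/-- `G = ∏ Den(t_r) - 2 ∑_r q(-t_r)^{2k} ∏_{s ≠ r} Den(t_s)`. -/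
def gg {ι : Type*} [DecidableEq ι] (S k : ℕ) (I : Finset ι) (t : ι → R) : R :=
  ∏ r ∈ I, dg S k (t r) - 2 * ∑ r ∈ I, qg S (-t r) ^ (2 * k) * ∏ s ∈ I.erase r, dg S k (t s)

theorem map_qg {R' : Type*} [CommRing R'] (φ : R →+* R') (S : ℕ) (t : R) :
    φ (qg S t) = qg S (φ t) := by
  simp only [qg, map_mul, map_add, map_one, map_prod, map_pow, map_ofNat]

theorem map_dg {R' : Type*} [CommRing R'] (φ : R →+* R') (S k : ℕ) (t : R) :
    φ (dg S k t) = dg S k (φ t) := by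
  simp [dg, map_qg]

theorem map_gg {R' : Type*} [CommRing R'] {ι : Type*} [DecidableEq ι] (φ : R →+* R') (S k : ℕ)
    (I : Finset ι) (t : ι → R) :
    φ (gg S k I t) = gg S k I (fun r => φ (t r)) := by
  simp only [gg, map_sub, map_mul, map_sum, map_pow, map_prod, map_qg, map_dg, map_neg, map_ofNat]

end gadget

theorem one_le_qg (S : ℕ) {t : ℝ} (ht : 0 ≤ t) : 1 ≤ qg S t := by
  unfold qg
  have h1 : (1 : ℝ) ≤ 2 * t + 1 := by linarith
  have h2 : (1 : ℝ) ≤ ∏ s ∈ range (S + 1), (t + 2 ^ s) := by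
    induction (range (S + 1)) using Finset.induction_on with
    | empty => simp
    | insert a s ha ih =>
      rw [Finset.prod_insert ha]
      have : (1 : ℝ) ≤ 2 ^ a := one_le_pow₀ (by norm_num)
      nlinarith
  nlinarith

theorem qg_ratio (S : ℕ) {t : ℝ} (ht : 1 ≤ t) (ht' : t ≤ 2 ^ S) :
    |qg S (-t)| ≤ (1 / 3) * qg S t := by
  -- the scale `s0` with `2^s0 ≤ t ≤ 2^(s0+1)`
  have hex : ∃ s ∈ range (S + 1), |(-t + 2 ^ s : ℝ)| ≤ (1 / 3) * (t + 2 ^ s) := by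
    have hP : ∃ s : ℕ, t ≤ 2 ^ s := ⟨S, ht'⟩
    classical
    let s0 := Nat.find hP
    have hs0 : t ≤ 2 ^ s0 := Nat.find_spec hP
    have hs0S : s0 ≤ S := Nat.find_min' hP ht'
    refine ⟨s0, Finset.mem_range.2 (by omega), ?_⟩
    have hpos : (0 : ℝ) ≤ -t + 2 ^ s0 := by linarith
    rw [abs_of_nonneg hpos]
    rcases Nat.eq_zero_or_pos s0 with h0 | h0
    · have : t = 1 := by
        apply le_antisymm _ ht
        rw [h0] at hs0
        simpa using hs0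
      rw [this, h0]
      norm_num
    · have hlt : ¬ t ≤ 2 ^ (s0 - 1) := Nat.find_min hP (by omega)
      have hlt' : (2 : ℝ) ^ (s0 - 1) < t := not_le.1 hlt
      have : (2 : ℝ) ^ s0 = 2 * 2 ^ (s0 - 1) := by
        conv_lhs => rw [show s0 = (s0 - 1) + 1 by omega]
        rw [pow_succ]
        ring
      rw [this]
      linarith
  obtain ⟨s0, hs0, hb⟩ := hex
  unfold qg
  rw [abs_mul, Finset.abs_prod, ← Finset.mul_prod_erase _ _ hs0,
    ← Finset.mul_prod_erase (range (S + 1)) (fun s => t + 2 ^ s) hs0]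
  have h1 : |2 * (-t) + 1| ≤ 2 * t + 1 := by
    rw [abs_le]
    constructor <;> linarith
  have h2 : ∏ s ∈ (range (S + 1)).erase s0, |(-t + 2 ^ s : ℝ)| ≤
      ∏ s ∈ (range (S + 1)).erase s0, (t + 2 ^ s) := by
    apply Finset.prod_le_prod
    · intro s _
      exact abs_nonneg _
    · intro s _
      have : (0 : ℝ) < 2 ^ s := by positivity
      rw [abs_le]
      constructor <;> linarith
  have h3 : 0 ≤ ∏ s ∈ (range (S + 1)).erase s0, |(-t + 2 ^ s : ℝ)| :=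
    Finset.prod_nonneg fun s _ => abs_nonneg _
  have h4 : 0 ≤ ∏ s ∈ (range (S + 1)).erase s0, (t + 2 ^ s) := le_trans h3 h2
  have h5 : (0 : ℝ) ≤ t + 2 ^ s0 := by positivity
  calc |2 * (-t) + 1| * (|(-t + 2 ^ s0 : ℝ)| * ∏ s ∈ (range (S + 1)).erase s0, |(-t + 2 ^ s : ℝ)|)
      ≤ (2 * t + 1) * (((1 / 3) * (t + 2 ^ s0)) *
          ∏ s ∈ (range (S + 1)).erase s0, (t + 2 ^ s)) := by
        apply mul_le_mul h1 _ (mul_nonneg (abs_nonneg _) h3) (by linarith)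
        apply mul_le_mul hb h2 h3 (by positivity)
    _ = (1 / 3) * ((2 * t + 1) * ((t + 2 ^ s0) *
          ∏ s ∈ (range (S + 1)).erase s0, (t + 2 ^ s))) := by ring

theorem one_le_dg (S k : ℕ) (t : ℝ) : 1 ≤ dg S k t := by
  unfold dg
  have he : ∀ x : ℝ, 0 ≤ x ^ (2 * k) := fun x => by
    rw [pow_mul]
    positivity
  rcases le_total 0 t with h | h
  · have h1 := one_le_qg S h
    have h2 : 1 ≤ qg S t ^ (2 * k) := one_le_pow₀ h1
    linarith [he (qg S (-t))]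
  · have h1 := one_le_qg S (t := -t) (by linarith)
    have h2 : 1 ≤ qg S (-t) ^ (2 * k) := one_le_pow₀ h1
    linarith [he (qg S t)]

/-- the small ratio -/
theorem qg_pow_ratio (S k : ℕ) {t : ℝ} (ht : 1 ≤ t) (ht' : t ≤ 2 ^ S) :
    9 ^ k * qg S (-t) ^ (2 * k) ≤ dg S k t := by
  have h1 := qg_ratio S ht ht'
  have h0 : 0 ≤ qg S t := le_trans zero_le_one (one_le_qg S (by linarith))
  have h2 : (3 * |qg S (-t)|) ^ (2 * k) ≤ qg S t ^ (2 * k) := by
    apply pow_le_pow_left₀ (by positivity)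
    linarith
  have h3 : (3 * |qg S (-t)|) ^ (2 * k) = 9 ^ k * qg S (-t) ^ (2 * k) := by
    rw [mul_pow, pow_mul |qg S (-t)|, sq_abs, pow_mul (3 : ℝ), ← pow_mul (qg S (-t))]
    norm_num
  rw [h3] at h2
  unfold dg
  have : 0 ≤ qg S (-t) ^ (2 * k) := by
    rw [pow_mul]
    positivity
  linarith

theorem gg_factor {ι : Type*} [DecidableEq ι] (S k : ℕ) (I : Finset ι) (t : ι → ℝ) :
    gg S k I t = (∏ r ∈ I, dg S k (t r)) *
      (1 - 2 * ∑ r ∈ I, qg S (-t r) ^ (2 * k) / dg S k (t r)) := by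
  unfold gg
  rw [mul_sub, mul_one, Finset.mul_sum, Finset.mul_sum, Finset.mul_sum]
  congr 1
  apply Finset.sum_congr rfl
  intro r hr
  have hpos : dg S k (t r) ≠ 0 := (lt_of_lt_of_le one_pos (one_le_dg S k (t r))).ne'
  rw [← Finset.mul_prod_erase I (fun s => dg S k (t s)) hr]
  field_simp

theorem one_le_prod_dg {ι : Type*} (S k : ℕ) (I : Finset ι) (t : ι → ℝ) :
    1 ≤ ∏ r ∈ I, dg S k (t r) := by
  classical
  induction I using Finset.induction_on with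
  | empty => simp
  | insert a s ha ih =>
    rw [Finset.prod_insert ha]
    have := one_le_dg S k (t a)
    nlinarith

/-- If all `t_r ∈ [1, 2^S]`, then `G ≥ 1/2`. -/
theorem gg_pos {ι : Type*} [DecidableEq ι] (S k : ℕ) (I : Finset ι) (t : ι → ℝ)
    (hk : 4 * I.card ≤ 9 ^ k) (h : ∀ r ∈ I, 1 ≤ t r ∧ t r ≤ 2 ^ S) :
    1 / 2 ≤ gg S k I t := by
  rw [gg_factor]
  have h1 := one_le_prod_dg S k I t
  have h2 : ∑ r ∈ I, qg S (-t r) ^ (2 * k) / dg S k (t r) ≤ I.card • ((9 : ℝ) ^ k)⁻¹ := by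
    apply Finset.sum_le_card_nsmul
    intro r hr
    have hpos : 0 < dg S k (t r) := lt_of_lt_of_le one_pos (one_le_dg S k (t r))
    have h9 : (0 : ℝ) < 9 ^ k := by positivity
    rw [div_le_iff₀ hpos, inv_mul_eq_div, le_div_iff₀ h9, mul_comm]
    exact qg_pow_ratio S k (h r hr).1 (h r hr).2
  have h3 : (I.card : ℝ) * ((9 : ℝ) ^ k)⁻¹ ≤ 1 / 4 := by
    have h9 : (0 : ℝ) < 9 ^ k := by positivity
    rw [← div_eq_mul_inv, div_le_iff₀ h9]
    have : (4 * I.card : ℝ) ≤ 9 ^ k := by exact_mod_cast hk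
    linarith
  rw [nsmul_eq_mul] at h2
  nlinarith

/-- If all `|t_r| ∈ [1, 2^S]` and some `t_r < 0`, then `G ≤ -1/2`. -/
theorem gg_neg {ι : Type*} [DecidableEq ι] (S k : ℕ) (I : Finset ι) (t : ι → ℝ)
    (hk1 : 1 ≤ k) (h : ∀ r ∈ I, 1 ≤ |t r| ∧ |t r| ≤ 2 ^ S) (hneg : ∃ r ∈ I, t r < 0) :
    gg S k I t ≤ -(1 / 2) := by
  rw [gg_factor]
  obtain ⟨r, hr, hrn⟩ := hneg
  have h1 := one_le_prod_dg S k I t
  have hnn : ∀ s ∈ I, 0 ≤ qg S (-t s) ^ (2 * k) / dg S k (t s) := by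
    intro s _
    apply div_nonneg
    · rw [pow_mul]
      positivity
    · exact le_trans zero_le_one (one_le_dg S k (t s))
  have h2 : qg S (-t r) ^ (2 * k) / dg S k (t r) ≤
      ∑ s ∈ I, qg S (-t s) ^ (2 * k) / dg S k (t s) :=
    Finset.single_le_sum (f := fun s => qg S (-t s) ^ (2 * k) / dg S k (t s)) hnn hr
  have hr' := h r hr
  rw [abs_of_neg hrn] at hr'
  have h3 := qg_pow_ratio S k hr'.1 hr'.2
  rw [neg_neg] at h3
  have hd : dg S k (-t r) = dg S k (t r) := by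
    unfold dg
    rw [neg_neg, add_comm]
  rw [hd] at h3
  have hpos : 0 < dg S k (t r) := lt_of_lt_of_le one_pos (one_le_dg S k (t r))
  have h9 : (9 : ℝ) ≤ 9 ^ k := by
    calc (9 : ℝ) = 9 ^ 1 := by norm_num
      _ ≤ 9 ^ k := pow_le_pow_right₀ (by norm_num) hk1
  have hq0 : 0 ≤ qg S (t r) ^ (2 * k) := by
    rw [pow_mul]
    positivity
  have h4 : 3 / 4 ≤ qg S (-t r) ^ (2 * k) / dg S k (t r) := by
    rw [le_div_iff₀ hpos]
    have h5 : 9 * qg S (t r) ^ (2 * k) ≤ dg S k (t r) := by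
      calc 9 * qg S (t r) ^ (2 * k) ≤ 9 ^ k * qg S (t r) ^ (2 * k) :=
            mul_le_mul_of_nonneg_right h9 hq0
        _ ≤ _ := h3
    have h6 : dg S k (t r) = qg S (t r) ^ (2 * k) + qg S (-t r) ^ (2 * k) := rfl
    linarith
  nlinarith

/-- One of `D + 1` shifts avoids at most `D` values. -/
theorem exists_shift {α : Type*} (Z : Finset α) (D : ℕ) (hZ : Z.card ≤ D) (v : α → ℂ) :
    ∃ j ∈ range (D + 1), ∀ a ∈ Z, v a + (j : ℂ) ≠ 0 := by
  classical
  by_contra hcon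
  push Not at hcon
  obtain ⟨a0, -, -⟩ := hcon 0 (Finset.mem_range.2 (Nat.succ_pos D))
  have : Nonempty α := ⟨a0⟩
  choose! f hf using hcon
  have hinj : Set.InjOn f (range (D + 1)) := by
    intro i hi j hj hij
    have h1 := (hf i hi).2
    have h2 := (hf j hj).2
    rw [hij] at h1
    have : (i : ℂ) = j := by linear_combination h1 - h2
    exact_mod_cast this
  have hcard : (range (D + 1)).card ≤ Z.card :=
    Finset.card_le_card_of_injOn f (fun i hi => (hf i hi).1) hinj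
  rw [Finset.card_range] at hcard
  omega

/-- sign of the shifted gadget -/
theorem shift_pos {G : ℝ} (D j : ℕ) (hG : 1 / 2 ≤ G) : 0 < 4 * ((D : ℝ) + 1) * G + j := by
  have h1 : (0 : ℝ) ≤ D := Nat.cast_nonneg D
  have h2 : (0 : ℝ) ≤ j := Nat.cast_nonneg j
  nlinarith

theorem shift_neg {G : ℝ} (D j : ℕ) (hj : j ≤ D) (hG : G ≤ -(1 / 2)) :
    4 * ((D : ℝ) + 1) * G + j < 0 := by
  have h1 : (0 : ℝ) ≤ D := Nat.cast_nonneg D
  have h2 : (j : ℝ) ≤ D := by exact_mod_cast hj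
  nlinarith

/-- **Gadget, summary**: for signed real numbers `t_r` with `1 ≤ |t_r| ≤ 2^S`, the number
`4 (D+1) G + j` is positive iff all `t_r > 0`, and negative otherwise. -/
theorem gadget_sign {ι : Type*} [DecidableEq ι] (S k : ℕ) (I : Finset ι) (t : ι → ℝ)
    (hk1 : 1 ≤ k) (hk : 4 * I.card ≤ 9 ^ k) (h : ∀ r ∈ I, 1 ≤ |t r| ∧ |t r| ≤ 2 ^ S)
    (D j : ℕ) (hj : j ≤ D) :
    ((∀ r ∈ I, 0 < t r) → 0 < 4 * ((D : ℝ) + 1) * gg S k I t + j) ∧
      ((∃ r ∈ I, t r < 0) → 4 * ((D : ℝ) + 1) * gg S k I t + j < 0) := by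
  constructor
  · intro hp
    apply shift_pos
    apply gg_pos S k I t hk
    intro r hr
    have h1 := h r hr
    rw [abs_of_pos (hp r hr)] at h1
    exact h1
  · intro hn
    exact shift_neg D j hj (gg_neg S k I t hk1 h hn)

/-- upper bound for `|q(t)|` -/
theorem abs_qg_le (S : ℕ) {t : ℝ} {T : ℝ} (hT : 1 ≤ T) (ht : |t| ≤ T) :
    |qg S t| ≤ 3 * T * (T + 2 ^ S) ^ (S + 1) := by
  unfold qg
  rw [abs_mul, Finset.abs_prod]
  have h1 : |2 * t + 1| ≤ 3 * T := by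
    have := abs_le.1 ht
    rw [abs_le]
    constructor <;> linarith
  have h2 : ∏ s ∈ range (S + 1), |t + 2 ^ s| ≤ ∏ _s ∈ range (S + 1), (T + 2 ^ S) := by
    apply Finset.prod_le_prod
    · intro s _
      exact abs_nonneg _
    · intro s hs
      have h3 : (2 : ℝ) ^ s ≤ 2 ^ S :=
        pow_le_pow_right₀ (by norm_num) (by have := Finset.mem_range.1 hs; omega)
      have h4 : (0 : ℝ) < 2 ^ s := by positivity
      have := abs_le.1 ht
      rw [abs_le]
      constructor <;> linarith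
  rw [Finset.prod_const, Finset.card_range] at h2
  exact mul_le_mul h1 h2 (Finset.prod_nonneg fun s _ => abs_nonneg _) (by linarith)

end Vale.Agent.P337
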