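import Vale.Agent.P337.Alg
import Vale.Agent.P337.Gadget

/-!
# P337: the integer `XX` whose sign decides the sentence

All definitions make sense over every commutative ring and are compatible with ring
homomorphisms; they are used over `ℤ`, `ℝ`, `ℂ`, `ZMod p`, `ℤ[u]`.
-/

namespace Vale.Agent.P337

open MvPolynomial

section
variable {R : Type*} [CommRing R] {N : ℕ}

/-- `f_i = c - K ∂_i f`, so `F_i = x_i ^ m - f_i = ∂_i h` with
`h = K f + ∑ x_i ^ (m + 1) / (m + 1) - c ∑ x_i`. -/
noncomputable def fK (f : MvPolynomial (Fin N) R) (K c : R) (i : Fin N) :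
    MvPolynomial (Fin N) R := C c - C K * pderiv i f

/-- `H = (m + 1) h`. -/
noncomputable def Hp (m : ℕ) (f : MvPolynomial (Fin N) R) (K c : R) : MvPolynomial (Fin N) R :=
  C (((m : R) + 1) * K) * f + ∑ i, X i ^ (m + 1) - C (((m : R) + 1) * c) * ∑ i, X i

/-- `r! e_r` of the eigenvalues of the multiplication by `g` on `A`. -/
noncomputable def ehJ (m E : ℕ) (fs : Fin N → MvPolynomial (Fin N) R)
    (g : MvPolynomial (Fin N) R) (r : ℕ) : R :=
  eh (fun l => tau m E fs (g ^ l * jac m fs)) r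

/-- The polynomial `w_{i,r}(u) = D! e_r (u - x_i)` in the variable `u`. -/
noncomputable def wU (m E : ℕ) (fs : Fin N → MvPolynomial (Fin N) R) (i : Fin N) (r : ℕ) :
    Polynomial R :=
  Polynomial.C ((((m ^ N).factorial / r.factorial : ℕ) : R)) *
    ehJ m E (fun j => map Polynomial.C (fs j)) (C Polynomial.X - X i) r

/-- `w_{i,r}(x_i)`. -/
noncomputable def wP (m E : ℕ) (fs : Fin N → MvPolynomial (Fin N) R) (i : Fin N) (r : ℕ) :
    MvPolynomial (Fin N) R := Polynomial.aeval (X i) (wU m E fs i r)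

/-- The `s`-th digit of `n` in base `b`. -/
def dig (b n s : ℕ) : ℕ := n / b ^ s % b

/-- Sign attached to a bit. -/
def sgn (b : ℕ) : R := if b = 0 then 1 else -1

/-- The condition with code `e`: `e` encodes a variable `i`, an index `r` and two signs. -/
noncomputable def condP [NeZero N] (m E B : ℕ) (fs : Fin N → MvPolynomial (Fin N) R) (e : ℕ) :
    MvPolynomial (Fin N) R :=
  let D := m ^ N
  C (sgn (e / (2 * N * (D + 1)) % 2)) *
    (C (2 * 2 ^ (B ^ 5)) *
      (C (sgn (e / (N * (D + 1)) % 2)) * wP m E fs (Fin.ofNat N e) (e / N % (D + 1))) - 1)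

/-- The polynomials `t_s`: `t_0 = 2Δ(2^B - H) - 1`, and `t_s` for `s ≥ 1` is the condition with
code the `s`-th digit of `cc` in base `4 N (D + 1)`. -/
noncomputable def tP [NeZero N] (m E B : ℕ) (f : MvPolynomial (Fin N) R) (c cc s : ℕ) :
    MvPolynomial (Fin N) R :=
  if s = 0 then C (2 * 2 ^ (B ^ 5)) * (C (2 ^ B) - Hp m f (2 ^ (B ^ 2)) (c : R)) - 1
  else condP m E B (fK f (2 ^ (B ^ 2)) (c : R)) (dig (4 * N * (m ^ N + 1)) cc s)

/-- `-G' = -(4 (D + 1) G + j)`. -/
noncomputable def gP [NeZero N] (m E B : ℕ) (f : MvPolynomial (Fin N) R) (c k cc j : ℕ) :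
    MvPolynomial (Fin N) R :=
  -(C (4 * ((m : R) ^ N + 1)) * gg (B ^ 6) B (Finset.range (k + 1)) (tP m E B f c cc) + C (j : R))

/-- The number whose sign decides: `X = D! det(M_{-G'})`. -/
noncomputable def XX [NeZero N] (m E B : ℕ) (f : MvPolynomial (Fin N) R) (c k cc j : ℕ) : R :=
  ehJ m E (fK f (2 ^ (B ^ 2)) (c : R)) (gP m E B f c k cc j) (m ^ N)

/-- Sum of the absolute values of the coefficients. -/
noncomputable def norm1 (f : MvPolynomial (Fin N) ℤ) : ℕ :=
  ∑ a ∈ f.support, (coeff a f).natAbs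

end

end Vale.Agent.P337
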