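import Vale.Agent.P337.Alg

/-!
# P337 [T1g]: change of rings for the residue functional and the Jacobian
-/

namespace Vale.Agent.P337

open MvPolynomial

variable {R : Type*} [CommRing R] {N : ℕ}

/-- [T1g] change of rings -/
theorem tau_map {S : Type*} [CommRing S] (φ : R →+* S) (m E : ℕ)
    (f : Fin N → MvPolynomial (Fin N) R) (g : MvPolynomial (Fin N) R) :
    tau m E (fun i => map φ (f i)) (map φ g) = φ (tau m E f g) := by
  unfold tau
  rw [map_sum]
  refine Finset.sum_congr rfl fun k _ => ?_
  rw [← coeff_map]
  simp [map_mul, map_prod, map_pow]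

theorem sysF_map {S : Type*} [CommRing S] (φ : R →+* S) (m : ℕ)
    (f : Fin N → MvPolynomial (Fin N) R) (i : Fin N) :
    sysF m (fun i => map φ (f i)) i = map φ (sysF m f i) := by
  simp [sysF]

theorem jac_map {S : Type*} [CommRing S] (φ : R →+* S) (m : ℕ)
    (f : Fin N → MvPolynomial (Fin N) R) : jac m (fun i => map φ (f i)) = map φ (jac m f) := by
  unfold jac
  rw [RingHom.map_det]
  congr 1
  ext i j
  simp [sysF_map, pderiv_map]

end Vale.Agent.P337
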