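import Vale.Agent.P337.Root
import Vale.Agent.P337.CharP
import Vale.Agent.P337.TauMap
import Vale.Agent.P337.Sys
import Vale.Agent.P337.Nrm
import Vale.Agent.P337.Trace

/-!
# P337: rows [E2], [S2'], [V1], [V2], [V3] of the skeleton part R
-/

namespace Vale.Agent.P337

open MvPolynomial

variable {N : ℕ}

/-! ## naturality of `ehJ` -/

theorem ehJ_map {R S : Type*} [CommRing R] [CommRing S] (φ : R →+* S) (m E : ℕ)
    (fs : Fin N → MvPolynomial (Fin N) R) (g : MvPolynomial (Fin N) R) (r : ℕ) :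
    ehJ m E (fun i => map φ (fs i)) (map φ g) r = φ (ehJ m E fs g r) := by
  unfold ehJ
  rw [← eh_map]
  apply eh_congr
  intro l _ _
  rw [← tau_map, jac_map, ← map_pow, ← map_mul]

/-! ## [E2] -/

theorem mulLeft_pow_cls {k : Type*} [CommRing k] {m : ℕ} {fs : Fin N → MvPolynomial (Fin N) k}
    (g : MvPolynomial (Fin N) k) (l : ℕ) :
    LinearMap.mulLeft k (cls m fs g) ^ l = LinearMap.mulLeft k (cls m fs (g ^ l)) := by
  rw [LinearMap.pow_mulLeft]
  congr 1

theorem ehJ_eq_trace {k : Type*} [Field k] [CharZero k] {m E : ℕ} (hm : 0 < m)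
    {fs : Fin N → MvPolynomial (Fin N) k} (hf : ∀ i, (fs i).totalDegree < m)
    (g : MvPolynomial (Fin N) k) (hE : m ^ N * g.totalDegree + N * (m - 1) ≤ E) {r : ℕ}
    (hr : r ≤ m ^ N) :
    ehJ m E fs g r =
      eh (fun l => LinearMap.trace k (SysA m fs) (LinearMap.mulLeft k (cls m fs g) ^ l)) r := by
  unfold ehJ
  apply eh_congr
  intro l _ hl
  rw [mulLeft_pow_cls]
  refine (trace_eq hm hf (g ^ l) ?_).symm
  have h1 : (g ^ l).totalDegree ≤ l * g.totalDegree := totalDegree_pow _ _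
  have h2 : l * g.totalDegree ≤ m ^ N * g.totalDegree := Nat.mul_le_mul_right _ (by omega)
  omega

/-- the coefficients of the characteristic polynomial in terms of `ehJ` -/
theorem ehJ_charpoly {k : Type*} [Field k] [CharZero k] {m E : ℕ} (hm : 0 < m)
    {fs : Fin N → MvPolynomial (Fin N) k} (hf : ∀ i, (fs i).totalDegree < m)
    (g : MvPolynomial (Fin N) k) (hE : m ^ N * g.totalDegree + N * (m - 1) ≤ E) {r : ℕ}
    (hr : r ≤ m ^ N) :
    haveI := sysA_finite hm hf
    ehJ m E fs g r = (-1) ^ r * (r.factorial : k) *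
      (LinearMap.mulLeft k (cls m fs g)).charpoly.coeff (m ^ N - r) := by
  have := sysA_finite hm hf
  have hfr : Module.finrank k (SysA m fs) = m ^ N := finrank_eq hm hf
  rw [ehJ_eq_trace hm hf g hE hr, charpoly_coeff _ (by rw [hfr]; exact hr), hfr]

/-- [E2] values at zeros are roots of the characteristic polynomial -/
theorem char_root {k : Type*} [Field k] [CharZero k] {m E : ℕ} (hm : 0 < m)
    {fs : Fin N → MvPolynomial (Fin N) k} (hf : ∀ i, (fs i).totalDegree < m)
    (g : MvPolynomial (Fin N) k) (hE : m ^ N * g.totalDegree + N * (m - 1) ≤ E)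
    (α : Fin N → k) (hα : ∀ i, eval α (sysF m fs i) = 0) :
    ∑ r ∈ Finset.range (m ^ N + 1), (-1) ^ r * (((m ^ N).factorial / r.factorial : ℕ) : k) *
      ehJ m E fs g r * eval α g ^ (m ^ N - r) = 0 := by
  have := sysA_finite hm hf
  have hfr : Module.finrank k (SysA m fs) = m ^ N := finrank_eq hm hf
  set p := (LinearMap.mulLeft k (cls m fs g)).charpoly with hp
  have hdeg : p.natDegree = m ^ N := by rw [hp, LinearMap.charpoly_natDegree, hfr]
  have h0 : p.eval (eval α g) = 0 := by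
    have h := charpoly_eval_zero (k := k) (K := k) (f := fs) (m := m) (a := α)
      (by simpa [MvPolynomial.aeval_eq_eval] using hα) g
    simpa [Polynomial.aeval_def, MvPolynomial.aeval_eq_eval] using h
  have h1 : ∀ r ∈ Finset.range (m ^ N + 1),
      (-1) ^ r * (((m ^ N).factorial / r.factorial : ℕ) : k) *
        ehJ m E fs g r * eval α g ^ (m ^ N - r) =
      ((m ^ N).factorial : k) * (p.coeff (m ^ N - r) * eval α g ^ (m ^ N - r)) := by
    intro r hr
    have hr' : r ≤ m ^ N := by simpa [Nat.lt_succ_iff] using hr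
    have hfac : ((m ^ N).factorial : k) =
        (((m ^ N).factorial / r.factorial : ℕ) : k) * (r.factorial : k) := by
      rw [← Nat.cast_mul, Nat.div_mul_cancel (Nat.factorial_dvd_factorial hr')]
    have hsq : ((-1 : k) ^ r) * (-1) ^ r = 1 := by rw [← mul_pow]; simp
    rw [ehJ_charpoly hm hf g hE hr', hfac, ← hp]
    have hr2 : (-1 : k) ^ r * (-1) ^ r = 1 := hsq
    calc _ = ((-1 : k) ^ r * (-1) ^ r) * ((((m ^ N).factorial / r.factorial : ℕ) : k) *
          (r.factorial : k) * (p.coeff (m ^ N - r) * eval α g ^ (m ^ N - r))) := by ring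
      _ = _ := by rw [hr2, one_mul]
  rw [Finset.sum_congr rfl h1, ← Finset.mul_sum]
  have h2 : ∑ r ∈ Finset.range (m ^ N + 1), p.coeff (m ^ N - r) * eval α g ^ (m ^ N - r) =
      p.eval (eval α g) := by
    rw [Polynomial.eval_eq_sum_range, hdeg]
    rw [← Finset.sum_range_reflect]
    refine Finset.sum_congr rfl fun r hr => ?_
    have hr' : r ≤ m ^ N := by simpa [Nat.lt_succ_iff] using hr
    have : m ^ N + 1 - 1 - r = m ^ N - r := by omega
    rw [this]
    have h3 : m ^ N - (m ^ N - r) = r := by omega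
    rw [h3]
  rw [h2, h0, mul_zero]

/-! ## [S2'] -/

/-- [S2'] the number of complex zeros is at most `m ^ N` -/
theorem card_zeros {m : ℕ} (hm : 0 < m) {fs : Fin N → MvPolynomial (Fin N) ℂ}
    (hf : ∀ i, (fs i).totalDegree < m) :
    {α : Fin N → ℂ | ∀ i, eval α (sysF m fs i) = 0}.Finite ∧
      {α : Fin N → ℂ | ∀ i, eval α (sysF m fs i) = 0}.ncard ≤ m ^ N := by
  have := sysA_finite hm hf
  have hfr : Module.finrank ℂ (SysA m fs) = m ^ N := finrank_eq hm hf
  have h1 := zeros_finite (k := ℂ) (K := ℂ) (f := fs) (m := m)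
  have h2 := zeros_ncard_le (k := ℂ) (K := ℂ) (f := fs) (m := m)
  rw [hfr] at h2
  simp only [MvPolynomial.aeval_eq_eval] at h1 h2
  exact ⟨h1, h2⟩

/-! ## [V] -/

/-- [V2] with an explicit sum -/
theorem value_bound' (g : MvPolynomial (Fin N) ℤ) (φ : ℝ) (h1 : 1 ≤ φ) (α : Fin N → ℝ)
    (hα : ∀ i, |α i| ≤ φ) :
    |aeval α g| ≤ (∑ a ∈ g.support, |((coeff a g : ℤ) : ℝ)|) * φ ^ g.totalDegree := by
  rw [MvPolynomial.aeval_def, MvPolynomial.eval₂_eq, Finset.sum_mul]
  refine (Finset.abs_sum_le_sum_abs _ _).trans (Finset.sum_le_sum fun a ha => ?_)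
  rw [abs_mul]
  have h2 : |(algebraMap ℤ ℝ) (coeff a g)| = |((coeff a g : ℤ) : ℝ)| := by simp
  rw [h2]
  refine mul_le_mul_of_nonneg_left ?_ (abs_nonneg _)
  rw [Finset.abs_prod]
  calc ∏ i ∈ a.support, |α i ^ a i| ≤ ∏ i ∈ a.support, φ ^ a i := by
        refine Finset.prod_le_prod (fun _ _ => abs_nonneg _) fun i _ => ?_
        rw [abs_pow]
        exact pow_le_pow_left₀ (abs_nonneg _) (hα i) _
    _ = φ ^ (a.sum fun _ e => e) := by
        rw [Finset.prod_pow_eq_pow_sum]; rfl
    _ ≤ φ ^ g.totalDegree := pow_le_pow_right₀ h1 (MvPolynomial.le_totalDegree ha)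

/-- [V1] with an explicit sum -/
theorem zero_bound' {m : ℕ} (hm : 0 < m) (fs : Fin N → MvPolynomial (Fin N) ℤ)
    (hf : ∀ i, (fs i).totalDegree < m) (φ : ℝ) (h1 : 1 ≤ φ)
    (hφ : ∀ i, (∑ a ∈ (fs i).support, |((coeff a (fs i) : ℤ) : ℝ)|) ≤ φ) (α : Fin N → ℝ)
    (hα : ∀ i, aeval α (sysF m fs i) = 0) (i : Fin N) : |α i| ≤ φ := by
  by_contra hcon
  push Not at hcon
  -- the largest coordinate
  obtain ⟨j, _, hj⟩ := Finset.exists_max_image Finset.univ (fun i => |α i|) ⟨i, Finset.mem_univ i⟩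
  have hjφ : φ < |α j| := hcon.trans_le (hj i (Finset.mem_univ i))
  have hM1 : 1 ≤ |α j| := h1.trans hjφ.le
  have h2 := value_bound' (fs j) (|α j|) hM1 α (fun i => hj i (Finset.mem_univ i))
  have h3 : α j ^ m = aeval α (fs j) := by
    have := hα j
    unfold sysF at this
    rw [map_sub, map_pow, aeval_X] at this
    linarith
  rw [← h3, abs_pow] at h2
  have h4 : |α j| ^ (fs j).totalDegree ≤ |α j| ^ (m - 1) :=
    pow_le_pow_right₀ hM1 (by have := hf j; omega)
  have h5 : |α j| ^ m = |α j| * |α j| ^ (m - 1) := by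
    rw [← pow_succ']; congr 1; omega
  have hpos : 0 < |α j| ^ (m - 1) := by positivity
  have h6 : |α j| * |α j| ^ (m - 1) ≤ φ * |α j| ^ (m - 1) := by
    rw [← h5]
    refine h2.trans ?_
    exact mul_le_mul (hφ j) h4 (by positivity) (by linarith)
  have := le_of_mul_le_mul_right h6 hpos
  linarith

/-- [V1] real zeros are bounded -/
theorem zero_bound {m : ℕ} (hm : 0 < m) (fs : Fin N → MvPolynomial (Fin N) ℤ)
    (hf : ∀ i, (fs i).totalDegree < m) (φ : ℝ) (h1 : 1 ≤ φ)
    (hφ : ∀ i, (Nrm.int.mv (Fin N)).ν (fs i) ≤ φ) (α : Fin N → ℝ)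
    (hα : ∀ i, aeval α (sysF m fs i) = 0) (i : Fin N) : |α i| ≤ φ :=
  zero_bound' hm fs hf φ h1 hφ α hα i

/-- [V2] values of a polynomial -/
theorem value_bound (g : MvPolynomial (Fin N) ℤ) (φ : ℝ) (h1 : 1 ≤ φ) (α : Fin N → ℝ)
    (hα : ∀ i, |α i| ≤ φ) : |aeval α g| ≤ (Nrm.int.mv (Fin N)).ν g * φ ^ g.totalDegree :=
  value_bound' g φ h1 α hα

/-- [V3] a nonzero value at a real zero is not too small -/
theorem value_lower {m E : ℕ} (hm : 0 < m) (fs : Fin N → MvPolynomial (Fin N) ℤ)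
    (hf : ∀ i, (fs i).totalDegree < m) (g : MvPolynomial (Fin N) ℤ)
    (hE : m ^ N * g.totalDegree + N * (m - 1) ≤ E) (α : Fin N → ℝ)
    (hα : ∀ i, aeval α (sysF m fs i) = 0) (hg : aeval α g ≠ 0) (A : ℝ)
    (hA : ∀ r ≤ m ^ N, |((ehJ m E fs g r : ℤ) : ℝ)| ≤ A) :
    1 ≤ (m ^ N + 1) * (m ^ N).factorial * A * |aeval α g| := by
  -- the equation
  have hnat : ∀ r, ehJ m E (fun i => map (Int.castRingHom ℝ) (fs i)) (map (Int.castRingHom ℝ) g) r =
      ((ehJ m E fs g r : ℤ) : ℝ) := fun r => ehJ_map (Int.castRingHom ℝ) m E fs g r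
  have hev : ∀ q : MvPolynomial (Fin N) ℤ, eval α (map (Int.castRingHom ℝ) q) = aeval α q := by
    intro q
    rw [MvPolynomial.eval_map, MvPolynomial.aeval_def]
    rfl
  have hdeg : ∀ q : MvPolynomial (Fin N) ℤ,
      (map (Int.castRingHom ℝ) q).totalDegree ≤ q.totalDegree := fun q =>
    Finset.sup_mono (MvPolynomial.support_map_subset _ _)
  have heq := char_root (k := ℝ) (E := E) hm
    (fs := fun i => map (Int.castRingHom ℝ) (fs i))
    (fun i => (hdeg _).trans_lt (hf i)) (map (Int.castRingHom ℝ) g)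
    ((Nat.add_le_add_right (Nat.mul_le_mul_left _ (hdeg g)) _).trans hE) α
    (fun i => by rw [sysF_map, hev]; exact hα i)
  simp only [hnat, hev] at heq
  set D := m ^ N with hD
  set y := aeval α g with hy
  set c : ℕ → ℝ := fun r => (-1) ^ r * ((D.factorial / r.factorial : ℕ) : ℝ) *
    ((ehJ m E fs g r : ℤ) : ℝ) with hc
  have hA1 : 1 ≤ A := by
    have h := hA 0 (Nat.zero_le _)
    have h0 : ehJ m E fs g 0 = 1 := by unfold ehJ; exact eh_zero _
    rw [h0] at h
    simpa using h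
  have hcA : ∀ r ≤ D, |c r| ≤ D.factorial * A := by
    intro r hr
    simp only [hc]
    rw [abs_mul, abs_mul, abs_pow, abs_neg, abs_one, one_pow, one_mul, Nat.abs_cast]
    refine mul_le_mul ?_ (hA r hr) (abs_nonneg _) (by positivity)
    exact_mod_cast Nat.div_le_self _ _
  have hypos : 0 < |y| := abs_pos.2 hg
  have hfac1 : (1 : ℝ) ≤ (D.factorial : ℝ) := by
    exact_mod_cast Nat.one_le_iff_ne_zero.2 (Nat.factorial_ne_zero D)
  by_cases hbig : 1 ≤ |y|
  · have h1 : (1 : ℝ) ≤ (m : ℝ) ^ N + 1 := by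
      have : (0 : ℝ) ≤ (m : ℝ) ^ N := by positivity
      linarith
    calc (1 : ℝ) = 1 * 1 * 1 * 1 := by norm_num
      _ ≤ ((m : ℝ) ^ N + 1) * (D.factorial : ℝ) * A * |y| := by gcongr
  · push Not at hbig
    -- the last nonzero coefficient
    have hex : ∃ r, r ≤ D ∧ ehJ m E fs g r ≠ 0 := ⟨0, Nat.zero_le _, by
      have h0 : ehJ m E fs g 0 = 1 := by unfold ehJ; exact eh_zero _
      rw [h0]; exact one_ne_zero⟩
    classical
    let r0 := Nat.findGreatest (fun r => ehJ m E fs g r ≠ 0) D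
    have hr0D : r0 ≤ D := Nat.findGreatest_le _
    have hr0 : ehJ m E fs g r0 ≠ 0 := by
      obtain ⟨r, hr1, hr2⟩ := hex
      exact Nat.findGreatest_spec (P := fun r => ehJ m E fs g r ≠ 0) hr1 hr2
    have hlast : ∀ r, r0 < r → r ≤ D → ehJ m E fs g r = 0 := by
      intro r h1 h2
      by_contra h3
      exact Nat.findGreatest_is_greatest h1 h2 h3
    have hsum : ∑ r ∈ Finset.range (r0 + 1), c r * y ^ (D - r) = 0 := by
      have h2 : ∑ r ∈ Finset.range (D + 1), c r * y ^ (D - r) = 0 := by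
        simpa [hc] using heq
      rw [← h2]
      apply Finset.sum_subset
      · intro r hr
        simp only [Finset.mem_range] at hr ⊢
        omega
      · intro r hr hr'
        simp only [Finset.mem_range] at hr hr'
        have : ehJ m E fs g r = 0 := hlast r (by omega) (by omega)
        simp [hc, this]
    have hsum2 : ∑ r ∈ Finset.range (r0 + 1), c r * y ^ (r0 - r) = 0 := by
      have h3 : ∑ r ∈ Finset.range (r0 + 1), c r * y ^ (D - r) =
          (∑ r ∈ Finset.range (r0 + 1), c r * y ^ (r0 - r)) * y ^ (D - r0) := by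
        rw [Finset.sum_mul]
        refine Finset.sum_congr rfl fun r hr => ?_
        simp only [Finset.mem_range] at hr
        have h5 : D - r = (r0 - r) + (D - r0) := by omega
        rw [h5, pow_add]
        ring
      rw [h3] at hsum
      rcases mul_eq_zero.1 hsum with h | h
      · exact h
      · exact absurd (eq_zero_of_pow_eq_zero h) hg
    rw [Finset.sum_range_succ, Nat.sub_self, pow_zero, mul_one] at hsum2
    have hc0 : 1 ≤ |c r0| := by
      simp only [hc]
      rw [abs_mul, abs_mul, abs_pow, abs_neg, abs_one, one_pow, one_mul, Nat.abs_cast]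
      have h4 : (1 : ℝ) ≤ ((D.factorial / r0.factorial : ℕ) : ℝ) := by
        have : 0 < D.factorial / r0.factorial :=
          Nat.div_pos (Nat.factorial_le hr0D) (Nat.factorial_pos _)
        exact_mod_cast this
      have h5 : (1 : ℝ) ≤ |((ehJ m E fs g r0 : ℤ) : ℝ)| := by
        rw [← Int.cast_abs]
        exact_mod_cast Int.one_le_abs hr0
      nlinarith
    have h6 : |c r0| ≤ ∑ r ∈ Finset.range r0, |c r * y ^ (r0 - r)| := by
      have : c r0 = -∑ r ∈ Finset.range r0, c r * y ^ (r0 - r) := by linarith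
      rw [this, abs_neg]
      exact Finset.abs_sum_le_sum_abs _ _
    have h7 : ∑ r ∈ Finset.range r0, |c r * y ^ (r0 - r)| ≤
        ∑ _r ∈ Finset.range r0, (D.factorial * A * |y|) := by
      refine Finset.sum_le_sum fun r hr => ?_
      simp only [Finset.mem_range] at hr
      rw [abs_mul, abs_pow]
      refine mul_le_mul (hcA r (by omega)) ?_ (by positivity) (by positivity)
      calc |y| ^ (r0 - r) ≤ |y| ^ 1 := pow_le_pow_of_le_one hypos.le hbig.le (by omega)
        _ = |y| := pow_one _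
    rw [Finset.sum_const, Finset.card_range, nsmul_eq_mul] at h7
    have h8 : (r0 : ℝ) ≤ (m : ℝ) ^ N + 1 := by
      have : (r0 : ℝ) ≤ (D : ℝ) := by exact_mod_cast hr0D
      have h9 : (D : ℝ) = (m : ℝ) ^ N := by rw [hD]; push_cast; rfl
      linarith
    calc (1 : ℝ) ≤ r0 * (D.factorial * A * |y|) := by linarith
      _ ≤ ((m : ℝ) ^ N + 1) * (D.factorial * A * |y|) := by
          apply mul_le_mul_of_nonneg_right h8 (by positivity)
      _ = _ := by ring

end Vale.Agent.P337
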