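import Mathlib

/-!
# P337 : coefficient extraction by sums over the units of `ZMod p`
-/

open Finset
open scoped BigOperators

namespace Vale.Agent.P337

section one

variable {p : ℕ} [Fact p.Prime]

/-- The sum of `x^i x^(-a)` over the units is `-1` if `i = a` and `0` otherwise
(`i, a < p - 1`). -/
theorem sum_units_pow_inv (i a : ℕ) (hi : i < p - 1) (ha : a < p - 1) :
    ∑ x : (ZMod p)ˣ, ((x : ZMod p) ^ i * ((x : ZMod p)⁻¹) ^ a) = if i = a then -1 else 0 := by
  have hp : p.Prime := Fact.out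
  have h1 : ∀ x : (ZMod p)ˣ, (x : ZMod p) ^ i * ((x : ZMod p)⁻¹) ^ a
      = (x : ZMod p) ^ (i + (p - 1 - a)) := by
    intro x
    have hx : (x : ZMod p) ≠ 0 := x.ne_zero
    have h2 : (x : ZMod p) ^ (p - 1) = 1 := ZMod.pow_card_sub_one_eq_one hx
    have h3 : (x : ZMod p) ^ a * (x : ZMod p) ^ (p - 1 - a) = 1 := by
      rw [← pow_add, Nat.add_sub_cancel' ha.le, h2]
    have h4 : ((x : ZMod p)⁻¹) ^ a = (x : ZMod p) ^ (p - 1 - a) := by
      rw [inv_pow]
      exact (eq_inv_of_mul_eq_one_right h3).symm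
    rw [h4, pow_add]
  simp only [h1]
  have h5 := FiniteField.sum_pow_units (ZMod p) (i + (p - 1 - a))
  rw [ZMod.card] at h5
  rw [h5]
  have h6 : (p - 1 ∣ i + (p - 1 - a)) ↔ i = a := by
    constructor
    · rintro ⟨k, hk⟩
      have hk1 : k < 2 := by
        by_contra hcon
        have : (p - 1) * 2 ≤ (p - 1) * k := Nat.mul_le_mul_left _ (by omega)
        omega
      interval_cases k
      · omega
      · omega
    · intro h
      subst h
      exact ⟨1, by omega⟩
  simp only [h6]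

/-- Coefficient extraction, one variable. -/
theorem coeff_eq_neg_sum (Q : Polynomial (ZMod p)) (a : ℕ) (hQ : Q.natDegree < p - 1)
    (ha : a < p - 1) :
    Q.coeff a = - ∑ x : (ZMod p)ˣ, Q.eval (x : ZMod p) * ((x : ZMod p)⁻¹) ^ a := by
  have h1 : ∀ x : (ZMod p)ˣ, Q.eval (x : ZMod p) * ((x : ZMod p)⁻¹) ^ a
      = ∑ i ∈ range (p - 1), Q.coeff i * ((x : ZMod p) ^ i * ((x : ZMod p)⁻¹) ^ a) := by
    intro x
    rw [Polynomial.eval_eq_sum_range' hQ, Finset.sum_mul]
    refine Finset.sum_congr rfl fun i _ => by ring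
  simp only [h1]
  rw [Finset.sum_comm]
  have h2 : ∀ i ∈ range (p - 1),
      ∑ x : (ZMod p)ˣ, Q.coeff i * ((x : ZMod p) ^ i * ((x : ZMod p)⁻¹) ^ a)
        = if i = a then - Q.coeff i else 0 := by
    intro i hi
    rw [← Finset.mul_sum, sum_units_pow_inv i a (Finset.mem_range.1 hi) ha]
    split_ifs <;> simp
  rw [Finset.sum_congr rfl h2, Finset.sum_ite_eq' (range (p - 1)) a,
    if_pos (Finset.mem_range.2 ha), neg_neg]

end one

section many

variable {p : ℕ} [Fact p.Prime] {σ : Type*} [Fintype σ] [DecidableEq σ]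

/-- The sum of a monomial over the units. -/
theorem sum_units_monomial (m a : σ → ℕ) (hm : ∀ i, m i < p - 1) (ha : ∀ i, a i < p - 1) :
    ∑ x : σ → (ZMod p)ˣ, ∏ i, ((x i : ZMod p) ^ m i * ((x i : ZMod p)⁻¹) ^ a i)
      = if m = a then (-1) ^ Fintype.card σ else 0 := by
  have h1 : ∑ x : σ → (ZMod p)ˣ, ∏ i, ((x i : ZMod p) ^ m i * ((x i : ZMod p)⁻¹) ^ a i)
      = ∏ i, ∑ x : (ZMod p)ˣ, ((x : ZMod p) ^ m i * ((x : ZMod p)⁻¹) ^ a i) := by
    rw [Finset.prod_univ_sum]
    rw [Fintype.piFinset_univ]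
  rw [h1]
  have h2 : ∀ i : σ, ∑ x : (ZMod p)ˣ, ((x : ZMod p) ^ m i * ((x : ZMod p)⁻¹) ^ a i)
      = if m i = a i then -1 else 0 := fun i => sum_units_pow_inv (m i) (a i) (hm i) (ha i)
  simp only [h2]
  split_ifs with h
  · subst h
    simp [Finset.card_univ]
  · obtain ⟨i, hi⟩ := Function.ne_iff.1 h
    exact Finset.prod_eq_zero (Finset.mem_univ i) (if_neg hi)

/-- Coefficient extraction, several variables. -/
theorem mvcoeff_eq_sum (Q : MvPolynomial σ (ZMod p)) (a : σ →₀ ℕ)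
    (hQ : ∀ i, Q.degreeOf i < p - 1) (ha : ∀ i, a i < p - 1) :
    Q.coeff a = (-1) ^ Fintype.card σ *
      ∑ x : σ → (ZMod p)ˣ, MvPolynomial.eval (fun i => (x i : ZMod p)) Q *
        ∏ i, ((x i : ZMod p)⁻¹) ^ a i := by
  have h1 : ∀ x : σ → (ZMod p)ˣ, MvPolynomial.eval (fun i => (x i : ZMod p)) Q *
        ∏ i, ((x i : ZMod p)⁻¹) ^ a i
      = ∑ m ∈ Q.support, Q.coeff m *
          ∏ i, ((x i : ZMod p) ^ m i * ((x i : ZMod p)⁻¹) ^ a i) := by
    intro x
    rw [MvPolynomial.eval_eq', Finset.sum_mul]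
    refine Finset.sum_congr rfl fun m _ => ?_
    rw [Finset.prod_mul_distrib]
    ring
  simp only [h1]
  rw [Finset.sum_comm]
  have h2 : ∀ m ∈ Q.support,
      ∑ x : σ → (ZMod p)ˣ, Q.coeff m *
          ∏ i, ((x i : ZMod p) ^ m i * ((x i : ZMod p)⁻¹) ^ a i)
        = if m = a then Q.coeff m * (-1) ^ Fintype.card σ else 0 := by
    intro m hm
    rw [← Finset.mul_sum, sum_units_monomial (fun i => m i) (fun i => a i)
      (fun i => lt_of_le_of_lt (MvPolynomial.degreeOf_le_iff.1 le_rfl m hm) (hQ i)) ha]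
    have h3 : ((fun i => m i) = fun i => a i) ↔ m = a := by
      constructor
      · intro h
        ext i
        exact congrFun h i
      · intro h
        rw [h]
    simp only [h3]
    split_ifs <;> simp
  rw [Finset.sum_congr rfl h2, Finset.sum_ite_eq' Q.support a]
  have h4 : ((-1 : ZMod p) ^ Fintype.card σ) * (-1) ^ Fintype.card σ = 1 := by
    rw [← mul_pow]; simp
  split_ifs with h
  · rw [mul_comm (Q.coeff a), ← mul_assoc, h4, one_mul]
  · rw [mul_zero]
    simpa using h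

end many

end Vale.Agent.P337
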