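import Vale.Agent.P337.Alg
import Vale.Agent.P337.CoefMod

/-!
# P337, T4f: the closed form of Newton's identities in `ZMod p`
-/

namespace Vale.Agent.P337

open Polynomial

namespace Closed

variable {p : ℕ} [Fact p.Prime]

/-- The truncated logarithm. -/
noncomputable def logPoly (D : ℕ) (s : ℕ → ZMod p) : (ZMod p)[X] :=
  ∑ l ∈ Finset.Icc 1 D, C ((-1) ^ (l - 1) * s l * ((l : ZMod p))⁻¹) * X ^ l

/-- The truncated exponential. -/
noncomputable def expPoly (D : ℕ) (s : ℕ → ZMod p) (n : ℕ) : (ZMod p)[X] :=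
  ∑ a ∈ Finset.range n, C ((a.factorial : ZMod p))⁻¹ * logPoly D s ^ a

theorem cast_ne_zero {n : ℕ} (h0 : 0 < n) (h1 : n < p) : (n : ZMod p) ≠ 0 := by
  intro h
  rw [ZMod.natCast_eq_zero_iff] at h
  exact absurd (Nat.le_of_dvd h0 h) (by omega)

theorem factorial_ne_zero {n : ℕ} (h1 : n < p) : (n.factorial : ZMod p) ≠ 0 := by
  intro h
  rw [ZMod.natCast_eq_zero_iff] at h
  have hp : p.Prime := Fact.out
  have := (hp.dvd_factorial).1 h
  omega

theorem coeff_logPoly (D : ℕ) (s : ℕ → ZMod p) (n : ℕ) :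
    (logPoly D s).coeff n
      = if 1 ≤ n ∧ n ≤ D then (-1) ^ (n - 1) * s n * ((n : ZMod p))⁻¹ else 0 := by
  unfold logPoly
  rw [finsetSum_coeff]
  simp only [coeff_C_mul_X_pow]
  rw [Finset.sum_ite_eq]
  simp only [Finset.mem_Icc]

theorem coeff_derivative_logPoly {D : ℕ} (s : ℕ → ZMod p) {i : ℕ} (hi : i < D) (hD : D < p) :
    (derivative (logPoly D s)).coeff i = (-1) ^ i * s (i + 1) := by
  rw [coeff_derivative, coeff_logPoly, if_pos ⟨by omega, by omega⟩]
  have h : ((i : ZMod p) + 1) ≠ 0 := by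
    have := cast_ne_zero (p := p) (n := i + 1) (by omega) (by omega)
    simpa using this
  rw [Nat.add_sub_cancel]
  push_cast
  rw [mul_assoc, inv_mul_cancel₀ h, mul_one]

theorem X_dvd_logPoly (D : ℕ) (s : ℕ → ZMod p) : X ∣ logPoly D s := by
  rw [X_dvd_iff, coeff_logPoly, if_neg (by omega)]

theorem derivative_expPoly {D : ℕ} (s : ℕ → ZMod p) {n : ℕ} (hn : n < p) :
    derivative (expPoly D s (n + 1)) = derivative (logPoly D s) * expPoly D s n := by
  induction n with
  | zero => simp [expPoly]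
  | succ n ih =>
    have e1 : expPoly D s (n + 1 + 1)
        = expPoly D s (n + 1) + C (((n + 1).factorial : ZMod p))⁻¹ * logPoly D s ^ (n + 1) := by
      unfold expPoly
      rw [Finset.sum_range_succ]
    have e2 : expPoly D s (n + 1)
        = expPoly D s n + C ((n.factorial : ZMod p))⁻¹ * logPoly D s ^ n := by
      unfold expPoly
      rw [Finset.sum_range_succ]
    rw [e1, derivative_add, ih (by omega), derivative_C_mul, derivative_pow, e2]
    have h1 : ((n.factorial : ZMod p))⁻¹ = (((n + 1).factorial : ZMod p))⁻¹ * (n + 1 : ℕ) := by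
      rw [Nat.factorial_succ]
      have ha : ((n + 1 : ℕ) : ZMod p) ≠ 0 := cast_ne_zero (by omega) (by omega)
      have hb : (n.factorial : ZMod p) ≠ 0 := factorial_ne_zero (by omega)
      rw [Nat.cast_mul]
      field_simp
    rw [h1, C_mul, Nat.add_sub_cancel]
    ring

theorem coeff_zero_expPoly (D : ℕ) (s : ℕ → ZMod p) (n : ℕ) :
    (expPoly D s (n + 1)).coeff 0 = 1 := by
  unfold expPoly
  rw [finsetSum_coeff, Finset.sum_range_succ']
  have h : ∀ a ∈ Finset.range n,
      (C (((a + 1).factorial : ZMod p))⁻¹ * logPoly D s ^ (a + 1)).coeff 0 = 0 := by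
    intro a _
    rw [← X_dvd_iff]
    exact Dvd.dvd.mul_left (dvd_pow (X_dvd_logPoly D s) (by omega)) _
  rw [Finset.sum_eq_zero h]
  simp

/-- The recursion satisfied by the coefficients of the truncated exponential. -/
theorem coeff_expPoly_succ {D : ℕ} (s : ℕ → ZMod p) (hD : D < p) {r : ℕ} (hr : r < D) :
    ((r : ZMod p) + 1) * (expPoly D s (D + 1)).coeff (r + 1)
      = ∑ i ∈ Finset.range (r + 1),
          (-1) ^ i * s (i + 1) * (expPoly D s (D + 1)).coeff (r - i) := by
  have h1 : derivative (expPoly D s (D + 1)) = derivative (logPoly D s) * expPoly D s D :=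
    derivative_expPoly s hD
  have h2 : expPoly D s (D + 1)
      = expPoly D s D + C ((D.factorial : ZMod p))⁻¹ * logPoly D s ^ D := by
    unfold expPoly
    rw [Finset.sum_range_succ]
  have h3 : derivative (expPoly D s (D + 1))
      = derivative (logPoly D s) * expPoly D s (D + 1)
        - derivative (logPoly D s) * C ((D.factorial : ZMod p))⁻¹ * logPoly D s ^ D := by
    rw [h1]
    conv_rhs => rw [h2]
    ring
  have h4 := congrArg (fun q : (ZMod p)[X] => q.coeff r) h3
  simp only [coeff_derivative, coeff_sub] at h4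
  have h5 : (derivative (logPoly D s) * C ((D.factorial : ZMod p))⁻¹ * logPoly D s ^ D).coeff r
      = 0 := by
    have hd : X ^ D ∣ derivative (logPoly D s) * C ((D.factorial : ZMod p))⁻¹ * logPoly D s ^ D :=
      Dvd.dvd.mul_left (pow_dvd_pow_of_dvd (X_dvd_logPoly D s) D) _
    exact (X_pow_dvd_iff.1 hd) r hr
  rw [h5, sub_zero, coeff_mul, Finset.Nat.sum_antidiagonal_eq_sum_range_succ_mk] at h4
  rw [mul_comm, h4]
  refine Finset.sum_congr rfl fun i hi => ?_
  rw [coeff_derivative_logPoly s (by have := Finset.mem_range.1 hi; omega) hD]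

theorem eh_eq_coeff {D : ℕ} (s : ℕ → ZMod p) (hD : D < p) (r : ℕ) (hr : r ≤ D) :
    eh s r = (r.factorial : ZMod p) * (expPoly D s (D + 1)).coeff r := by
  induction r using Nat.strong_induction_on with
  | _ r ih =>
    rcases r with _ | r
    · rw [coeff_zero_expPoly, eh]
      simp
    · rw [eh, Nat.factorial_succ, Nat.cast_mul, mul_assoc, mul_left_comm]
      push_cast
      rw [coeff_expPoly_succ s hD (by omega), Finset.mul_sum, Finset.sum_range]
      refine Finset.sum_congr rfl fun i _ => ?_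
      have hi : (i : ℕ) ≤ r := by have := i.2; omega
      rw [ih (r - i) (by omega) (by omega)]
      have h := Nat.factorial_mul_descFactorial hi
      have h' : (r.factorial : ZMod p) = ((r - i).factorial : ZMod p) * (r.descFactorial i : ZMod p) := by
        rw [← h]
        push_cast
        ring
      rw [h']
      ring

theorem natDegree_expPoly (D : ℕ) (s : ℕ → ZMod p) :
    (expPoly D s (D + 1)).natDegree ≤ D ^ 2 := by
  unfold expPoly
  refine natDegree_sum_le_of_forall_le _ _ fun a ha => ?_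
  refine (natDegree_C_mul_le _ _).trans (natDegree_pow_le.trans ?_)
  have h1 : (logPoly D s).natDegree ≤ D := by
    unfold logPoly
    refine natDegree_sum_le_of_forall_le _ _ fun l hl => ?_
    refine (natDegree_C_mul_X_pow_le _ _).trans (Finset.mem_Icc.1 hl).2
  have h2 : a ≤ D := by have := Finset.mem_range.1 ha; omega
  calc a * (logPoly D s).natDegree ≤ D * D := Nat.mul_le_mul h2 h1
    _ = D ^ 2 := by ring

end Closed

open Closed in
/-- [T4f] the closed form in `𝔽_p`: for `r ≤ D`, `D ^ 2 + 1 < p`,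
`eh s r = - r! ∑_{t ≠ 0} t^{-r} ∑_{a ≤ D} (1/a!) (∑_{1 ≤ l ≤ D} (-1)^{l-1} s_l t^l / l)^a` -/
theorem eh_closed {p : ℕ} [Fact p.Prime] {D : ℕ} (hp : D ^ 2 + 1 < p) (s : ℕ → ZMod p) {r : ℕ}
    (hr : r ≤ D) :
    eh s r = -(r.factorial : ZMod p) * ∑ t : (ZMod p)ˣ, ((t⁻¹ : (ZMod p)ˣ) : ZMod p) ^ r *
      ∑ a ∈ Finset.range (D + 1), ((a.factorial : ZMod p))⁻¹ *
        (∑ l ∈ Finset.Icc 1 D, (-1) ^ (l - 1) * s l * (t : ZMod p) ^ l * ((l : ZMod p))⁻¹) ^ a := by
  have hD : D < p := by nlinarith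
  have hD1 : r < p - 1 := by
    rcases Nat.eq_zero_or_pos D with h | h
    · subst h
      have hp2 : 2 ≤ p := (Fact.out : p.Prime).two_le
      omega
    · have : D ≤ D ^ 2 := by nlinarith
      omega
  rw [eh_eq_coeff s hD r hr, coeff_eq_neg_sum _ r
    (lt_of_le_of_lt (natDegree_expPoly D s) (by omega)) hD1, mul_neg, neg_mul]
  congr 2
  refine Finset.sum_congr rfl fun t _ => ?_
  rw [mul_comm, Units.val_inv_eq_inv_val]
  congr 1
  unfold expPoly logPoly
  rw [eval_finsetSum]
  refine Finset.sum_congr rfl fun a _ => ?_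
  rw [eval_mul, eval_C, eval_pow, eval_finsetSum]
  congr 2
  refine Finset.sum_congr rfl fun l _ => ?_
  rw [eval_mul, eval_C, eval_pow, eval_X]
  ring

end Vale.Agent.P337
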