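import Vale.Agent.P337.Defs

/-!
# P337: counting strings of a given length
-/

namespace Vale.Agent.P337

/-- the number of strings of length `n` with the property `P` -/
noncomputable def cnt (n : ℕ) (P : List Bool → Prop) : ℕ :=
  Nat.card {y : List Bool // y.length = n ∧ P y}

instance finite_len (n : ℕ) (P : List Bool → Prop) : Finite {y : List Bool // y.length = n ∧ P y} :=
  ((List.finite_length_eq Bool n).subset fun _ hy => hy.1).to_subtype

theorem cnt_congr {n : ℕ} {P Q : List Bool → Prop} (h : ∀ y, y.length = n → (P y ↔ Q y)) :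
    cnt n P = cnt n Q := by
  unfold cnt
  congr 1
  congr 1
  funext y
  exact propext ⟨fun ⟨h1, h2⟩ => ⟨h1, (h y h1).1 h2⟩, fun ⟨h1, h2⟩ => ⟨h1, (h y h1).2 h2⟩⟩

open Classical in
theorem cnt_zero (P : List Bool → Prop) : cnt 0 P = if P [] then 1 else 0 := by
  unfold cnt
  split_ifs with h
  · rw [Nat.card_eq_one_iff_exists]
    refine ⟨⟨[], rfl, h⟩, ?_⟩
    rintro ⟨y, hy, _⟩
    exact Subtype.ext (List.length_eq_zero_iff.1 hy)
  · rw [Nat.card_eq_zero]
    left
    constructor
    rintro ⟨y, hy, h'⟩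
    rw [List.length_eq_zero_iff.1 hy] at h'
    exact h h'

theorem cnt_succ (n : ℕ) (P : List Bool → Prop) :
    cnt (n + 1) P = cnt n (fun y => P (true :: y)) + cnt n (fun y => P (false :: y)) := by
  unfold cnt
  rw [← Nat.card_sum]
  apply Nat.card_congr
  refine ⟨fun y => match y with
    | ⟨[], h⟩ => absurd h.1 (by simp)
    | ⟨true :: y, h⟩ => Sum.inl ⟨y, by simpa using h.1, h.2⟩
    | ⟨false :: y, h⟩ => Sum.inr ⟨y, by simpa using h.1, h.2⟩,
    fun z => match z with
    | Sum.inl y => ⟨true :: y.1, by simpa using y.2.1, y.2.2⟩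
    | Sum.inr y => ⟨false :: y.1, by simpa using y.2.1, y.2.2⟩, ?_, ?_⟩
  · rintro ⟨_ | ⟨_ | _, y⟩, h⟩
    · exact absurd h.1 (by simp)
    · rfl
    · rfl
  · rintro (⟨y, h⟩ | ⟨y, h⟩) <;> rfl

theorem cnt_true (n : ℕ) : cnt n (fun _ => True) = 2 ^ n := by
  induction n with
  | zero => simp [cnt_zero]
  | succ n ih => rw [cnt_succ, ih, pow_succ]; ring

theorem cnt_false (n : ℕ) : cnt n (fun _ => False) = 0 := by
  induction n with
  | zero => simp [cnt_zero]
  | succ n ih => rw [cnt_succ, ih]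

theorem cnt_add_not (n : ℕ) (P : List Bool → Prop) :
    cnt n P + cnt n (fun y => ¬ P y) = 2 ^ n := by
  induction n generalizing P with
  | zero =>
    by_cases h : P [] <;> simp [cnt_zero, h]
  | succ n ih =>
    rw [cnt_succ, cnt_succ, pow_succ]
    have h1 := ih fun y => P (true :: y)
    have h2 := ih fun y => P (false :: y)
    omega

theorem cnt_le (n : ℕ) (P : List Bool → Prop) : cnt n P ≤ 2 ^ n := by
  have := cnt_add_not n P
  omega

theorem cnt_take (n m : ℕ) (P : List Bool → Prop) :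
    cnt (n + m) (fun y => P (y.take n)) = cnt n P * 2 ^ m := by
  induction n generalizing P with
  | zero =>
    by_cases h : P []
    · simp [cnt_zero, h, cnt_true]
    · simp [cnt_zero, h, cnt_false]
  | succ n ih =>
    rw [show n + 1 + m = (n + m) + 1 by omega, cnt_succ, cnt_succ]
    simp only [List.take_succ_cons]
    rw [ih fun y => P (true :: y), ih fun y => P (false :: y), add_mul]

theorem cnt_tail (n : ℕ) (P : List Bool → Prop) :
    cnt (n + 1) (fun y => P y.tail) = 2 * cnt n P := by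
  rw [cnt_succ]
  simp only [List.tail_cons]
  ring

theorem cnt_pos {n : ℕ} {P : List Bool → Prop} : 0 < cnt n P ↔ ∃ y, y.length = n ∧ P y := by
  unfold cnt
  rw [Nat.card_pos_iff]
  constructor
  · rintro ⟨⟨y, hy⟩, _⟩
    exact ⟨y, hy⟩
  · rintro ⟨y, hy⟩
    exact ⟨⟨⟨y, hy⟩⟩, inferInstance⟩

theorem cnt_mono {n : ℕ} {P Q : List Bool → Prop} (h : ∀ y, y.length = n → P y → Q y) :
    cnt n P ≤ cnt n Q := by
  unfold cnt
  exact Nat.card_le_card_of_injective
    (fun y : {y : List Bool // y.length = n ∧ P y} =>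
      (⟨y.1, y.2.1, h _ y.2.1 y.2.2⟩ : {y : List Bool // y.length = n ∧ Q y}))
    (fun a b hab => Subtype.ext (congrArg (fun z => z.1) hab))

/-- splitting a string into two parts -/
theorem cnt_append (n m : ℕ) (P : List Bool → List Bool → Prop) :
    cnt (n + m) (fun y => P (y.take n) (y.drop n)) =
      Nat.card {z : List Bool × List Bool // z.1.length = n ∧ z.2.length = m ∧ P z.1 z.2} := by
  unfold cnt
  apply Nat.card_congr
  refine ⟨fun y => ⟨(y.1.take n, y.1.drop n), ?_, ?_, y.2.2⟩,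
    fun z => ⟨z.1.1 ++ z.1.2, ?_, ?_⟩, ?_, ?_⟩
  · simp [y.2.1]
  · simp [y.2.1]
  · simp [z.2.1, z.2.2.1]
  · have h1 : (z.1.1 ++ z.1.2).take n = z.1.1 := List.take_left' z.2.1
    have h2 : (z.1.1 ++ z.1.2).drop n = z.1.2 := List.drop_left' z.2.1
    simp only [h1, h2]
    exact z.2.2.2
  · intro y
    exact Subtype.ext (List.take_append_drop n y.1)
  · rintro ⟨⟨a, b⟩, h1, h2, h3⟩
    apply Subtype.ext
    simp only at h1
    subst h1
    simp

end Vale.Agent.P337
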