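import Vale.Agent.P337.Sys
import Vale.Agent.P337.TauMap
import Vale.Agent.P337.CharP
import Vale.Agent.P337.Trace

/-!
# P337, piece E1: `ehJ` and the determinant, `wU` and the characteristic polynomial
-/

namespace Vale.Agent.P337

open MvPolynomial

variable {N : ℕ}

section field
variable {k : Type*} [Field k] [CharZero k]

/-- the power sums of the multiplication by `g` -/
theorem trace_pow_eq {m E : ℕ} (hm : 0 < m)
    {fs : Fin N → MvPolynomial (Fin N) k} (hf : ∀ i, (fs i).totalDegree < m)
    (g : MvPolynomial (Fin N) k) {l : ℕ} (hE : l * g.totalDegree + N * (m - 1) ≤ E) :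
    LinearMap.trace k (SysA m fs) (LinearMap.mulLeft k (cls m fs g) ^ l) =
      tau m E fs (g ^ l * jac m fs) := by
  have hdeg : (g ^ l).totalDegree ≤ l * g.totalDegree := totalDegree_pow g l
  rw [← trace_eq hm hf (g ^ l) (by omega)]
  have h : cls m fs (g ^ l) = cls m fs g ^ l := map_pow _ _ _
  rw [h, LinearMap.pow_mulLeft]

theorem ehJ_eq_eh {m E : ℕ} (hm : 0 < m)
    {fs : Fin N → MvPolynomial (Fin N) k} (hf : ∀ i, (fs i).totalDegree < m)
    (g : MvPolynomial (Fin N) k) {r : ℕ} (hE : r * g.totalDegree + N * (m - 1) ≤ E) :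
    ehJ m E fs g r =
      eh (fun l => LinearMap.trace k (SysA m fs) (LinearMap.mulLeft k (cls m fs g) ^ l)) r := by
  unfold ehJ
  refine eh_congr fun l _ hl => ?_
  refine (trace_pow_eq hm hf g ?_).symm
  have : l * g.totalDegree ≤ r * g.totalDegree := Nat.mul_le_mul_right _ hl
  omega

/-- [E1] `ehJ g D = D! det (M_g)` -/
theorem ehJ_det {m E : ℕ} (hm : 0 < m)
    {fs : Fin N → MvPolynomial (Fin N) k} (hf : ∀ i, (fs i).totalDegree < m)
    (g : MvPolynomial (Fin N) k) (hE : m ^ N * g.totalDegree + N * (m - 1) ≤ E) :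
    ehJ m E fs g (m ^ N) =
      ((m ^ N).factorial : k) * LinearMap.det (LinearMap.mulLeft k (cls m fs g)) := by
  have := sysA_finite hm hf
  rw [ehJ_eq_eh hm hf g hE]
  have h := eh_det (LinearMap.mulLeft k (cls m fs g))
  rw [finrank_eq hm hf] at h
  exact h

end field

/-- naturality of `ehJ` -/
theorem ehJ_natural74 {R S : Type*} [CommRing R] [CommRing S] (φ : R →+* S) (m E : ℕ)
    (fs : Fin N → MvPolynomial (Fin N) R) (g : MvPolynomial (Fin N) R) (r : ℕ) :
    ehJ m E (fun i => map φ (fs i)) (map φ g) r = φ (ehJ m E fs g r) := by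
  unfold ehJ
  rw [← eh_map]
  congr 1
  funext l
  rw [jac_map, ← map_pow, ← map_mul, tau_map]

/-- [E3] `w_{i,r}(u)` is a derivative of the characteristic polynomial of `x_i` -/
theorem wU_eval {m E : ℕ} (hm : 0 < m) {fs : Fin N → MvPolynomial (Fin N) ℝ}
    (hf : ∀ i, (fs i).totalDegree < m) [Module.Finite ℝ (SysA m fs)] (i : Fin N) {r : ℕ} (hr : r ≤ m ^ N)
    (hE : m ^ N + N * (m - 1) ≤ E) (u : ℝ) :
    ((m ^ N - r).factorial : ℝ) * (wU m E fs i r).eval u = ((m ^ N).factorial : ℝ) *
      (Polynomial.derivative^[m ^ N - r]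
        (LinearMap.mulLeft ℝ (cls m fs (X i))).charpoly).eval u := by
  have h1 : (wU m E fs i r).eval u =
      (((m ^ N).factorial / r.factorial : ℕ) : ℝ) * ehJ m E fs (C u - X i) r := by
    unfold wU
    rw [Polynomial.eval_mul, Polynomial.eval_C]
    congr 1
    have h := ehJ_natural74 (Polynomial.evalRingHom u) m E (fun j => map Polynomial.C (fs j))
      (C Polynomial.X - X i) r
    rw [Polynomial.coe_evalRingHom] at h
    rw [← h]
    have h2 : (fun j => map (Polynomial.evalRingHom u) (map Polynomial.C (fs j))) = fs := by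
      funext j
      rw [map_map]
      have : (Polynomial.evalRingHom u).comp Polynomial.C = RingHom.id ℝ := by
        ext x; simp
      rw [this, map_id]
    have h3 : map (Polynomial.evalRingHom u) (C Polynomial.X - X i : MvPolynomial (Fin N) _) =
        C u - X i := by simp
    rw [h2, h3]
  have hdeg : (C u - X i : MvPolynomial (Fin N) ℝ).totalDegree ≤ 1 := by
    refine (totalDegree_sub _ _).trans ?_
    simp [totalDegree_C, totalDegree_X]
  have hrE : r * (C u - X i : MvPolynomial (Fin N) ℝ).totalDegree + N * (m - 1) ≤ E := by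
    have : r * (C u - X i : MvPolynomial (Fin N) ℝ).totalDegree ≤ m ^ N * 1 :=
      Nat.mul_le_mul hr hdeg
    omega
  have h4 : LinearMap.mulLeft ℝ (cls m fs (C u - X i)) =
      algebraMap ℝ (Module.End ℝ (SysA m fs)) u - LinearMap.mulLeft ℝ (cls m fs (X i)) := by
    have h5 : cls m fs (C u - X i) = algebraMap ℝ (SysA m fs) u - cls m fs (X i) :=
      (map_sub (Ideal.Quotient.mk (sysI m fs)) _ _).trans rfl
    refine LinearMap.ext fun x => ?_
    rw [h5, LinearMap.mulLeft_apply, LinearMap.sub_apply, Module.algebraMap_end_apply,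
      LinearMap.mulLeft_apply, sub_mul]
    exact congrArg (fun z => z - cls m fs (X i) * x) (Algebra.smul_def u x).symm
  have hfin := finrank_eq hm hf
  have h5 := eh_derivative (LinearMap.mulLeft ℝ (cls m fs (X i))) u (r := r) (by rw [hfin]; exact hr)
  rw [hfin] at h5
  rw [h1, ehJ_eq_eh hm hf _ hrE, h4]
  have h6 : ((m ^ N).factorial : ℝ) = (((m ^ N).factorial / r.factorial : ℕ) : ℝ) * r.factorial := by
    rw [← Nat.cast_mul, Nat.div_mul_cancel (Nat.factorial_dvd_factorial hr)]
  rw [h6]
  linear_combination (((m ^ N).factorial / r.factorial : ℕ) : ℝ) * h5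

end Vale.Agent.P337
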