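import Vale.Agent.P337.Alg

/-!
# P337 [T4a]: Newton's identities for `eh`
-/

namespace Vale.Agent.P337

open Finset

theorem eh_zero {R : Type*} [CommRing R] (s : ℕ → R) : eh s 0 = 1 := by
  rw [eh]

theorem eh_succ {R : Type*} [CommRing R] (s : ℕ → R) (r : ℕ) :
    eh s (r + 1) = ∑ i ∈ range (r + 1),
      (-1) ^ i * (r.descFactorial i : R) * eh s (r - i) * s (i + 1) := by
  rw [eh]
  exact Fin.sum_univ_eq_sum_range
    (fun i => (-1) ^ i * (r.descFactorial i : R) * eh s (r - i) * s (i + 1)) (r + 1)

theorem esymm_newton {R ι : Type*} [CommRing R] [Fintype ι] (a : ι → R) (r : ℕ) :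
    ((r + 1 : ℕ) : R) * (Finset.univ.val.map a).esymm (r + 1) =
      ∑ i ∈ range (r + 1), (-1) ^ i * (Finset.univ.val.map a).esymm (r - i) *
        (∑ j, a j ^ (i + 1)) := by
  classical
  have h := congrArg (MvPolynomial.aeval a) (MvPolynomial.mul_esymm_eq_sum ι R (r + 1))
  simp only [map_mul, map_natCast, map_sum, map_pow, map_neg, map_one,
    MvPolynomial.aeval_esymm_eq_multiset_esymm, MvPolynomial.psum, MvPolynomial.aeval_X] at h
  rw [h, Finset.mul_sum]
  refine Finset.sum_bij' (fun x _ => r - x.1) (fun i _ => (r - i, i + 1)) ?_ ?_ ?_ ?_ ?_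
  · rintro ⟨x, y⟩ hx
    simp only [mem_filter, Finset.HasAntidiagonal.mem_antidiagonal] at hx
    simp only [mem_range]
    omega
  · intro i hi
    simp only [mem_range] at hi
    simp only [mem_filter, Finset.HasAntidiagonal.mem_antidiagonal]
    omega
  · rintro ⟨x, y⟩ hx
    simp only [mem_filter, Finset.HasAntidiagonal.mem_antidiagonal] at hx
    simp only [Prod.mk.injEq]
    omega
  · intro i hi
    simp only [mem_range] at hi
    show r - (r - i) = i
    omega
  · rintro ⟨x, y⟩ hx
    simp only [mem_filter, Finset.HasAntidiagonal.mem_antidiagonal] at hx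
    have h1 : r - (r - x) = x := by omega
    have h2 : r - x + 1 = y := by omega
    have h3 : (-1 : R) ^ (r + 1 + 1) * (-1) ^ x = (-1) ^ (r - x) := by
      rw [← pow_add]
      have : r + 1 + 1 + x = (r - x) + 2 * (x + 1) := by omega
      rw [this, pow_add, pow_mul]
      simp
    simp only [h1, h2]
    rw [← h3]
    ring

/-- [T4a] -/
theorem eh_family {R ι : Type*} [CommRing R] [Fintype ι] (a : ι → R) (r : ℕ) :
    eh (fun l => ∑ i, a i ^ l) r = (r.factorial : R) * (Finset.univ.val.map a).esymm r := by
  induction r using Nat.strong_induction_on with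
  | _ r ih =>
    rcases r with _ | r
    · rw [eh_zero]
      simp [Multiset.esymm]
    · rw [eh_succ, Nat.factorial_succ, mul_comm (r + 1), Nat.cast_mul, mul_assoc, esymm_newton,
        Finset.mul_sum]
      refine Finset.sum_congr rfl fun i hi => ?_
      have hi' : i ≤ r := by
        have := Finset.mem_range.1 hi
        omega
      rw [ih (r - i) (by omega)]
      have : (r.factorial : R) = (r.descFactorial i : R) * ((r - i).factorial : R) := by
        rw [← Nat.cast_mul, mul_comm, Nat.factorial_mul_descFactorial hi']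
      rw [this]
      ring

theorem eh_map {R S : Type*} [CommRing R] [CommRing S] (φ : R →+* S) (s : ℕ → R) (r : ℕ) :
    eh (fun l => φ (s l)) r = φ (eh s r) := by
  induction r using Nat.strong_induction_on with
  | _ r ih =>
    rcases r with _ | r
    · rw [eh_zero, eh_zero, map_one]
    · rw [eh_succ, eh_succ, map_sum]
      refine Finset.sum_congr rfl fun i hi => ?_
      rw [ih (r - i) (by omega)]
      simp

/-- `eh s r` depends only on `s 1, ..., s r` -/
theorem eh_congr {R : Type*} [CommRing R] {s s' : ℕ → R} {r : ℕ}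
    (h : ∀ l, 1 ≤ l → l ≤ r → s l = s' l) : eh s r = eh s' r := by
  induction r using Nat.strong_induction_on with
  | _ r ih =>
    rcases r with _ | r
    · rw [eh_zero, eh_zero]
    · rw [eh_succ, eh_succ]
      refine Finset.sum_congr rfl fun i hi => ?_
      have hi' := Finset.mem_range.1 hi
      rw [ih (r - i) (by omega) (fun l h1 h2 => h l h1 (by omega)), h (i + 1) (by omega) (by omega)]

theorem asc_identity (a r : ℕ) :
    a * ∑ i ∈ range (r + 1), r.descFactorial i * a.ascFactorial (r - i) =
      a.ascFactorial (r + 1) := by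
  induction r with
  | zero => simp [Nat.ascFactorial]
  | succ r ih =>
    rw [Finset.sum_range_succ', Nat.descFactorial_zero, Nat.sub_zero, one_mul]
    have h : ∑ i ∈ range (r + 1), (r + 1).descFactorial (i + 1) * a.ascFactorial (r + 1 - (i + 1))
        = (r + 1) * ∑ i ∈ range (r + 1), r.descFactorial i * a.ascFactorial (r - i) := by
      rw [Finset.mul_sum]
      refine Finset.sum_congr rfl fun i _ => ?_
      rw [Nat.succ_descFactorial_succ, Nat.add_sub_add_right, mul_assoc]
    rw [h, mul_add, mul_left_comm, ih, Nat.ascFactorial_succ (k := r + 1)]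
    ring

/-- [T4e] a bound: `|s_l| ≤ a Λ^l` for `1 ≤ l ≤ r` implies `|eh s r| ≤ a(a+1)...(a+r-1) Λ^r` -/
theorem eh_bound {R : Type*} [CommRing R] (ν : R → ℝ) (h0 : ν 0 = 0) (h1 : ν 1 ≤ 1)
    (hnn : ∀ x, 0 ≤ ν x) (hneg : ∀ x, ν (-x) = ν x) (hadd : ∀ x y, ν (x + y) ≤ ν x + ν y)
    (hmul : ∀ x y, ν (x * y) ≤ ν x * ν y) (s : ℕ → R) (a : ℕ) (Λ : ℝ) (hΛ : 0 ≤ Λ) (r : ℕ)
    (hs : ∀ l, 1 ≤ l → l ≤ r → ν (s l) ≤ a * Λ ^ l) :
    ν (eh s r) ≤ (a.ascFactorial r : ℝ) * Λ ^ r := by
  have hsum : ∀ (t : Finset ℕ) (g : ℕ → R), ν (∑ i ∈ t, g i) ≤ ∑ i ∈ t, ν (g i) := by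
    intro t g
    induction t using Finset.induction_on with
    | empty => simp [h0]
    | insert i t hi ih =>
      rw [Finset.sum_insert hi, Finset.sum_insert hi]
      exact (hadd _ _).trans (by gcongr)
  have hnat : ∀ n : ℕ, ν (n : R) ≤ n := by
    intro n
    induction n with
    | zero => simp [h0]
    | succ n ih =>
      rw [Nat.cast_succ, Nat.cast_succ]
      exact (hadd _ _).trans (add_le_add ih h1)
  have hsign : ∀ (i : ℕ) (x : R), ν ((-1) ^ i * x) = ν x := by
    intro i x
    rcases neg_one_pow_eq_or R i with h | h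
    · rw [h, one_mul]
    · rw [h, neg_one_mul, hneg]
  induction r using Nat.strong_induction_on with
  | _ r ih =>
    rcases r with _ | r
    · rw [eh_zero]
      simpa [Nat.ascFactorial] using h1
    · rw [eh_succ, ← asc_identity]
      refine (hsum _ _).trans ?_
      push_cast
      rw [Finset.mul_sum, Finset.sum_mul]
      refine Finset.sum_le_sum fun i hi => ?_
      have hi' := Finset.mem_range.1 hi
      have e1 := ih (r - i) (by omega) (fun l h1 h2 => hs l h1 (by omega))
      have e2 := hs (i + 1) (by omega) (by omega)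
      calc ν ((-1) ^ i * (r.descFactorial i : R) * eh s (r - i) * s (i + 1))
          = ν ((-1) ^ i * ((r.descFactorial i : R) * eh s (r - i) * s (i + 1))) := by
            congr 1
            ring
        _ = ν ((r.descFactorial i : R) * eh s (r - i) * s (i + 1)) := hsign _ _
        _ ≤ ν ((r.descFactorial i : R)) * ν (eh s (r - i)) * ν (s (i + 1)) :=
            (hmul _ _).trans (mul_le_mul_of_nonneg_right (hmul _ _) (hnn _))
        _ ≤ (r.descFactorial i : ℝ) * ((a.ascFactorial (r - i) : ℝ) * Λ ^ (r - i)) *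
              (a * Λ ^ (i + 1)) := by
            gcongr
            · exact hnn _
            · exact hnn _
            · exact hnat _
        _ = (a : ℝ) * ((r.descFactorial i : ℝ) * (a.ascFactorial (r - i) : ℝ)) * Λ ^ (r + 1) := by
            have : Λ ^ (r + 1) = Λ ^ (r - i) * Λ ^ (i + 1) := by
              rw [← pow_add]
              congr 1
              omega
            rw [this]
            ring

end Vale.Agent.P337
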