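import Vale.Agent.P337.Sys
import Vale.Agent.P337.TauMap
import Vale.Agent.P337.Newton

/-!
# P337: every definition of `Sys.lean` is compatible with ring homomorphisms
-/

namespace Vale.Agent.P337

open MvPolynomial

variable {R S : Type*} [CommRing R] [CommRing S] {N : ℕ}

theorem map_fK (φ : R →+* S) (f : MvPolynomial (Fin N) R) (K c : R) (i : Fin N) :
    map φ (fK f K c i) = fK (map φ f) (φ K) (φ c) i := by
  simp only [fK, map_sub, map_mul, map_C, pderiv_map]

theorem map_sysF (φ : R →+* S) (m : ℕ) (f : Fin N → MvPolynomial (Fin N) R) (i : Fin N) :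
    map φ (sysF m f i) = sysF m (fun j => map φ (f j)) i := (sysF_map φ m f i).symm

theorem map_Hp (φ : R →+* S) (m : ℕ) (f : MvPolynomial (Fin N) R) (K c : R) :
    map φ (Hp m f K c) = Hp m (map φ f) (φ K) (φ c) := by
  simp only [Hp, map_sub, map_add, map_mul, map_C, map_sum, map_pow, map_X, map_natCast, map_one]

theorem map_ehJ (φ : R →+* S) (m E : ℕ) (fs : Fin N → MvPolynomial (Fin N) R)
    (g : MvPolynomial (Fin N) R) (r : ℕ) :
    φ (ehJ m E fs g r) = ehJ m E (fun i => map φ (fs i)) (map φ g) r := by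
  unfold ehJ
  rw [← eh_map]
  congr 1
  funext l
  rw [← tau_map, jac_map, map_mul, map_pow]

theorem map_wU (φ : R →+* S) (m E : ℕ) (fs : Fin N → MvPolynomial (Fin N) R) (i : Fin N) (r : ℕ) :
    Polynomial.map φ (wU m E fs i r) = wU m E (fun j => map φ (fs j)) i r := by
  unfold wU
  rw [Polynomial.map_mul, Polynomial.map_C, map_natCast, ← Polynomial.coe_mapRingHom, map_ehJ]
  congr 2
  · funext j
    have h : (Polynomial.mapRingHom φ).comp Polynomial.C = Polynomial.C.comp φ := by
      ext a
      simp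
    rw [map_map, map_map, h]
  · simp

theorem map_wP (φ : R →+* S) (m E : ℕ) (fs : Fin N → MvPolynomial (Fin N) R) (i : Fin N) (r : ℕ) :
    map φ (wP m E fs i r) = wP m E (fun j => map φ (fs j)) i r := by
  unfold wP
  rw [← map_wU, Polynomial.aeval_def, Polynomial.aeval_def, Polynomial.hom_eval₂,
    Polynomial.eval₂_map, map_X]
  congr 1
  ext a
  simp [MvPolynomial.algebraMap_eq]

theorem map_sgn (φ : R →+* S) (b : ℕ) : φ (sgn b) = sgn b := by
  unfold sgn
  split_ifs <;> simp

theorem map_condP [NeZero N] (φ : R →+* S) (m E B : ℕ) (fs : Fin N → MvPolynomial (Fin N) R)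
    (e : ℕ) : map φ (condP m E B fs e) = condP m E B (fun j => map φ (fs j)) e := by
  simp only [condP, map_sub, map_mul, map_pow, map_ofNat, map_one, map_wP, map_sgn]

theorem map_tP [NeZero N] (φ : R →+* S) (m E B : ℕ) (f : MvPolynomial (Fin N) R) (c cc s : ℕ) :
    map φ (tP m E B f c cc s) = tP m E B (map φ f) c cc s := by
  unfold tP
  split_ifs with h
  · simp only [map_sub, map_mul, map_pow, map_ofNat, map_one, map_Hp, map_natCast]
  · rw [map_condP]
    congr 1
    funext j
    simp only [map_fK, map_pow, map_ofNat, map_natCast]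

theorem map_gP [NeZero N] (φ : R →+* S) (m E B : ℕ) (f : MvPolynomial (Fin N) R)
    (c k cc j : ℕ) : map φ (gP m E B f c k cc j) = gP m E B (map φ f) c k cc j := by
  simp only [gP, map_neg, map_add, map_mul, map_gg, map_tP, map_pow, map_ofNat,
    map_one, map_natCast]

theorem map_XX [NeZero N] (φ : R →+* S) (m E B : ℕ) (f : MvPolynomial (Fin N) R)
    (c k cc j : ℕ) : φ (XX m E B f c k cc j) = XX m E B (map φ f) c k cc j := by
  unfold XX
  rw [map_ehJ, map_gP]
  congr 1
  funext i
  simp only [map_fK, map_pow, map_ofNat, map_natCast]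

end Vale.Agent.P337
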