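import Mathlib

/-!
P337, pieces [R-Thom]: Thom's lemma and the halving lemma.
-/

namespace P337

open Polynomial

/-- Core of Thom's lemma: if all derivatives of `p` have equal signs at `x < y`, the sign of `p`
is constant on `[x, y]`. -/
theorem sign_const_of_derivs (n : ℕ) : ∀ (p : ℝ[X]), p.natDegree ≤ n → ∀ x y : ℝ, x < y →
    (∀ r, SignType.sign ((derivative^[r] p).eval x) = SignType.sign ((derivative^[r] p).eval y)) →
    ∀ z, x ≤ z → z ≤ y → SignType.sign (p.eval z) = SignType.sign (p.eval x) := by
  induction n with
  | zero =>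
    intro p hp x y _ _ z _ _
    have h0 : p = C (p.coeff 0) := Polynomial.eq_C_of_natDegree_le_zero hp
    rw [h0]; simp
  | succ n ih =>
    intro p hp x y hxy hs z hxz hzy
    have hd : (derivative p).natDegree ≤ n := by
      have := Polynomial.natDegree_derivative_le p
      omega
    have hs' : ∀ r, SignType.sign ((derivative^[r] (derivative p)).eval x)
        = SignType.sign ((derivative^[r] (derivative p)).eval y) := by
      intro r
      have := hs (r + 1)
      simpa [Function.iterate_succ_apply] using this
    have hder := ih (derivative p) hd x y hxy hs'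
    have h0 : SignType.sign (p.eval x) = SignType.sign (p.eval y) := by simpa using hs 0
    rcases eq_or_lt_of_le hxz with rfl | hxz'
    · rfl
    rcases eq_or_lt_of_le hzy with rfl | hzy'
    · exact h0.symm
    rcases lt_trichotomy ((derivative p).eval x) 0 with hneg | hzero | hpos
    · -- strictly decreasing
      have hanti : StrictAntiOn (fun t => p.eval t) (Set.Icc x y) := by
        apply strictAntiOn_of_deriv_neg (convex_Icc x y) p.continuous.continuousOn
        intro t ht
        rw [interior_Icc] at ht
        have h1 := hder t ht.1.le ht.2.le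
        rw [sign_neg hneg, sign_eq_neg_one_iff] at h1
        simpa using h1
      have h1 : p.eval z < p.eval x := hanti ⟨le_refl _, hxy.le⟩ ⟨hxz, hzy⟩ hxz'
      have h2 : p.eval y < p.eval z := hanti ⟨hxz, hzy⟩ ⟨hxy.le, le_refl _⟩ hzy'
      rcases lt_trichotomy (p.eval x) 0 with h | h | h
      · rw [sign_neg h, sign_neg (h1.trans h)]
      · rw [h, sign_zero] at h0
        have := (sign_eq_zero_iff).1 h0.symm
        linarith
      · rw [sign_pos h] at h0
        have := (sign_eq_one_iff).1 h0.symm
        rw [sign_pos h, sign_pos (this.trans h2)]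
    · -- constant
      have hconst : ∀ t ∈ Set.Icc x y, (derivative p).eval t = 0 := by
        intro t ht
        have h1 := hder t ht.1 ht.2
        rw [hzero, sign_zero, sign_eq_zero_iff] at h1
        exact h1
      have hinf : Set.Infinite {t | (derivative p).IsRoot t} := by
        apply (Set.Icc_infinite hxy).mono
        intro t ht
        exact hconst t ht
      have hd0 : derivative p = 0 := Polynomial.eq_zero_of_infinite_isRoot _ hinf
      have : p.natDegree = 0 := by
        exact Polynomial.derivative_eq_zero.1 hd0
      rw [Polynomial.eq_C_of_natDegree_eq_zero this]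
      simp
    · have hmono : StrictMonoOn (fun t => p.eval t) (Set.Icc x y) := by
        apply strictMonoOn_of_deriv_pos (convex_Icc x y) p.continuous.continuousOn
        intro t ht
        rw [interior_Icc] at ht
        have h1 := hder t ht.1.le ht.2.le
        rw [sign_pos hpos, sign_eq_one_iff] at h1
        simpa using h1
      have h1 : p.eval x < p.eval z := hmono ⟨le_refl _, hxy.le⟩ ⟨hxz, hzy⟩ hxz'
      have h2 : p.eval z < p.eval y := hmono ⟨hxz, hzy⟩ ⟨hxy.le, le_refl _⟩ hzy'
      rcases lt_trichotomy (p.eval x) 0 with h | h | h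
      · rw [sign_neg h] at h0
        have := (sign_eq_neg_one_iff).1 h0.symm
        rw [sign_neg h, sign_neg (h2.trans this)]
      · rw [h, sign_zero] at h0
        have := (sign_eq_zero_iff).1 h0.symm
        linarith
      · rw [sign_pos h, sign_pos (h.trans h1)]

/-- **Thom's lemma** (for roots), with iterated derivatives. -/
theorem thom_derivs (p : ℝ[X]) (hp : p ≠ 0) (x y : ℝ) (hxy : x ≠ y)
    (hx : p.eval x = 0) (hy : p.eval y = 0) :
    ∃ r, SignType.sign ((derivative^[r] p).eval x) ≠ SignType.sign ((derivative^[r] p).eval y) := by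
  by_contra hcon
  push Not at hcon
  wlog hlt : x < y with H
  · exact H p hp y x hxy.symm hy hx (fun r => (hcon r).symm)
      (lt_of_le_of_ne (not_lt.1 hlt) hxy.symm)
  have h1 := sign_const_of_derivs p.natDegree p le_rfl x y hlt hcon
  apply hp
  apply Polynomial.eq_zero_of_infinite_isRoot
  apply (Set.Icc_infinite hlt).mono
  intro t ht
  have h2 := h1 t ht.1 ht.2
  rw [hx, sign_zero, sign_eq_zero_iff] at h2
  exact h2

/-- **Thom's lemma** with the coefficients of the Taylor expansion. -/
theorem thom_taylor (p : ℝ[X]) (hp : p ≠ 0) (x y : ℝ) (hxy : x ≠ y)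
    (hx : p.eval x = 0) (hy : p.eval y = 0) :
    ∃ r, r < p.natDegree ∧
      SignType.sign ((taylor x p).coeff r) ≠ SignType.sign ((taylor y p).coeff r) := by
  obtain ⟨r, hr⟩ := thom_derivs p hp x y hxy hx hy
  have hkey : ∀ t : ℝ, SignType.sign ((taylor t p).coeff r)
      = SignType.sign ((derivative^[r] p).eval t) := by
    intro t
    rw [Polynomial.taylor_coeff]
    have h1 : (r.factorial : ℝ) * (hasseDeriv r p).eval t = (derivative^[r] p).eval t := by
      have h2 := Polynomial.factorial_smul_hasseDeriv (R := ℝ) r
      have h3 := congrFun h2 p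
      have h4 := congrArg (Polynomial.eval t) h3
      simpa [nsmul_eq_mul] using h4
    have h5 : SignType.sign (r.factorial : ℝ) = 1 :=
      sign_pos (by exact_mod_cast Nat.factorial_pos r)
    rw [← h1, sign_mul, h5, one_mul]
  refine ⟨r, ?_, ?_⟩
  · by_contra hge
    push Not at hge
    apply hr
    rcases eq_or_lt_of_le hge with h | h
    · rw [← hkey, ← hkey, ← h]
      have : ∀ t : ℝ, (taylor t p).coeff p.natDegree = p.leadingCoeff := by
        intro t
        have h5 := Polynomial.natDegree_taylor p t
        have h6 := Polynomial.leadingCoeff_taylor (r := t) (f := p)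
        rw [Polynomial.leadingCoeff, h5] at h6
        exact h6
      rw [this, this]
    · have h7 : derivative^[r] p = 0 := Polynomial.iterate_derivative_eq_zero h
      rw [h7]; simp
  · rw [hkey, hkey]; exact hr

/-- **Halving lemma**: if conditions `P c` separate the points of the finite nonempty set `X`,
then at most `log₂ |X|` signed conditions isolate one point of `X`. -/
theorem halving {α C : Type*} (P : C → α → Prop) (n : ℕ) : ∀ (X : Finset α), X.card ≤ n →
    X.Nonempty →
    (∀ x ∈ X, ∀ y ∈ X, x ≠ y → ∃ c, ¬ (P c x ↔ P c y)) →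
    ∃ l : List (C × Bool), l.length ≤ Nat.log 2 X.card ∧
      ∃ x ∈ X, ∀ y ∈ X, (∀ cb ∈ l, (P cb.1 y ↔ cb.2 = true)) ↔ y = x := by
  classical
  induction n with
  | zero =>
    intro X hX hne
    have := Finset.card_pos.2 hne
    omega
  | succ n ih =>
    intro X hXn hne hsep
    by_cases h1 : X.card = 1
    · obtain ⟨x, rfl⟩ := Finset.card_eq_one.1 h1
      exact ⟨[], by simp, x, by simp, by simp⟩
    have hcard : 1 < X.card := by
      have := Finset.card_pos.2 hne
      omega
    obtain ⟨x, hx, y, hy, hxy⟩ := Finset.one_lt_card.1 hcard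
    obtain ⟨c, hc⟩ := hsep x hx y hy hxy
    -- the two parts
    let A := X.filter (fun z => P c z)
    let B := X.filter (fun z => ¬ P c z)
    have hAB : A.card + B.card = X.card := Finset.card_filter_add_card_filter_not _
    have hA : A.Nonempty := by
      by_cases hPx : P c x
      · exact ⟨x, Finset.mem_filter.2 ⟨hx, hPx⟩⟩
      · have hPy : P c y := by
          by_contra hPy
          exact hc ⟨fun h => absurd h hPx, fun h => absurd h hPy⟩
        exact ⟨y, Finset.mem_filter.2 ⟨hy, hPy⟩⟩
    have hB : B.Nonempty := by
      by_cases hPx : P c x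
      · have hPy : ¬ P c y := by
          intro hPy
          exact hc ⟨fun _ => hPy, fun _ => hPx⟩
        exact ⟨y, Finset.mem_filter.2 ⟨hy, hPy⟩⟩
      · exact ⟨x, Finset.mem_filter.2 ⟨hx, hPx⟩⟩
    have hApos := Finset.card_pos.2 hA
    have hBpos := Finset.card_pos.2 hB
    have key : ∀ (b : Bool) (Y : Finset α), Y = X.filter (fun z => (P c z ↔ b = true)) →
        Y.Nonempty → 2 * Y.card ≤ X.card → 
        ∃ l : List (C × Bool), l.length ≤ Nat.log 2 X.card ∧
        ∃ x ∈ X, ∀ y ∈ X, (∀ cb ∈ l, (P cb.1 y ↔ cb.2 = true)) ↔ y = x := by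
      intro b Y hY hYne hY2
      have hYsub : ∀ z ∈ Y, z ∈ X := by
        intro z hz; rw [hY] at hz; exact (Finset.mem_filter.1 hz).1
      obtain ⟨l, hl, z, hz, hiso⟩ := ih Y (by have := Finset.card_pos.2 hYne; omega) hYne
        (fun u hu v hv huv => hsep u (hYsub u hu) v (hYsub v hv) huv)
      refine ⟨(c, b) :: l, ?_, z, hYsub z hz, ?_⟩
      · have h3 : Nat.log 2 (2 * Y.card) ≤ Nat.log 2 X.card := Nat.log_mono_right hY2
        rw [mul_comm, Nat.log_mul_base (by norm_num) (Finset.card_pos.2 hYne).ne'] at h3
        simp only [List.length_cons]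
        omega
      · intro y hyX
        constructor
        · intro h
          have hyY : y ∈ Y := by
            rw [hY]
            exact Finset.mem_filter.2 ⟨hyX, h (c, b) (by simp)⟩
          exact (hiso y hyY).1 (fun cb hcb => h cb (by simp [hcb]))
        · rintro rfl
          intro cb hcb
          rcases List.mem_cons.1 hcb with rfl | hcb
          · rw [hY] at hz
            exact (Finset.mem_filter.1 hz).2
          · exact (hiso y hz).2 rfl cb hcb
    by_cases hAle : 2 * A.card ≤ X.card
    · exact key true A (by simp [A]) hA hAle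
    · exact key false B (by simp [B]) hB (by omega)

end P337
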