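import Vale.Agent.P337.Alg
import Vale.Agent.P337.Thom

/-!
# P337, layer REAL: zeros of the system and algebra homomorphisms

* `evalHom`: a zero `a` of the system in a `k`-algebra `K` gives `SysA m f →ₐ[k] K`;
* `exists_zero_of_algHom`: every algebra homomorphism is of this form;
* `charpoly_eval_zero`: the characteristic polynomial of multiplication by `g` vanishes at `g(a)`;
* `zeros_finite`, `zeros_ncard_le`: there are at most `dim A` zeros;
* `thom_zeros`: two real zeros are separated by the sign of a derivative.
-/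

namespace Vale.Agent.P337

open MvPolynomial

section Hom
variable {k K : Type*} [CommRing k] [CommRing K] [Algebra k K] {N m : ℕ}
  {f : Fin N → MvPolynomial (Fin N) k}

/-- Evaluation at a zero of the system. -/
noncomputable def evalHom {a : Fin N → K} (ha : ∀ i, aeval a (sysF m f i) = 0) :
    SysA m f →ₐ[k] K :=
  Ideal.Quotient.liftₐ (sysI m f) (aeval a) (by
    intro x hx
    have h : sysI m f ≤ RingHom.ker (aeval a : MvPolynomial (Fin N) k →ₐ[k] K) := by
      rw [sysI, Ideal.span_le]
      rintro _ ⟨i, rfl⟩
      exact ha i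
    exact h hx)

@[simp] theorem evalHom_cls {a : Fin N → K} (ha : ∀ i, aeval a (sysF m f i) = 0)
    (g : MvPolynomial (Fin N) k) : evalHom ha (cls m f g) = aeval a g := rfl

theorem exists_zero_of_algHom (φ : SysA m f →ₐ[k] K) :
    ∃ a : Fin N → K, (∀ i, aeval a (sysF m f i) = 0) ∧ ∀ g, φ (cls m f g) = aeval a g := by
  have h : ∀ g, φ (cls m f g) = aeval (fun i => φ (cls m f (X i))) g := by
    intro g
    have h1 : (φ.comp (Ideal.Quotient.mkₐ k (sysI m f))) =
        (aeval (fun i => φ (cls m f (X i))) : MvPolynomial (Fin N) k →ₐ[k] K) := by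
      apply MvPolynomial.algHom_ext
      intro i
      simp
    exact congrArg (fun ψ : MvPolynomial (Fin N) k →ₐ[k] K => ψ g) h1
  refine ⟨fun i => φ (cls m f (X i)), fun i => ?_, h⟩
  rw [← h]
  have : cls m f (sysF m f i) = 0 :=
    Ideal.Quotient.eq_zero_iff_mem.2 (Ideal.subset_span ⟨i, rfl⟩)
  rw [this, map_zero]

theorem evalHom_injective {a b : Fin N → K} (ha : ∀ i, aeval a (sysF m f i) = 0)
    (hb : ∀ i, aeval b (sysF m f i) = 0) (h : evalHom ha = evalHom hb) : a = b := by
  funext i
  have := congrArg (fun ψ : SysA m f →ₐ[k] K => ψ (cls m f (X i))) h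
  simpa using this

end Hom

section Charpoly
variable {k K : Type*} [Field k] [Field K] [Algebra k K]

/-- For a homomorphism `φ` on a finite-dimensional algebra, `φ x` is a root of the characteristic
polynomial of multiplication by `x`. -/
theorem charpoly_aeval_algHom {A : Type*} [CommRing A] [Algebra k A] [Module.Finite k A]
    (φ : A →ₐ[k] K) (x : A) :
    Polynomial.aeval (φ x) (LinearMap.mulLeft k x).charpoly = 0 := by
  have h1 : Polynomial.aeval (LinearMap.mulLeft k x) (LinearMap.mulLeft k x).charpoly = 0 :=
    LinearMap.aeval_self_charpoly _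
  have h2 : LinearMap.mulLeft k x = Algebra.lmul k A x := rfl
  have h3 : Polynomial.aeval (Algebra.lmul k A x) (LinearMap.mulLeft k x).charpoly =
      Algebra.lmul k A (Polynomial.aeval x (LinearMap.mulLeft k x).charpoly) :=
    Polynomial.aeval_algHom_apply _ _ _
  have h4 : Polynomial.aeval x (LinearMap.mulLeft k x).charpoly = 0 := by
    have h5 : Algebra.lmul k A (Polynomial.aeval x (LinearMap.mulLeft k x).charpoly) = 0 := by
      rw [← h3, ← h2, h1]
    have h6 := congrArg (fun M : Module.End k A => M 1) h5
    simpa using h6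
  rw [Polynomial.aeval_algHom_apply, h4, map_zero]

/-- The determinant of multiplication by `x - c` vanishes if `φ x = c`. -/
theorem det_eq_zero_of_algHom {A : Type*} [CommRing A] [Algebra k A] [Module.Finite k A]
    (φ : A →ₐ[k] K) (x : A) (hx : φ x = 0) : LinearMap.det (LinearMap.mulLeft k x) = 0 := by
  by_contra h
  have h1 : IsUnit (LinearMap.mulLeft k x) :=
    (LinearMap.isUnit_iff_isUnit_det _).2 (isUnit_iff_ne_zero.2 h)
  obtain ⟨y, hy⟩ := ((Module.End.isUnit_iff _).1 h1).2 1
  have h2 : φ x * φ y = 1 := by
    rw [← map_mul]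
    have : x * y = 1 := by simpa using hy
    rw [this, map_one]
  rw [hx, zero_mul] at h2
  exact zero_ne_one h2

/-- There are at most `dim A` homomorphisms. -/
theorem algHom_finset_card_le {A : Type*} [CommRing A] [Algebra k A] [Module.Finite k A]
    (s : Finset (A →ₐ[k] K)) : s.card ≤ Module.finrank k A := by
  have h1 : LinearIndependent K (AlgHom.toLinearMap : (A →ₐ[k] K) → A →ₗ[k] K) :=
    linearIndependent_toLinearMap k A K
  have h2 : LinearIndependent K (fun φ : s => (φ : A →ₐ[k] K).toLinearMap) :=
    h1.comp (fun φ : s => (φ : A →ₐ[k] K)) Subtype.val_injective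
  have h3 := h2.fintype_card_le_finrank
  rw [Module.finrank_linearMap, Module.finrank_self, mul_one, Fintype.card_coe] at h3
  exact h3

end Charpoly

section Zeros
variable {k K : Type*} [Field k] [Field K] [Algebra k K] {N m : ℕ}
  {f : Fin N → MvPolynomial (Fin N) k}

theorem charpoly_eval_zero [Module.Finite k (SysA m f)] {a : Fin N → K}
    (ha : ∀ i, aeval a (sysF m f i) = 0) (g : MvPolynomial (Fin N) k) :
    Polynomial.aeval (aeval a g) (LinearMap.mulLeft k (cls m f g)).charpoly = 0 := by
  have := charpoly_aeval_algHom (evalHom ha) (cls m f g)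
  rwa [evalHom_cls] at this

theorem zeros_finset_card_le [Module.Finite k (SysA m f)] (s : Finset (Fin N → K))
    (hs : ∀ a ∈ s, ∀ i, aeval a (sysF m f i) = 0) :
    s.card ≤ Module.finrank k (SysA m f) := by
  classical
  let e : s → (SysA m f →ₐ[k] K) := fun a => evalHom (hs a.1 a.2)
  have he : Function.Injective e := by
    intro a b h
    exact Subtype.ext (evalHom_injective (hs a.1 a.2) (hs b.1 b.2) h)
  have h1 := algHom_finset_card_le (Finset.univ.map ⟨e, he⟩)
  simpa using h1

theorem zeros_finite [Module.Finite k (SysA m f)] :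
    {a : Fin N → K | ∀ i, aeval a (sysF m f i) = 0}.Finite := by
  by_contra h
  obtain ⟨s, hs, hc⟩ := (Set.not_finite.1 h |>.exists_subset_card_eq
    (Module.finrank k (SysA m f) + 1))
  have := zeros_finset_card_le (k := k) (f := f) (m := m) s (fun a ha => hs ha)
  omega

theorem zeros_ncard_le [Module.Finite k (SysA m f)] :
    {a : Fin N → K | ∀ i, aeval a (sysF m f i) = 0}.ncard ≤ Module.finrank k (SysA m f) := by
  classical
  have h := zeros_finite (k := k) (K := K) (f := f) (m := m)
  rw [Set.ncard_eq_toFinset_card _ h]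
  exact zeros_finset_card_le _ (fun a ha => by simpa using ha)

end Zeros

section Thom
variable {N m : ℕ} {f : Fin N → MvPolynomial (Fin N) ℝ}

/-- Two different real zeros are separated by the sign of a derivative of the characteristic
polynomial of a coordinate function. -/
theorem thom_zeros [Module.Finite ℝ (SysA m f)] {a b : Fin N → ℝ}
    (ha : ∀ i, eval a (sysF m f i) = 0) (hb : ∀ i, eval b (sysF m f i) = 0) (hab : a ≠ b) :
    ∃ i : Fin N, ∃ r, r ≤ Module.finrank ℝ (SysA m f) ∧
      SignType.sign ((Polynomial.derivative^[r]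
        (LinearMap.mulLeft ℝ (cls m f (X i))).charpoly).eval (a i)) ≠
      SignType.sign ((Polynomial.derivative^[r]
        (LinearMap.mulLeft ℝ (cls m f (X i))).charpoly).eval (b i)) := by
  obtain ⟨i, hi⟩ := Function.ne_iff.1 hab
  have hmonic := (LinearMap.mulLeft ℝ (cls m f (X i))).charpoly_monic
  have ha' : ((LinearMap.mulLeft ℝ (cls m f (X i))).charpoly).eval (a i) = 0 := by
    have := charpoly_eval_zero (k := ℝ) (K := ℝ) (f := f) (m := m) (a := a)
      (by simpa [MvPolynomial.aeval_eq_eval] using ha) (X i)
    simpa [Polynomial.aeval_def] using this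
  have hb' : ((LinearMap.mulLeft ℝ (cls m f (X i))).charpoly).eval (b i) = 0 := by
    have := charpoly_eval_zero (k := ℝ) (K := ℝ) (f := f) (m := m) (a := b)
      (by simpa [MvPolynomial.aeval_eq_eval] using hb) (X i)
    simpa [Polynomial.aeval_def] using this
  obtain ⟨r, hr⟩ := _root_.P337.thom_derivs _ hmonic.ne_zero _ _ hi ha' hb'
  refine ⟨i, r, ?_, hr⟩
  by_contra hlt
  push Not at hlt
  apply hr
  rw [Polynomial.iterate_derivative_eq_zero (by rwa [LinearMap.charpoly_natDegree])]
  simp

end Thom

end Vale.Agent.P337
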