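import Vale.Agent.P337.SignDet
import Vale.Agent.P337.Trace
import Vale.Agent.P337.SysMap
import Vale.Agent.P337.EhJ
import Vale.Agent.P337.Zeros

/-!
P337, row S3 of the skeleton: some small `c` makes all zeros of the system simple.
-/

namespace Vale.Agent.P337

open MvPolynomial

variable {N : ℕ}

namespace SimpleC

/-! ### a large `c` works over the complex numbers -/

theorem norm_aeval_le (p : MvPolynomial (Fin N) ℤ) {d : ℕ} (hd : p.totalDegree ≤ d)
    (α : Fin N → ℂ) {M : ℝ} (hM : 1 ≤ M) (hα : ∀ i, ‖α i‖ ≤ M) :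
    ‖aeval α p‖ ≤ (norm1 p : ℝ) * M ^ d := by
  rw [aeval_def, eval₂_eq', norm1, Nat.cast_sum, Finset.sum_mul]
  refine (norm_sum_le _ _).trans (Finset.sum_le_sum fun a ha => ?_)
  rw [norm_mul, norm_prod]
  have h1 : ‖(algebraMap ℤ ℂ) (coeff a p)‖ = ((coeff a p).natAbs : ℝ) := by
    rw [eq_intCast, Complex.norm_intCast, Nat.cast_natAbs, Int.cast_abs]
  rw [h1]
  refine mul_le_mul_of_nonneg_left ?_ (Nat.cast_nonneg _)
  have h2 : ∏ i, ‖α i ^ a i‖ ≤ ∏ i, M ^ a i := by
    refine Finset.prod_le_prod (fun _ _ => norm_nonneg _) fun i _ => ?_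
    rw [norm_pow]
    exact pow_le_pow_left₀ (norm_nonneg _) (hα i) _
  refine h2.trans ?_
  rw [Finset.prod_pow_eq_pow_sum]
  refine pow_le_pow_right₀ hM ?_
  have h3 := le_totalDegree ha
  rw [finsupp_sum_eq] at h3
  exact h3.trans hd

theorem pderiv_deg (f : MvPolynomial (Fin N) ℤ) {d : ℕ} (hd : f.totalDegree ≤ d) (i : Fin N) :
    (pderiv i f).totalDegree ≤ d - 1 :=
  leD_iff.1 ((leD_iff.2 hd).pderiv i)

/-- bounds for the coordinates of a zero -/
theorem zero_size {m : ℕ} (hm : 1 < m) (d : Fin N → MvPolynomial (Fin N) ℤ)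
    (hd : ∀ i, (d i).totalDegree ≤ m - 2) {A : ℝ} (hA : 1 ≤ A) (hdA : ∀ i, (norm1 (d i) : ℝ) ≤ A)
    {t : ℝ} (ht : A * 2 ^ m ≤ t) (α : Fin N → ℂ)
    (hα : ∀ i, α i ^ m = (t : ℂ) ^ m - aeval α (d i)) :
    (∀ i, ‖α i‖ ≤ 2 * t) ∧ ∀ i, t / 2 ≤ ‖α i‖ := by
  obtain ⟨m, rfl⟩ : ∃ m', m = m' + 2 := ⟨m - 2, by omega⟩
  rw [Nat.add_sub_cancel] at hd
  have h4 : (4 : ℝ) ≤ 2 ^ (m + 2) := by
    rw [pow_add]
    have : (1 : ℝ) ≤ 2 ^ m := one_le_pow₀ (by norm_num)
    linarith
  have htA : 4 * A ≤ t := by nlinarith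
  have ht0 : 0 < t := by linarith
  have hup : ∀ i, ‖α i‖ ≤ 2 * t := by
    by_contra hcon
    push Not at hcon
    obtain ⟨i0, hi0⟩ := hcon
    have hne : (Finset.univ : Finset (Fin N)).Nonempty := ⟨i0, Finset.mem_univ _⟩
    obtain ⟨i, -, hi⟩ := Finset.exists_max_image Finset.univ (fun i => ‖α i‖) hne
    have hi1 : 2 * t < ‖α i‖ := hi0.trans_le (hi i0 (Finset.mem_univ _))
    set M := ‖α i‖ with hMdef
    have hM1 : 1 ≤ M := by linarith
    have h1 := norm_aeval_le (d i) (hd i) α hM1 fun j => hi j (Finset.mem_univ _)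
    have h2 : M ^ (m + 2) ≤ t ^ (m + 2) + A * M ^ m := by
      rw [hMdef, ← norm_pow, hα i]
      refine (norm_sub_le _ _).trans ?_
      rw [norm_pow, Complex.norm_real, Real.norm_eq_abs, abs_of_pos ht0, ← hMdef]
      refine add_le_add le_rfl (h1.trans ?_)
      exact mul_le_mul_of_nonneg_right (hdA i) (by positivity)
    have h3 : t ^ (m + 2) ≤ M ^ (m + 2) / 4 := by
      have h5 : t ^ (m + 2) ≤ (M / 2) ^ (m + 2) :=
        pow_le_pow_left₀ ht0.le (by linarith) _
      refine h5.trans ?_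
      rw [div_pow]
      exact div_le_div_of_nonneg_left (by positivity) (by norm_num) h4
    have h6 : M ^ m * (3 / 4 * M ^ 2) ≤ M ^ m * A := by
      have : M ^ (m + 2) = M ^ m * M ^ 2 := pow_add M m 2
      nlinarith
    have h7 : 3 / 4 * M ^ 2 ≤ A := le_of_mul_le_mul_left h6 (by positivity)
    nlinarith
  refine ⟨hup, fun i => ?_⟩
  by_contra hcon
  push Not at hcon
  have h1 := norm_aeval_le (d i) (hd i) α (by linarith : (1 : ℝ) ≤ 2 * t) hup
  have h2 : t ^ (m + 2) ≤ ‖α i‖ ^ (m + 2) + A * (2 * t) ^ m := by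
    have h3 : (t : ℂ) ^ (m + 2) = α i ^ (m + 2) + aeval α (d i) := by rw [hα i]; ring
    have h4 : t ^ (m + 2) = ‖(t : ℂ) ^ (m + 2)‖ := by
      rw [norm_pow, Complex.norm_real, Real.norm_eq_abs, abs_of_pos ht0]
    rw [h4, h3, ← norm_pow]
    refine (norm_add_le _ _).trans (add_le_add le_rfl (h1.trans ?_))
    exact mul_le_mul_of_nonneg_right (hdA i) (by positivity)
  have h3 : ‖α i‖ ^ (m + 2) ≤ t ^ (m + 2) / 4 := by
    have h5 : ‖α i‖ ^ (m + 2) ≤ (t / 2) ^ (m + 2) :=
      pow_le_pow_left₀ (norm_nonneg _) hcon.le _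
    refine h5.trans ?_
    rw [div_pow]
    exact div_le_div_of_nonneg_left (by positivity) (by norm_num) h4
  have h6 : t ^ m * (3 / 4 * t ^ 2) ≤ t ^ m * (A * 2 ^ m) := by
    have h7 : t ^ (m + 2) = t ^ m * t ^ 2 := pow_add t m 2
    have h8 : (2 * t) ^ m = 2 ^ m * t ^ m := mul_pow 2 t m
    rw [h8] at h2
    nlinarith
  have h7 : 3 / 4 * t ^ 2 ≤ A * 2 ^ m := le_of_mul_le_mul_left h6 (by positivity)
  have h8 : A * 2 ^ m ≤ t / 4 := by
    have : (2 : ℝ) ^ (m + 2) = 4 * 2 ^ m := by rw [pow_add]; ring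
    rw [this] at ht
    linarith
  nlinarith

theorem norm1_nonneg (f : MvPolynomial (Fin N) ℤ) : (0 : ℝ) ≤ (norm1 f : ℝ) := Nat.cast_nonneg _

/-- value of the entries of the Jacobian matrix -/
theorem jac_entry_val (m : ℕ) (f : MvPolynomial (Fin N) ℤ) (K c : ℤ) (α : Fin N → ℂ)
    (i j : Fin N) :
    aeval α (pderiv j (sysF m (fK f K c) i)) =
      (if i = j then (m : ℂ) * α i ^ (m - 1) else 0) +
        aeval α (C K * pderiv j (pderiv i f)) := by
  classical
  rw [jac_entry, fK, map_add]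
  congr 1
  · split_ifs with h
    · simp
    · simp
  · simp

theorem large_simple (m : ℕ) (hm : 1 < m) (f : MvPolynomial (Fin N) ℤ) (hf : f.totalDegree < m)
    (K : ℤ) : ∃ t : ℕ, ∀ α : Fin N → ℂ,
      (∀ i, aeval α (sysF m (fK f K ((t ^ m : ℕ) : ℤ)) i) = 0) →
        aeval α (jac m (fK f K ((t ^ m : ℕ) : ℤ))) ≠ 0 := by
  classical
  let A₀ : ℕ := 1 + (∑ i, norm1 (C K * pderiv i f)) +
    ∑ i, ∑ j, norm1 (C K * pderiv j (pderiv i f))
  have hA1 : ∀ i, norm1 (C K * pderiv i f) ≤ A₀ := fun i => by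
    have := Finset.single_le_sum (f := fun i => norm1 (C K * pderiv i f))
      (fun _ _ => Nat.zero_le _) (Finset.mem_univ i)
    simp only [A₀]
    omega
  have hA2 : ∀ i j, norm1 (C K * pderiv j (pderiv i f)) ≤ A₀ := fun i j => by
    have h1 := Finset.single_le_sum (f := fun j => norm1 (C K * pderiv j (pderiv i f)))
      (fun _ _ => Nat.zero_le _) (Finset.mem_univ j)
    have h2 := Finset.single_le_sum (f := fun i => ∑ j, norm1 (C K * pderiv j (pderiv i f)))
      (fun _ _ => Nat.zero_le _) (Finset.mem_univ i)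
    simp only [A₀]
    omega
  have hA0 : 1 ≤ A₀ := by simp only [A₀]; omega
  have hdeg1 : ∀ i, (C K * pderiv i f).totalDegree ≤ m - 2 := fun i => by
    refine (totalDegree_mul _ _).trans ?_
    rw [totalDegree_C, zero_add]
    have := pderiv_deg f (d := m - 1) (by omega) i
    omega
  have hdeg2 : ∀ i j, (C K * pderiv j (pderiv i f)).totalDegree ≤ m - 2 := fun i j => by
    refine (totalDegree_mul _ _).trans ?_
    rw [totalDegree_C, zero_add]
    have h1 := pderiv_deg f (d := m - 1) (by omega) i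
    have h2 := pderiv_deg (pderiv i f) (d := m - 1 - 1) h1 j
    omega
  refine ⟨(N + 1) * A₀ * 4 ^ m, fun α hα => ?_⟩
  set t : ℕ := (N + 1) * A₀ * 4 ^ m with ht
  have hA1' : (1 : ℝ) ≤ (A₀ : ℝ) := by exact_mod_cast hA0
  have htr : (t : ℝ) = (N + 1) * A₀ * 4 ^ m := by rw [ht]; push_cast; ring
  have hN : (1 : ℝ) ≤ (N : ℝ) + 1 := by
    have : (0 : ℝ) ≤ N := Nat.cast_nonneg _
    linarith
  have h42 : (4 : ℝ) ^ m = 2 ^ m * 2 ^ m := by
    rw [← mul_pow]; norm_num
  have h2m : (1 : ℝ) ≤ 2 ^ m := one_le_pow₀ (by norm_num)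
  have htA : (A₀ : ℝ) * 2 ^ m ≤ t := by
    rw [htr, h42]
    have h1 : (A₀ : ℝ) * 2 ^ m * (1 * 1) ≤ (A₀ : ℝ) * 2 ^ m * ((N + 1) * 2 ^ m) := by gcongr
    linarith
  have hsys : ∀ i, α i ^ m = ((t : ℝ) : ℂ) ^ m - aeval α (C K * pderiv i f) := fun i => by
    have h1 := hα i
    rw [sysF, fK, map_sub, map_sub, map_pow, aeval_X, aeval_C] at h1
    have h2 : (algebraMap ℤ ℂ) ((t ^ m : ℕ) : ℤ) = ((t : ℝ) : ℂ) ^ m := by simp
    rw [h2] at h1
    rw [sub_eq_zero] at h1
    exact h1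
  obtain ⟨hup, hlow⟩ := zero_size hm (fun i => C K * pderiv i f) hdeg1 hA1'
    (fun i => by exact_mod_cast hA1 i) htA α hsys
  have ht1 : (1 : ℝ) ≤ t := by
    have h1 : (1 : ℝ) * 1 ≤ (A₀ : ℝ) * 2 ^ m := by gcongr
    linarith
  have hent : ∀ i j, ‖aeval α (C K * pderiv j (pderiv i f))‖ ≤ (A₀ : ℝ) * (2 * t) ^ (m - 2) :=
    fun i j => by
      refine (norm_aeval_le _ (hdeg2 i j) α (by linarith : (1 : ℝ) ≤ 2 * t) hup).trans ?_
      exact mul_le_mul_of_nonneg_right (by exact_mod_cast hA2 i j) (by positivity)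
  have hdet : aeval α (jac m (fK f K ((t ^ m : ℕ) : ℤ))) =
      Matrix.det (Matrix.of fun i j => aeval α (pderiv j (sysF m (fK f K ((t ^ m : ℕ) : ℤ)) i))) := by
    rw [jac, AlgHom.map_det]
    congr 1
  rw [hdet]
  apply det_ne_zero_of_sum_row_lt_diag
  intro i
  have hkey : (N : ℝ) * ((A₀ : ℝ) * (2 * t) ^ (m - 2)) < m * (t / 2) ^ (m - 1) := by
    obtain ⟨m, rfl⟩ : ∃ m', m = m' + 2 := ⟨m - 2, by omega⟩
    have e1 : m + 2 - 2 = m := by omega
    have e2 : m + 2 - 1 = m + 1 := by omega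
    rw [e1, e2]
    have h1 : (t / 2 : ℝ) ^ (m + 1) = (t / 2) ^ m * (t / 2) := pow_succ _ _
    have h2 : (2 * t : ℝ) ^ m = 4 ^ m * (t / 2) ^ m := by
      rw [← mul_pow]; congr 1; ring
    rw [h1, h2]
    have hp : (0 : ℝ) < (t / 2) ^ m := by positivity
    have h3 : (N : ℝ) * A₀ * 4 ^ m < (t / 2 : ℝ) := by
      rw [htr]
      have h4 : (4 : ℝ) ^ (m + 2) = 16 * 4 ^ m := by rw [pow_add]; ring
      rw [h4]
      have h5 : (0 : ℝ) < A₀ * 4 ^ m := by positivity
      nlinarith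
    have h6 : (1 : ℝ) ≤ ((m + 2 : ℕ) : ℝ) := by push_cast; linarith [(Nat.cast_nonneg m : (0 : ℝ) ≤ m)]
    calc (N : ℝ) * (A₀ * (4 ^ m * (t / 2) ^ m)) = (N * A₀ * 4 ^ m) * (t / 2) ^ m := by ring
      _ < (t / 2) * (t / 2) ^ m := mul_lt_mul_of_pos_right h3 hp
      _ = 1 * ((t / 2) ^ m * (t / 2)) := by ring
      _ ≤ ((m + 2 : ℕ) : ℝ) * ((t / 2) ^ m * (t / 2)) := by
        exact mul_le_mul_of_nonneg_right h6 (by positivity)
  have hoff : ∑ j ∈ Finset.univ.erase i,
      ‖(Matrix.of fun i j => aeval α (pderiv j (sysF m (fK f K ((t ^ m : ℕ) : ℤ)) i))) i j‖ ≤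
      (N - 1 : ℝ) * ((A₀ : ℝ) * (2 * t) ^ (m - 2)) := by
    refine (Finset.sum_le_card_nsmul _ _ ((A₀ : ℝ) * (2 * t) ^ (m - 2)) fun j hj => ?_).trans_eq ?_
    · rw [Matrix.of_apply, jac_entry_val, if_neg (Finset.ne_of_mem_erase hj).symm, zero_add]
      exact hent i j
    · rw [Finset.card_erase_of_mem (Finset.mem_univ _), Finset.card_univ, Fintype.card_fin,
        nsmul_eq_mul, Nat.cast_sub (Fin.pos i), Nat.cast_one]
  have hdiag : m * (t / 2 : ℝ) ^ (m - 1) - (A₀ : ℝ) * (2 * t) ^ (m - 2) ≤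
      ‖(Matrix.of fun i j => aeval α (pderiv j (sysF m (fK f K ((t ^ m : ℕ) : ℤ)) i))) i i‖ := by
    rw [Matrix.of_apply, jac_entry_val, if_pos rfl]
    have h1 := norm_sub_le_norm_add ((m : ℂ) * α i ^ (m - 1)) (aeval α (C K * pderiv i (pderiv i f)))
    refine le_trans ?_ h1
    refine sub_le_sub ?_ (hent i i)
    rw [norm_mul, norm_pow, Complex.norm_natCast]
    exact mul_le_mul_of_nonneg_left (pow_le_pow_left₀ (by positivity) (hlow i) _)
      (Nat.cast_nonneg _)
  linarith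

/-! ### the algebraic half: degrees in `c` -/

/-- all coefficients have degree at most `d` in the additional variable -/
def XDeg (d : ℕ) (Q : MvPolynomial (Fin N) (Polynomial ℤ)) : Prop :=
  ∀ s, (coeff s Q).natDegree ≤ d

theorem XDeg.mono {a b : ℕ} {p : MvPolynomial (Fin N) (Polynomial ℤ)} (hp : XDeg a p)
    (h : a ≤ b) : XDeg b p := fun s => (hp s).trans h

theorem XDeg.mul {a b : ℕ} {p q : MvPolynomial (Fin N) (Polynomial ℤ)} (hp : XDeg a p)
    (hq : XDeg b q) : XDeg (a + b) (p * q) := by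
  classical
  intro s
  rw [coeff_mul]
  refine Polynomial.natDegree_sum_le_of_forall_le _ _ fun x _ => ?_
  exact Polynomial.natDegree_mul_le.trans (add_le_add (hp _) (hq _))

theorem XDeg.map_C (g : MvPolynomial (Fin N) ℤ) : XDeg 0 (map Polynomial.C g) := by
  intro s
  rw [coeff_map, Polynomial.natDegree_C]

theorem XDeg.one : XDeg 0 (1 : MvPolynomial (Fin N) (Polynomial ℤ)) := by
  have := XDeg.map_C (1 : MvPolynomial (Fin N) ℤ)
  rwa [map_one] at this

theorem XDeg.pow {a : ℕ} {p : MvPolynomial (Fin N) (Polynomial ℤ)} (hp : XDeg a p) (n : ℕ) :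
    XDeg (n * a) (p ^ n) := by
  induction n with
  | zero =>
    rw [pow_zero, zero_mul]
    exact XDeg.one
  | succ n ih =>
    rw [pow_succ, Nat.succ_mul]
    exact ih.mul hp

theorem XDeg.prod_pow {f : Fin N → MvPolynomial (Fin N) (Polynomial ℤ)} (hf : ∀ i, XDeg 1 (f i))
    (k : Fin N → ℕ) (s : Finset (Fin N)) : XDeg (∑ i ∈ s, k i) (∏ i ∈ s, f i ^ k i) := by
  classical
  induction s using Finset.induction_on with
  | empty =>
    rw [Finset.sum_empty, Finset.prod_empty]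
    exact XDeg.one
  | insert a s ha ih =>
    rw [Finset.sum_insert ha, Finset.prod_insert ha]
    have := (hf a).pow (k a)
    rw [mul_one] at this
    exact this.mul ih

theorem totalDegree_map_le' {R S : Type*} [CommRing R] [CommRing S] (φ : R →+* S)
    (p : MvPolynomial (Fin N) R) : (map φ p).totalDegree ≤ p.totalDegree := by
  refine leD_iff.1 fun s hs => ?_
  rw [coeff_map, leD_iff.2 le_rfl s hs, map_zero]

/-- the system with the variable `c` -/
noncomputable def fX (f : MvPolynomial (Fin N) ℤ) (K : ℤ) (i : Fin N) :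
    MvPolynomial (Fin N) (Polynomial ℤ) :=
  fK (map Polynomial.C f) (Polynomial.C K) Polynomial.X i

theorem fX_xdeg (f : MvPolynomial (Fin N) ℤ) (K : ℤ) (i : Fin N) : XDeg 1 (fX f K i) := by
  classical
  intro s
  have h1 : C (Polynomial.C K) * pderiv i (map Polynomial.C f) =
      map Polynomial.C (C K * pderiv i f) := by
    rw [map_mul, MvPolynomial.map_C, pderiv_map]
  rw [fX, fK, h1, coeff_sub]
  refine (Polynomial.natDegree_sub_le _ _).trans (max_le ?_ ?_)
  · rw [coeff_C]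
    split_ifs
    · exact Polynomial.natDegree_X_le
    · simp
  · exact (XDeg.map_C _ s).trans (Nat.zero_le _)

theorem fK_deg {R : Type*} [CommRing R] {m : ℕ} (hm : 1 < m) (f : MvPolynomial (Fin N) R)
    (hf : f.totalDegree < m) (K c : R) (i : Fin N) : (fK f K c i).totalDegree < m := by
  rw [fK]
  have h1 : (C K * pderiv i f).totalDegree ≤ m - 1 - 1 := by
    refine (totalDegree_mul _ _).trans ?_
    rw [totalDegree_C, zero_add]
    exact leD_iff.1 ((leD_iff.2 (by omega : f.totalDegree ≤ m - 1)).pderiv i)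
  have h2 := totalDegree_sub (C c) (C K * pderiv i f)
  rw [totalDegree_C] at h2
  omega

theorem jac_c {R : Type*} [CommRing R] (m : ℕ) (f : MvPolynomial (Fin N) R) (K c : R) :
    jac m (fK f K c) = jac m (fK f K 0) := by
  unfold jac
  congr 1
  ext1 i j
  rw [Matrix.of_apply, Matrix.of_apply, jac_entry, jac_entry, fK, fK, map_sub, map_sub, pderiv_C,
    pderiv_C]

theorem jac_fX (m : ℕ) (f : MvPolynomial (Fin N) ℤ) (K : ℤ) :
    jac m (fX f K) = map Polynomial.C (jac m (fK f K 0)) := by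
  have h1 : jac m (fX f K) = jac m (fK (map Polynomial.C f) (Polynomial.C K) 0) := jac_c _ _ _ _
  rw [h1, ← jac_map]
  congr 1
  funext i
  rw [map_fK, map_zero]

theorem tau_natDegree {m E : ℕ} (hm : 0 < m) {fs : Fin N → MvPolynomial (Fin N) (Polynomial ℤ)}
    (hf : ∀ i, (fs i).totalDegree < m) (hfx : ∀ i, XDeg 1 (fs i))
    {g : MvPolynomial (Fin N) (Polynomial ℤ)} (hg : XDeg 0 g) {d : ℕ}
    (hd : g.totalDegree ≤ N * (m - 1) + d) : (tau m E fs g).natDegree ≤ d := by
  classical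
  rw [tau]
  refine Polynomial.natDegree_sum_le_of_forall_le _ _ fun k _ => ?_
  by_cases h : g.totalDegree < ∑ i, k i + N * (m - 1)
  · rw [coeff_topExp_eq_zero hm hf h, Polynomial.natDegree_zero]
    exact Nat.zero_le _
  · refine (hg.mul (XDeg.prod_pow hfx k Finset.univ) _).trans ?_
    omega

theorem eh_natDegree (s : ℕ → Polynomial ℤ) (d r : ℕ)
    (h : ∀ l, 1 ≤ l → l ≤ r → (s l).natDegree ≤ d) : (eh s r).natDegree ≤ r * d := by
  induction r using Nat.strong_induction_on with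
  | _ r ih =>
  cases r with
  | zero => simp [eh_zero]
  | succ r =>
    rw [eh_succ]
    refine Polynomial.natDegree_sum_le_of_forall_le _ _ fun i hi => ?_
    rw [Finset.mem_range] at hi
    have h1 : ((-1 : Polynomial ℤ) ^ i * (r.descFactorial i : Polynomial ℤ)) =
        Polynomial.C ((-1) ^ i * (r.descFactorial i : ℤ)) := by
      simp
    have h2 : (Polynomial.C ((-1) ^ i * (r.descFactorial i : ℤ)) * eh s (r - i)).natDegree ≤
        (r - i) * d := by
      refine (Polynomial.natDegree_C_mul_le _ _).trans ?_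
      exact ih (r - i) (by omega) fun l hl hl' => h l hl (by omega)
    rw [h1]
    refine Polynomial.natDegree_mul_le.trans ((add_le_add h2 (h (i + 1) (by omega)
      (by omega))).trans ?_)
    rw [← Nat.succ_mul]
    exact Nat.mul_le_mul_right _ (by omega)

/-- `D! det (M_J)` as a polynomial in `c` -/
noncomputable def RX (m : ℕ) (f : MvPolynomial (Fin N) ℤ) (K : ℤ) : Polynomial ℤ :=
  ehJ m (m ^ N * (N * (m - 1)) + N * (m - 1)) (fX f K) (jac m (fX f K)) (m ^ N)

theorem RX_natDegree {m : ℕ} (hm : 1 < m) (f : MvPolynomial (Fin N) ℤ)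
    (hf : f.totalDegree < m) (K : ℤ) :
    (RX m f K).natDegree ≤ m ^ N * (N * m * (m ^ N + 1)) := by
  have hfX : ∀ i, (fX f K i).totalDegree < m := fun i => by
    refine fK_deg hm _ ?_ _ _ i
    exact lt_of_le_of_lt (totalDegree_map_le' _ _) hf
  rw [RX, ehJ]
  refine eh_natDegree _ _ _ fun l hl hlD => ?_
  have h1 : jac m (fX f K) ^ l * jac m (fX f K) =
      map Polynomial.C (jac m (fK f K 0) ^ l * jac m (fK f K 0)) := by
    rw [jac_fX, map_mul, map_pow]
  have h2 : (jac m (fX f K) ^ l * jac m (fX f K)).totalDegree ≤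
      N * (m - 1) + l * (N * (m - 1)) := by
    have h3 := jac_totalDegree (by omega : 0 < m) hfX
    refine (totalDegree_mul _ _).trans ?_
    have h4 := (totalDegree_pow (jac m (fX f K)) l).trans (Nat.mul_le_mul_left l h3)
    omega
  refine (tau_natDegree (by omega) hfX (fX_xdeg f K) ?_ h2).trans ?_
  · rw [h1]
    exact XDeg.map_C _
  · calc l * (N * (m - 1)) ≤ (m ^ N + 1) * (N * m) :=
        Nat.mul_le_mul (by omega) (Nat.mul_le_mul_left _ (by omega))
      _ = N * m * (m ^ N + 1) := by ring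

/-- evaluation at an integer `c`, with complex values -/
noncomputable def evC (c : ℤ) : Polynomial ℤ →+* ℂ :=
  (Int.castRingHom ℂ).comp (Polynomial.evalRingHom c)

theorem map_fX (f : MvPolynomial (Fin N) ℤ) (K c : ℤ) (i : Fin N) :
    map (evC c) (fX f K i) = map (Int.castRingHom ℂ) (fK f K c i) := by
  rw [fX, map_fK, map_fK, map_map]
  have h1 : (evC c).comp Polynomial.C = Int.castRingHom ℂ := by
    ext
    simp
  rw [h1]
  have h2 : evC c (Polynomial.C K) = Int.castRingHom ℂ K := by simp [evC]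
  have h3 : evC c Polynomial.X = Int.castRingHom ℂ c := by simp [evC]
  rw [h2, h3]

theorem aeval_int (α : Fin N → ℂ) (p : MvPolynomial (Fin N) ℤ) :
    aeval α p = eval α (map (Int.castRingHom ℂ) p) := by
  rw [eval_map, aeval_def]
  congr 1

/-- the value of `RX` at `c` -/
theorem RX_eval {m : ℕ} (hm : 1 < m) (f : MvPolynomial (Fin N) ℤ) (hf : f.totalDegree < m)
    (K c : ℤ) : evC c (RX m f K) = ((m ^ N).factorial : ℂ) * LinearMap.det (LinearMap.mulLeft ℂ
      (cls m (fun i => map (Int.castRingHom ℂ) (fK f K c i))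
        (map (Int.castRingHom ℂ) (jac m (fK f K c))))) := by
  have hfc : ∀ i, (map (Int.castRingHom ℂ) (fK f K c i)).totalDegree < m := fun i =>
    lt_of_le_of_lt (totalDegree_map_le' _ _) (fK_deg hm f hf K c i)
  have h1 : map (evC c) (jac m (fX f K)) = map (Int.castRingHom ℂ) (jac m (fK f K c)) := by
    rw [← jac_map, ← jac_map]
    congr 1
    funext i
    exact map_fX f K c i
  rw [RX, map_ehJ, h1]
  simp only [map_fX]
  apply ehJ_det (by omega) hfc
  have h2 : (map (Int.castRingHom ℂ) (jac m (fK f K c))).totalDegree ≤ N * (m - 1) :=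
    (totalDegree_map_le' _ _).trans (jac_totalDegree (by omega) fun i => fK_deg hm f hf K c i)
  exact Nat.add_le_add_right (Nat.mul_le_mul_left _ h2) _

/-- over an algebraically closed field: a unit is a function without zeros -/
theorem isUnit_of_closed {k A : Type*} [Field k] [IsAlgClosed k] [CommRing A] [Algebra k A]
    [Module.Finite k A] (g : A) (h : ∀ φ : A →ₐ[k] k, φ g ≠ 0) : IsUnit g := by
  by_contra hn
  obtain ⟨I, hI, hgI⟩ := exists_max_ideal_of_mem_nonunits hn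
  let _ : Field (A ⧸ I) := Ideal.Quotient.field I
  have : Algebra.IsAlgebraic k (A ⧸ I) := inferInstance
  let ψ : (A ⧸ I) →ₐ[k] k := IsAlgClosed.lift
  refine h (ψ.comp (Ideal.Quotient.mkₐ k I)) ?_
  change ψ (Ideal.Quotient.mk I g) = 0
  rw [Ideal.Quotient.eq_zero_iff_mem.2 hgI, map_zero]

/-- the determinant is nonzero iff `g` vanishes at no zero of the system -/
theorem det_ne_zero_iff {k : Type*} [Field k] [IsAlgClosed k] {m : ℕ}
    {f : Fin N → MvPolynomial (Fin N) k} [Module.Finite k (SysA m f)]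
    (g : MvPolynomial (Fin N) k) :
    LinearMap.det (LinearMap.mulLeft k (cls m f g)) ≠ 0 ↔
      ∀ α : Fin N → k, (∀ i, eval α (sysF m f i) = 0) → eval α g ≠ 0 := by
  constructor
  · intro h α hα hg
    have hu : IsUnit (LinearMap.det (LinearMap.mulLeft k (cls m f g))) := isUnit_iff_ne_zero.2 h
    obtain ⟨x, hx⟩ := (LinearMap.equivOfIsUnitDet hu).surjective (1 : SysA m f)
    have hx' : cls m f g * x = 1 := by simpa using hx
    have hα' : ∀ i, aeval α (sysF m f i) = 0 := fun i => by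
      rw [aeval_eq_eval]
      exact hα i
    have h1 := congrArg (evalHom hα') hx'
    rw [map_mul, evalHom_cls, map_one, aeval_eq_eval] at h1
    have h2 : (RingHom.id k : k → k) 0 = 0 := rfl
    change eval α g * _ = 1 at h1
    rw [hg, zero_mul] at h1
    exact zero_ne_one h1
  · intro h
    have hu : IsUnit (cls m f g) := by
      apply isUnit_of_closed (k := k)
      intro φ hφ
      obtain ⟨a, ha, hφa⟩ := exists_zero_of_algHom φ
      refine h a (fun i => ?_) ?_
      · have := ha i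
        rwa [aeval_eq_eval] at this
      · have h2 := hφa g
        rw [hφ, aeval_eq_eval] at h2
        exact h2.symm
    have h1 := hu.map (Algebra.norm k)
    rw [← SignDet.det_mulLeft_eq_norm] at h1
    exact h1.ne_zero

end SimpleC

open SimpleC in
/-- [S3] some small `c` makes all zeros simple -/
theorem exists_c (m : ℕ) (f : MvPolynomial (Fin N) ℤ) (hf : f.totalDegree < m) (hm : 1 < m)
    (K : ℕ) : ∃ c ≤ m ^ N * (N * m * (m ^ N + 1)), ∀ α : Fin N → ℂ,
      (∀ i, aeval α (sysF m (fK f (K : ℤ) (c : ℤ)) i) = 0) →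
        aeval α (jac m (fK f (K : ℤ) (c : ℤ))) ≠ 0 := by
  have hfin : ∀ c : ℤ, Module.Finite ℂ
      (SysA m (fun i => map (Int.castRingHom ℂ) (fK f (K : ℤ) c i))) := fun c =>
    sysA_finite (by omega) fun i =>
      lt_of_le_of_lt (totalDegree_map_le' _ _) (fK_deg hm f hf _ c i)
  have key : ∀ c : ℤ, Polynomial.eval c (RX m f (K : ℤ)) ≠ 0 ↔
      ∀ α : Fin N → ℂ, (∀ i, aeval α (sysF m (fK f (K : ℤ) c) i) = 0) →
        aeval α (jac m (fK f (K : ℤ) c)) ≠ 0 := by
    intro c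
    have h1 := RX_eval hm f hf (K : ℤ) c
    have h2 : evC c (RX m f (K : ℤ)) = ((Polynomial.eval c (RX m f (K : ℤ)) : ℤ) : ℂ) := by
      simp [evC]
    have h3 : (((m ^ N).factorial : ℕ) : ℂ) ≠ 0 := Nat.cast_ne_zero.2 (Nat.factorial_ne_zero _)
    have h4 : Polynomial.eval c (RX m f (K : ℤ)) ≠ 0 ↔ LinearMap.det (LinearMap.mulLeft ℂ
        (cls m (fun i => map (Int.castRingHom ℂ) (fK f (K : ℤ) c i))
          (map (Int.castRingHom ℂ) (jac m (fK f (K : ℤ) c))))) ≠ 0 := by
      rw [← Int.cast_ne_zero (α := ℂ), ← h2, h1, mul_ne_zero_iff]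
      exact and_iff_right h3
    have := hfin c
    rw [h4, det_ne_zero_iff]
    simp only [aeval_int, map_sysF]
  obtain ⟨t, ht⟩ := large_simple m hm f hf (K : ℤ)
  have hne : RX m f (K : ℤ) ≠ 0 := by
    intro h0
    have := (key ((t ^ m : ℕ) : ℤ)).2 ht
    rw [h0, Polynomial.eval_zero] at this
    exact this rfl
  by_contra hcon
  push Not at hcon
  apply hne
  refine Polynomial.eq_zero_of_natDegree_lt_card_of_eval_eq_zero' _
    ((Finset.range (m ^ N * (N * m * (m ^ N + 1)) + 1)).map Nat.castEmbedding) ?_ ?_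
  · intro i hi
    rw [Finset.mem_map] at hi
    obtain ⟨c, hc, rfl⟩ := hi
    by_contra h
    obtain ⟨α, hα, hα0⟩ := hcon c (Nat.lt_succ_iff.1 (Finset.mem_range.1 hc))
    exact (key (c : ℤ)).1 h α hα hα0
  · rw [Finset.card_map, Finset.card_range]
    exact Nat.lt_succ_of_le (RX_natDegree hm f hf _)

end Vale.Agent.P337
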