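import Vale.Agent.P337.Sound
import Vale.Agent.P337.SimpleC
import Vale.Agent.P337.CharRoot

/-!
# P337, piece [M2]: completeness
-/

namespace Vale.Agent.P337

open MvPolynomial

variable {N : ℕ} {L m : ℕ} {f : MvPolynomial (Fin N) ℤ} {B : ℕ}

theorem aeval_complex_map {σ : Type*} (α : σ → ℂ) (p : MvPolynomial σ ℤ) :
    aeval α (map (Int.castRingHom ℝ) p) = aeval α p := by
  rw [aeval_def, aeval_def, eval₂_map]
  congr 1

theorem small (h : Std L m f B) : N * m + 1 ≤ B ∧ m ^ N * (N * m * (m ^ N + 1)) ≤ B := by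
  have hB := h.hB
  have h7 : 0 < 2 ^ L := by positivity
  have hL : L < 2 ^ L := Nat.lt_two_pow_self
  have hN : N ≤ m ^ N + 2 ^ L + 10 := by have := h.NL; omega
  have hm : m ≤ m ^ N + 2 ^ L + 10 := by have := h.mL; omega
  have hD : m ^ N + 1 ≤ m ^ N + 2 ^ L + 10 := by omega
  have hD' : m ^ N ≤ m ^ N + 2 ^ L + 10 := by omega
  set Z := m ^ N + 2 ^ L + 10 with hZ
  have hZ1 : 10 ≤ Z := by omega
  constructor
  · calc N * m + 1 ≤ Z * Z + Z * Z := by
          apply Nat.add_le_add (Nat.mul_le_mul hN hm)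
          nlinarith
      _ = 2 * Z ^ 2 := by ring
      _ ≤ Z * Z ^ 2 := Nat.mul_le_mul_right _ (by omega)
      _ = Z ^ 3 := by ring
      _ ≤ Z ^ 100 := Nat.pow_le_pow_right (by omega) (by norm_num)
      _ ≤ B := hB
  · calc m ^ N * (N * m * (m ^ N + 1)) ≤ Z * (Z * Z * Z) := by
          gcongr
      _ = Z ^ 4 := by ring
      _ ≤ Z ^ 100 := Nat.pow_le_pow_right (by omega) (by norm_num)
      _ ≤ B := hB

/-- [M2] completeness -/
theorem complete [NeZero N] (h : Std L m f B) (hx : ∃ x : Fin N → ℝ, aeval x f = 0) :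
    ∃ c ≤ B, ∃ k ≤ N * m, ∃ cc < (4 * N * (m ^ N + 1)) ^ (N * m + 1), ∃ j ≤ m ^ N,
      XX m (B ^ 12) B f c k cc j < 0 := by
  classical
  have hm : 0 < m := by have := h.m1; omega
  obtain ⟨hs1, hs2⟩ := small h
  obtain ⟨c, hc, hJ⟩ := exists_c m f h.deg h.m1 (2 ^ B ^ 2)
  have hcB : c ≤ B := le_trans hc hs2
  obtain ⟨k, hk, cc, hcc, hu⟩ := isolate h hcB ((gap h hcB).1 hx)
  have hkB : k ≤ B := by omega
  set fs : Fin N → MvPolynomial (Fin N) ℝ :=
    fK (map (Int.castRingHom ℝ) f) (2 ^ B ^ 2) (c : ℝ) with hfs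
  have hfsd : ∀ i, (fs i).totalDegree < m := fun i => fK_real_deg h c i
  have hcast : ∀ (α : Fin N → ℂ) (i : Fin N),
      aeval α (sysF m fs i) = aeval α (sysF m (fK f (2 ^ B ^ 2) (c : ℤ)) i) := by
    intro α i
    rw [hfs, fK_cast', sysF_map, aeval_complex_map]
  have hcastJ : ∀ α : Fin N → ℂ,
      aeval α (jac m fs) = aeval α (jac m (fK f (2 ^ B ^ 2) (c : ℤ))) := by
    intro α
    rw [hfs, fK_cast', jac_map, aeval_complex_map]
  -- the complex zeros
  have hfsc : ∀ i, (map (algebraMap ℝ ℂ) (fs i)).totalDegree < m := fun i =>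
    lt_of_le_of_lt (totalDegree_map_le' _ _) (hfsd i)
  have hfin := card_zeros hm (fs := fun i => map (algebraMap ℝ ℂ) (fs i)) hfsc
  set Zs : Finset (Fin N → ℂ) := hfin.1.toFinset with hZs
  have hZcard : Zs.card ≤ m ^ N := by
    rw [hZs, ← Set.ncard_eq_toFinset_card _ hfin.1]
    exact hfin.2
  have hZmem : ∀ α : Fin N → ℂ, (∀ i, aeval α (sysF m fs i) = 0) → α ∈ Zs := by
    intro α hα
    rw [hZs, Set.Finite.mem_toFinset, Set.mem_setOf_eq]
    intro i
    rw [sysF_map, eval_map]
    exact hα i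
  obtain ⟨j, hj, hjne⟩ := exists_shift Zs (m ^ N) hZcard
    (fun α => 4 * (((m ^ N : ℕ) : ℂ) + 1) * gg (B ^ 6) B (Finset.range (k + 1))
        (fun s => aeval α (tP m (B ^ 12) B (map (Int.castRingHom ℝ) f) c cc s)))
  have hjD : j ≤ m ^ N := by
    have := Finset.mem_range.1 hj
    omega
  refine ⟨c, hcB, k, hk, cc, hcc, j, hjD, ?_⟩
  have hdet : LinearMap.det (LinearMap.mulLeft ℝ
        (cls m fs (gP m (B ^ 12) B (map (Int.castRingHom ℝ) f) c k cc j))) < 0 := by
    apply det_neg hm hfsd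
    · intro α hα
      rw [hcastJ]
      have := hJ α (fun i => by
        have h3 := hcast α i
        rw [hα i] at h3
        simpa using h3.symm)
      simpa using this
    · intro α hα hzero
      have h4 := hjne α (hZmem α hα)
      apply h4
      unfold gP at hzero
      rw [map_neg, map_add, map_mul, ← AlgHom.coe_toRingHom, map_gg, neg_eq_zero] at hzero
      simp only [AlgHom.coe_toRingHom, RingHom.coe_coe] at hzero
      have e1 : aeval α (C (4 * ((m : ℝ) ^ N + 1))) = 4 * (((m ^ N : ℕ) : ℂ) + 1) := by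
        rw [← algebraMap_eq, AlgHom.commutes]
        push_cast
        simp
      have e2 : aeval α (C (j : ℝ)) = (j : ℂ) := by
        rw [← algebraMap_eq, AlgHom.commutes]
        simp
      rw [e1, e2] at hzero
      exact hzero
    · -- exactly one real zero
      have hiff : ∀ α : Fin N → ℝ, (∀ i, aeval α (sysF m (fK f (2 ^ B ^ 2) (c : ℤ)) i) = 0) →
          (eval α (gP m (B ^ 12) B (map (Int.castRingHom ℝ) f) c k cc j) < 0 ↔
            ∀ s ∈ Finset.range (k + 1), 0 < aeval α (tP m (B ^ 12) B f c cc s)) := by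
        intro α hα
        rw [eval_gP]
        have hB1 : 1 ≤ B := by omega
        have hcard : 4 * (Finset.range (k + 1)).card ≤ 9 ^ B := by
          rw [Finset.card_range]
          exact le_trans (nine_pow k) (Nat.pow_le_pow_right (by norm_num) (by omega))
        have hgs := gadget_sign (B ^ 6) B (Finset.range (k + 1))
          (fun s => aeval α (tP m (B ^ 12) B f c cc s)) hB1 hcard
          (fun r _ => tP_val h hcB (cc := cc) α hα (s := r)) (m ^ N) j hjD
        constructor
        · intro hneg s hs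
          by_contra hcon
          have hval := tP_val h hcB (cc := cc) α hα (s := s)
          have hneg' : aeval α (tP m (B ^ 12) B f c cc s) < 0 := by
            rcases lt_trichotomy (aeval α (tP m (B ^ 12) B f c cc s)) 0 with h0 | h0 | h0
            · exact h0
            · rw [h0] at hval
              norm_num at hval
            · exact absurd h0 hcon
          have := hgs.2 ⟨s, hs, hneg'⟩
          linarith
        · intro hpos
          have := hgs.1 hpos
          linarith
      obtain ⟨α, ⟨hα, hp⟩, huniq⟩ := hu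
      refine ⟨α, ⟨(zero_iff f m B c α).2 hα, (hiff α hα).2 hp⟩, ?_⟩
      rintro β ⟨hβ, hβg⟩
      have hβ' := (zero_iff f m B c β).1 hβ
      exact huniq β ⟨hβ', (hiff β hβ').1 hβg⟩
  have hX := XX_real (N := N) h (c := c) (k := k) (cc := cc) (j := j) hcB hkB
  have hfac : (0 : ℝ) < ((m ^ N).factorial : ℝ) := by exact_mod_cast Nat.factorial_pos _
  have : ((XX m (B ^ 12) B f c k cc j : ℤ) : ℝ) < 0 := by
    rw [hX]
    exact mul_neg_of_pos_of_neg hfac hdet
  exact_mod_cast this

end Vale.Agent.P337
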