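import Mathlib

/-!
# P337: definitions of the final statement

Polynomial time (Mathlib's multi-stack Turing machines), the counting hierarchy, existential
sentences over the reals and their language `ETR`.
-/

namespace Vale.Agent.P337

/-! ## The counting hierarchy -/

open Classical in
/-- `P`: the language `L` is decided in polynomial time by a multi-stack Turing machine of Mathlib
(`Turing.TM2ComputableInPolyTime`) all of whose alphabets are finite. -/
def InP (L : Set (List Bool)) : Prop :=
  ∃ c : Turing.TM2ComputableInPolyTime (id : List Bool → List Bool) Computability.encodeBool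
    (fun x => decide (x ∈ L)), ∀ k, Finite (c.tm.Γ k)

/-- The pair `⟨x, y⟩`: the bits of `x` doubled, then `01`, then `y`. -/
def pairL (x y : List Bool) : List Bool := x.flatMap (fun b => [b, b]) ++ [false, true] ++ y

/-- The level `j` of the counting hierarchy: `C₀ = P`, and `L ∈ C_{j+1}` iff there are `A ∈ C_j`
and a polynomial `q` such that `x ∈ L` iff more than half of the strings `y` of length `q(|x|)`
satisfy `⟨x, y⟩ ∈ A`. -/
def CHLevel : ℕ → Set (List Bool) → Prop
  | 0, L => InP L
  | j + 1, L => ∃ A : Set (List Bool), CHLevel j A ∧ ∃ q : Polynomial ℕ, ∀ x : List Bool,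
      x ∈ L ↔ 2 ^ q.eval x.length <
        2 * Nat.card {y : List Bool // y.length = q.eval x.length ∧ pairL x y ∈ A}

/-- The counting hierarchy. -/
def CH (L : Set (List Bool)) : Prop := ∃ j, CHLevel j L

/-! ## Existential sentences -/

/-- A monomial: sign, binary digits of the absolute value of the coefficient (most significant
digit first), and the exponents of `x_0, x_1, ...`. -/
structure Mono where
  neg : Bool
  digits : List Bool
  exps : List ℕ

/-- The natural number with the given binary digits, most significant digit first. -/
def digitsVal (l : List Bool) : ℕ := l.foldl (fun n b => 2 * n + b.toNat) 0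

/-- The integer coefficient of a monomial. -/
def Mono.coeff (a : Mono) : ℤ := if a.neg then -(digitsVal a.digits : ℤ) else digitsVal a.digits

/-- `∏ i, x_{i+s} ^ e_i`. -/
def powProd {R : Type} [CommRing R] (x : ℕ → R) : ℕ → List ℕ → R
  | _, [] => 1
  | s, e :: l => x s ^ e * powProd x (s + 1) l

/-- The value of a monomial. -/
def Mono.eval {R : Type} [CommRing R] (x : ℕ → R) (a : Mono) : R :=
  (a.coeff : R) * powProd x 0 a.exps

/-- A polynomial is an explicit list of monomials. -/
def polyEval {R : Type} [CommRing R] (x : ℕ → R) (p : List Mono) : R :=
  (p.map (Mono.eval x)).sum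

/-- Boolean formulas over the atoms `p = 0` and `p > 0`. -/
inductive Form
  | zero (p : List Mono)
  | pos (p : List Mono)
  | and (a b : Form)
  | or (a b : Form)
  | not (a : Form)

/-- Truth of a formula at a real point. -/
def Form.Holds (x : ℕ → ℝ) : Form → Prop
  | .zero p => polyEval x p = 0
  | .pos p => 0 < polyEval x p
  | .and a b => a.Holds x ∧ b.Holds x
  | .or a b => a.Holds x ∨ b.Holds x
  | .not a => ¬ a.Holds x

/-- Symbols used to write sentences. -/
inductive Tok
  | plus | minus | d0 | d1 | tick | next | stop | eq | gt | and | or | not
  deriving DecidableEq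

/-- Each symbol is a block of four bits. -/
def Tok.bits : Tok → List Bool
  | .plus => [false, false, false, false]
  | .minus => [true, false, false, false]
  | .d0 => [false, true, false, false]
  | .d1 => [true, true, false, false]
  | .tick => [false, false, true, false]
  | .next => [true, false, true, false]
  | .stop => [false, true, true, false]
  | .eq => [true, true, true, false]
  | .gt => [false, false, false, true]
  | .and => [true, false, false, true]
  | .or => [false, true, false, true]
  | .not => [true, true, false, true]

/-- A monomial is written as its sign, its digits, for each exponent `e` the symbol `tick` `e`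
times followed by `next` (exponents in unary), and `stop`. -/
def Mono.toks (a : Mono) : List Tok :=
  (if a.neg then Tok.minus else Tok.plus) :: a.digits.map (fun b => if b then Tok.d1 else Tok.d0) ++
    a.exps.flatMap (fun e => List.replicate e Tok.tick ++ [Tok.next]) ++ [Tok.stop]

/-- A formula is written in reverse Polish notation. -/
def Form.toks : Form → List Tok
  | .zero p => p.flatMap Mono.toks ++ [Tok.eq]
  | .pos p => p.flatMap Mono.toks ++ [Tok.gt]
  | .and a b => a.toks ++ b.toks ++ [Tok.and]
  | .or a b => a.toks ++ b.toks ++ [Tok.or]
  | .not a => a.toks ++ [Tok.not]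

/-- The binary string encoding a formula. -/
def Form.enc (φ : Form) : List Bool := φ.toks.flatMap Tok.bits

/-- The existential theory of the reals: the encodings of the formulas `φ` for which the sentence
`∃ x_0, x_1, ... ∈ ℝ, φ(x)` is true. -/
def ETR : Set (List Bool) := {w | ∃ φ : Form, φ.enc = w ∧ ∃ x : ℕ → ℝ, φ.Holds x}

end Vale.Agent.P337
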