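import Vale.Agent.P337.TauBase

/-!
# P337, T1d: low degrees, the top monomial, the Jacobian
-/

namespace Vale.Agent.P337

open MvPolynomial

section T1
variable {R : Type*} [CommRing R] {N : ℕ}

theorem finsupp_sum_eq (a : Fin N →₀ ℕ) : a.sum (fun _ e => e) = ∑ i, a i :=
  Finsupp.sum_fintype _ _ (fun _ => rfl)

/-- [T1d] `τ` kills polynomials of degree `< N (m - 1)` -/
theorem tau_low {m E : ℕ} (hm : 0 < m) {f : Fin N → MvPolynomial (Fin N) R}
    (hf : ∀ i, (f i).totalDegree < m) {g : MvPolynomial (Fin N) R}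
    (hg : g.totalDegree < N * (m - 1)) : tau m E f g = 0 := by
  unfold tau
  exact Finset.sum_eq_zero fun k _ => coeff_topExp_eq_zero hm hf (by omega)

/-- In degree `≤ N (m - 1)` the functional is the coefficient of `∏ x_i ^ (m - 1)`. -/
theorem tau_eq_coeff {m E : ℕ} (hm : 0 < m) {f : Fin N → MvPolynomial (Fin N) R}
    (hf : ∀ i, (f i).totalDegree < m) {g : MvPolynomial (Fin N) R}
    (hg : g.totalDegree ≤ N * (m - 1)) : tau m E f g = coeff (topExp m 0) g := by
  unfold tau
  rw [Finset.sum_eq_single (0 : Fin N → ℕ)]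
  · simp
  · intro k _ hk
    apply coeff_topExp_eq_zero hm hf
    have : 0 < ∑ i, k i := by
      by_contra h
      apply hk
      ext i
      have := sum_le_of_mem (k := k) i
      rw [Pi.zero_apply]
      omega
    omega
  · intro h
    exfalso
    apply h
    simp [Fintype.mem_piFinset]

theorem monomial_topExp (m : ℕ) :
    (monomial (topExp m (0 : Fin N → ℕ)) (1 : R)) = ∏ i : Fin N, X i ^ (m - 1) := by
  rw [monomial_eq, C_1, one_mul, Finsupp.prod_fintype _ _ (fun _ => pow_zero _)]
  refine Finset.prod_congr rfl fun i _ => ?_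
  rw [topExp_apply, Pi.zero_apply, zero_add, mul_one]

theorem topExp_zero_sum (m : ℕ) : ∑ i, topExp m (0 : Fin N → ℕ) i = N * (m - 1) := by
  simp [topExp_apply]

/-- [T1e] `τ (∏ x_i ^ (m - 1)) = 1` -/
theorem tau_top {m E : ℕ} (hm : 0 < m) {f : Fin N → MvPolynomial (Fin N) R}
    (hf : ∀ i, (f i).totalDegree < m) : tau m E f (∏ i : Fin N, X i ^ (m - 1)) = 1 := by
  classical
  rw [← monomial_topExp, tau_eq_coeff hm hf, coeff_monomial, if_pos rfl]
  refine (totalDegree_monomial_le _ _).trans ?_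
  have := finsupp_sum_eq (topExp m (0 : Fin N → ℕ))
  rw [topExp_zero_sum] at this
  exact this.le

/-- [T1f] `τ` kills every other monomial of degree `N (m - 1)` -/
theorem tau_mono {m E : ℕ} (hm : 0 < m) {f : Fin N → MvPolynomial (Fin N) R}
    (hf : ∀ i, (f i).totalDegree < m) (a : Fin N →₀ ℕ) (ha : a.sum (fun _ e => e) ≤ N * (m - 1))
    (ha' : ∃ i, a i ≠ m - 1) : tau m E f (monomial a 1) = 0 := by
  classical
  rw [tau_eq_coeff hm hf ((totalDegree_monomial_le _ _).trans ha), coeff_monomial, if_neg]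
  rintro rfl
  obtain ⟨i, hi⟩ := ha'
  apply hi
  rw [topExp_apply, Pi.zero_apply, zero_add, mul_one]

/-! ### degree bounds on coefficients -/

/-- all monomials have degree at most `d` -/
def LeD (d : ℕ) (g : MvPolynomial (Fin N) R) : Prop :=
  ∀ s : Fin N →₀ ℕ, d < ∑ i, s i → coeff s g = 0

/-- all monomials have degree less than `d` -/
def LtD (d : ℕ) (g : MvPolynomial (Fin N) R) : Prop :=
  ∀ s : Fin N →₀ ℕ, d ≤ ∑ i, s i → coeff s g = 0

theorem sum_add_finsupp (a b : Fin N →₀ ℕ) : ∑ i, (a + b) i = ∑ i, a i + ∑ i, b i := by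
  simp [Finset.sum_add_distrib]

theorem LeD.mul {a b : ℕ} {p q : MvPolynomial (Fin N) R} (hp : LeD a p) (hq : LeD b q) :
    LeD (a + b) (p * q) := by
  classical
  intro s hs
  rw [coeff_mul]
  refine Finset.sum_eq_zero fun x hx => ?_
  rw [Finset.HasAntidiagonal.mem_antidiagonal] at hx
  rw [← hx, sum_add_finsupp] at hs
  by_cases h : a < ∑ i, x.1 i
  · rw [hp _ h, zero_mul]
  · rw [hq _ (by omega), mul_zero]

theorem LtD.mul_leD {a b : ℕ} {p q : MvPolynomial (Fin N) R} (hp : LtD a p) (hq : LeD b q) :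
    LtD (a + b) (p * q) := by
  classical
  intro s hs
  rw [coeff_mul]
  refine Finset.sum_eq_zero fun x hx => ?_
  rw [Finset.HasAntidiagonal.mem_antidiagonal] at hx
  rw [← hx, sum_add_finsupp] at hs
  by_cases h : a ≤ ∑ i, x.1 i
  · rw [hp _ h, zero_mul]
  · rw [hq _ (by omega), mul_zero]

theorem LeD.mul_ltD {a b : ℕ} {p q : MvPolynomial (Fin N) R} (hp : LeD a p) (hq : LtD b q) :
    LtD (a + b) (p * q) := by
  rw [mul_comm, add_comm]
  exact hq.mul_leD hp

theorem leD_iff {d : ℕ} {g : MvPolynomial (Fin N) R} : LeD d g ↔ g.totalDegree ≤ d := by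
  constructor
  · intro h
    refine Finset.sup_le fun s hs => ?_
    rw [finsupp_sum_eq]
    by_contra hc
    rw [mem_support_iff] at hs
    exact hs (h s (by omega))
  · intro h s hs
    exact coeff_big (by omega)

theorem ltD_of_lt {d : ℕ} {g : MvPolynomial (Fin N) R} (h : g.totalDegree < d) : LtD d g :=
  fun s hs => coeff_big (by omega)

theorem LtD.leD {d : ℕ} {g : MvPolynomial (Fin N) R} (h : LtD d g) : LeD d g :=
  fun s hs => h s hs.le

theorem LeD.add {d : ℕ} {p q : MvPolynomial (Fin N) R} (hp : LeD d p) (hq : LeD d q) :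
    LeD d (p + q) := by
  intro s hs
  rw [coeff_add, hp s hs, hq s hs, add_zero]

theorem LtD.add {d : ℕ} {p q : MvPolynomial (Fin N) R} (hp : LtD d p) (hq : LtD d q) :
    LtD d (p + q) := by
  intro s hs
  rw [coeff_add, hp s hs, hq s hs, add_zero]

theorem LtD.neg {d : ℕ} {p : MvPolynomial (Fin N) R} (hp : LtD d p) : LtD d (-p) := by
  intro s hs
  rw [coeff_neg, hp s hs, neg_zero]

theorem LeD.neg {d : ℕ} {p : MvPolynomial (Fin N) R} (hp : LeD d p) : LeD d (-p) := by
  intro s hs
  rw [coeff_neg, hp s hs, neg_zero]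

theorem LtD.sum {ι : Type*} {d : ℕ} (s : Finset ι) {p : ι → MvPolynomial (Fin N) R}
    (hp : ∀ i ∈ s, LtD d (p i)) : LtD d (∑ i ∈ s, p i) := by
  intro t ht
  rw [coeff_sum]
  exact Finset.sum_eq_zero fun i hi => hp i hi t ht

theorem LeD.sum {ι : Type*} {d : ℕ} (s : Finset ι) {p : ι → MvPolynomial (Fin N) R}
    (hp : ∀ i ∈ s, LeD d (p i)) : LeD d (∑ i ∈ s, p i) := by
  intro t ht
  rw [coeff_sum]
  exact Finset.sum_eq_zero fun i hi => hp i hi t ht

theorem LeD.prod {ι : Type*} [DecidableEq ι] {d : ℕ} (s : Finset ι)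
    {p : ι → MvPolynomial (Fin N) R} (hp : ∀ i ∈ s, LeD d (p i)) :
    LeD (s.card * d) (∏ i ∈ s, p i) := by
  induction s using Finset.induction_on with
  | empty =>
    rw [Finset.prod_empty, Finset.card_empty, zero_mul, leD_iff, totalDegree_one]
  | insert a s ha ih =>
    rw [Finset.prod_insert ha, Finset.card_insert_of_notMem ha, Nat.succ_mul, add_comm]
    exact (hp a (Finset.mem_insert_self _ _)).mul
      (ih fun i hi => hp i (Finset.mem_insert_of_mem hi))

theorem LtD.prod_sub {ι : Type*} [DecidableEq ι] {d : ℕ} (s : Finset ι)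
    {a b : ι → MvPolynomial (Fin N) R} (ha : ∀ i, LeD d (a i)) (hb : ∀ i, LtD d (b i)) :
    LtD (s.card * d) (∏ i ∈ s, (a i + b i) - ∏ i ∈ s, a i) := by
  induction s using Finset.induction_on with
  | empty =>
    intro t _
    rw [Finset.prod_empty, Finset.prod_empty, sub_self, coeff_zero]
  | insert x s hx ih =>
    rw [Finset.prod_insert hx, Finset.prod_insert hx, Finset.card_insert_of_notMem hx,
      Nat.succ_mul, add_comm (s.card * d) d]
    have h1 : (a x + b x) * ∏ i ∈ s, (a i + b i) - a x * ∏ i ∈ s, a i =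
        (a x + b x) * (∏ i ∈ s, (a i + b i) - ∏ i ∈ s, a i) + b x * ∏ i ∈ s, a i := by ring
    rw [h1]
    exact (((ha x).add (hb x).leD).mul_ltD ih).add ((hb x).mul_leD (LeD.prod s fun i _ => ha i))

theorem sum_add_single (s : Fin N →₀ ℕ) (i : Fin N) :
    ∑ j, (s + Finsupp.single i (1 : ℕ) : Fin N →₀ ℕ) j = ∑ j, s j + 1 := by
  classical
  rw [sum_add_finsupp]
  congr 1
  simp [Finsupp.single_apply]

theorem LtD.pderiv {d : ℕ} {g : MvPolynomial (Fin N) R} (h : LtD (d + 1) g) (i : Fin N) :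
    LtD d (MvPolynomial.pderiv i g) := by
  intro s hs
  rw [coeff_pderiv, h _ (by rw [sum_add_single]; omega), zero_mul]

theorem LeD.pderiv {d : ℕ} {g : MvPolynomial (Fin N) R} (h : LeD d g) (i : Fin N) :
    LeD (d - 1) (MvPolynomial.pderiv i g) := by
  intro s hs
  rw [coeff_pderiv, h _ (by rw [sum_add_single]; omega), zero_mul]

theorem leD_intCast (z : ℤ) : LeD (N := N) (R := R) 0 (z : MvPolynomial (Fin N) R) := by
  rw [leD_iff, ← map_intCast (C : R →+* MvPolynomial (Fin N) R) z, totalDegree_C]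

/-- the determinant of a matrix of polynomials of degree `≤ d` -/
theorem LeD.det {d : ℕ} {A : Matrix (Fin N) (Fin N) (MvPolynomial (Fin N) R)}
    (hA : ∀ i j, LeD d (A i j)) : LeD (N * d) A.det := by
  rw [Matrix.det_apply']
  refine LeD.sum _ fun σ _ => ?_
  have h := LeD.prod (Finset.univ : Finset (Fin N)) (p := fun i => A (σ i) i)
    (d := d) fun i _ => hA _ _
  rw [Finset.card_univ, Fintype.card_fin] at h
  have h2 := (leD_intCast (N := N) (R := R) ((Equiv.Perm.sign σ : ℤ))).mul h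
  rwa [zero_add] at h2

/-- top part of the determinant of a diagonal matrix plus a matrix of lower degree -/
theorem LtD.det_sub {d : ℕ} {A : Matrix (Fin N) (Fin N) (MvPolynomial (Fin N) R)}
    {a : Fin N → MvPolynomial (Fin N) R} {b : Fin N → Fin N → MvPolynomial (Fin N) R}
    (hA : ∀ i j, A i j = (if i = j then a i else 0) + b i j)
    (ha : ∀ i, LeD d (a i)) (hb : ∀ i j, LtD d (b i j)) :
    LtD (N * d) (A.det - ∏ i, a i) := by
  have hle : ∀ i j, LeD d (A i j) := by
    intro i j
    rw [hA]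
    refine LeD.add ?_ (hb i j).leD
    split_ifs
    · exact ha i
    · intro s _
      exact coeff_zero s
  rw [Matrix.det_apply', ← Finset.add_sum_erase _ _ (Finset.mem_univ (1 : Equiv.Perm (Fin N))),
    Equiv.Perm.sign_one, Units.val_one, Int.cast_one, one_mul, add_sub_right_comm]
  refine LtD.add ?_ (LtD.sum _ fun σ hσ => ?_)
  · have h := LtD.prod_sub (Finset.univ : Finset (Fin N)) ha (fun i => hb i i)
    rw [Finset.card_univ, Fintype.card_fin] at h
    have h2 : ∏ i, A ((1 : Equiv.Perm (Fin N)) i) i = ∏ i, (a i + b i i) := by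
      refine Finset.prod_congr rfl fun i _ => ?_
      rw [Equiv.Perm.one_apply, hA, if_pos rfl]
    rw [h2]
    exact h
  · obtain ⟨i, hi⟩ : ∃ i, σ i ≠ i := by
      by_contra hc
      push Not at hc
      exact (Finset.ne_of_mem_erase hσ) (Equiv.ext hc)
    rw [← Finset.mul_prod_erase Finset.univ _ (Finset.mem_univ i)]
    have h1 : LtD d (A (σ i) i) := by
      rw [hA, if_neg hi, zero_add]
      exact hb _ _
    have h2 := LeD.prod (Finset.univ.erase i) (p := fun i => A (σ i) i) (d := d)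
      fun i _ => hle _ _
    rw [Finset.card_erase_of_mem (Finset.mem_univ i), Finset.card_univ, Fintype.card_fin] at h2
    have h3 := h1.mul_leD h2
    have h4 : d + (N - 1) * d = N * d := by
      have hN : 0 < N := i.pos
      obtain ⟨n, rfl⟩ : ∃ n, N = n + 1 := ⟨N - 1, by omega⟩
      rw [Nat.add_sub_cancel]
      ring
    rw [h4] at h3
    have h5 := (leD_intCast (N := N) (R := R) ((Equiv.Perm.sign σ : ℤ))).mul_ltD h3
    rwa [zero_add] at h5

theorem leD_X_pow (i : Fin N) (n : ℕ) : LeD (R := R) n (X i ^ n) := by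
  rw [leD_iff, X_pow_eq_monomial]
  refine (totalDegree_monomial_le _ _).trans ?_
  rw [Finsupp.sum_single_index] <;> rfl

theorem jac_entry (m : ℕ) (f : Fin N → MvPolynomial (Fin N) R) (i j : Fin N) :
    MvPolynomial.pderiv j (sysF m f i) =
      (if i = j then C (m : R) * X i ^ (m - 1) else 0) + -MvPolynomial.pderiv j (f i) := by
  classical
  rw [sysF, map_sub, pderiv_pow, pderiv_X, sub_eq_add_neg]
  congr 1
  by_cases h : i = j
  · subst h
    rw [if_pos rfl, Pi.single_eq_same, mul_one, map_natCast]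
  · rw [if_neg h, Pi.single_eq_of_ne h, mul_zero]

theorem jac_ltD {m : ℕ} (hm : 0 < m) {f : Fin N → MvPolynomial (Fin N) R}
    (hf : ∀ i, (f i).totalDegree < m) :
    LtD (N * (m - 1)) (jac m f - ∏ i : Fin N, (C (m : R) * X i ^ (m - 1))) := by
  refine LtD.det_sub (A := Matrix.of fun i j => MvPolynomial.pderiv j (sysF m f i))
    (b := fun i j => -MvPolynomial.pderiv j (f i)) (fun i j => ?_) (fun i => ?_) fun i j => ?_
  · rw [Matrix.of_apply, jac_entry]
  · have h1 : LeD (N := N) 0 (C (m : R)) := by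
      rw [leD_iff, totalDegree_C]
    have h2 := h1.mul (leD_X_pow (R := R) i (m - 1))
    rwa [zero_add] at h2
  · refine (LtD.pderiv (ltD_of_lt ?_) j).neg
    have := hf i
    omega

theorem leD_jac {m : ℕ} (hm : 0 < m) {f : Fin N → MvPolynomial (Fin N) R}
    (hf : ∀ i, (f i).totalDegree < m) : LeD (N * (m - 1)) (jac m f) := by
  refine LeD.det fun i j => ?_
  rw [Matrix.of_apply, jac_entry]
  refine LeD.add ?_ (LtD.leD (LtD.neg (LtD.pderiv (ltD_of_lt ?_) j)))
  · split_ifs
    · have h1 : LeD (N := N) 0 (C (m : R)) := by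
        rw [leD_iff, totalDegree_C]
      have h2 := h1.mul (leD_X_pow (R := R) i (m - 1))
      rwa [zero_add] at h2
    · intro s _
      exact coeff_zero s
  · have := hf i
    omega

theorem jac_totalDegree {m : ℕ} (hm : 0 < m) {f : Fin N → MvPolynomial (Fin N) R}
    (hf : ∀ i, (f i).totalDegree < m) : (jac m f).totalDegree ≤ N * (m - 1) :=
  leD_iff.mp (leD_jac hm hf)

/-- [T1h] `τ(J) = m ^ N` -/
theorem tau_jac {m E : ℕ} (hm : 0 < m) {f : Fin N → MvPolynomial (Fin N) R}
    (hf : ∀ i, (f i).totalDegree < m) : tau m E f (jac m f) = (m : R) ^ N := by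
  classical
  rw [tau_eq_coeff hm hf (jac_totalDegree hm hf)]
  have h1 := jac_ltD hm hf (topExp m 0) (topExp_zero_sum m).ge
  rw [coeff_sub, sub_eq_zero] at h1
  rw [h1, Finset.prod_mul_distrib, ← monomial_topExp, Finset.prod_const, Finset.card_univ,
    Fintype.card_fin, ← C_pow, coeff_C_mul, coeff_monomial, if_pos rfl, mul_one]

end T1

end Vale.Agent.P337
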