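import Vale.Agent.P337.StdDef
import Vale.Agent.P337.TauTop

/-!
# P337, piece [M-a]: degrees
-/

namespace Vale.Agent.P337

open MvPolynomial

/-! ## degrees in the coefficient variable -/

section CoefDeg

variable {R : Type*} [CommRing R] {N : ℕ}

/-- all coefficients have degree at most `d` -/
def CD (d : ℕ) (g : MvPolynomial (Fin N) (Polynomial R)) : Prop :=
  ∀ s : Fin N →₀ ℕ, (coeff s g).natDegree ≤ d

theorem CD.mono {d d' : ℕ} {g : MvPolynomial (Fin N) (Polynomial R)} (h : CD d g) (hd : d ≤ d') :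
    CD d' g := fun s => (h s).trans hd

theorem CD.mul {a b : ℕ} {p q : MvPolynomial (Fin N) (Polynomial R)} (hp : CD a p)
    (hq : CD b q) : CD (a + b) (p * q) := by
  classical
  intro s
  rw [coeff_mul]
  refine Polynomial.natDegree_sum_le_of_forall_le _ _ fun x _ => ?_
  exact Polynomial.natDegree_mul_le.trans (Nat.add_le_add (hp _) (hq _))

theorem CD.sub {d : ℕ} {p q : MvPolynomial (Fin N) (Polynomial R)} (hp : CD d p)
    (hq : CD d q) : CD d (p - q) := by
  intro s
  rw [coeff_sub]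
  exact (Polynomial.natDegree_sub_le _ _).trans (max_le (hp s) (hq s))

theorem CD.sum {ι : Type*} {d : ℕ} (s : Finset ι) {p : ι → MvPolynomial (Fin N) (Polynomial R)}
    (hp : ∀ i ∈ s, CD d (p i)) : CD d (∑ i ∈ s, p i) := by
  intro t
  rw [coeff_sum]
  exact Polynomial.natDegree_sum_le_of_forall_le _ _ fun i hi => hp i hi t

theorem CD.one : CD (R := R) (N := N) 0 1 := by
  classical
  intro s
  rw [coeff_one]
  split_ifs <;> simp

theorem CD.pow {d : ℕ} {p : MvPolynomial (Fin N) (Polynomial R)} (hp : CD d p) (n : ℕ) :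
    CD (n * d) (p ^ n) := by
  induction n with
  | zero => rw [pow_zero, zero_mul]; exact CD.one
  | succ n ih => rw [pow_succ, Nat.succ_mul]; exact ih.mul hp

theorem CD.prod_zero {ι : Type*} (s : Finset ι) {p : ι → MvPolynomial (Fin N) (Polynomial R)}
    (hp : ∀ i ∈ s, CD 0 (p i)) : CD 0 (∏ i ∈ s, p i) := by
  classical
  induction s using Finset.induction_on with
  | empty => rw [Finset.prod_empty]; exact CD.one
  | insert a s ha ih =>
    rw [Finset.prod_insert ha]
    exact (hp a (Finset.mem_insert_self _ _)).mul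
      (ih fun i hi => hp i (Finset.mem_insert_of_mem hi))

theorem CD.map (g : MvPolynomial (Fin N) R) : CD 0 (MvPolynomial.map Polynomial.C g) := by
  intro s
  rw [coeff_map, Polynomial.natDegree_C]

theorem CD.X (i : Fin N) : CD (R := R) 0 (MvPolynomial.X i) := by
  classical
  intro s
  rw [coeff_X]
  split_ifs <;> simp

theorem CD.C (a : Polynomial R) : CD (N := N) a.natDegree (MvPolynomial.C a) := by
  classical
  intro s
  rw [coeff_C]
  split_ifs <;> simp

theorem sysF_map_C (m : ℕ) (f : Fin N → MvPolynomial (Fin N) R) (i : Fin N) :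
    sysF m (fun j => MvPolynomial.map Polynomial.C (f j)) i =
      MvPolynomial.map Polynomial.C (sysF m f i) := by
  simp [sysF]

theorem CD.jac (m : ℕ) (f : Fin N → MvPolynomial (Fin N) R) :
    CD 0 (jac m fun j => MvPolynomial.map Polynomial.C (f j)) := by
  classical
  unfold Vale.Agent.P337.jac
  rw [Matrix.det_apply']
  refine CD.sum _ fun σ _ => ?_
  have h1 : CD (R := R) (N := N) 0 (((Equiv.Perm.sign σ : ℤ) :
      MvPolynomial (Fin N) (Polynomial R))) := by
    intro s
    rw [← map_intCast (MvPolynomial.C : Polynomial R →+* MvPolynomial (Fin N) (Polynomial R)),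
      coeff_C]
    split_ifs <;> simp
  refine h1.mul (CD.prod_zero _ fun i _ => ?_)
  rw [Matrix.of_apply, sysF_map_C, pderiv_map]
  exact CD.map _

theorem tau_natDegree {m E d : ℕ} (f : Fin N → MvPolynomial (Fin N) R)
    {g : MvPolynomial (Fin N) (Polynomial R)} (hg : CD d g) :
    (tau m E (fun j => MvPolynomial.map Polynomial.C (f j)) g).natDegree ≤ d := by
  unfold tau
  refine Polynomial.natDegree_sum_le_of_forall_le _ _ fun k _ => ?_
  have h1 : CD 0 (∏ i, (MvPolynomial.map Polynomial.C (f i)) ^ k i) :=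
    CD.prod_zero _ fun i _ => by simpa using (CD.map (f i)).pow (k i)
  exact (hg.mul h1) _

theorem eh_natDegree {s : ℕ → Polynomial R} (hs : ∀ l, (s l).natDegree ≤ l) (r : ℕ) :
    (eh s r).natDegree ≤ r := by
  induction r using Nat.strong_induction_on with
  | _ r ih =>
    cases r with
    | zero => simp [eh]
    | succ r =>
      rw [eh]
      refine Polynomial.natDegree_sum_le_of_forall_le _ _ fun i _ => ?_
      have h1 := ih (r - i) (by omega)
      have h2 := hs (i + 1)
      have h3 : ((-1 : Polynomial R) ^ (i : ℕ) * (r.descFactorial i : Polynomial R)).natDegree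
          ≤ 0 := by
        refine Polynomial.natDegree_mul_le.trans ?_
        have ha : ((-1 : Polynomial R) ^ (i : ℕ)).natDegree ≤ 0 := by
          refine (Polynomial.natDegree_pow_le).trans ?_
          simp
        have hb : ((r.descFactorial i : ℕ) : Polynomial R).natDegree = 0 :=
          Polynomial.natDegree_natCast _
        omega
      refine Polynomial.natDegree_mul_le.trans ?_
      have h4 := Polynomial.natDegree_mul_le (p := (-1 : Polynomial R) ^ (i : ℕ) *
        (r.descFactorial i : Polynomial R)) (q := eh s (r - i))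
      have := i.2
      omega

theorem wU_natDegree (m E : ℕ) (fs : Fin N → MvPolynomial (Fin N) R) (i : Fin N) (r : ℕ) :
    (wU m E fs i r).natDegree ≤ r := by
  unfold wU ehJ
  refine Polynomial.natDegree_mul_le.trans ?_
  rw [Polynomial.natDegree_C, zero_add]
  refine eh_natDegree (fun l => ?_) r
  refine tau_natDegree fs ?_
  have h1 : CD 1 (MvPolynomial.C Polynomial.X - MvPolynomial.X i :
      MvPolynomial (Fin N) (Polynomial R)) :=
    ((CD.C _).mono Polynomial.natDegree_X_le).sub ((CD.X i).mono zero_le_one)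
  have h2 := (h1.pow l).mul (CD.jac m fs)
  simpa using h2

theorem totalDegree_aeval_X (i : Fin N) (p : Polynomial R) :
    (Polynomial.aeval (X i : MvPolynomial (Fin N) R) p).totalDegree ≤ p.natDegree := by
  rw [Polynomial.aeval_eq_sum_range]
  refine totalDegree_finsetSum_le fun j hj => ?_
  refine (totalDegree_smul_le _ _).trans ?_
  refine (leD_iff.1 (leD_X_pow (R := R) i j)).trans ?_
  have := Finset.mem_range.1 hj
  omega

theorem wP_totalDegree (m E : ℕ) (fs : Fin N → MvPolynomial (Fin N) R) (i : Fin N) (r : ℕ) :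
    (wP m E fs i r).totalDegree ≤ r :=
  (totalDegree_aeval_X i _).trans (wU_natDegree m E fs i r)

/-! ## degree of the gadget -/

theorem leD_C (a : R) (d : ℕ) : LeD (N := N) d (C a) := by
  rw [leD_iff, totalDegree_C]
  exact Nat.zero_le _

theorem LeD.mono {d d' : ℕ} {g : MvPolynomial (Fin N) R} (h : LeD d g) (hd : d ≤ d') :
    LeD d' g := by
  rw [leD_iff] at h ⊢
  exact h.trans hd

theorem LeD.sub {d : ℕ} {p q : MvPolynomial (Fin N) R} (hp : LeD d p) (hq : LeD d q) :
    LeD d (p - q) := by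
  rw [sub_eq_add_neg]
  exact hp.add hq.neg

theorem leD_one (d : ℕ) : LeD (N := N) (R := R) d 1 := by
  rw [← C_1]
  exact leD_C _ _

theorem leD_ofNat (d n : ℕ) [n.AtLeastTwo] :
    LeD (N := N) (R := R) d (OfNat.ofNat n : MvPolynomial (Fin N) R) := by
  have : (OfNat.ofNat n : MvPolynomial (Fin N) R) = C (OfNat.ofNat n : R) := by
    rw [map_ofNat]
  rw [this]
  exact leD_C _ _

theorem LeD.pow {d : ℕ} {p : MvPolynomial (Fin N) R} (hp : LeD d p) (n : ℕ) :
    LeD (n * d) (p ^ n) := by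
  induction n with
  | zero => rw [pow_zero, zero_mul]; exact leD_one _
  | succ n ih => rw [pow_succ, Nat.succ_mul]; exact ih.mul hp

theorem leD_two_pow (d s : ℕ) : LeD (N := N) (R := R) d ((2 : MvPolynomial (Fin N) R) ^ s) := by
  have h := (leD_ofNat (N := N) (R := R) 0 2).pow s
  rw [mul_zero] at h
  exact h.mono (Nat.zero_le _)

theorem leD_qg {S T : ℕ} {t : MvPolynomial (Fin N) R} (ht : LeD T t) :
    LeD ((S + 2) * T) (qg S t) := by
  unfold qg
  have h1 : LeD T (2 * t + 1) := by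
    have := (leD_ofNat (N := N) (R := R) 0 2).mul ht
    rw [zero_add] at this
    exact this.add (leD_one _)
  have h2 : LeD ((Finset.range (S + 1)).card * T) (∏ s ∈ Finset.range (S + 1), (t + 2 ^ s)) :=
    LeD.prod _ fun s _ => ht.add (leD_two_pow _ _)
  rw [Finset.card_range] at h2
  exact (h1.mul h2).mono (by ring_nf; exact le_rfl)

theorem leD_dg {S k T : ℕ} {t : MvPolynomial (Fin N) R} (ht : LeD T t) :
    LeD (2 * k * ((S + 2) * T)) (dg S k t) := by
  unfold dg
  exact ((leD_qg ht).pow _).add ((leD_qg ht.neg).pow _)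

theorem leD_gg {ι : Type*} [DecidableEq ι] {S k T : ℕ} (I : Finset ι)
    {t : ι → MvPolynomial (Fin N) R} (ht : ∀ i ∈ I, LeD T (t i)) :
    LeD (I.card * (2 * k * ((S + 2) * T))) (gg S k I t) := by
  unfold gg
  refine (LeD.prod I fun i hi => leD_dg (ht i hi)).sub ?_
  have h2 : LeD (I.card * (2 * k * ((S + 2) * T)))
      (∑ r ∈ I, qg S (-t r) ^ (2 * k) * ∏ s ∈ I.erase r, dg S k (t s)) := by
    refine LeD.sum _ fun r hr => ?_
    have ha := (leD_qg (S := S) (ht r hr).neg).pow (2 * k)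
    have hb : LeD ((I.erase r).card * (2 * k * ((S + 2) * T))) (∏ s ∈ I.erase r, dg S k (t s)) :=
      LeD.prod _ fun s hs => leD_dg (ht s (Finset.mem_of_mem_erase hs))
    refine (ha.mul hb).mono ?_
    rw [Finset.card_erase_of_mem hr]
    have : 0 < I.card := Finset.card_pos.2 ⟨r, hr⟩
    obtain ⟨n, hn⟩ : ∃ n, I.card = n + 1 := ⟨I.card - 1, by omega⟩
    rw [hn, Nat.add_sub_cancel]
    exact le_of_eq (by ring)
  have h3 := (leD_ofNat (N := N) (R := R) 0 2).mul h2
  rw [zero_add] at h3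
  exact h3

end CoefDeg

/-! ## the statements of part M -/

variable {N : ℕ} {L m : ℕ} {f : MvPolynomial (Fin N) ℤ} {B : ℕ}

/-- [M-a] -/
theorem fK_deg (h : Std L m f B) (K c : ℤ) (i : Fin N) : (fK f K c i).totalDegree < m := by
  have hm := h.m0
  have h1 : LeD (m - 1) f := leD_iff.2 (by have := h.deg; omega)
  have h2 : LeD (m - 1) (fK f K c i) := by
    unfold fK
    refine (leD_C _ _).sub ?_
    have := (leD_C (N := N) K 0).mul (h1.pderiv i)
    rw [zero_add] at this
    exact this.mono (by omega)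
  have := leD_iff.1 h2
  omega

theorem wP_deg {E : ℕ} (fs : Fin N → MvPolynomial (Fin N) ℤ) (hE : m ^ N + N * (m - 1) ≤ E)
    (hm : 0 < m) (hf : ∀ i, (fs i).totalDegree < m) (i : Fin N) (r : ℕ) (hr : r ≤ m ^ N) :
    (wP m E fs i r).totalDegree ≤ m ^ N :=
  (wP_totalDegree m E fs i r).trans hr

theorem Hp_deg (h : Std L m f B) (K c : ℤ) : (Hp m f K c).totalDegree ≤ m + 1 := by
  rw [← leD_iff]
  unfold Hp
  refine LeD.sub (LeD.add ?_ ?_) ?_
  · have := (leD_C (N := N) (((m : ℤ) + 1) * K) 0).mul (leD_iff.2 h.deg.le)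
    exact this.mono (by omega)
  · exact LeD.sum _ fun i _ => leD_X_pow i _
  · have h1 : LeD 1 (∑ i : Fin N, (X i : MvPolynomial (Fin N) ℤ)) :=
      LeD.sum _ fun i _ => by simpa using leD_X_pow (R := ℤ) i 1
    exact ((leD_C (N := N) (((m : ℤ) + 1) * c) 0).mul h1).mono (by omega)

theorem condP_deg [NeZero N] {E : ℕ} (fs : Fin N → MvPolynomial (Fin N) ℤ) (e : ℕ) :
    (condP m E B fs e).totalDegree ≤ m ^ N := by
  rw [← leD_iff]
  unfold condP
  have hw : LeD (m ^ N) (wP m E fs (Fin.ofNat N e) (e / N % (m ^ N + 1))) := by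
    rw [leD_iff]
    refine (wP_totalDegree _ _ _ _ _).trans ?_
    have := Nat.mod_lt (e / N) (Nat.succ_pos (m ^ N))
    exact Nat.lt_succ_iff.1 this
  have h1 := (leD_C (N := N) (sgn (e / (N * (m ^ N + 1)) % 2) : ℤ) 0).mul hw
  rw [zero_add] at h1
  have h2 := (leD_C (N := N) (2 * 2 ^ (B ^ 5) : ℤ) 0).mul h1
  rw [zero_add] at h2
  have h3 := (leD_C (N := N) (sgn (e / (2 * N * (m ^ N + 1)) % 2) : ℤ) 0).mul
    (h2.sub (leD_one _))
  rw [zero_add] at h3
  exact h3

theorem tP_deg [NeZero N] (h : Std L m f B) {c cc s : ℕ} (hc : c ≤ B) :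
    (tP m (B ^ 12) B f c cc s).totalDegree ≤ m ^ N + 1 := by
  unfold tP
  split_ifs
  · rw [← leD_iff]
    refine LeD.sub ?_ (leD_one _)
    have h1 : LeD (m ^ N + 1) (C ((2 : ℤ) ^ B) - Hp m f (2 ^ (B ^ 2)) (c : ℤ)) :=
      (leD_C _ _).sub ((leD_iff.2 (Hp_deg h _ _)).mono (by have := h.m_le_D; omega))
    have h2 := (leD_C (N := N) (2 * 2 ^ (B ^ 5) : ℤ) 0).mul h1
    rw [zero_add] at h2
    exact h2
  · exact (condP_deg _ _).trans (Nat.le_succ _)

theorem gP_deg [NeZero N] (h : Std L m f B) {c k cc j : ℕ} (hc : c ≤ B) (hk : k ≤ B) :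
    (gP m (B ^ 12) B f c k cc j).totalDegree ≤ B ^ 9 := by
  have h0 : LeD ((k + 1) * (2 * B * ((B ^ 6 + 2) * (m ^ N + 1))))
      (gP m (B ^ 12) B f c k cc j) := by
    unfold gP
    refine LeD.neg (LeD.add ?_ (leD_C _ _))
    have h1 := leD_gg (S := B ^ 6) (k := B) (Finset.range (k + 1))
      (t := tP m (B ^ 12) B f c cc) (T := m ^ N + 1) fun s _ => leD_iff.2 (tP_deg h hc)
    rw [Finset.card_range] at h1
    have h2 := (leD_C (N := N) (4 * ((m : ℤ) ^ N + 1)) 0).mul h1
    rw [zero_add] at h2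
    exact h2
  refine (leD_iff.1 h0).trans ?_
  have hB : 10 ≤ B := le_trans (by norm_num) h.B10
  have hZ : (m ^ N + 2 ^ L + 10) ^ 2 ≤ B := h.Zpow_le (by norm_num)
  have hD : 8 * (m ^ N + 1) ≤ B := by
    refine le_trans ?_ hZ
    have h3 : 0 < 2 ^ L := by positivity
    nlinarith [Nat.zero_le (m ^ N)]
  have hB6 : B ^ 6 + 2 ≤ 2 * B ^ 6 := by
    have : 2 ≤ B ^ 6 := le_trans (by omega : 2 ≤ B) (Nat.le_self_pow (by norm_num) B)
    omega
  calc (k + 1) * (2 * B * ((B ^ 6 + 2) * (m ^ N + 1)))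
      ≤ (2 * B) * (2 * B * ((2 * B ^ 6) * (m ^ N + 1))) := by
        gcongr
        omega
    _ = B ^ 8 * (8 * (m ^ N + 1)) := by ring
    _ ≤ B ^ 8 * B := by gcongr
    _ = B ^ 9 := by ring

end Vale.Agent.P337
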