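import Mathlib

/-!
# P337 [T5d]: the determinant as a sum over all maps
-/

namespace Vale.Agent.P337

open Finset

/-- [T5d] determinant as a sum over all maps (product of signs) -/
theorem det_maps {N : ℕ} {R : Type*} [CommRing R] (A : Matrix (Fin N) (Fin N) R) :
    A.det = ∑ π : Fin N → Fin N,
      (∏ i, ∏ j, if i < j then (if π i < π j then (1 : R) else if π j < π i then -1 else 0) else 1) *
        ∏ i, A (π i) i := by
  classical
  have hinj : Function.Injective (fun σ : Equiv.Perm (Fin N) => (σ : Fin N → Fin N)) :=
    DFunLike.coe_injective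
  have h1 : ∑ π : Fin N → Fin N,
      (∏ i, ∏ j, if i < j then (if π i < π j then (1 : R) else if π j < π i then -1 else 0) else 1) *
        ∏ i, A (π i) i = ∑ π ∈ (univ : Finset (Equiv.Perm (Fin N))).image
          (fun σ : Equiv.Perm (Fin N) => (σ : Fin N → Fin N)),
      (∏ i, ∏ j, if i < j then (if π i < π j then (1 : R) else if π j < π i then -1 else 0) else 1) *
        ∏ i, A (π i) i := by
    symm
    apply sum_subset (subset_univ _)
    intro π _ hπ
    have hni : ¬ Function.Injective π := by
      intro hi
      apply hπ
      rw [mem_image]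
      exact ⟨Equiv.ofBijective π (Finite.injective_iff_bijective.1 hi), mem_univ _, rfl⟩
    have : ∃ i j, i < j ∧ π i = π j := by
      rw [Function.Injective] at hni
      push Not at hni
      obtain ⟨i, j, hij, hne⟩ := hni
      rcases lt_or_gt_of_ne hne with h | h
      · exact ⟨i, j, h, hij⟩
      · exact ⟨j, i, h, hij.symm⟩
    obtain ⟨i, j, hij, he⟩ := this
    rw [prod_eq_zero (mem_univ i) (prod_eq_zero (mem_univ j) (by simp [hij, he])), zero_mul]
  rw [h1, sum_image (fun a _ b _ h => hinj h), Matrix.det_apply']
  refine sum_congr rfl fun σ _ => ?_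
  congr 1
  rw [Equiv.Perm.sign_eq_prod_prod_Ioi]
  push_cast
  refine prod_congr rfl fun i _ => ?_
  rw [← prod_filter_mul_prod_filter_not univ (fun j => i < j)]
  rw [prod_congr (g := fun _ => (1 : R)) rfl (s₂ := univ.filter fun j => ¬ i < j)
    (fun j hj => by simp only [mem_filter] at hj; simp [hj.2]), prod_const_one, mul_one]
  apply prod_congr
  · ext j
    simp
  · intro j hj
    have hij : i < j := by simpa using hj
    rw [if_pos hij]
    have hne : σ i ≠ σ j := fun h => (ne_of_lt hij) (σ.injective h)
    rcases lt_or_gt_of_ne hne with h | h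
    · simp [h]
    · simp [h, not_lt.2 h.le]

end Vale.Agent.P337
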