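import Vale.Agent.P337.Alg

/-!
# P337 [T2a]: difference quotients of polynomials
-/

namespace Vale.Agent.P337

open MvPolynomial

variable {R : Type*} [CommRing R] {N : ℕ}

/-- The statement proved by induction: every exponent of `δ j` has degree less than
the total degree of `p`. -/
def DiffOK (p : MvPolynomial (Fin N) R) (d : ℕ) : Prop :=
  ∃ δ : Fin N → MvPolynomial (Fin N ⊕ Fin N) R,
    rename Sum.inl p - rename Sum.inr p = ∑ j, δ j * (X (Sum.inl j) - X (Sum.inr j)) ∧
    (∀ j, ∀ s ∈ (δ j).support, (s.sum fun _ e => e) + 1 ≤ d) ∧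
    ∀ j, aeval (Sum.elim X X) (δ j) = pderiv j p

theorem diffOK_zero (d : ℕ) : DiffOK (0 : MvPolynomial (Fin N) R) d :=
  ⟨fun _ => 0, by simp, by simp, by simp⟩

theorem diffOK_C (a : R) (d : ℕ) : DiffOK (C a : MvPolynomial (Fin N) R) d :=
  ⟨fun _ => 0, by simp, by simp, by simp⟩

theorem DiffOK.mono {p : MvPolynomial (Fin N) R} {d d' : ℕ} (h : DiffOK p d) (hd : d ≤ d') :
    DiffOK p d' := by
  obtain ⟨δ, h1, h2, h3⟩ := h
  exact ⟨δ, h1, fun j s hs => (h2 j s hs).trans hd, h3⟩

theorem DiffOK.add {p q : MvPolynomial (Fin N) R} {d : ℕ} (hp : DiffOK p d) (hq : DiffOK q d) :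
    DiffOK (p + q) d := by
  classical
  obtain ⟨δ, h1, h2, h3⟩ := hp
  obtain ⟨ε, k1, k2, k3⟩ := hq
  refine ⟨fun j => δ j + ε j, ?_, ?_, ?_⟩
  · simp only [map_add, add_mul, Finset.sum_add_distrib, ← h1, ← k1]
    ring
  · intro j s hs
    rcases Finset.mem_union.1 (support_add hs) with h | h
    · exact h2 j s h
    · exact k2 j s h
  · intro j
    simp only [map_add, h3, k3]

theorem DiffOK.mul_X {p : MvPolynomial (Fin N) R} {d : ℕ} (hp : DiffOK p d)
    (hd : p.totalDegree ≤ d) (n : Fin N) : DiffOK (p * X n) (d + 1) := by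
  classical
  obtain ⟨δ, h1, h2, h3⟩ := hp
  refine ⟨fun j => (if n = j then rename Sum.inl p else 0) + δ j * X (Sum.inr n), ?_, ?_, ?_⟩
  · simp only [map_mul, rename_X, add_mul, Finset.sum_add_distrib, ite_mul, zero_mul,
      Finset.sum_ite_eq, Finset.mem_univ, if_true]
    have : ∑ j, δ j * X (Sum.inr n) * (X (Sum.inl j) - X (Sum.inr j)) =
        (∑ j, δ j * (X (Sum.inl j) - X (Sum.inr j))) * X (Sum.inr n) := by
      rw [Finset.sum_mul]
      exact Finset.sum_congr rfl fun j _ => by ring
    rw [this, ← h1]
    ring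
  · intro j s hs
    rcases Finset.mem_union.1 (support_add hs) with h | h
    · by_cases hn : n = j
      · rw [if_pos hn] at h
        have h4 := le_totalDegree h
        have h5 := totalDegree_rename_le (Sum.inl : Fin N → Fin N ⊕ Fin N) p
        omega
      · rw [if_neg hn] at h
        simp at h
    · rw [support_mul_X] at h
      obtain ⟨t, ht, rfl⟩ := Finset.mem_map.1 h
      have := h2 j t ht
      simp only [addRightEmbedding_apply]
      rw [Finsupp.sum_add_index' (fun _ => rfl) (fun _ _ _ => rfl), Finsupp.sum_single_index rfl]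
      omega
  · intro j
    have h6 : aeval (Sum.elim X X : Fin N ⊕ Fin N → MvPolynomial (Fin N) R)
        (rename Sum.inl p) = p := by
      rw [aeval_rename]
      exact aeval_X_left_apply p
    by_cases hn : n = j
    · subst hn
      simp only [if_true, map_add, map_mul, aeval_X, Sum.elim_inr, h3, h6, Derivation.leibniz,
        smul_eq_mul, pderiv_X_self]
      ring
    · simp only [hn, if_false, map_zero, map_add, map_mul, aeval_X, Sum.elim_inr, h3,
        Derivation.leibniz, smul_eq_mul, pderiv_X_of_ne hn]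
      ring

theorem totalDegree_succ_le_mul_X {p : MvPolynomial (Fin N) R} (h0 : p ≠ 0) (n : Fin N) :
    p.totalDegree + 1 ≤ (p * X n).totalDegree := by
  classical
  have hne : p.support.Nonempty := by
    rw [Finset.nonempty_iff_ne_empty, Ne, MvPolynomial.support_eq_empty]
    exact h0
  obtain ⟨s, hs, h1⟩ := Finset.exists_mem_eq_sup p.support hne (fun s => s.sum fun _ e => e)
  have h2 : s + Finsupp.single n 1 ∈ (p * X n).support := by
    rw [support_mul_X]
    exact Finset.mem_map.2 ⟨s, hs, rfl⟩
  have h3 := le_totalDegree h2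
  rw [Finsupp.sum_add_index' (fun _ => rfl) (fun _ _ _ => rfl), Finsupp.sum_single_index rfl] at h3
  have h4 : p.totalDegree = s.sum fun _ e => e := h1
  omega

theorem diffOK_monomial (s : Fin N →₀ ℕ) (a : R) :
    DiffOK (monomial s a) (monomial s a).totalDegree := by
  refine induction_on_monomial (motive := fun p => DiffOK p p.totalDegree) ?_ ?_ s a
  · intro a
    exact diffOK_C a _
  · intro p n hp
    by_cases h0 : p = 0
    · subst h0
      simpa using diffOK_zero (R := R) (N := N) _
    · rcases subsingleton_or_nontrivial R with hR | hR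
      · exact absurd (Subsingleton.elim p 0) h0
      · exact (hp.mul_X le_rfl n).mono (totalDegree_succ_le_mul_X h0 n)

theorem diffOK (g : MvPolynomial (Fin N) R) : DiffOK g g.totalDegree := by
  classical
  have key : ∀ t : Finset (Fin N →₀ ℕ), t ⊆ g.support →
      DiffOK (∑ s ∈ t, monomial s (coeff s g)) g.totalDegree := by
    intro t
    induction t using Finset.induction_on with
    | empty => intro _; simpa using diffOK_zero (R := R) (N := N) _
    | insert s t hs ih =>
      intro hst
      rw [Finset.sum_insert hs]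
      refine DiffOK.add ?_ (ih fun x hx => hst (Finset.mem_insert_of_mem hx))
      refine (diffOK_monomial s _).mono ?_
      refine (totalDegree_monomial_le s _).trans ?_
      exact le_totalDegree (hst (Finset.mem_insert_self _ _))
  have := key g.support (fun _ h => h)
  rwa [← as_sum g] at this

/-- [T2a] difference quotients; variables `inl i` = `x_i`, `inr i` = `y_i` -/
theorem exists_diff (g : MvPolynomial (Fin N) R) :
    ∃ δ : Fin N → MvPolynomial (Fin N ⊕ Fin N) R,
      rename Sum.inl g - rename Sum.inr g = ∑ j, δ j * (X (Sum.inl j) - X (Sum.inr j)) ∧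
      (∀ j, (δ j).totalDegree ≤ g.totalDegree - 1) ∧
      ∀ j, aeval (Sum.elim X X) (δ j) = pderiv j g := by
  obtain ⟨δ, h1, h2, h3⟩ := diffOK g
  refine ⟨δ, h1, fun j => ?_, h3⟩
  unfold totalDegree
  refine Finset.sup_le fun s hs => ?_
  have := h2 j s hs
  unfold totalDegree at this
  omega

end Vale.Agent.P337
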