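import Vale.Agent.P337.Alg

/-!
# P337, T1a: the residue functional, first properties
-/

namespace Vale.Agent.P337

open MvPolynomial

section T1
variable {R : Type*} [CommRing R] {N : ℕ}

theorem topExp_apply (m : ℕ) (k : Fin N → ℕ) (i : Fin N) :
    topExp m k i = m * (k i + 1) - 1 := rfl

/-- Coefficients above the degree vanish. -/
theorem coeff_big {g : MvPolynomial (Fin N) R} {s : Fin N →₀ ℕ}
    (h : g.totalDegree < ∑ i, s i) : coeff s g = 0 := by
  apply coeff_eq_zero_of_totalDegree_lt
  rwa [← Finsupp.degree_apply, Finsupp.degree_eq_sum]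

theorem topExp_sum {m : ℕ} (hm : 0 < m) (k : Fin N → ℕ) :
    ∑ i, topExp m k i = m * ∑ i, k i + N * (m - 1) := by
  have h : ∀ i, topExp m k i = m * k i + (m - 1) := by
    intro i
    rw [topExp_apply, Nat.mul_succ]
    omega
  simp only [h]
  rw [Finset.sum_add_distrib, Finset.sum_const, Finset.card_univ, Fintype.card_fin,
    smul_eq_mul, ← Finset.mul_sum]

/-- Terms of high index vanish. -/
theorem coeff_topExp_eq_zero {m : ℕ} (hm : 0 < m) {f : Fin N → MvPolynomial (Fin N) R}
    (hf : ∀ i, (f i).totalDegree < m) {g : MvPolynomial (Fin N) R} {k : Fin N → ℕ}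
    (h : g.totalDegree < ∑ i, k i + N * (m - 1)) :
    coeff (topExp m k) (g * ∏ i, f i ^ k i) = 0 := by
  apply coeff_big
  rw [topExp_sum hm]
  have h1 : (∏ i, f i ^ k i).totalDegree ≤ (∑ i, k i) * (m - 1) := by
    rw [Finset.sum_mul]
    refine (totalDegree_finsetProd _ _).trans (Finset.sum_le_sum fun i _ => ?_)
    refine (totalDegree_pow _ _).trans (Nat.mul_le_mul_left _ ?_)
    have := hf i
    omega
  have h2 := totalDegree_mul g (∏ i, f i ^ k i)
  have h3 : m * ∑ i, k i = ∑ i, k i + (∑ i, k i) * (m - 1) := by
    obtain ⟨m', rfl⟩ : ∃ m', m = m' + 1 := ⟨m - 1, by omega⟩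
    rw [Nat.add_sub_cancel]
    ring
  omega

theorem sum_le_of_mem {k : Fin N → ℕ} (i : Fin N) : k i ≤ ∑ i, k i :=
  Finset.single_le_sum (f := k) (fun _ _ => Nat.zero_le _) (Finset.mem_univ i)

theorem tau_mono_box {m E E' : ℕ} (hm : 0 < m) {f : Fin N → MvPolynomial (Fin N) R}
    (hf : ∀ i, (f i).totalDegree < m) {g : MvPolynomial (Fin N) R}
    (hE : g.totalDegree ≤ E) (hE' : E ≤ E') : tau m E f g = tau m E' f g := by
  unfold tau
  apply Finset.sum_subset
  · intro k hk
    rw [Fintype.mem_piFinset] at hk ⊢
    intro i
    have := hk i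
    rw [Finset.mem_range] at this ⊢
    omega
  · intro k _ hk
    rw [Fintype.mem_piFinset] at hk
    push Not at hk
    obtain ⟨i, hi⟩ := hk
    rw [Finset.mem_range] at hi
    apply coeff_topExp_eq_zero hm hf
    have := sum_le_of_mem (k := k) i
    omega

/-- [T1a] independence of the box -/
theorem tau_indep {m E E' : ℕ} (hm : 0 < m) {f : Fin N → MvPolynomial (Fin N) R}
    (hf : ∀ i, (f i).totalDegree < m) {g : MvPolynomial (Fin N) R}
    (hE : g.totalDegree ≤ E) (hE' : g.totalDegree ≤ E') : tau m E f g = tau m E' f g := by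
  rw [← tau_mono_box hm hf le_rfl hE, ← tau_mono_box hm hf le_rfl hE']

/-- [T1b] linearity -/
theorem tau_add (m E : ℕ) (f : Fin N → MvPolynomial (Fin N) R) (g g' : MvPolynomial (Fin N) R) :
    tau m E f (g + g') = tau m E f g + tau m E f g' := by
  unfold tau
  rw [← Finset.sum_add_distrib]
  refine Finset.sum_congr rfl fun k _ => ?_
  rw [add_mul, coeff_add]

theorem tau_C_mul (m E : ℕ) (f : Fin N → MvPolynomial (Fin N) R) (a : R)
    (g : MvPolynomial (Fin N) R) : tau m E f (C a * g) = a * tau m E f g := by
  unfold tau
  rw [Finset.mul_sum]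
  refine Finset.sum_congr rfl fun k _ => ?_
  rw [mul_assoc, coeff_C_mul]

theorem tau_sub (m E : ℕ) (f : Fin N → MvPolynomial (Fin N) R) (g g' : MvPolynomial (Fin N) R) :
    tau m E f (g - g') = tau m E f g - tau m E f g' := by
  unfold tau
  rw [← Finset.sum_sub_distrib]
  refine Finset.sum_congr rfl fun k _ => ?_
  rw [sub_mul, coeff_sub]

theorem tau_zero (m E : ℕ) (f : Fin N → MvPolynomial (Fin N) R) : tau m E f 0 = 0 := by
  simp [tau]

theorem tau_sum {ι : Type*} (m E : ℕ) (f : Fin N → MvPolynomial (Fin N) R) (s : Finset ι)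
    (g : ι → MvPolynomial (Fin N) R) :
    tau m E f (∑ a ∈ s, g a) = ∑ a ∈ s, tau m E f (g a) := by
  classical
  induction s using Finset.induction_on with
  | empty => simp [tau_zero]
  | insert a s ha ih => rw [Finset.sum_insert ha, Finset.sum_insert ha, tau_add, ih]

theorem prod_update_pow (f : Fin N → MvPolynomial (Fin N) R) (k : Fin N → ℕ) (j : Fin N) :
    ∏ i, f i ^ Function.update k j (k j + 1) i = f j * ∏ i, f i ^ k i := by
  rw [← Finset.mul_prod_erase Finset.univ _ (Finset.mem_univ j),
    ← Finset.mul_prod_erase Finset.univ (fun i => f i ^ k i) (Finset.mem_univ j),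
    Function.update_self, pow_succ']
  have : ∏ x ∈ Finset.univ.erase j, f x ^ Function.update k j (k j + 1) x =
      ∏ x ∈ Finset.univ.erase j, f x ^ k x := by
    refine Finset.prod_congr rfl fun x hx => ?_
    rw [Function.update_of_ne (Finset.ne_of_mem_erase hx)]
  rw [this]
  ring

/-- [T1c] `τ` vanishes on the ideal (telescoping) -/
theorem tau_sysF {m E : ℕ} (hm : 0 < m) {f : Fin N → MvPolynomial (Fin N) R}
    (hf : ∀ i, (f i).totalDegree < m) {g : MvPolynomial (Fin N) R} (j : Fin N)
    (hE : g.totalDegree + m ≤ E) : tau m E f (g * sysF m f j) = 0 := by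
  classical
  unfold sysF
  rw [mul_sub, tau_sub, sub_eq_zero]
  unfold tau
  -- the first sum
  have hA : ∀ k : Fin N → ℕ, coeff (topExp m k) (g * X j ^ m * ∏ i, f i ^ k i) =
      if 1 ≤ k j then coeff (topExp m k - Finsupp.single j m) (g * ∏ i, f i ^ k i) else 0 := by
    intro k
    have h1 : g * X j ^ m * ∏ i, f i ^ k i =
        (g * ∏ i, f i ^ k i) * monomial (Finsupp.single j m) 1 := by
      rw [X_pow_eq_monomial]
      ring
    rw [h1, coeff_mul_monomial', mul_one]
    have h2 : Finsupp.single j m ≤ topExp m k ↔ 1 ≤ k j := by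
      rw [Finsupp.single_le_iff, topExp_apply]
      constructor
      · intro h
        by_contra hk
        have : k j = 0 := by omega
        rw [this] at h
        omega
      · intro h
        obtain ⟨c, hc⟩ : ∃ c, k j = c + 1 := ⟨k j - 1, by omega⟩
        rw [hc, Nat.mul_succ, Nat.mul_succ]
        omega
    simp only [h2]
  simp only [hA]
  rw [← Finset.sum_filter]
  -- the second sum
  have hB : ∑ k ∈ Fintype.piFinset (fun _ : Fin N => Finset.range (E + 1)),
      coeff (topExp m k) (g * f j * ∏ i, f i ^ k i) =
      ∑ k ∈ (Fintype.piFinset (fun _ : Fin N => Finset.range (E + 1))).filter (fun k => k j < E),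
      coeff (topExp m k) (g * f j * ∏ i, f i ^ k i) := by
    symm
    apply Finset.sum_subset (Finset.filter_subset _ _)
    intro k hk hk'
    rw [Finset.mem_filter, not_and] at hk'
    have hk2 := hk' hk
    apply coeff_topExp_eq_zero hm hf
    have := sum_le_of_mem (k := k) j
    have h1 := totalDegree_mul g (f j)
    have h2 := hf j
    omega
  rw [hB]
  refine Finset.sum_nbij' (fun k => Function.update k j (k j - 1))
    (fun k => Function.update k j (k j + 1)) ?_ ?_ ?_ ?_ ?_
  · intro k hk
    rw [Finset.mem_filter, Fintype.mem_piFinset] at hk ⊢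
    obtain ⟨hk1, hk2⟩ := hk
    have hj := Finset.mem_range.mp (hk1 j)
    refine ⟨fun i => ?_, ?_⟩
    · rw [Finset.mem_range]
      by_cases h : i = j
      · subst h
        rw [Function.update_self]
        omega
      · rw [Function.update_of_ne h]
        exact Finset.mem_range.mp (hk1 i)
    · rw [Function.update_self]
      omega
  · intro k hk
    rw [Finset.mem_filter, Fintype.mem_piFinset] at hk ⊢
    obtain ⟨hk1, hk2⟩ := hk
    refine ⟨fun i => ?_, ?_⟩
    · rw [Finset.mem_range]
      by_cases h : i = j
      · subst h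
        rw [Function.update_self]
        omega
      · rw [Function.update_of_ne h]
        exact Finset.mem_range.mp (hk1 i)
    · rw [Function.update_self]
      omega
  · intro k hk
    rw [Finset.mem_filter] at hk
    ext i
    by_cases h : i = j
    · subst h
      simp only [Function.update_self]
      omega
    · simp only [Function.update_of_ne h]
  · intro k hk
    ext i
    by_cases h : i = j
    · subst h
      simp only [Function.update_self]
      omega
    · simp only [Function.update_of_ne h]
  · intro k hk
    rw [Finset.mem_filter] at hk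
    obtain ⟨k', hk'⟩ : ∃ k' : Fin N → ℕ, k = Function.update k' j (k' j + 1) := by
      refine ⟨Function.update k j (k j - 1), ?_⟩
      ext i
      by_cases h : i = j
      · subst h
        simp only [Function.update_self]
        omega
      · simp only [Function.update_of_ne h]
    have e1 : Function.update k j (k j - 1) = k' := by
      rw [hk']
      ext i
      by_cases h : i = j
      · subst h
        simp only [Function.update_self]
        omega
      · simp only [Function.update_of_ne h]
    have e2 : topExp m k - Finsupp.single j m = topExp m k' := by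
      ext i
      rw [Finsupp.tsub_apply, topExp_apply, topExp_apply, hk']
      by_cases h : i = j
      · subst h
        rw [Function.update_self, Finsupp.single_eq_same, Nat.mul_succ m (k' i + 1)]
        omega
      · rw [Function.update_of_ne h, Finsupp.single_apply, if_neg (Ne.symm h)]
        omega
    rw [e1, e2, hk', prod_update_pow]
    congr 1
    ring

end T1

end Vale.Agent.P337
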