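import Vale.Agent.P337.Alg
import Vale.Agent.P337.TauBase
import Vale.Agent.P337.TauTop
import Vale.Agent.P337.TauMap
import Vale.Agent.P337.Diff

/-!
P337, piece [T2b]: the Bezoutian duality.
-/

namespace Vale.Agent.P337

open MvPolynomial

namespace Dual

section LtD
variable {σ S : Type*} [CommRing S]

/-- all monomials of `p` have degree `< d` -/
def LtD (p : MvPolynomial σ S) (d : ℕ) : Prop := p = 0 ∨ p.totalDegree < d

theorem LtD.add {p q : MvPolynomial σ S} {d : ℕ} (hp : LtD p d) (hq : LtD q d) :
    LtD (p + q) d := by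
  rcases hp with rfl | hp
  · simpa using hq
  rcases hq with rfl | hq
  · right; simpa using hp
  · right
    exact lt_of_le_of_lt (totalDegree_add p q) (max_lt hp hq)

theorem LtD.neg {p : MvPolynomial σ S} {d : ℕ} (hp : LtD p d) : LtD (-p) d := by
  rcases hp with rfl | hp
  · left; simp
  · right; rwa [totalDegree_neg]

theorem LtD.mul_le {p q : MvPolynomial σ S} {d e : ℕ} (hp : LtD p d) (hq : q.totalDegree ≤ e) :
    LtD (p * q) (d + e) := by
  rcases hp with rfl | hp
  · left; simp
  · right
    exact lt_of_le_of_lt (totalDegree_mul p q) (by omega)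

theorem LtD.le_mul {p q : MvPolynomial σ S} {d e : ℕ} (hp : p.totalDegree ≤ d) (hq : LtD q e) :
    LtD (p * q) (d + e) := by
  rw [mul_comm, add_comm]
  exact hq.mul_le hp

theorem LtD.sum {ι : Type*} (s : Finset ι) (p : ι → MvPolynomial σ S) {d : ℕ}
    (h : ∀ i ∈ s, LtD (p i) d) : LtD (∑ i ∈ s, p i) d := by
  classical
  induction s using Finset.induction_on with
  | empty => left; simp
  | insert a s ha ih =>
    rw [Finset.sum_insert ha]
    exact (h a (by simp)).add (ih (fun i hi => h i (by simp [hi])))

theorem LtD.coeff_eq {p q : MvPolynomial σ S} {d : ℕ} (h : LtD (p - q) d) (a : σ →₀ ℕ)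
    (ha : d ≤ ∑ i ∈ a.support, a i) : coeff a p = coeff a q := by
  have h1 : coeff a (p - q) = 0 := by
    rcases h with h | h
    · rw [h]; simp
    · exact coeff_eq_zero_of_totalDegree_lt (by omega)
  rw [coeff_sub] at h1
  exact sub_eq_zero.1 h1

theorem totalDegree_prod_le' {ι : Type*} (s : Finset ι) (p : ι → MvPolynomial σ S) {d : ℕ}
    (h : ∀ i ∈ s, (p i).totalDegree ≤ d) : (∏ i ∈ s, p i).totalDegree ≤ s.card * d := by
  refine (totalDegree_finsetProd s p).trans ?_
  refine (Finset.sum_le_sum h).trans ?_
  simp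

theorem prod_sub_prod {ι : Type*} (s : Finset ι) (a b : ι → MvPolynomial σ S) {d : ℕ}
    (ha : ∀ i ∈ s, (a i).totalDegree ≤ d) (hb : ∀ i ∈ s, (b i).totalDegree ≤ d)
    (hab : ∀ i ∈ s, LtD (a i - b i) d) : LtD (∏ i ∈ s, a i - ∏ i ∈ s, b i) (s.card * d) := by
  classical
  induction s using Finset.induction_on with
  | empty => left; simp
  | insert x s hx ih =>
    have ih' := ih (fun i hi => ha i (by simp [hi])) (fun i hi => hb i (by simp [hi]))
      (fun i hi => hab i (by simp [hi]))
    rw [Finset.prod_insert hx, Finset.prod_insert hx, Finset.card_insert_of_notMem hx]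
    have e1 : a x * ∏ i ∈ s, a i - b x * ∏ i ∈ s, b i
        = (a x - b x) * ∏ i ∈ s, a i + b x * (∏ i ∈ s, a i - ∏ i ∈ s, b i) := by ring
    have e2 : (s.card + 1) * d = d + s.card * d := by ring
    rw [e1, e2]
    exact ((hab x (by simp)).mul_le
      (totalDegree_prod_le' s a (fun i hi => ha i (by simp [hi])))).add
      (LtD.le_mul (hb x (by simp)) ih')

theorem det_sub_det {n : ℕ} (M D : Matrix (Fin n) (Fin n) (MvPolynomial σ S)) {d : ℕ}
    (hM : ∀ i j, (M i j).totalDegree ≤ d) (hD : ∀ i j, (D i j).totalDegree ≤ d)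
    (hMD : ∀ i j, LtD (M i j - D i j) d) : LtD (M.det - D.det) (n * d) := by
  rw [Matrix.det_apply, Matrix.det_apply, ← Finset.sum_sub_distrib]
  apply LtD.sum
  intro τ _
  rw [← smul_sub]
  have h := prod_sub_prod Finset.univ (fun i => M (τ i) i) (fun i => D (τ i) i)
    (fun i _ => hM _ _) (fun i _ => hD _ _) (fun i _ => hMD _ _)
  rw [Finset.card_univ, Fintype.card_fin] at h
  rcases Int.units_eq_one_or (Equiv.Perm.sign τ) with h1 | h1
  · rw [h1, one_smul]; exact h
  · rw [h1]
    have := h.neg
    simpa using this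

end LtD

section psi
variable {R : Type*} [CommRing R] {N : ℕ}

/-- the polynomials in `x` over the polynomials in `y` -/
abbrev BB (R : Type*) [CommRing R] (N : ℕ) : Type _ := MvPolynomial (Fin N) (MvPolynomial (Fin N) R)

/-- `inl j ↦ x_j`, `inr j ↦ y_j` -/
noncomputable def psi (R : Type*) [CommRing R] (N : ℕ) :
    MvPolynomial (Fin N ⊕ Fin N) R →ₐ[R] BB R N :=
  aeval (Sum.elim X (fun j => C (X j)))

theorem psi_inl (g : MvPolynomial (Fin N) R) :
    psi R N (rename Sum.inl g) = map C g := by
  rw [psi, aeval_rename]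
  have h : ((Sum.elim X fun j => C (X j)) ∘ Sum.inl : Fin N → BB R N) = X := by
    funext j; simp
  rw [h]
  induction g using MvPolynomial.induction_on with
  | C a => simp [MvPolynomial.algebraMap_apply]
  | add p q hp hq => simp [hp, hq]
  | mul_X p i hp => simp [hp]

theorem psi_inr (g : MvPolynomial (Fin N) R) :
    psi R N (rename Sum.inr g) = C g := by
  rw [psi, aeval_rename]
  have h : ((Sum.elim X fun j => C (X j)) ∘ Sum.inr : Fin N → BB R N) = fun j => C (X j) := by
    funext j; simp
  rw [h]
  induction g using MvPolynomial.induction_on with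
  | C a => simp [MvPolynomial.algebraMap_apply]
  | add p q hp hq => simp [hp, hq]
  | mul_X p i hp => simp [hp]

theorem psi_diag (p : MvPolynomial (Fin N ⊕ Fin N) R) :
    eval X (psi R N p) = aeval (Sum.elim X X) p := by
  rw [psi]
  induction p using MvPolynomial.induction_on with
  | C a => simp [MvPolynomial.algebraMap_apply]
  | add p q hp hq => simp [hp, hq]
  | mul_X p i hp =>
    rcases i with i | i <;> simp [hp]

theorem psi_totalDegree (p : MvPolynomial (Fin N ⊕ Fin N) R) :
    (psi R N p).totalDegree ≤ p.totalDegree := by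
  conv_lhs => rw [p.as_sum]
  rw [map_sum]
  refine totalDegree_finsetSum_le (fun u hu => ?_)
  rw [psi, aeval_monomial]
  refine (totalDegree_mul _ _).trans ?_
  have h1 : ((algebraMap R (BB R N)) (coeff u p)).totalDegree = 0 := by
    rw [MvPolynomial.algebraMap_apply]
    exact totalDegree_C _
  rw [h1, zero_add, Finsupp.prod]
  refine (totalDegree_finsetProd _ _).trans ?_
  refine le_trans ?_ (le_totalDegree hu)
  rw [Finsupp.sum]
  refine Finset.sum_le_sum (fun i _ => ?_)
  refine (totalDegree_pow _ _).trans ?_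
  have h2 : (Sum.elim X (fun j => C (X j)) i : BB R N).totalDegree ≤ 1 := by
    rcases i with i | i
    · simp only [Sum.elim_inl]
      refine (totalDegree_monomial_le _ _).trans ?_
      simp
    · simp only [Sum.elim_inr, totalDegree_C]
      omega
  calc u i * _ ≤ u i * 1 := Nat.mul_le_mul_left _ h2
    _ = u i := mul_one _

/-- the difference quotients in `BB` -/
theorem exists_diffB (g : MvPolynomial (Fin N) R) :
    ∃ δ : Fin N → BB R N,
      map C g - C g = ∑ j, δ j * (X j - C (X j)) ∧
      (∀ j, LtD (δ j) g.totalDegree) ∧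
      ∀ j, eval X (δ j) = pderiv j g := by
  obtain ⟨δ, h1, h2, h3⟩ := exists_diff g
  refine ⟨fun j => psi R N (δ j), ?_, ?_, ?_⟩
  · have := congrArg (psi R N) h1
    rw [map_sub, psi_inl, psi_inr, map_sum] at this
    rw [this]
    refine Finset.sum_congr rfl (fun j _ => ?_)
    rw [map_mul, map_sub]
    congr 2 <;> simp [psi]
  · intro j
    by_cases h0 : g.totalDegree = 0
    · left
      have h4 : (δ j).totalDegree = 0 := by have := h2 j; omega
      have h5 := totalDegree_eq_zero_iff_eq_C.1 h4
      have h6 := h3 j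
      have h7 := totalDegree_eq_zero_iff_eq_C.1 h0
      rw [h5, h7] at h6
      simp only [algHom_C, pderiv_C] at h6
      have h8 : coeff 0 (δ j) = 0 := by
        have := congrArg (coeff 0) h6
        simpa [MvPolynomial.algebraMap_eq] using this
      change psi R N (δ j) = 0
      rw [h5, h8]; simp
    · right
      have := h2 j
      have h9 := psi_totalDegree (δ j)
      change (psi R N (δ j)).totalDegree < _
      omega
  · intro j
    rw [psi_diag, h3]

end psi

section bez
variable {R : Type*} [CommRing R] {N : ℕ}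

/-- diagonal part of the Bezoutian matrix -/
noncomputable def diagPart (R : Type*) [CommRing R] (N m : ℕ) :
    Matrix (Fin N) (Fin N) (BB R N) := Matrix.diagonal fun i => X i ^ (m - 1)

/-- geometric part of the Bezoutian matrix -/
noncomputable def geoPart (R : Type*) [CommRing R] (N m : ℕ) :
    Matrix (Fin N) (Fin N) (BB R N) :=
  Matrix.diagonal fun i => ∑ k ∈ Finset.range m, X i ^ k * C (X i) ^ (m - 1 - k)

theorem totalDegree_X_pow_le {σ S : Type*} [CommRing S] (i : σ) (k : ℕ) :
    (X i ^ k : MvPolynomial σ S).totalDegree ≤ k := by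
  refine (totalDegree_pow _ _).trans ?_
  have : (X i : MvPolynomial σ S).totalDegree ≤ 1 := by
    refine (totalDegree_monomial_le _ _).trans ?_
    simp
  calc k * _ ≤ k * 1 := Nat.mul_le_mul_left _ this
    _ = k := mul_one _

theorem geo_sub_diag {m : ℕ} (hm : 0 < m) (i j : Fin N) :
    LtD (geoPart R N m i j - diagPart R N m i j) (m - 1) := by
  unfold geoPart diagPart
  by_cases h : i = j
  · subst h
    rw [Matrix.diagonal_apply_eq, Matrix.diagonal_apply_eq]
    obtain ⟨m', rfl⟩ : ∃ m', m = m' + 1 := ⟨m - 1, by omega⟩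
    rw [Finset.sum_range_succ]
    simp only [Nat.add_sub_cancel, Nat.sub_self, pow_zero, mul_one, add_sub_cancel_right]
    apply LtD.sum
    intro k hk
    have hk' := Finset.mem_range.1 hk
    right
    refine lt_of_le_of_lt (totalDegree_mul _ _) ?_
    rw [← map_pow, totalDegree_C]
    have := totalDegree_X_pow_le (S := MvPolynomial (Fin N) R) i k
    omega
  · rw [Matrix.diagonal_apply_ne _ h, Matrix.diagonal_apply_ne _ h]
    left; simp

theorem diag_totalDegree (m : ℕ) (i j : Fin N) : (diagPart R N m i j).totalDegree ≤ m - 1 := by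
  unfold diagPart
  by_cases h : i = j
  · subst h
    rw [Matrix.diagonal_apply_eq]
    exact totalDegree_X_pow_le _ _
  · rw [Matrix.diagonal_apply_ne _ h]; simp

theorem le_of_LtD {σ S : Type*} [CommRing S] {p q : MvPolynomial σ S} {d : ℕ}
    (h : LtD (p - q) d) (hq : q.totalDegree ≤ d) : p.totalDegree ≤ d := by
  have e : p = (p - q) + q := by ring
  rw [e]
  refine (totalDegree_add _ _).trans (max_le ?_ hq)
  rcases h with h | h
  · rw [h]; simp
  · exact h.le

theorem entry_LtD {m : ℕ} (hm : 0 < m) (f : Fin N → MvPolynomial (Fin N) R)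
    (hf : ∀ i, (f i).totalDegree < m) {δ : Fin N → Fin N → BB R N}
    (h2 : ∀ i j, LtD (δ i j) (f i).totalDegree) (i j : Fin N) :
    LtD ((geoPart R N m - Matrix.of δ) i j - diagPart R N m i j) (m - 1) := by
  rw [Matrix.sub_apply, Matrix.of_apply]
  have e : geoPart R N m i j - δ i j - diagPart R N m i j
      = (geoPart R N m i j - diagPart R N m i j) + -(δ i j) := by ring
  rw [e]
  refine (geo_sub_diag hm i j).add ?_
  apply LtD.neg
  rcases h2 i j with h | h
  · left; exact h
  · right
    have := hf i
    omega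

/-- The Bezoutian matrix and its main properties. -/
theorem exists_bez {m : ℕ} (hm : 0 < m) (f : Fin N → MvPolynomial (Fin N) R)
    (hf : ∀ i, (f i).totalDegree < m) :
    ∃ M : Matrix (Fin N) (Fin N) (BB R N),
      (∀ i, ∑ j, M i j * (X j - C (X j)) = map C (sysF m f i) - C (sysF m f i)) ∧
      (M.det.totalDegree ≤ N * (m - 1)) ∧
      (∀ a : Fin N →₀ ℕ, (∀ i, a i = m - 1) → coeff a M.det = 1) ∧
      eval X M.det = jac m f := by
  choose δ h1 h2 h3 using fun i => exists_diffB (f i)
  refine ⟨geoPart R N m - Matrix.of δ, ?_, ?_, ?_, ?_⟩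
  · intro i
    have e1 : ∀ j, (geoPart R N m - Matrix.of δ) i j * (X j - C (X j))
        = geoPart R N m i j * (X j - C (X j)) - δ i j * (X j - C (X j)) := by
      intro j
      rw [Matrix.sub_apply, Matrix.of_apply]; ring
    rw [Finset.sum_congr rfl (fun j _ => e1 j), Finset.sum_sub_distrib, ← h1 i]
    have e2 : ∑ j, geoPart R N m i j * (X j - C (X j)) = X i ^ m - C (X i) ^ m := by
      rw [Finset.sum_eq_single i]
      · unfold geoPart
        rw [Matrix.diagonal_apply_eq]
        exact (Commute.all _ _).geom_sum₂_mul m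
      · intro j _ hj
        unfold geoPart
        rw [Matrix.diagonal_apply_ne _ hj.symm, zero_mul]
      · simp
    rw [e2]
    simp only [sysF, map_sub, map_pow, map_X]
    ring
  · have key : LtD ((geoPart R N m - Matrix.of δ).det - (diagPart R N m).det) (N * (m - 1)) := by
      apply det_sub_det
      · intro i j
        refine le_of_LtD (q := diagPart R N m i j) ?_ (diag_totalDegree m i j)
        exact entry_LtD hm f hf h2 i j
      · exact diag_totalDegree m
      · exact entry_LtD hm f hf h2
    refine le_of_LtD key ?_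
    rw [diagPart, Matrix.det_diagonal]
    have := totalDegree_prod_le' (Finset.univ : Finset (Fin N))
      (fun i => (X i ^ (m - 1) : BB R N)) (d := m - 1) (fun i _ => totalDegree_X_pow_le _ _)
    simpa using this
  · intro a ha
    have key : LtD ((geoPart R N m - Matrix.of δ).det - (diagPart R N m).det) (N * (m - 1)) := by
      apply det_sub_det
      · intro i j
        refine le_of_LtD (q := diagPart R N m i j) ?_ (diag_totalDegree m i j)
        exact entry_LtD hm f hf h2 i j
      · exact diag_totalDegree m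
      · exact entry_LtD hm f hf h2
    rw [key.coeff_eq a ?_]
    · rw [diagPart, Matrix.det_diagonal]
      have e3 : (∏ i : Fin N, (X i ^ (m - 1) : BB R N)) = monomial a 1 := by
        rw [monomial_eq, C_1, one_mul, Finsupp.prod_fintype _ _ (by simp)]
        exact Finset.prod_congr rfl (fun i _ => by rw [ha i])
      rw [e3, coeff_monomial, if_pos rfl]
    · have e4 : ∑ i ∈ a.support, a i = ∑ i : Fin N, a i := by
        exact Finset.sum_subset (Finset.subset_univ _) (fun i _ hi => by simpa using hi)
      rw [e4, Finset.sum_congr rfl (fun i _ => ha i)]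
      simp
  · rw [RingHom.map_det, jac]
    congr 1
    ext1 i j
    rw [RingHom.mapMatrix_apply, Matrix.map_apply, Matrix.sub_apply, Matrix.of_apply, map_sub,
      h3, Matrix.of_apply, sysF, map_sub]
    congr 1
    unfold geoPart
    by_cases h : i = j
    · subst h
      rw [Matrix.diagonal_apply_eq, map_sum]
      simp only [map_mul, map_pow, eval_X, eval_C]
      rw [Derivation.leibniz_pow]
      simp only [pderiv_X_self, smul_eq_mul, nsmul_eq_mul, mul_one]
      rw [Finset.sum_congr rfl (g := fun _ => X i ^ (m - 1))]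
      · simp
      · intro k hk
        rw [← pow_add]
        congr 1
        have := Finset.mem_range.1 hk
        omega
    · rw [Matrix.diagonal_apply_ne _ h, map_zero, Derivation.leibniz_pow,
        pderiv_X_of_ne h]
      simp

/-- `(g(x) - g(y)) Δ` is in the ideal of the `F_i(x) - F_i(y)`. -/
theorem bez_identity {m : ℕ} {f : Fin N → MvPolynomial (Fin N) R}
    {M : Matrix (Fin N) (Fin N) (BB R N)}
    (hM : ∀ i, ∑ j, M i j * (X j - C (X j)) = map C (sysF m f i) - C (sysF m f i))
    (g : MvPolynomial (Fin N) R) :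
    ∃ h : Fin N → BB R N, (map C g - C g) * M.det
      = ∑ i, h i * (map C (sysF m f i) - C (sysF m f i)) := by
  obtain ⟨δ, h1, -, -⟩ := exists_diffB g
  refine ⟨fun i => ∑ j, δ j * M.adjugate j i, ?_⟩
  have hcr : ∀ j, M.det * (X j - C (X j))
      = ∑ i, M.adjugate j i * (map C (sysF m f i) - C (sysF m f i)) := by
    intro j
    have e1 : (M.adjugate * M).mulVec (fun j => (X j - C (X j) : BB R N)) j
        = M.adjugate.mulVec (M.mulVec (fun j => (X j - C (X j) : BB R N))) j := by
      rw [Matrix.mulVec_mulVec]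
    rw [Matrix.adjugate_mul, Matrix.smul_mulVec, Matrix.one_mulVec] at e1
    simp only [Pi.smul_apply, smul_eq_mul] at e1
    rw [e1, Matrix.mulVec, dotProduct]
    refine Finset.sum_congr rfl (fun i _ => ?_)
    rw [← hM i]
    rfl
  calc (map C g - C g) * M.det = ∑ j, δ j * (M.det * (X j - C (X j))) := by
        rw [h1, Finset.sum_mul]
        exact Finset.sum_congr rfl (fun j _ => by ring)
    _ = ∑ j, ∑ i, δ j * M.adjugate j i * (map C (sysF m f i) - C (sysF m f i)) := by
        refine Finset.sum_congr rfl (fun j _ => ?_)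
        rw [hcr j, Finset.mul_sum]
        exact Finset.sum_congr rfl (fun i _ => by ring)
    _ = _ := by
        rw [Finset.sum_comm]
        refine Finset.sum_congr rfl (fun i _ => ?_)
        rw [Finset.sum_mul]

/-- finite additivity of `tau` -/
theorem tau_sum {ι : Type*} (s : Finset ι) (m E : ℕ) (f : Fin N → MvPolynomial (Fin N) R)
    (g : ι → MvPolynomial (Fin N) R) :
    tau m E f (∑ i ∈ s, g i) = ∑ i ∈ s, tau m E f (g i) := by
  classical
  induction s using Finset.induction_on with
  | empty =>
    have := tau_C_mul m E f 0 0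
    simpa using this
  | insert a s ha ih => rw [Finset.sum_insert ha, Finset.sum_insert ha, tau_add, ih]

end bez

section main
variable {R : Type*} [CommRing R] {N : ℕ}

/-- the system over `A` -/
noncomputable abbrev fA (m : ℕ) (f : Fin N → MvPolynomial (Fin N) R) (i : Fin N) :
    MvPolynomial (Fin N) (SysA m f) := map (algebraMap R (SysA m f)) (f i)

/-- reduction of the `y`-variables modulo the system -/
noncomputable abbrev KK (m : ℕ) (f : Fin N → MvPolynomial (Fin N) R) :
    BB R N →+* MvPolynomial (Fin N) (SysA m f) := map (Ideal.Quotient.mk (sysI m f))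

theorem KK_C (m : ℕ) (f : Fin N → MvPolynomial (Fin N) R) (g : MvPolynomial (Fin N) R) :
    KK m f (C g) = C (cls m f g) := by simp

theorem KK_map (m : ℕ) (f : Fin N → MvPolynomial (Fin N) R) (g : MvPolynomial (Fin N) R) :
    KK m f (map C g) = map (algebraMap R (SysA m f)) g := by
  rw [KK, map_map]
  rfl

theorem cls_sysF (m : ℕ) (f : Fin N → MvPolynomial (Fin N) R) (i : Fin N) :
    cls m f (sysF m f i) = 0 :=
  Ideal.Quotient.eq_zero_iff_mem.2 (Ideal.subset_span ⟨i, rfl⟩)

theorem KK_sub (m : ℕ) (f : Fin N → MvPolynomial (Fin N) R) (i : Fin N) :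
    KK m f (map C (sysF m f i) - C (sysF m f i)) = sysF m (fA m f) i := by
  rw [map_sub, KK_map, KK_C, cls_sysF]
  simp [sysF, fA]

theorem fA_deg {m : ℕ} {f : Fin N → MvPolynomial (Fin N) R}
    (hf : ∀ i, (f i).totalDegree < m) (i : Fin N) : (fA m f i).totalDegree < m :=
  lt_of_le_of_lt (Finset.sup_mono (support_map_subset _ _)) (hf i)

theorem degSum_le {R' : Type*} [CommRing R'] {p : MvPolynomial (Fin N) R'} {d : ℕ}
    (hp : p.totalDegree ≤ d) (a : Fin N →₀ ℕ) (ha : a ∈ p.support) :
    a.sum (fun _ e => e) ≤ d := (le_totalDegree ha).trans hp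

/-- **[T2b]** the Bezoutian duality -/
theorem exists_dual' {m : ℕ} (hm : 0 < m) {f : Fin N → MvPolynomial (Fin N) R}
    (hf : ∀ i, (f i).totalDegree < m) :
    ∃ (s : Finset (Fin N →₀ ℕ)) (v : (Fin N →₀ ℕ) → MvPolynomial (Fin N) R),
      (∀ a ∈ s, a.sum (fun _ e => e) ≤ N * (m - 1)) ∧
      (∀ (g : MvPolynomial (Fin N) R) (E : ℕ), g.totalDegree + N * (m - 1) ≤ E →
        cls m f g = ∑ a ∈ s, algebraMap R (SysA m f) (tau m E f (g * monomial a 1)) *
          cls m f (v a)) ∧
      cls m f (∑ a ∈ s, monomial a 1 * v a) = cls m f (jac m f) := by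
  classical
  obtain ⟨M, hM1, hM2, hM3, hM4⟩ := exists_bez hm f hf
  have hs : ∀ a ∈ M.det.support, a.sum (fun _ e => e) ≤ N * (m - 1) := fun a ha =>
    degSum_le hM2 a ha
  refine ⟨M.det.support, fun a => coeff a M.det, hs, ?_, ?_⟩
  · intro g E hE
    obtain ⟨h, hh⟩ := bez_identity hM1 g
    -- the big box
    obtain ⟨E', hE'1, hE'2⟩ : ∃ E' : ℕ, (g.totalDegree + N * (m - 1) ≤ E') ∧
        ∀ i, (KK m f (h i)).totalDegree + m ≤ E' := by
      refine ⟨(g.totalDegree + N * (m - 1)) + (Finset.univ.sup
        (fun i => (KK m f (h i)).totalDegree) + m), by omega, fun i => ?_⟩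
      have := Finset.le_sup (f := fun i => (KK m f (h i)).totalDegree) (Finset.mem_univ i)
      omega
    -- the expansion of the Bezoutian
    have hexp : KK m f M.det = ∑ a ∈ M.det.support,
        C (cls m f (coeff a M.det)) * monomial a 1 := by
      conv_lhs => rw [M.det.as_sum]
      rw [map_sum]
      refine Finset.sum_congr rfl (fun a _ => ?_)
      rw [KK, map_monomial, C_mul_monomial, mul_one]
    -- tau of the Bezoutian is one
    have htau1 : tau m E' (fA m f) (KK m f M.det) = 1 := by
      rw [hexp, tau_sum]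
      let top : Fin N →₀ ℕ := Finsupp.equivFunOnFinite.symm fun _ => m - 1
      have htop : ∀ i, top i = m - 1 := fun i => rfl
      have hmt : (monomial top 1 : MvPolynomial (Fin N) (SysA m f)) = ∏ i : Fin N, X i ^ (m - 1) := by
        rw [monomial_eq, C_1, one_mul, Finsupp.prod_fintype _ _ (by simp)]
        exact Finset.prod_congr rfl (fun i _ => by rw [htop i])
      rw [Finset.sum_eq_single top]
      · rw [tau_C_mul, hM3 top htop, hmt, tau_top hm (fA_deg hf), mul_one]
        exact map_one _
      · intro a ha hne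
        rw [tau_C_mul, tau_mono hm (fA_deg hf) a (hs a ha), mul_zero]
        by_contra hcon
        push Not at hcon
        apply hne
        ext i
        rw [hcon i, htop i]
      · intro hnot
        rw [notMem_support_iff.1 hnot, tau_C_mul]
        have : cls m f (0 : MvPolynomial (Fin N) R) = 0 := map_zero _
        rw [this, zero_mul]
    have htau2 : tau m E' (fA m f) (map (algebraMap R (SysA m f)) g * KK m f M.det)
        = ∑ a ∈ M.det.support, algebraMap R (SysA m f) (tau m E f (g * monomial a 1)) *
          cls m f (coeff a M.det) := by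
      rw [hexp, Finset.mul_sum, tau_sum]
      refine Finset.sum_congr rfl (fun a ha => ?_)
      have e1 : map (algebraMap R (SysA m f)) g * (C (cls m f (coeff a M.det)) * monomial a 1)
          = C (cls m f (coeff a M.det)) * map (algebraMap R (SysA m f)) (g * monomial a 1) := by
        rw [map_mul, map_monomial, map_one (algebraMap R (SysA m f))]; ring
      rw [e1, tau_C_mul, tau_map, mul_comm]
      congr 2
      have e2 : (g * monomial a 1).totalDegree ≤ g.totalDegree + N * (m - 1) := by
        refine (totalDegree_mul _ _).trans ?_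
        have := (totalDegree_monomial_le (R := R) a 1).trans (hs a ha)
        omega
      exact tau_indep hm hf (by omega) (by omega)
    have hid := congrArg (KK m f) hh
    rw [map_mul, map_sub, KK_map, KK_C, map_sum] at hid
    have hid2 : ∀ i, KK m f (h i * (map C (sysF m f i) - C (sysF m f i)))
        = KK m f (h i) * sysF m (fA m f) i := fun i => by rw [map_mul, KK_sub]
    rw [Finset.sum_congr rfl (fun i _ => hid2 i)] at hid
    have h3 := congrArg (tau m E' (fA m f)) hid
    rw [tau_sum, Finset.sum_eq_zero (fun i _ => tau_sysF hm (fA_deg hf) i (hE'2 i))] at h3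
    have e4 : (map (algebraMap R (SysA m f)) g - C (cls m f g)) * KK m f M.det
        = map (algebraMap R (SysA m f)) g * KK m f M.det
          + C (-(cls m f g)) * KK m f M.det := by
      rw [C_neg]; ring
    rw [e4, tau_add, tau_C_mul, htau1, htau2, mul_one] at h3
    exact (add_neg_eq_zero.1 h3).symm
  · congr 1
    rw [← hM4]
    conv_rhs => rw [M.det.as_sum]
    rw [map_sum]
    refine Finset.sum_congr rfl (fun a _ => ?_)
    rw [eval_monomial, monomial_eq, C_1, one_mul, mul_comm]

end main

end Dual

/-- **[T2b]** -/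
theorem exists_dual {R : Type*} [CommRing R] {N : ℕ} {m : ℕ} (hm : 0 < m)
    {f : Fin N → MvPolynomial (Fin N) R}
    (hf : ∀ i, (f i).totalDegree < m) :
    ∃ (s : Finset (Fin N →₀ ℕ)) (v : (Fin N →₀ ℕ) → MvPolynomial (Fin N) R),
      (∀ a ∈ s, a.sum (fun _ e => e) ≤ N * (m - 1)) ∧
      (∀ (g : MvPolynomial (Fin N) R) (E : ℕ), g.totalDegree + N * (m - 1) ≤ E →
        cls m f g = ∑ a ∈ s, algebraMap R (SysA m f) (tau m E f (g * monomial a 1)) *
          cls m f (v a)) ∧
      cls m f (∑ a ∈ s, monomial a 1 * v a) = cls m f (jac m f) :=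
  Dual.exists_dual' hm hf

end Vale.Agent.P337
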