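import Vale.Agent.P337.EvPure
import Vale.Agent.P337.Fold

/-!
# P337: codes of the states of the evaluator, size bounds
-/

namespace Vale.Agent.P337

/-! ## Coding of stacks -/

/-- Code of a stack: nested pairs. -/
def codeStk : List (ℕ × ℕ) → List Bool
  | [] => []
  | a :: l => pairL (Code.code a) (codeStk l)

theorem pairL_ne_nil (x y : List Bool) : pairL x y ≠ [] := by
  intro h
  have := congrArg List.length h
  rw [length_pairL] at this
  simp at this

theorem codeStk_inj : Function.Injective codeStk := by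
  intro l
  induction l with
  | nil =>
    intro m h
    cases m with
    | nil => rfl
    | cons b m => exact absurd h.symm (pairL_ne_nil _ _)
  | cons a l ih =>
    intro m h
    cases m with
    | nil => exact absurd h (pairL_ne_nil _ _)
    | cons b m =>
      have h1 := congrArg fstL h
      have h2 := congrArg sndL h
      simp only [codeStk, fstL_pairL, sndL_pairL] at h1 h2
      rw [Code.inj h1, ih h2]

instance instCodeStk : Code (List (ℕ × ℕ)) := ⟨codeStk, codeStk_inj⟩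

theorem code_stk (l : List (ℕ × ℕ)) : Code.code l = codeStk l := rfl

/-! ## Size bounds -/

/-- All components of a state are bounded. -/
def EvOK (M k : ℕ) (S : NEv) : Prop :=
  S.1.length ≤ 3 ∧ S.2.1.length ≤ k ∧ (∀ a ∈ S.2.1, a.1 ≤ M ∧ a.2 ≤ M) ∧ S.2.2.1 ≤ M ∧
    S.2.2.2.1 ≤ M ∧ S.2.2.2.2.2.1 ≤ M ∧ S.2.2.2.2.2.2.1 ≤ M ∧ S.2.2.2.2.2.2.2 ≤ M

theorem ite_ok {α : Type} {Q : α → Prop} {P : Prop} [Decidable P] {a b : α} (ha : P → Q a)
    (hb : ¬P → Q b) : Q (if P then a else b) := by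
  by_cases h : P
  · rw [if_pos h]; exact ha h
  · rw [if_neg h]; exact hb h

section
variable {p n M : ℕ} (hp : 0 < p) (hpM : p ≤ M) (hnM : n ≤ M)
include hp hpM

theorem mod_le_M (a : ℕ) : a % p ≤ M := (Nat.mod_lt a hp).le.trans hpM

theorem stAnd_ok {k : ℕ} {l : List (ℕ × ℕ)} (h1 : l.length ≤ k)
    (h2 : ∀ a ∈ l, a.1 ≤ M ∧ a.2 ≤ M) :
    (stAnd p l).length ≤ k ∧ ∀ a ∈ stAnd p l, a.1 ≤ M ∧ a.2 ≤ M := by
  rcases l with _ | ⟨b, _ | ⟨a, r⟩⟩
  · simp [stAnd]
  · exact ⟨by simpa [stAnd] using h1, by simpa [stAnd] using h2⟩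
  · simp only [List.length_cons] at h1
    refine ⟨by simp [stAnd]; omega, ?_⟩
    intro c hc
    simp only [stAnd, List.tail_cons, List.isEmpty_cons, Bool.false_eq_true, if_false,
      List.mem_cons] at hc
    rcases hc with rfl | hc
    · exact ⟨mod_le_M hp hpM _, mod_le_M hp hpM _⟩
    · exact h2 c (by simp [hc])

theorem stOr_ok {k : ℕ} {l : List (ℕ × ℕ)} (h1 : l.length ≤ k)
    (h2 : ∀ a ∈ l, a.1 ≤ M ∧ a.2 ≤ M) :
    (stOr p l).length ≤ k ∧ ∀ a ∈ stOr p l, a.1 ≤ M ∧ a.2 ≤ M := by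
  rcases l with _ | ⟨b, _ | ⟨a, r⟩⟩
  · simp [stOr]
  · exact ⟨by simpa [stOr] using h1, by simpa [stOr] using h2⟩
  · simp only [List.length_cons] at h1
    refine ⟨by simp [stOr]; omega, ?_⟩
    intro c hc
    simp only [stOr, List.tail_cons, List.isEmpty_cons, Bool.false_eq_true, if_false,
      List.mem_cons] at hc
    rcases hc with rfl | hc
    · exact ⟨mod_le_M hp hpM _, mod_le_M hp hpM _⟩
    · exact h2 c (by simp [hc])

omit hp hpM in
theorem stNot_ok {k : ℕ} {l : List (ℕ × ℕ)} (h1 : l.length ≤ k)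
    (h2 : ∀ a ∈ l, a.1 ≤ M ∧ a.2 ≤ M) :
    (stNot l).length ≤ k ∧ ∀ a ∈ stNot l, a.1 ≤ M ∧ a.2 ≤ M := by
  rcases l with _ | ⟨b, r⟩
  · simp [stNot]
  · simp only [List.length_cons] at h1
    refine ⟨by simp [stNot]; omega, ?_⟩
    intro c hc
    simp only [stNot, List.tail_cons, List.isEmpty_cons, Bool.false_eq_true, if_false,
      List.mem_cons, stTop, List.headD_cons] at hc
    have hb := h2 b (by simp)
    rcases hc with rfl | hc
    · exact ⟨hb.2, hb.1⟩
    · exact h2 c (by simp [hc])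

include hnM

theorem nbstep_ok {k : ℕ} {S : NEv} (h : EvOK M k S) (b : Bool) :
    EvOK M (k + 1) (nbstep p n S b) := by
  obtain ⟨h1, h2, h3, h4, h5, h6, h7, h8⟩ := h
  have hm := mod_le_M hp hpM
  have hk : S.2.1.length ≤ k + 1 := by omega
  have hsq : ∀ a, sqm p a ≤ M := fun a => hm _
  have key : ∀ l : List (ℕ × ℕ), (l.length ≤ k ∧ ∀ a ∈ l, a.1 ≤ M ∧ a.2 ≤ M) →
      EvOK M (k + 1) (evStk l S) := fun l hl =>
    ⟨by simp [evStk], by show l.length ≤ k + 1; omega, hl.2, h4, h5, h6, h7, h8⟩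
  unfold nbstep
  refine ite_ok (fun _ => ⟨by simp [evSign], hk, h3, h4, h5, by simp [evSign], hm _, hnM⟩)
    fun _ => ?_
  refine ite_ok (fun _ => ⟨by simp [evSign], hk, h3, h4, h5, by simp [evSign], hm _, hnM⟩)
    fun _ => ?_
  refine ite_ok (fun _ => ⟨by simp [evD0], hk, h3, h4, h5, hm _, h7, h8⟩) fun _ => ?_
  refine ite_ok (fun _ => ⟨by simp [evD1], hk, h3, h4, h5, hm _, h7, h8⟩) fun _ => ?_
  refine ite_ok (fun _ => ⟨by simp [evTick], hk, h3, h4, h5, h6, hm _, h8⟩) fun _ => ?_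
  refine ite_ok (fun _ => ⟨by simp [evNext], hk, h3, h4, h5, h6, h7,
    (Nat.div_le_self _ _).trans h8⟩) fun _ => ?_
  refine ite_ok (fun _ => ⟨by simp [evStop], hk, h3, h4, hm _, h6, h7, h8⟩) fun _ => ?_
  refine ite_ok (fun _ => ⟨by simp [evEq], by simp [evEq]; omega, ?_,
    (Nat.div_le_self _ _).trans h4, by simp [evEq], h6, h7, h8⟩) fun _ => ?_
  · intro a ha
    simp only [evEq, List.mem_cons] at ha
    rcases ha with rfl | ha
    · exact ⟨hsq _, hsq _⟩
    · exact h3 a ha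
  refine ite_ok (fun _ => ⟨by simp [evGt], by simp [evGt]; omega, ?_,
    (Nat.div_le_self _ _).trans h4, by simp [evGt], h6, h7, h8⟩) fun _ => ?_
  · intro a ha
    simp only [evGt, List.mem_cons] at ha
    rcases ha with rfl | ha
    · exact ⟨hsq _, hsq _⟩
    · exact h3 a ha
  refine ite_ok (fun _ => key _ (stAnd_ok hp hpM h2 h3)) fun _ => ?_
  refine ite_ok (fun _ => key _ (stOr_ok hp hpM h2 h3)) fun _ => ?_
  refine ite_ok (fun _ => key _ (stNot_ok h2 h3)) fun _ => ?_
  refine ite_ok (fun hu => ⟨?_, hk, h3, h4, h5, h6, h7, h8⟩)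
    fun _ => ⟨by simp, hk, h3, h4, h5, h6, h7, h8⟩
  simp only
  rcases hS : S.1 ++ [b] with _ | ⟨a1, _ | ⟨a2, _ | ⟨a3, r⟩⟩⟩
  · simp
  · simp
  · simp
  · rw [hS] at hu
    simp only [List.tail_cons] at hu
    simp [hu]

theorem nbstep_foldl_ok {k : ℕ} {S : NEv} (h : EvOK M k S) (l : List Bool) :
    EvOK M (k + l.length) (l.foldl (nbstep p n) S) := by
  induction l generalizing S k with
  | nil => exact h
  | cons b l ih =>
    have := ih (nbstep_ok hp hpM hnM h b)
    rw [List.foldl_cons, List.length_cons]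
    rwa [show k + 1 + l.length = k + (l.length + 1) by ring] at this

end

theorem codeStk_length {C : ℕ} {l : List (ℕ × ℕ)} {M : ℕ}
    (h : ∀ a ∈ l, a.1 ≤ M ∧ a.2 ≤ M) (hC : (Code.code M).length ≤ C) :
    (codeStk l).length ≤ l.length * (6 * C + 6) := by
  induction l with
  | nil => simp [codeStk]
  | cons a l ih =>
    have h1 := (code_nat_mono (h a (by simp)).1).trans hC
    have h2 := (code_nat_mono (h a (by simp)).2).trans hC
    have h3 := ih (fun b hb => h b (by simp [hb]))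
    have h4 : (Code.code a).length = 2 * (Code.code a.1).length + 2 + (Code.code a.2).length := by
      rw [show a = (a.1, a.2) from rfl, code_pair, length_pairL]
    simp only [codeStk, length_pairL, List.length_cons, h4]
    nlinarith

/-- The code of a bounded state is short. -/
theorem EvOK.length_le {C M k : ℕ} {S : NEv} (h : EvOK M k S) (hC : (Code.code M).length ≤ C)
    (hk : k ≤ C) : (Code.code S).length ≤ 12 * C ^ 2 + 40 * C + 60 := by
  obtain ⟨buf, stk, y, s, neg, d, mo, x⟩ := S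
  obtain ⟨h1, h2, h3, h4, h5, h6, h7, h8⟩ := h
  simp only at h1 h2 h3 h4 h5 h6 h7 h8
  have g4 := (code_nat_mono h4).trans hC
  have g5 := (code_nat_mono h5).trans hC
  have g6 := (code_nat_mono h6).trans hC
  have g7 := (code_nat_mono h7).trans hC
  have g8 := (code_nat_mono h8).trans hC
  have g3 := codeStk_length h3 hC
  have g2 : (codeStk stk).length ≤ C * (6 * C + 6) :=
    g3.trans (Nat.mul_le_mul_right _ (h2.trans hk))
  simp only [code_pair, length_pairL, code_list, code_bool, List.length_cons, List.length_nil,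
    code_stk]
  nlinarith

end Vale.Agent.P337
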