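import Vale.Agent.P337.EvBound
import Vale.Agent.P337.Arith
import Vale.Agent.P337.Arith2

/-!
# P337: the evaluator modulo `p` and the validity test are polynomial time
-/

namespace Vale.Agent.P337

section
variable {α β γ : Type} [Code α] [Code β] [Code γ]

theorem PTime.fst' {f : α → β × γ} (hf : PTime f) : PTime fun a => (f a).1 := PTime.fst.comp hf

theorem PTime.snd' {f : α → β × γ} (hf : PTime f) : PTime fun a => (f a).2 := PTime.snd.comp hf

/-! ## Stacks -/

theorem codeStk_isEmpty (l : List (ℕ × ℕ)) : (codeStk l).isEmpty = l.isEmpty := by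
  cases l with
  | nil => rfl
  | cons a l =>
    have : codeStk (a :: l) ≠ [] := pairL_ne_nil _ _
    simp [this]

theorem PTime.stkIsEmpty {f : α → List (ℕ × ℕ)} (hf : PTime f) :
    PTime fun a => (f a).isEmpty :=
  (PTime.isEmpty (PTime.code.comp hf)).congr fun a => codeStk_isEmpty (f a)

theorem PTime.stkTail {f : α → List (ℕ × ℕ)} (hf : PTime f) : PTime fun a => (f a).tail := by
  obtain ⟨F, h1, h2⟩ := hf
  refine ⟨_, h1.snd, fun a => ?_⟩
  beta_reduce
  rw [h2, code_stk, code_stk]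
  cases f a with
  | nil => rfl
  | cons b l => simp [codeStk]

theorem PTime.stTop {f : α → List (ℕ × ℕ)} (hf : PTime f) : PTime fun a => stTop (f a) := by
  obtain ⟨F, h1, h2⟩ := hf
  refine ⟨_, PT.ite (PTB.isEmpty h1) (PT.const (Code.code ((0 : ℕ), (0 : ℕ)))) h1.fst, fun a => ?_⟩
  beta_reduce
  rw [h2, code_stk, codeStk_isEmpty]
  cases f a with
  | nil => simp [P337.stTop]
  | cons b l => simp [P337.stTop, codeStk]

theorem PTime.stkCons {f : α → ℕ × ℕ} {g : α → List (ℕ × ℕ)} (hf : PTime f) (hg : PTime g) :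
    PTime fun a => f a :: g a := by
  obtain ⟨F, h1, h2⟩ := hf
  obtain ⟨G, h3, h4⟩ := hg
  refine ⟨_, h1.pair h3, fun a => ?_⟩
  beta_reduce
  rw [h2, h4]
  rfl

end

section
variable {α : Type} [Code α] {p n : α → ℕ} {S : α → NEv} (hp : PTime p) (hn : PTime n)
  (hS : PTime S)

include hp in
theorem PTime.sqm {f : α → ℕ} (hf : PTime f) : PTime fun a => sqm (p a) (f a) :=
  PTime.mod (PTime.mul hf hf) hp

include hp in
theorem PTime.stAnd {l : α → List (ℕ × ℕ)} (hl : PTime l) : PTime fun a => stAnd (p a) (l a) :=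
  PTime.ite hl.stkTail.stkIsEmpty hl
    (PTime.stkCons (PTime.pair
      (PTime.mod (PTime.add hl.stkTail.stTop.fst' hl.stTop.fst') hp)
      (PTime.mod (PTime.mul hl.stkTail.stTop.snd' hl.stTop.snd') hp)) hl.stkTail.stkTail)

include hp in
theorem PTime.stOr {l : α → List (ℕ × ℕ)} (hl : PTime l) : PTime fun a => stOr (p a) (l a) :=
  PTime.ite hl.stkTail.stkIsEmpty hl
    (PTime.stkCons (PTime.pair
      (PTime.mod (PTime.mul hl.stkTail.stTop.fst' hl.stTop.fst') hp)
      (PTime.mod (PTime.add hl.stkTail.stTop.snd' hl.stTop.snd') hp)) hl.stkTail.stkTail)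

theorem PTime.stNot {l : α → List (ℕ × ℕ)} (hl : PTime l) : PTime fun a => stNot (l a) :=
  PTime.ite hl.stkIsEmpty hl
    (PTime.stkCons (PTime.pair hl.stTop.snd' hl.stTop.fst') hl.stkTail)

/-! ## Components of the state -/

include hS

theorem PTime.c2 : PTime fun a => (S a).2.1 := hS.snd'.fst'
theorem PTime.c3 : PTime fun a => (S a).2.2.1 := hS.snd'.snd'.fst'
theorem PTime.c4 : PTime fun a => (S a).2.2.2.1 := hS.snd'.snd'.snd'.fst'
theorem PTime.c5 : PTime fun a => (S a).2.2.2.2.1 := hS.snd'.snd'.snd'.snd'.fst'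
theorem PTime.c6 : PTime fun a => (S a).2.2.2.2.2.1 := hS.snd'.snd'.snd'.snd'.snd'.fst'
theorem PTime.c7 : PTime fun a => (S a).2.2.2.2.2.2.1 := hS.snd'.snd'.snd'.snd'.snd'.snd'.fst'
theorem PTime.c8 : PTime fun a => (S a).2.2.2.2.2.2.2 := hS.snd'.snd'.snd'.snd'.snd'.snd'.snd'

omit hS in
theorem PTime.mk8 {f1 : α → List Bool} {f2 : α → List (ℕ × ℕ)} {f3 f4 : α → ℕ} {f5 : α → Bool}
    {f6 f7 f8 : α → ℕ} (h1 : PTime f1) (h2 : PTime f2) (h3 : PTime f3) (h4 : PTime f4)
    (h5 : PTime f5) (h6 : PTime f6) (h7 : PTime f7) (h8 : PTime f8) :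
    PTime fun a => ((f1 a, f2 a, f3 a, f4 a, f5 a, f6 a, f7 a, f8 a) : NEv) :=
  h1.pair (h2.pair (h3.pair (h4.pair (h5.pair (h6.pair (h7.pair h8))))))

include hp hn in
theorem PTime.evSign (neg : Bool) : PTime fun a => evSign (p a) (n a) neg (S a) :=
  PTime.mk8 (PTime.const []) hS.c2 hS.c3 hS.c4 (PTime.const neg) (PTime.const 0)
    (PTime.mod (PTime.const 1) hp) hn

include hp in
theorem PTime.evD0 : PTime fun a => evD0 (p a) (S a) :=
  PTime.mk8 (PTime.const []) hS.c2 hS.c3 hS.c4 hS.c5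
    (PTime.mod (PTime.mul (PTime.const 2) hS.c6) hp) hS.c7 hS.c8

include hp in
theorem PTime.evD1 : PTime fun a => evD1 (p a) (S a) :=
  PTime.mk8 (PTime.const []) hS.c2 hS.c3 hS.c4 hS.c5
    (PTime.mod (PTime.add (PTime.mul (PTime.const 2) hS.c6) (PTime.const 1)) hp) hS.c7 hS.c8

include hp in
theorem PTime.evTick : PTime fun a => evTick (p a) (S a) :=
  PTime.mk8 (PTime.const []) hS.c2 hS.c3 hS.c4 hS.c5 hS.c6
    (PTime.mod (PTime.mul hS.c7 (PTime.mod hS.c8 hp)) hp) hS.c8

include hp in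
theorem PTime.evNext : PTime fun a => evNext (p a) (S a) :=
  PTime.mk8 (PTime.const []) hS.c2 hS.c3 hS.c4 hS.c5 hS.c6 hS.c7 (PTime.div hS.c8 hp)

include hp in
theorem PTime.evStop : PTime fun a => evStop (p a) (S a) :=
  PTime.mk8 (PTime.const []) hS.c2 hS.c3
    (PTime.mod (PTime.add hS.c4 (PTime.mul
      (PTime.ite hS.c5 (PTime.sub hp hS.c6) hS.c6) hS.c7)) hp) hS.c5 hS.c6 hS.c7 hS.c8

include hp in
theorem PTime.evEq : PTime fun a => evEq (p a) (S a) :=
  PTime.mk8 (PTime.const [])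
    (PTime.stkCons (PTime.pair (PTime.sqm hp hS.c4)
      (PTime.sqm hp (PTime.add (PTime.mul hS.c4 (PTime.mod hS.c3 hp))
        (PTime.sub hp (PTime.const 1))))) hS.c2)
    (PTime.div hS.c3 hp) (PTime.const 0) hS.c5 hS.c6 hS.c7 hS.c8

include hp in
theorem PTime.evGt : PTime fun a => evGt (p a) (S a) :=
  PTime.mk8 (PTime.const [])
    (PTime.stkCons (PTime.pair
      (PTime.sqm hp (PTime.add (PTime.mul hS.c4 (PTime.sqm hp (PTime.mod hS.c3 hp)))
        (PTime.sub hp (PTime.const 1))))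
      (PTime.sqm hp (PTime.add hS.c4 (PTime.sqm hp (PTime.mod hS.c3 hp))))) hS.c2)
    (PTime.div hS.c3 hp) (PTime.const 0) hS.c5 hS.c6 hS.c7 hS.c8

theorem PTime.evStk {l : α → List (ℕ × ℕ)} (hl : PTime l) : PTime fun a => evStk (l a) (S a) :=
  (PTime.const []).pair (hl.pair hS.snd'.snd')

omit hS in
/-- `ite` with a decidable equality of strings -/
theorem PTime.iteEq {β : Type} [Code β] {u v : α → List Bool} {f g : α → β} (hu : PTime u)
    (hv : PTime v) (hf : PTime f) (hg : PTime g) : PTime fun a => if u a = v a then f a else g a :=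
  (PTime.ite (PTime.eq hu hv) hf hg).congr fun a => by simp

include hp hn in
theorem PTime.nbstep {b : α → Bool} (hb : PTime b) :
    PTime fun a => nbstep (p a) (n a) (S a) (b a) := by
  have hu : PTime fun a => (S a).1 ++ [b a] := PTime.append hS.fst' hb.boolToList
  exact PTime.iteEq hu (PTime.const _) (PTime.evSign hp hn hS false) <|
    PTime.iteEq hu (PTime.const _) (PTime.evSign hp hn hS true) <|
    PTime.iteEq hu (PTime.const _) (PTime.evD0 hp hS) <|
    PTime.iteEq hu (PTime.const _) (PTime.evD1 hp hS) <|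
    PTime.iteEq hu (PTime.const _) (PTime.evTick hp hS) <|
    PTime.iteEq hu (PTime.const _) (PTime.evNext hp hS) <|
    PTime.iteEq hu (PTime.const _) (PTime.evStop hp hS) <|
    PTime.iteEq hu (PTime.const _) (PTime.evEq hp hS) <|
    PTime.iteEq hu (PTime.const _) (PTime.evGt hp hS) <|
    PTime.iteEq hu (PTime.const _) (PTime.evStk hS (PTime.stAnd hp hS.c2)) <|
    PTime.iteEq hu (PTime.const _) (PTime.evStk hS (PTime.stOr hp hS.c2)) <|
    PTime.iteEq hu (PTime.const _) (PTime.evStk hS (PTime.stNot hS.c2)) <|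
    PTime.iteEq (hu.tail.tail.tail) (PTime.const _) (hu.pair hS.snd')
      ((PTime.const []).pair hS.snd')

end

theorem PTime.pos1 {α : Type} [Code α] {f : α → ℕ} (hf : PTime f) : PTime fun a => pos1 (f a) :=
  PTime.ite (PTime.eq hf (PTime.const 0)) (PTime.const 1) hf

/-- the size of the context `(w, p, n)` -/
theorem ctx_bound (a : List Bool × ℕ × ℕ) :
    a.1.length ≤ (Code.code a).length ∧
    (Code.code (max (P337.pos1 a.2.1) a.2.2)).length ≤ (Code.code a).length := by
  obtain ⟨w, p, n⟩ := a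
  simp only [code_pair, length_pairL, code_list]
  refine ⟨by omega, ?_⟩
  rcases le_total (P337.pos1 p) n with h | h
  · rw [max_eq_right h]; omega
  · rw [max_eq_left h]
    unfold P337.pos1
    by_cases h0 : p = 0
    · simp only [h0, decide_true, if_true]
      have : (Code.code 1).length ≤ 1 := code_nat_le (by norm_num)
      omega
    · simp only [h0, decide_false, Bool.false_eq_true, if_false]
      omega

theorem PTime.divFold : PTime fun a : List Bool × ℕ × ℕ =>
    divFold (P337.pos1 a.2.1) a.2.2 a.1 := by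
  have h := PTime.foldBits (α := List Bool × ℕ × ℕ) (σ := ℕ) (l := fun a => a.1)
    (init := fun a => a.2.2) (step := fun x => x.2.1 / P337.pos1 x.1.2.1) PTime.fst
    (PTime.snd.comp PTime.snd)
    (PTime.div (PTime.fst.comp PTime.snd) (PTime.pos1 (PTime.id.fst'.snd'.fst')))
    Polynomial.X ?_
  · exact h
  · intro a i _
    rw [Polynomial.eval_X]
    have h1 : ∀ (l : List Bool) (s : ℕ), s ≤ a.2.2 →
        l.foldl (fun s _ => s / P337.pos1 a.2.1) s ≤ a.2.2 := by
      intro l
      induction l with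
      | nil => intro s hs; exact hs
      | cons b l ih => intro s hs; exact ih _ ((Nat.div_le_self _ _).trans hs)
    refine (code_nat_mono (h1 _ _ le_rfl)).trans ?_
    obtain ⟨w, p, n⟩ := a
    simp only [code_pair, length_pairL]
    omega

theorem divFold_le (p n : ℕ) (w : List Bool) : divFold p n w ≤ n := by
  rw [divFold_eq]; exact Nat.div_le_self _ _

/-- The evaluator is polynomial time. -/
theorem PTime.evF : PTime P337.evF := by
  have hP : PTime fun a : List Bool × ℕ × ℕ => P337.pos1 a.2.1 := PTime.pos1 PTime.id.snd'.fst'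
  have hN : PTime fun a : List Bool × ℕ × ℕ => a.2.2 := PTime.id.snd'.snd'
  have hI : PTime fun a : List Bool × ℕ × ℕ => evInit (P337.pos1 a.2.1) a.2.2
      (P337.divFold (P337.pos1 a.2.1) a.2.2 a.1) :=
    PTime.mk8 (PTime.const []) (PTime.const []) PTime.divFold (PTime.const 0) (PTime.const false)
      (PTime.const 0) (PTime.mod (PTime.const 1) hP) hN
  have h := PTime.foldBits (α := List Bool × ℕ × ℕ) (σ := NEv) (l := fun a => a.1)
    (init := fun a => evInit (P337.pos1 a.2.1) a.2.2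
      (P337.divFold (P337.pos1 a.2.1) a.2.2 a.1))
    (step := fun x => P337.nbstep (P337.pos1 x.1.2.1) x.1.2.2 x.2.1 x.2.2) PTime.fst hI
    (PTime.nbstep (PTime.pos1 PTime.id.fst'.snd'.fst') (PTime.id.fst'.snd'.snd')
      PTime.id.snd'.fst' PTime.id.snd'.snd')
    (12 * Polynomial.X ^ 2 + 40 * Polynomial.X + 60) ?_
  · exact PTime.mod (PTime.stTop (PTime.c2 h)).fst' hP
  · intro a i hi
    simp only
    obtain ⟨h1, h2⟩ := ctx_bound a
    have hM1 : P337.pos1 a.2.1 ≤ max (P337.pos1 a.2.1) a.2.2 := le_max_left _ _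
    have hM2 : a.2.2 ≤ max (P337.pos1 a.2.1) a.2.2 := le_max_right _ _
    have h0 : EvOK (max (P337.pos1 a.2.1) a.2.2) 0 (evInit (P337.pos1 a.2.1) a.2.2
        (P337.divFold (P337.pos1 a.2.1) a.2.2 a.1)) :=
      ⟨by simp [evInit], by simp [evInit], by simp [evInit], (divFold_le _ _ _).trans hM2,
        by simp [evInit], by simp [evInit],
        (Nat.mod_lt _ (pos1_pos _)).le.trans hM1, hM2⟩
    have h3 := nbstep_foldl_ok (pos1_pos a.2.1) hM1 hM2 h0 (a.1.take i)
    have h4 := h3.length_le h2 (by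
      have : (a.1.take i).length ≤ a.1.length := by rw [List.length_take]; omega
      omega)
    refine h4.trans (le_of_eq ?_)
    simp

end Vale.Agent.P337
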