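import Vale.Agent.P337.FBound

/-!
# P337: the polynomial of a word with one dummy variable
-/

namespace Vale.Agent.P337

open MvPolynomial

/-- The polynomial of the string `w`, with one dummy variable (so that the number of variables is
never zero). -/
noncomputable def fW1 (w : List Bool) : MvPolynomial (Fin (2 * w.length + 1)) ℤ :=
  rename Fin.castSucc (fW w)

theorem aeval_fW1' {R : Type} [CommRing R] (w : List Bool) (z : Fin (2 * w.length + 1) → R) :
    aeval z (fW1 w) = aeval (fun i => z (Fin.castSucc i)) (fW w) := by
  unfold fW1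
  rw [aeval_rename]
  rfl

/-- Evaluation of `fW1 w` at a point of any commutative ring. -/
theorem aeval_fW1 {R : Type} [CommRing R] (w : List Bool) (z : Fin (2 * w.length + 1) → R) :
    aeval z (fW1 w) = evW (fvX w.length fun i => z (Fin.castSucc i))
      (fvY w.length fun i => z (Fin.castSucc i)) w := by
  rw [aeval_fW1', aeval_fW]

theorem norm1_rename {n k : ℕ} (g : Fin n → Fin k) (hg : Function.Injective g)
    (f : MvPolynomial (Fin n) ℤ) : norm1 (rename g f) = norm1 f := by
  classical
  unfold norm1
  rw [support_rename_of_injective hg, Finset.sum_image]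
  · exact Finset.sum_congr rfl fun a _ => by rw [coeff_rename_mapDomain g hg]
  · exact fun a _ b _ h => Finsupp.mapDomain_injective hg h

theorem fW1_totalDegree {w : List Bool} (hw : validW w = true) :
    (fW1 w).totalDegree ≤ w.length :=
  (totalDegree_rename_le _ _).trans (fW_totalDegree hw).1

theorem fW1_norm1 {w : List Bool} (hw : validW w = true) : norm1 (fW1 w) ≤ 2 ^ w.length := by
  unfold fW1
  rw [norm1_rename _ (Fin.castSucc_injective _)]
  exact (fW_totalDegree hw).2

theorem fW1_nonneg {w : List Bool} (hw : validW w = true) (z : Fin (2 * w.length + 1) → ℝ) :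
    0 ≤ aeval z (fW1 w) := by
  rw [aeval_fW1']
  exact fW_nonneg hw _

/-- A sentence is true iff its polynomial has a real zero. -/
theorem ETR_iff_fW1 (w : List Bool) : w ∈ ETR ↔ validW w = true ∧
    ∃ z : Fin (2 * w.length + 1) → ℝ, aeval z (fW1 w) = 0 := by
  rw [ETR_iff_fW]
  apply and_congr_right
  intro _
  constructor
  · rintro ⟨z, hz⟩
    refine ⟨Fin.snoc z 0, ?_⟩
    rw [aeval_fW1']
    simpa using hz
  · rintro ⟨z, hz⟩
    rw [aeval_fW1'] at hz
    exact ⟨_, hz⟩

/-- Evaluation modulo `p`. -/
theorem eval_map_fW1 {R : Type} [CommRing R] (w : List Bool) (z : Fin (2 * w.length + 1) → R) :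
    eval z (map (Int.castRingHom R) (fW1 w)) = evW (fvX w.length fun i => z (Fin.castSucc i))
      (fvY w.length fun i => z (Fin.castSucc i)) w := by
  rw [← aeval_fW1, eval_map]
  rfl

end Vale.Agent.P337
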