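import Vale.Agent.P337.FCHProd

/-!
# P337: the files FCH.lean and FCHProd.lean are the real ones; this file only imports them
-/
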