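import Vale.Agent.P337.Sys
import Vale.Agent.P337.SkelFCH

/-!
# P337, layer S: residues computed in the counting hierarchy (definitions)

A context is a coded type `α` with a promise `dom : α → Prop`, a modulus `p : α → ℕ` (prime on
`dom`) and a number of variables `N : α → ℕ`.
-/

namespace Vale.Agent.P337

open MvPolynomial

section
variable {α : Type} [Code α]

/-- The residues `v a` are computed in the counting hierarchy (for `a` in `dom`). -/
def FZ (dom : α → Prop) (p : α → ℕ) (v : ∀ a, ZMod (p a)) : Prop :=
  ∃ g : α → ℕ, FCH g ∧ ∀ a, dom a → (g a : ZMod (p a)) = v a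

/-- A legal context. -/
structure LCtx (dom : α → Prop) (p N : α → ℕ) : Prop where
  prime : ∀ a, dom a → (p a).Prime
  fch_p : FCH p
  fch_N : FCH N
  small : ∃ r : Polynomial ℕ, ∀ a, N a ≤ r.eval (code a).length

/-- The point of `𝔽_p ^ N` with code `n`: the coordinates are the digits of `n` in base `p`. -/
def pt (N p n : ℕ) : Fin N → ZMod p := fun i => (dig p n i : ZMod p)

/-- The map `[N] → [N]` with code `n`: digits in base `N`. -/
def mp (N n : ℕ) [NeZero N] : Fin N → Fin N := fun i => Fin.ofNat N (dig N n i)

/-- The values of the polynomials `g a` mod `p a` at all points are computed in the counting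
hierarchy. -/
def PE (dom : α → Prop) (p N : α → ℕ) (g : ∀ a, MvPolynomial (Fin (N a)) (ZMod (p a))) : Prop :=
  FZ (fun y : α × ℕ => dom y.1) (fun y => p y.1)
    (fun y => eval (pt (N y.1) (p y.1) y.2) (g y.1))

/-- The same for a family of polynomials indexed by `Fin (N a)`; the second component of
`y : α × ℕ` is the index. -/
def FE (dom : α → Prop) (p N : α → ℕ) [∀ a, NeZero (N a)]
    (fs : ∀ a, Fin (N a) → MvPolynomial (Fin (N a)) (ZMod (p a))) : Prop :=
  PE (fun y : α × ℕ => dom y.1 ∧ y.2 < N y.1) (fun y => p y.1) (fun y => N y.1)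
    (fun y => fs y.1 (Fin.ofNat (N y.1) y.2))

end

end Vale.Agent.P337
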