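import Vale.Agent.P337.ValidF
import Vale.Agent.P337.FW1
import Vale.Agent.P337.SDefs

/-!
# P337, layer S: the values of the polynomial of a word modulo `p`
-/

namespace Vale.Agent.P337

open MvPolynomial

/-- [S8] the values of `fW1 w` modulo `p` at all points are computed in polynomial time. -/
theorem PE.fW1 {α : Type} [Code α] {dom : α → Prop} {p : α → ℕ} {w : α → List Bool}
    (hw : PTime w) (hp : PTime p) (hprime : ∀ a, dom a → (p a).Prime)
    (hvalid : ∀ a, dom a → validW (w a) = true) :
    PE dom p (fun a => 2 * (w a).length + 1)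
      (fun a => map (Int.castRingHom (ZMod (p a))) (fW1 (w a))) := by
  refine ⟨fun y => evF (w y.1, p y.1, y.2), ?_, ?_⟩
  · exact FCH.of_ptime (PTime.evF.comp
      ((hw.comp PTime.fst).pair ((hp.comp PTime.fst).pair PTime.snd)))
  · rintro ⟨a, n⟩ hy
    have h1 := evF_spec (hvalid a hy) (hprime a hy).pos n
    simp only at h1 ⊢
    rw [h1, eval_map_fW1, aeval_fW]
    rfl

end Vale.Agent.P337
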