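import Vale.Agent.P337.FBound

/-!
# P337: evaluation of `F⁺` modulo `p`, as a fold over the bits with natural numbers

State of the fold: `(buf, stk, ycur, s, neg, d, mo, xcur)`.
-/

namespace Vale.Agent.P337

/-- State of the evaluator modulo `p`: buffer of bits, stack, `n / p ^ (L + t)`, sum, sign, digits,
product, `n / p ^ i`. -/
abbrev NEv : Type := List Bool × List (ℕ × ℕ) × ℕ × ℕ × Bool × ℕ × ℕ × ℕ

section
variable (p n : ℕ)

/-- Start of a monomial. -/
def evSign (neg : Bool) (S : NEv) : NEv :=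
  ([], S.2.1, S.2.2.1, S.2.2.2.1, neg, 0, 1 % p, n)

/-- Digit `0`. -/
def evD0 (S : NEv) : NEv :=
  ([], S.2.1, S.2.2.1, S.2.2.2.1, S.2.2.2.2.1, (2 * S.2.2.2.2.2.1) % p, S.2.2.2.2.2.2.1,
    S.2.2.2.2.2.2.2)

/-- Digit `1`. -/
def evD1 (S : NEv) : NEv :=
  ([], S.2.1, S.2.2.1, S.2.2.2.1, S.2.2.2.2.1, (2 * S.2.2.2.2.2.1 + 1) % p, S.2.2.2.2.2.2.1,
    S.2.2.2.2.2.2.2)

/-- `tick`. -/
def evTick (S : NEv) : NEv :=
  ([], S.2.1, S.2.2.1, S.2.2.2.1, S.2.2.2.2.1, S.2.2.2.2.2.1,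
    (S.2.2.2.2.2.2.1 * (S.2.2.2.2.2.2.2 % p)) % p, S.2.2.2.2.2.2.2)

/-- `next`. -/
def evNext (S : NEv) : NEv :=
  ([], S.2.1, S.2.2.1, S.2.2.2.1, S.2.2.2.2.1, S.2.2.2.2.2.1, S.2.2.2.2.2.2.1,
    S.2.2.2.2.2.2.2 / p)

/-- `stop`. -/
def evStop (S : NEv) : NEv :=
  ([], S.2.1, S.2.2.1,
    (S.2.2.2.1 + (if S.2.2.2.2.1 then p - S.2.2.2.2.2.1 else S.2.2.2.2.2.1) *
      S.2.2.2.2.2.2.1) % p,
    S.2.2.2.2.1, S.2.2.2.2.2.1, S.2.2.2.2.2.2.1, S.2.2.2.2.2.2.2)

/-- the square modulo `p` -/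
def sqm (a : ℕ) : ℕ := (a * a) % p

/-- `eq`. -/
def evEq (S : NEv) : NEv :=
  ([], (sqm p S.2.2.2.1, sqm p (S.2.2.2.1 * (S.2.2.1 % p) + (p - 1))) :: S.2.1,
    S.2.2.1 / p, 0, S.2.2.2.2.1, S.2.2.2.2.2.1, S.2.2.2.2.2.2.1, S.2.2.2.2.2.2.2)

/-- `gt`. -/
def evGt (S : NEv) : NEv :=
  ([], (sqm p (S.2.2.2.1 * sqm p (S.2.2.1 % p) + (p - 1)),
      sqm p (S.2.2.2.1 + sqm p (S.2.2.1 % p))) :: S.2.1,
    S.2.2.1 / p, 0, S.2.2.2.2.1, S.2.2.2.2.2.1, S.2.2.2.2.2.2.1, S.2.2.2.2.2.2.2)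

/-- the top of a stack -/
def stTop (l : List (ℕ × ℕ)) : ℕ × ℕ := l.headD (0, 0)

/-- `and` on the stack -/
def stAnd (l : List (ℕ × ℕ)) : List (ℕ × ℕ) :=
  if l.tail.isEmpty then l else
    (((stTop l.tail).1 + (stTop l).1) % p, ((stTop l.tail).2 * (stTop l).2) % p) :: l.tail.tail

/-- `or` on the stack -/
def stOr (l : List (ℕ × ℕ)) : List (ℕ × ℕ) :=
  if l.tail.isEmpty then l else
    (((stTop l.tail).1 * (stTop l).1) % p, ((stTop l.tail).2 + (stTop l).2) % p) :: l.tail.tail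

/-- `not` on the stack -/
def stNot (l : List (ℕ × ℕ)) : List (ℕ × ℕ) :=
  if l.isEmpty then l else ((stTop l).2, (stTop l).1) :: l.tail

/-- change of the stack -/
def evStk (l : List (ℕ × ℕ)) (S : NEv) : NEv := ([], l, S.2.2)

/-- One token. -/
def nstep (S : NEv) : Tok → NEv
  | .plus => evSign p n false S
  | .minus => evSign p n true S
  | .d0 => evD0 p S
  | .d1 => evD1 p S
  | .tick => evTick p S
  | .next => evNext p S
  | .stop => evStop p S
  | .eq => evEq p S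
  | .gt => evGt p S
  | .and => evStk (stAnd p S.2.1) S
  | .or => evStk (stOr p S.2.1) S
  | .not => evStk (stNot S.2.1) S

/-- One bit. -/
def nbstep (S : NEv) (b : Bool) : NEv :=
  let u := S.1 ++ [b]
  if u = Tok.plus.bits then evSign p n false S else
  if u = Tok.minus.bits then evSign p n true S else
  if u = Tok.d0.bits then evD0 p S else
  if u = Tok.d1.bits then evD1 p S else
  if u = Tok.tick.bits then evTick p S else
  if u = Tok.next.bits then evNext p S else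
  if u = Tok.stop.bits then evStop p S else
  if u = Tok.eq.bits then evEq p S else
  if u = Tok.gt.bits then evGt p S else
  if u = Tok.and.bits then evStk (stAnd p S.2.1) S else
  if u = Tok.or.bits then evStk (stOr p S.2.1) S else
  if u = Tok.not.bits then evStk (stNot S.2.1) S else
  if u.tail.tail.tail = [] then (u, S.2) else ([], S.2)

theorem nbstep_bits (S : NEv) (hS : S.1 = []) (k : Tok) :
    k.bits.foldl (nbstep p n) S = nstep p n S k := by
  obtain ⟨u, S⟩ := S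
  simp only at hS
  subst hS
  cases k <;> simp [nbstep, Tok.bits, nstep, evSign, evD0, evD1, evTick, evNext, evStop, evEq,
    evGt, evStk]

theorem nstep_fst (S : NEv) (k : Tok) : (nstep p n S k).1 = [] := by cases k <;> rfl

theorem nbstep_foldl (l : List Tok) (S : NEv) (hS : S.1 = []) :
    (l.flatMap Tok.bits).foldl (nbstep p n) S = l.foldl (nstep p n) S := by
  induction l generalizing S with
  | nil => rfl
  | cons k l ih =>
    rw [List.flatMap_cons, List.foldl_append, nbstep_bits p n S hS, List.foldl_cons,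
      ih _ (nstep_fst p n S k)]

end

/-- The simulation relation between the two evaluators. -/
structure EvSim (p n L : ℕ) (S : NEv) (T : TSt (ZMod p)) : Prop where
  stk : S.2.1.map (fun a => ((a.1 : ZMod p), (a.2 : ZMod p))) = T.stk
  y : S.2.2.1 = n / p ^ (L + T.t)
  s : (S.2.2.2.1 : ZMod p) = T.s
  neg : S.2.2.2.2.1 = T.neg
  dle : S.2.2.2.2.2.1 ≤ p
  d : (S.2.2.2.2.2.1 : ZMod p) = T.d
  mo : (S.2.2.2.2.2.2.1 : ZMod p) = T.mo
  x : S.2.2.2.2.2.2.2 = n / p ^ T.i

theorem EvSim.step {p n L : ℕ} (hp : 0 < p) {S : NEv} {T : TSt (ZMod p)} (h : EvSim p n L S T)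
    (k : Tok) : EvSim p n L (nstep p n S k)
      (tstep (fun i => ((n / p ^ i % p : ℕ) : ZMod p))
        (fun t => ((n / p ^ (L + t) % p : ℕ) : ZMod p)) T k) := by
  obtain ⟨h1, h2, h3, h4, h5, h6, h7, h8⟩ := h
  obtain ⟨buf, stk, y, s, neg, d, mo, x⟩ := S
  obtain ⟨stk', t, s', neg', d', mo', i⟩ := T
  simp only at h1 h2 h3 h4 h5 h6 h7 h8
  subst h1 h2 h3 h4 h6 h7 h8
  have hsub : ((p - 1 : ℕ) : ZMod p) = -1 := by
    rw [Nat.cast_sub hp]; simp
  have hle : ∀ a, a % p ≤ p := fun a => (Nat.mod_lt a hp).le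
  cases k
  case plus => exact ⟨rfl, rfl, rfl, rfl, by simp [nstep, evSign], by simp [nstep, evSign, tstep],
    by simp [nstep, evSign, tstep], by simp [nstep, evSign, tstep]⟩
  case minus => exact ⟨rfl, rfl, rfl, rfl, by simp [nstep, evSign], by simp [nstep, evSign, tstep],
    by simp [nstep, evSign, tstep], by simp [nstep, evSign, tstep]⟩
  case d0 => exact ⟨rfl, rfl, rfl, rfl, hle _, by simp [nstep, evD0, tstep], rfl, rfl⟩
  case d1 => exact ⟨rfl, rfl, rfl, rfl, hle _, by simp [nstep, evD1, tstep], rfl, rfl⟩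
  case tick => exact ⟨rfl, rfl, rfl, rfl, h5, rfl, by simp [nstep, evTick, tstep], rfl⟩
  case next => exact ⟨rfl, rfl, rfl, rfl, h5, rfl, rfl, by
    simp only [nstep, evNext, tstep]; rw [Nat.div_div_eq_div_mul, pow_succ]⟩
  case stop =>
    refine ⟨rfl, rfl, ?_, rfl, h5, rfl, rfl, rfl⟩
    cases neg
    · simp [nstep, evStop, tstep]
    · simp [nstep, evStop, tstep, Nat.cast_sub h5]
  case eq =>
    refine ⟨?_, ?_, by simp [nstep, evEq, tstep], rfl, h5, rfl, rfl, rfl⟩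
    · simp [nstep, evEq, tstep, sqm, hsub, sq, sub_eq_add_neg]
    · simp only [nstep, evEq, tstep]; rw [Nat.div_div_eq_div_mul, ← pow_succ, add_assoc]
  case gt =>
    refine ⟨?_, ?_, by simp [nstep, evGt, tstep], rfl, h5, rfl, rfl, rfl⟩
    · simp [nstep, evGt, tstep, sqm, hsub, sq, sub_eq_add_neg]
    · simp only [nstep, evGt, tstep]; rw [Nat.div_div_eq_div_mul, ← pow_succ, add_assoc]
  case and =>
    refine ⟨?_, rfl, rfl, rfl, h5, rfl, rfl, rfl⟩
    rcases stk with _ | ⟨b, _ | ⟨a, r⟩⟩ <;> simp [nstep, evStk, tstep, stAnd, stTop]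
  case or =>
    refine ⟨?_, rfl, rfl, rfl, h5, rfl, rfl, rfl⟩
    rcases stk with _ | ⟨b, _ | ⟨a, r⟩⟩ <;> simp [nstep, evStk, tstep, stOr, stTop]
  case not =>
    refine ⟨?_, rfl, rfl, rfl, h5, rfl, rfl, rfl⟩
    rcases stk with _ | ⟨b, r⟩ <;> simp [nstep, evStk, tstep, stNot, stTop]

theorem EvSim.foldl {p n L : ℕ} (hp : 0 < p) {S : NEv} {T : TSt (ZMod p)} (h : EvSim p n L S T)
    (l : List Tok) : EvSim p n L (l.foldl (nstep p n) S)
      (l.foldl (tstep (fun i => ((n / p ^ i % p : ℕ) : ZMod p))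
        (fun t => ((n / p ^ (L + t) % p : ℕ) : ZMod p))) T) := by
  induction l generalizing S T with
  | nil => exact h
  | cons k l ih => exact ih (h.step hp k)

/-- Initial state. -/
def evInit (p n y : ℕ) : NEv := ([], [], y, 0, false, 0, 1 % p, n)

/-- `n / p ^ |w|` as a fold. -/
def divFold (p n : ℕ) (w : List Bool) : ℕ := w.foldl (fun a _ => a / p) n

theorem divFold_eq (p n : ℕ) (w : List Bool) : divFold p n w = n / p ^ w.length := by
  unfold divFold
  induction w generalizing n with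
  | nil => simp
  | cons b w ih => rw [List.foldl_cons, ih, Nat.div_div_eq_div_mul, List.length_cons, pow_succ']

/-- `p`, or `1` if `p = 0`. -/
def pos1 (p : ℕ) : ℕ := if decide (p = 0) then 1 else p

theorem pos1_of_pos {p : ℕ} (hp : 0 < p) : pos1 p = p := by simp [pos1, hp.ne']

theorem pos1_pos (p : ℕ) : 0 < pos1 p := by
  unfold pos1
  by_cases h : p = 0
  · simp [h]
  · simp [h]; omega

/-- The value of `f_w` modulo `p` at the point whose coordinates are the digits of `n` in base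
`p`. -/
def evF (a : List Bool × ℕ × ℕ) : ℕ :=
  (stTop (a.1.foldl (nbstep (pos1 a.2.1) a.2.2)
    (evInit (pos1 a.2.1) a.2.2 (divFold (pos1 a.2.1) a.2.2 a.1))).2.1).1 % pos1 a.2.1

theorem evF_spec {w : List Bool} (hw : validW w = true) {p : ℕ} (hp : 0 < p) (n : ℕ) :
    ((evF (w, p, n) : ℕ) : ZMod p) =
      MvPolynomial.aeval (fun i : Fin (2 * w.length) => ((n / p ^ (i : ℕ) % p : ℕ) : ZMod p))
        (fW w) := by
  obtain ⟨φ, hφ⟩ := (validW_iff w).1 hw
  have hL : 4 * φ.toks.length = w.length := by rw [← Form.length_enc, hφ]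
  have h0 : EvSim p n w.length (evInit p n (divFold p n w)) (TSt.init (ZMod p)) :=
    ⟨rfl, by simp [evInit, TSt.init, divFold_eq], by simp [evInit, TSt.init], rfl,
      by simp [evInit], by simp [evInit, TSt.init], by simp [evInit, TSt.init],
      by simp [evInit, TSt.init]⟩
  have h1 := h0.foldl hp φ.toks
  have h2 : w.foldl (nbstep p n) (evInit p n (divFold p n w)) =
      φ.toks.foldl (nstep p n) (evInit p n (divFold p n w)) := by
    rw [← nbstep_foldl p n φ.toks _ rfl]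
    congr 1
    rw [← hφ]
    rfl
  have h3 : ((evF (w, p, n) : ℕ) : ZMod p) =
      ((φ.pm (fun i => ((n / p ^ i % p : ℕ) : ZMod p))
        (fun t => ((n / p ^ (w.length + t) % p : ℕ) : ZMod p)) 0).1) := by
    unfold evF
    simp only [pos1_of_pos hp]
    rw [h2, ZMod.natCast_mod]
    obtain ⟨ng, dd, mm, ii, h4⟩ := fold_form (fun i => ((n / p ^ i % p : ℕ) : ZMod p))
      (fun t => ((n / p ^ (w.length + t) % p : ℕ) : ZMod p)) φ (TSt.init (ZMod p)) rfl
    have h5 := h1.stk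
    rw [h4] at h5
    rcases hq : (φ.toks.foldl (nstep p n) (evInit p n (divFold p n w))).2.1 with _ | ⟨a, r⟩
    · rw [hq] at h5; simp [TSt.init] at h5
    · rw [hq] at h5
      simp only [List.map_cons, List.cons.injEq] at h5
      have h6 := congrArg Prod.fst h5.1
      simp only at h6
      simp only [stTop, List.headD_cons]
      rw [h6]
      rfl
  rw [h3, aeval_fW]
  have h7 : evW (fvX w.length fun i : Fin (2 * w.length) => ((n / p ^ (i : ℕ) % p : ℕ) : ZMod p))
      (fvY w.length fun i : Fin (2 * w.length) => ((n / p ^ (i : ℕ) % p : ℕ) : ZMod p)) w =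
      (φ.pm (fvX w.length fun i : Fin (2 * w.length) => ((n / p ^ (i : ℕ) % p : ℕ) : ZMod p))
      (fvY w.length fun i : Fin (2 * w.length) => ((n / p ^ (i : ℕ) % p : ℕ) : ZMod p)) 0).1 := by
    generalize (fvX w.length fun i : Fin (2 * w.length) =>
      ((n / p ^ (i : ℕ) % p : ℕ) : ZMod p)) = x'
    generalize (fvY w.length fun i : Fin (2 * w.length) =>
      ((n / p ^ (i : ℕ) % p : ℕ) : ZMod p)) = y'
    rw [← hφ, evW_enc]
  rw [h7]
  congr 1
  apply Form.pm_congr (n := φ.toks.length) (k := φ.toks.length)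
  · exact Form.vars_toks φ
  · intro i hi
    unfold fvX
    rw [dif_pos (show i < w.length by omega)]
  · have := Form.atoms_le φ; omega
  · intro i hi _
    unfold fvY
    rw [dif_pos (show i < w.length by omega)]

theorem evF_lt {a : List Bool × ℕ × ℕ} (hp : 0 < a.2.1) : evF a < a.2.1 := by
  have h := Nat.mod_lt (stTop (a.1.foldl (nbstep (pos1 a.2.1) a.2.2)
    (evInit (pos1 a.2.1) a.2.2 (divFold (pos1 a.2.1) a.2.2 a.1))).2.1).1 (pos1_pos a.2.1)
  unfold evF
  rwa [pos1_of_pos hp] at h ⊢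

end Vale.Agent.P337
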