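import Mathlib

/-!
# P337, M0: the size bound is double exponential in a polynomial
-/

namespace Vale.Agent.P337

/-- [M0] -/
theorem exists_C : ∃ C : ℕ, ∀ L N m : ℕ, N ≤ L → m ≤ L →
    (m ^ N + 2 ^ L + 10) ^ 100 ≤ 2 ^ (L + 2) ^ C := by
  refine ⟨10, fun L N m hN hm => ?_⟩
  have h1 : m ^ N ≤ 2 ^ (L + 2) ^ 2 := by
    have h2 : m ≤ 2 ^ L := hm.trans (Nat.lt_two_pow_self).le
    calc m ^ N ≤ (2 ^ L) ^ N := Nat.pow_le_pow_left h2 _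
      _ = 2 ^ (L * N) := by rw [← pow_mul]
      _ ≤ 2 ^ (L + 2) ^ 2 := Nat.pow_le_pow_right (by norm_num) (by nlinarith)
  have h3 : 2 ^ L ≤ 2 ^ (L + 2) ^ 2 := Nat.pow_le_pow_right (by norm_num) (by nlinarith)
  have h4 : 10 ≤ 2 * 2 ^ (L + 2) ^ 2 := by
    have : 2 ^ 4 ≤ 2 ^ (L + 2) ^ 2 := Nat.pow_le_pow_right (by norm_num) (by nlinarith)
    omega
  have h5 : m ^ N + 2 ^ L + 10 ≤ 2 ^ ((L + 2) ^ 2 + 2) := by
    rw [pow_add]
    omega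
  calc (m ^ N + 2 ^ L + 10) ^ 100 ≤ (2 ^ ((L + 2) ^ 2 + 2)) ^ 100 := Nat.pow_le_pow_left h5 _
    _ = 2 ^ (((L + 2) ^ 2 + 2) * 100) := by rw [← pow_mul]
    _ ≤ 2 ^ (L + 2) ^ 10 := by
        refine Nat.pow_le_pow_right (by norm_num) ?_
        have h6 : 2 ^ 8 ≤ (L + 2) ^ 8 := Nat.pow_le_pow_left (by omega) _
        have h7 : (L + 2) ^ 10 = (L + 2) ^ 2 * (L + 2) ^ 8 := by ring
        have h8 : 2 ^ 2 ≤ (L + 2) ^ 2 := Nat.pow_le_pow_left (by omega) _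
        rw [h7]
        calc ((L + 2) ^ 2 + 2) * 100 ≤ ((L + 2) ^ 2 * 2) * 100 := by
              apply Nat.mul_le_mul_right
              omega
          _ = (L + 2) ^ 2 * 200 := by ring
          _ ≤ (L + 2) ^ 2 * (L + 2) ^ 8 := Nat.mul_le_mul_left _ (by omega)

end Vale.Agent.P337
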