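import Vale.Agent.P337.FFold
import Vale.Agent.P337.Sys

/-!
# P337, layer REAL: the polynomial `fW w` of a string `w`, its degree and norm
-/

namespace Vale.Agent.P337

open MvPolynomial

/-! ## The norm `norm1` -/

section norm
variable {N : ℕ}

theorem norm1_eq_sum {f : MvPolynomial (Fin N) ℤ} {s : Finset (Fin N →₀ ℕ)} (h : f.support ⊆ s) :
    norm1 f = ∑ a ∈ s, (coeff a f).natAbs := by
  unfold norm1
  apply Finset.sum_subset h
  intro a _ ha
  rw [notMem_support_iff.1 ha]; rfl

theorem norm1_add (f g : MvPolynomial (Fin N) ℤ) : norm1 (f + g) ≤ norm1 f + norm1 g := by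
  classical
  rw [norm1_eq_sum (s := f.support ∪ g.support) support_add,
    norm1_eq_sum (f := f) (s := f.support ∪ g.support) Finset.subset_union_left,
    norm1_eq_sum (f := g) (s := f.support ∪ g.support) Finset.subset_union_right,
    ← Finset.sum_add_distrib]
  apply Finset.sum_le_sum
  intro a _
  rw [coeff_add]
  exact Int.natAbs_add_le _ _

@[simp] theorem norm1_zero : norm1 (0 : MvPolynomial (Fin N) ℤ) = 0 := by simp [norm1]

theorem norm1_neg (f : MvPolynomial (Fin N) ℤ) : norm1 (-f) = norm1 f := by
  unfold norm1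
  rw [support_neg]
  apply Finset.sum_congr rfl
  intro a _
  rw [coeff_neg, Int.natAbs_neg]

theorem norm1_sub (f g : MvPolynomial (Fin N) ℤ) : norm1 (f - g) ≤ norm1 f + norm1 g := by
  rw [sub_eq_add_neg, ← norm1_neg g]; exact norm1_add _ _

theorem norm1_sum {ι : Type*} (s : Finset ι) (f : ι → MvPolynomial (Fin N) ℤ) :
    norm1 (∑ i ∈ s, f i) ≤ ∑ i ∈ s, norm1 (f i) := by
  classical
  induction s using Finset.induction_on with
  | empty => simp
  | insert a s ha ih =>
    rw [Finset.sum_insert ha, Finset.sum_insert ha]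
    exact (norm1_add _ _).trans (by omega)

theorem norm1_monomial (a : Fin N →₀ ℕ) (c : ℤ) : norm1 (monomial a c) = c.natAbs := by
  classical
  rw [norm1_eq_sum (s := {a}) support_monomial_subset]
  simp

theorem norm1_C (c : ℤ) : norm1 (C c : MvPolynomial (Fin N) ℤ) = c.natAbs := by
  rw [← monomial_zero', norm1_monomial]

theorem norm1_one : norm1 (1 : MvPolynomial (Fin N) ℤ) = 1 := by
  rw [← C_1, norm1_C]; rfl

theorem norm1_X (i : Fin N) : norm1 (X i : MvPolynomial (Fin N) ℤ) = 1 := by
  unfold X; rw [norm1_monomial]; rfl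

theorem norm1_mul (f g : MvPolynomial (Fin N) ℤ) : norm1 (f * g) ≤ norm1 f * norm1 g := by
  classical
  have h : f * g = ∑ a ∈ f.support, ∑ b ∈ g.support, monomial (a + b) (coeff a f * coeff b g) := by
    conv_lhs => rw [f.as_sum, g.as_sum]
    rw [Finset.sum_mul_sum]
    simp [monomial_mul]
  rw [h]
  refine (norm1_sum _ _).trans ?_
  unfold norm1
  rw [Finset.sum_mul_sum]
  apply Finset.sum_le_sum
  intro a _
  refine (norm1_sum _ _).trans (Finset.sum_le_sum fun b _ => ?_)
  rw [norm1_monomial, Int.natAbs_mul]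

/-- Bounds on degree and norm. -/
def PB (P : MvPolynomial (Fin N) ℤ) (d c : ℕ) : Prop := P.totalDegree ≤ d ∧ norm1 P ≤ c

theorem PB.mono {P : MvPolynomial (Fin N) ℤ} {d c d' c' : ℕ} (h : PB P d c) (hd : d ≤ d')
    (hc : c ≤ c') : PB P d' c' := ⟨h.1.trans hd, h.2.trans hc⟩

theorem PB.add {P Q : MvPolynomial (Fin N) ℤ} {d c d' c' : ℕ} (h : PB P d c) (h' : PB Q d' c') :
    PB (P + Q) (max d d') (c + c') :=
  ⟨(totalDegree_add _ _).trans (max_le_max h.1 h'.1), (norm1_add _ _).trans (add_le_add h.2 h'.2)⟩

theorem PB.sub {P Q : MvPolynomial (Fin N) ℤ} {d c d' c' : ℕ} (h : PB P d c) (h' : PB Q d' c') :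
    PB (P - Q) (max d d') (c + c') :=
  ⟨(totalDegree_sub _ _).trans (max_le_max h.1 h'.1), (norm1_sub _ _).trans (add_le_add h.2 h'.2)⟩

theorem PB.mul {P Q : MvPolynomial (Fin N) ℤ} {d c d' c' : ℕ} (h : PB P d c) (h' : PB Q d' c') :
    PB (P * Q) (d + d') (c * c') :=
  ⟨(totalDegree_mul _ _).trans (add_le_add h.1 h'.1), (norm1_mul _ _).trans (Nat.mul_le_mul h.2 h'.2)⟩

theorem PB.zero : PB (0 : MvPolynomial (Fin N) ℤ) 0 0 := ⟨by simp, by simp⟩

theorem PB.one : PB (1 : MvPolynomial (Fin N) ℤ) 0 1 := ⟨by simp, by simp [norm1_one]⟩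

theorem PB.pow {P : MvPolynomial (Fin N) ℤ} {d c : ℕ} (h : PB P d c) (n : ℕ) :
    PB (P ^ n) (n * d) (c ^ n) := by
  induction n with
  | zero => simpa using PB.one
  | succ n ih =>
    rw [pow_succ, pow_succ]
    exact (ih.mul h).mono (by rw [Nat.succ_mul]) le_rfl

theorem PB.neg {P : MvPolynomial (Fin N) ℤ} {d c : ℕ} (h : PB P d c) : PB (-P) d c :=
  ⟨by rw [totalDegree_neg]; exact h.1, by rw [norm1_neg]; exact h.2⟩

theorem PB.intCast (a : ℤ) : PB ((a : ℤ) : MvPolynomial (Fin N) ℤ) 0 a.natAbs := by
  have : ((a : ℤ) : MvPolynomial (Fin N) ℤ) = C a := by simp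
  exact ⟨by rw [this, totalDegree_C], by rw [this, norm1_C]⟩

end norm

/-! ## Degree and norm of `F⁺` and `F⁻` -/

section
variable {N : ℕ} {x y : ℕ → MvPolynomial (Fin N) ℤ} (hx : ∀ i, PB (x i) 1 1)
  (hy : ∀ i, PB (y i) 1 1)

include hx in
theorem powProd_PB (l : List ℕ) (s : ℕ) : PB (powProd x s l) l.sum 1 := by
  induction l generalizing s with
  | nil => simpa [powProd] using PB.one
  | cons e l ih =>
    simp only [powProd, List.sum_cons]
    exact (((hx s).pow e).mul (ih (s + 1))).mono (by omega) (by simp)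

theorem digitsVal_lt (l : List Bool) : digitsVal l < 2 ^ l.length := by
  unfold digitsVal
  induction l using List.reverseRecOn with
  | nil => simp
  | append_singleton l b ih =>
    rw [List.foldl_append, List.length_append]
    simp only [List.foldl_cons, List.foldl_nil, List.length_cons, List.length_nil, pow_succ,
      zero_add]
    have : b.toNat ≤ 1 := by cases b <;> simp
    omega

theorem Mono.length_toks (a : Mono) : a.toks.length =
    a.digits.length + a.exps.sum + a.exps.length + 2 := by
  unfold Mono.toks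
  simp only [List.length_append, List.length_cons, List.length_map, List.length_flatMap,
    List.length_replicate, List.length_nil]
  have : (a.exps.map fun e => e + (0 + 1)).sum = a.exps.sum + a.exps.length := by
    induction a.exps with
    | nil => rfl
    | cons e l ih => simp [ih]; ring
  rw [this]
  ring

include hx in
theorem mono_PB (a : Mono) : PB (a.eval x) (a.toks.length - 2) (2 ^ (a.toks.length - 2)) := by
  unfold Mono.eval
  have h1 : a.coeff.natAbs ≤ 2 ^ a.digits.length := by
    have := digitsVal_lt a.digits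
    unfold Mono.coeff
    split_ifs <;> simp <;> omega
  have h2 : PB ((a.coeff : MvPolynomial (Fin N) ℤ) * powProd x 0 a.exps) _ _ :=
    (PB.intCast (N := N) a.coeff).mul (powProd_PB hx a.exps 0)
  refine h2.mono ?_ ?_
  · rw [Mono.length_toks]; omega
  · rw [Mono.length_toks, mul_one]
    exact h1.trans (Nat.pow_le_pow_right (by norm_num) (by omega))

include hx in
theorem polyEval_PB (p : List Mono) : PB (polyEval x p) (p.flatMap Mono.toks).length
    (2 ^ (p.flatMap Mono.toks).length - 1) := by
  induction p with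
  | nil => simpa [polyEval] using PB.zero
  | cons a p ih =>
    have h : polyEval x (a :: p) = a.eval x + polyEval x p := by simp [polyEval]
    rw [h, List.flatMap_cons, List.length_append]
    refine ((mono_PB hx a).add ih).mono ?_ ?_
    · omega
    · have h2 : 2 ≤ a.toks.length := by rw [Mono.length_toks]; omega
      have h3 : 2 ^ a.toks.length = 4 * 2 ^ (a.toks.length - 2) := by
        rw [show (4 : ℕ) = 2 ^ 2 by norm_num, ← pow_add]
        congr 1
        omega
      rw [pow_add, h3]
      have h4 : 1 ≤ 2 ^ (a.toks.length - 2) := Nat.one_le_two_pow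
      have h5 : 1 ≤ 2 ^ (p.flatMap Mono.toks).length := Nat.one_le_two_pow
      zify [h5, show 1 ≤ 4 * 2 ^ (a.toks.length - 2) * 2 ^ (p.flatMap Mono.toks).length by nlinarith]
      have h4' : (1 : ℤ) ≤ 2 ^ (a.toks.length - 2) := by exact_mod_cast h4
      have h5' : (1 : ℤ) ≤ 2 ^ (p.flatMap Mono.toks).length := by exact_mod_cast h5
      nlinarith

include hx hy in
theorem pm_PB (φ : Form) (t : ℕ) :
    PB (φ.pm x y t).1 (4 * φ.toks.length) (2 ^ (4 * φ.toks.length)) ∧
    PB (φ.pm x y t).2 (4 * φ.toks.length) (2 ^ (4 * φ.toks.length)) := by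
  induction φ generalizing t with
  | zero p =>
    have hp := polyEval_PB hx p
    set T := (p.flatMap Mono.toks).length with hT
    have hl : (Form.zero p).toks.length = T + 1 := by simp [Form.toks, hT]
    rw [hl]
    have h1 : 1 ≤ 2 ^ T := Nat.one_le_two_pow
    have h4 : 2 ^ (4 * (T + 1)) = 16 * (2 ^ T) ^ 4 := by rw [← pow_mul]; ring
    simp only [Form.pm]
    constructor
    · refine (hp.pow 2).mono (by omega) ?_
      rw [h4]
      calc (2 ^ T - 1) ^ 2 ≤ (2 ^ T) ^ 2 := Nat.pow_le_pow_left (by omega) 2
        _ ≤ (2 ^ T) ^ 4 := Nat.pow_le_pow_right h1 (by norm_num)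
        _ ≤ 16 * (2 ^ T) ^ 4 := by omega
    · refine (((hp.mul (hy t)).sub PB.one).pow 2).mono ?_ ?_
      · simp <;> omega
      · rw [h4]
        calc ((2 ^ T - 1) * 1 + 1) ^ 2 ≤ (2 ^ T) ^ 2 := Nat.pow_le_pow_left (by omega) 2
          _ ≤ (2 ^ T) ^ 4 := Nat.pow_le_pow_right h1 (by norm_num)
          _ ≤ 16 * (2 ^ T) ^ 4 := by omega
  | pos p =>
    have hp := polyEval_PB hx p
    set T := (p.flatMap Mono.toks).length with hT
    have hl : (Form.pos p).toks.length = T + 1 := by simp [Form.toks, hT]
    rw [hl]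
    have h1 : 1 ≤ 2 ^ T := Nat.one_le_two_pow
    have h4 : 2 ^ (4 * (T + 1)) = 16 * (2 ^ T) ^ 4 := by rw [← pow_mul]; ring
    simp only [Form.pm]
    constructor
    · refine (((hp.mul ((hy t).pow 2)).sub PB.one).pow 2).mono ?_ ?_
      · simp <;> omega
      · rw [h4]
        calc ((2 ^ T - 1) * 1 ^ 2 + 1) ^ 2 ≤ (2 ^ T) ^ 2 := Nat.pow_le_pow_left (by omega) 2
          _ ≤ (2 ^ T) ^ 4 := Nat.pow_le_pow_right h1 (by norm_num)
          _ ≤ 16 * (2 ^ T) ^ 4 := by omega
    · refine ((hp.add ((hy t).pow 2)).pow 2).mono ?_ ?_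
      · simp <;> omega
      · rw [h4]
        calc ((2 ^ T - 1) + 1 ^ 2) ^ 2 ≤ (2 ^ T) ^ 2 := Nat.pow_le_pow_left (by omega) 2
          _ ≤ (2 ^ T) ^ 4 := Nat.pow_le_pow_right h1 (by norm_num)
          _ ≤ 16 * (2 ^ T) ^ 4 := by omega
  | and a b iha ihb =>
    have hl : (Form.and a b).toks.length = a.toks.length + b.toks.length + 1 := by
      simp [Form.toks, add_assoc]
    rw [hl]
    have h1 : 1 ≤ 2 ^ (4 * a.toks.length) := Nat.one_le_two_pow
    have h2 : 1 ≤ 2 ^ (4 * b.toks.length) := Nat.one_le_two_pow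
    have h4 : 2 ^ (4 * (a.toks.length + b.toks.length + 1)) =
      16 * (2 ^ (4 * a.toks.length) * 2 ^ (4 * b.toks.length)) := by
      rw [← pow_add]; ring
    simp only [Form.pm]
    rw [h4]
    exact ⟨((iha t).1.add (ihb _).1).mono (by omega) (by nlinarith),
      ((iha t).2.mul (ihb _).2).mono (by omega) (by nlinarith)⟩
  | or a b iha ihb =>
    have hl : (Form.or a b).toks.length = a.toks.length + b.toks.length + 1 := by
      simp [Form.toks, add_assoc]
    rw [hl]
    have h1 : 1 ≤ 2 ^ (4 * a.toks.length) := Nat.one_le_two_pow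
    have h2 : 1 ≤ 2 ^ (4 * b.toks.length) := Nat.one_le_two_pow
    have h4 : 2 ^ (4 * (a.toks.length + b.toks.length + 1)) =
      16 * (2 ^ (4 * a.toks.length) * 2 ^ (4 * b.toks.length)) := by
      rw [← pow_add]; ring
    simp only [Form.pm]
    rw [h4]
    exact ⟨((iha t).1.mul (ihb _).1).mono (by omega) (by nlinarith),
      ((iha t).2.add (ihb _).2).mono (by omega) (by nlinarith)⟩
  | not a ih =>
    have hl : (Form.not a).toks.length = a.toks.length + 1 := by simp [Form.toks]
    rw [hl]
    simp only [Form.pm]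
    have h3 : 2 ^ (4 * a.toks.length) ≤ 2 ^ (4 * (a.toks.length + 1)) :=
      Nat.pow_le_pow_right (by norm_num) (by omega)
    exact ⟨(ih t).2.mono (by omega) h3, (ih t).1.mono (by omega) h3⟩

end

/-! ## Variables and atoms -/

theorem Form.atoms_le (φ : Form) : φ.atoms ≤ φ.toks.length := by
  induction φ with
  | zero p => simp [Form.atoms, Form.toks]
  | pos p => simp [Form.atoms, Form.toks]
  | and a b iha ihb => simp [Form.atoms, Form.toks]; omega
  | or a b iha ihb => simp [Form.atoms, Form.toks]; omega
  | not a ih => simp [Form.atoms, Form.toks]; omega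

theorem Form.Vars.mono {n m : ℕ} (hnm : n ≤ m) (φ : Form) (h : φ.Vars n) : φ.Vars m := by
  induction φ with
  | zero p => exact fun a ha => (h a ha).trans hnm
  | pos p => exact fun a ha => (h a ha).trans hnm
  | and a b iha ihb => exact ⟨iha h.1, ihb h.2⟩
  | or a b iha ihb => exact ⟨iha h.1, ihb h.2⟩
  | not a ih => exact ih h

theorem monoVars_toks (p : List Mono) : monoVars (p.flatMap Mono.toks).length p := by
  intro a ha
  have h1 : a.toks.length ≤ (p.flatMap Mono.toks).length := by
    rw [List.length_flatMap]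
    exact List.le_sum_of_mem (List.mem_map_of_mem ha)
  rw [Mono.length_toks] at h1
  omega

theorem Form.vars_toks (φ : Form) : φ.Vars φ.toks.length := by
  induction φ with
  | zero p => exact fun a ha => (monoVars_toks p a ha).trans (by simp [Form.toks])
  | pos p => exact fun a ha => (monoVars_toks p a ha).trans (by simp [Form.toks])
  | and a b iha ihb =>
    exact ⟨Form.Vars.mono (by simp [Form.toks]) _ iha,
      Form.Vars.mono (by simp [Form.toks]; omega) _ ihb⟩
  | or a b iha ihb =>
    exact ⟨Form.Vars.mono (by simp [Form.toks]) _ iha,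
      Form.Vars.mono (by simp [Form.toks]; omega) _ ihb⟩
  | not a ih => exact Form.Vars.mono (by simp [Form.toks]) _ ih

/-! ## The polynomial of a string -/

/-- The values of the variables of the formula at a point `z`. -/
def fvX {R : Type} [CommRing R] (L : ℕ) (z : Fin (2 * L) → R) (i : ℕ) : R :=
  if h : i < L then z ⟨i, by omega⟩ else 0

/-- The values of the auxiliary variables at a point `z`. -/
def fvY {R : Type} [CommRing R] (L : ℕ) (z : Fin (2 * L) → R) (t : ℕ) : R :=
  if h : t < L then z ⟨L + t, by omega⟩ else 0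

/-- The polynomial of the string `w`. -/
noncomputable def fW (w : List Bool) : MvPolynomial (Fin (2 * w.length)) ℤ :=
  evW (fvX w.length X) (fvY w.length X) w

theorem bstep_map {R S : Type} [CommRing R] [CommRing S] (g : R →+* S) (x y : ℕ → R)
    (w : List Bool) (u : List Bool) (o : Option (TSt R)) :
    w.foldl (bstep (tstep (fun i => g (x i)) (fun i => g (y i)))) (u, o.map (TSt.map g)) =
      ((w.foldl (bstep (tstep x y)) (u, o)).1,
        (w.foldl (bstep (tstep x y)) (u, o)).2.map (TSt.map g)) := by
  induction w generalizing u o with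
  | nil => rfl
  | cons b w ih =>
    rw [List.foldl_cons, List.foldl_cons]
    have h : bstep (tstep (fun i => g (x i)) (fun i => g (y i))) (u, o.map (TSt.map g)) b =
        ((bstep (tstep x y) (u, o) b).1, (bstep (tstep x y) (u, o) b).2.map (TSt.map g)) := by
      unfold bstep
      simp only
      split_ifs
      · rcases blockTok (u ++ [b]) with _ | k
        · simp
        · rcases o with _ | T
          · simp
          · simp [TSt.map_step]
      · rfl
    rw [h, ih]

theorem evW_map {R S : Type} [CommRing R] [CommRing S] (g : R →+* S) (x y : ℕ → R)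
    (w : List Bool) : g (evW x y w) = evW (fun i => g (x i)) (fun i => g (y i)) w := by
  unfold evW
  have h := bstep_map g x y w [] (some (TSt.init R))
  simp only [Option.map_some, TSt.map_init] at h
  rw [h]
  simp only
  rcases (w.foldl (bstep (tstep x y)) ([], some (TSt.init R))).2 with _ | T
  · simp
  · simp [TSt.out_map]

/-- Evaluation of `fW w` at a point of any commutative ring. -/
theorem aeval_fW {R : Type} [CommRing R] (w : List Bool) (z : Fin (2 * w.length) → R) :
    aeval z (fW w) = evW (fvX w.length z) (fvY w.length z) w := by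
  unfold fW
  have h := evW_map ((aeval z : MvPolynomial (Fin (2 * w.length)) ℤ →ₐ[ℤ] R) :
    MvPolynomial (Fin (2 * w.length)) ℤ →+* R) (fvX w.length X) (fvY w.length X) w
  simp only [RingHom.coe_coe] at h
  rw [h]
  congr 1
  · funext i; unfold fvX; split_ifs <;> simp
  · funext i; unfold fvY; split_ifs <;> simp

theorem fW_totalDegree {w : List Bool} (hw : validW w = true) : (fW w).totalDegree ≤ w.length ∧
    norm1 (fW w) ≤ 2 ^ w.length := by
  obtain ⟨φ, hφ⟩ := (validW_iff w).1 hw
  have hx : ∀ i, PB (fvX w.length (X : Fin (2 * w.length) → MvPolynomial _ ℤ) i) 1 1 := by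
    intro i; unfold fvX; split_ifs
    · exact ⟨by rw [totalDegree_X], by rw [norm1_X]⟩
    · exact PB.zero.mono (by norm_num) (by norm_num)
  have hy : ∀ i, PB (fvY w.length (X : Fin (2 * w.length) → MvPolynomial _ ℤ) i) 1 1 := by
    intro i; unfold fvY; split_ifs
    · exact ⟨by rw [totalDegree_X], by rw [norm1_X]⟩
    · exact PB.zero.mono (by norm_num) (by norm_num)
  have h := (pm_PB hx hy φ 0).1
  have h1 : fW w = (φ.pm (fvX w.length X) (fvY w.length X) 0).1 := by
    unfold fW
    generalize w.length = L
    subst hφ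
    exact evW_enc _ _ φ
  have h2 : 4 * φ.toks.length = w.length := by rw [← Form.length_enc, hφ]
  rw [h2] at h
  rw [h1]
  exact h

theorem fW_nonneg {w : List Bool} (hw : validW w = true) (z : Fin (2 * w.length) → ℝ) :
    0 ≤ aeval z (fW w) := by
  obtain ⟨φ, hφ⟩ := (validW_iff w).1 hw
  rw [aeval_fW]
  generalize fvX w.length z = x
  generalize fvY w.length z = y
  rw [← hφ, evW_enc]
  exact (Form.pm_nonneg _ _ _ _).1

/-- A sentence is true iff its polynomial has a real zero. -/
theorem ETR_iff_fW (w : List Bool) : w ∈ ETR ↔ validW w = true ∧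
    ∃ z : Fin (2 * w.length) → ℝ, aeval z (fW w) = 0 := by
  rw [ETR_iff]
  apply and_congr_right
  intro hw
  constructor
  · rintro ⟨x, y, h⟩
    obtain ⟨φ, hφ⟩ := (validW_iff w).1 hw
    have hL : 4 * φ.toks.length = w.length := by rw [← Form.length_enc, hφ]
    refine ⟨fun i => if i.1 < w.length then x i.1 else y (i.1 - w.length), ?_⟩
    rw [aeval_fW]
    have h1 := h
    rw [← hφ, evW_enc] at h1
    have h2 : evW (fvX w.length fun i => if i.1 < w.length then x i.1 else y (i.1 - w.length))
        (fvY w.length fun i => if i.1 < w.length then x i.1 else y (i.1 - w.length)) w =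
        (φ.pm (fvX w.length fun i => if i.1 < w.length then x i.1 else y (i.1 - w.length))
        (fvY w.length fun i => if i.1 < w.length then x i.1 else y (i.1 - w.length)) 0).1 := by
      generalize (fvX w.length fun i => if i.1 < w.length then x i.1 else y (i.1 - w.length)) = x'
      generalize (fvY w.length fun i => if i.1 < w.length then x i.1 else y (i.1 - w.length)) = y'
      rw [← hφ, evW_enc]
    rw [h2, ← h1]
    congr 1
    apply Form.pm_congr (n := φ.toks.length) (k := φ.toks.length)
    · exact Form.vars_toks φ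
    · intro i hi
      unfold fvX
      rw [dif_pos (show i < w.length by omega)]
      exact if_pos (show i < w.length by omega)
    · have := Form.atoms_le φ; omega
    · intro i hi _
      unfold fvY
      rw [dif_pos (show i < w.length by omega)]
      have h3 : ¬ (w.length + i < w.length) := by omega
      have h4 : w.length + i - w.length = i := by omega
      exact (if_neg h3).trans (by rw [h4])
  · rintro ⟨z, hz⟩
    rw [aeval_fW] at hz
    exact ⟨_, _, hz⟩

/-- A valid string has positive length. -/
theorem validW_length {w : List Bool} (hw : validW w = true) : 4 ≤ w.length := by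
  obtain ⟨φ, hφ⟩ := (validW_iff w).1 hw
  have hL : 4 * φ.toks.length = w.length := by rw [← Form.length_enc, hφ]
  have h1 : 1 ≤ φ.toks.length := by cases φ <;> simp [Form.toks] <;> omega
  omega

end Vale.Agent.P337
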