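import Vale.Agent.P337.CHP
import Vale.Agent.P337.Arith2

/-!
# P337: functions with graph in the counting hierarchy
-/

namespace Vale.Agent.P337

open Polynomial

theorem polyN_mono (q : ℕ[X]) {a b : ℕ} (h : a ≤ b) : q.eval a ≤ q.eval b := by
  rw [Polynomial.eval_eq_sum, Polynomial.eval_eq_sum]
  exact Finset.sum_le_sum fun i _ => Nat.mul_le_mul_left _ (Nat.pow_le_pow_left h i)

theorem bits_length_le {n k : ℕ} : n.bits.length ≤ k ↔ n < 2 ^ k := by
  rw [Nat.size_eq_bits_len, Nat.size_le]

/-- Types whose elements can be decoded in polynomial time. -/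
class Dec (α : Type) [Code α] : Prop where
  exists_dec : ∃ d : List Bool → α, PTime d ∧ ∀ a, d (code a) = a

instance : Dec (List Bool) := ⟨⟨id, PTime.id, fun _ => rfl⟩⟩

instance : Dec Bool := ⟨⟨fun l => l.headD false, PTime.headD PTime.id, fun _ => rfl⟩⟩

instance : Dec Unit := ⟨⟨fun _ => (), PTime.const (), fun _ => rfl⟩⟩

instance : Dec ℕ := ⟨⟨fun l => bval l, PTime.bval PTime.id, fun n => bval_bits n⟩⟩

instance {α β : Type} [Code α] [Code β] [Dec α] [Dec β] : Dec (α × β) := by
  obtain ⟨d1, h1, h1'⟩ := Dec.exists_dec (α := α)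
  obtain ⟨d2, h2, h2'⟩ := Dec.exists_dec (α := β)
  refine ⟨⟨fun l => (d1 (fstL l), d2 (sndL l)), ?_, fun a => ?_⟩⟩
  · exact (h1.comp (PTime.of_PT (PT.fst PT.id))).pair (h2.comp (PTime.of_PT (PT.snd PT.id)))
  · obtain ⟨a, b⟩ := a
    simp only [code_pair, fstL_pairL, sndL_pairL, h1', h2']

/-- The function `f` has polynomially bounded values and its graph is in the counting
hierarchy. -/
def FCH {α β : Type} [Code α] [Code β] (f : α → β) : Prop :=
  (∃ r : ℕ[X], ∀ a, (code (f a)).length ≤ r.eval (code a).length) ∧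
    CHP fun x : α × β => f x.1 = x.2

section

variable {α β γ δ : Type} [Code α] [Code β] [Code γ] [Code δ]

/-! ### predicates -/

theorem CHP.congr {p q : α → Prop} (h : ∀ a, p a ↔ q a) (hp : CHP p) : CHP q := by
  have : p = q := funext fun a => propext (h a)
  rwa [← this]

theorem CHP.const (c : Prop) : CHP fun _ : α => c := by
  by_cases hc : c
  · exact (CHP.of_ptime (PTime.const true)).congr fun a => by simp [hc]
  · exact (CHP.of_ptime (PTime.const false)).congr fun a => by simp [hc]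

theorem CHP.or {p q : α → Prop} (hp : CHP p) (hq : CHP q) : CHP fun a => p a ∨ q a :=
  ((hp.not.and hq.not).not).congr fun a => by tauto

theorem CHP.imp {p q : α → Prop} (hp : CHP p) (hq : CHP q) : CHP fun a => p a → q a :=
  (hp.not.or hq).congr fun a => by tauto

theorem CHP.iff {p q : α → Prop} (hp : CHP p) (hq : CHP q) : CHP fun a => (p a ↔ q a) :=
  ((hp.imp hq).and (hq.imp hp)).congr fun a => by tauto

/-- existence of a string of given length -/
theorem CHP.ex {p : α × List Bool → Prop} (hp : CHP p) (r : ℕ[X]) :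
    CHP fun a => ∃ y : List Bool, y.length = r.eval (code a).length ∧ p (a, y) := by
  refine (hp.count_gt r (PTime.const 0)).congr fun a => ?_
  have hfin : Finite {y : List Bool // y.length = r.eval (code a).length ∧ p (a, y)} := by
    have h1 : Set.Finite {y : List Bool | y.length = r.eval (code a).length} :=
      List.finite_length_eq Bool _
    exact (h1.subset fun y hy => hy.1).to_subtype
  rw [Nat.card_pos_iff]
  constructor
  · rintro ⟨⟨y, hy⟩, _⟩
    exact ⟨y, hy⟩
  · rintro ⟨y, hy⟩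
    exact ⟨⟨⟨y, hy⟩⟩, hfin⟩

/-- substitution of an `FCH` function in a predicate -/
theorem CHP.bind [Dec β] {p : α × β → Prop} (hp : CHP p) {f : α → β} (hf : FCH f) :
    CHP fun a => p (a, f a) := by
  obtain ⟨d, hd, hd'⟩ := Dec.exists_dec (α := β)
  obtain ⟨⟨r, hr⟩, hg⟩ := hf
  have h1 : PTime fun x : α × List Bool => (x.1, d (fstL x.2)) :=
    PTime.fst.pair (hd.comp ((PTime.of_PT (PT.fst PT.id)).comp PTime.snd))
  have h2 : CHP fun x : α × List Bool => f x.1 = d (fstL x.2) ∧ p (x.1, d (fstL x.2)) :=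
    (hg.comp h1).and (hp.comp h1)
  refine (h2.ex (2 * r + 2)).congr fun a => ?_
  constructor
  · rintro ⟨y, _, h3, h4⟩
    dsimp only at h3 h4
    rwa [h3]
  · intro h
    refine ⟨pairL (code (f a)) (List.replicate (2 * r.eval (code a).length -
      2 * (code (f a)).length) false), ?_, ?_, ?_⟩
    · have := hr a
      rw [length_pairL, List.length_replicate]
      simp only [eval_add, eval_mul, eval_ofNat]
      omega
    · simp only [fstL_pairL, hd']
    · simpa only [fstL_pairL, hd'] using h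

theorem CHP.subst [Dec β] {p : β → Prop} (hp : CHP p) {f : α → β} (hf : FCH f) :
    CHP fun a => p (f a) :=
  CHP.bind (p := fun x : α × β => p x.2) (hp.comp PTime.snd) hf

/-! ### functions -/

theorem FCH.of_ptime {f : α → β} (hf : PTime f) : FCH f := by
  classical
  refine ⟨hf.length_le, ?_⟩
  have h : PTime fun x : α × β => decide (code (f x.1) = code x.2) :=
    PTime.eq (PTime.code.comp (hf.comp PTime.fst)) (PTime.code.comp PTime.snd)
  refine (CHP.of_ptime h).congr fun x => ?_
  rw [decide_eq_true_iff]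
  exact ⟨fun h => Code.inj h, fun h => by rw [h]⟩

theorem FCH.congr {f f' : α → β} (h : ∀ a, f a = f' a) (hf : FCH f) : FCH f' := by
  have : f = f' := funext h
  rwa [← this]

theorem FCH.id : FCH fun a : α => a := FCH.of_ptime PTime.id

theorem FCH.const (b : β) : FCH fun _ : α => b := FCH.of_ptime (PTime.const b)

theorem FCH.fst : FCH fun x : α × β => x.1 := FCH.of_ptime PTime.fst

theorem FCH.snd : FCH fun x : α × β => x.2 := FCH.of_ptime PTime.snd

theorem length_code_pair (a : α) (b : β) :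
    (code (a, b)).length = 2 * (code a).length + 2 + (code b).length := by
  rw [code_pair, length_pairL]

theorem FCH.pair {f : α → β} {g : α → γ} (hf : FCH f) (hg : FCH g) :
    FCH fun a => (f a, g a) := by
  obtain ⟨⟨r, hr⟩, h1⟩ := hf
  obtain ⟨⟨s, hs⟩, h2⟩ := hg
  refine ⟨⟨2 * r + 2 + s, fun a => ?_⟩, ?_⟩
  · rw [length_code_pair]
    simp only [eval_add, eval_mul, eval_ofNat]
    have := hr a
    have := hs a
    omega
  · have h3 : CHP fun x : α × (β × γ) => f x.1 = x.2.1 :=
      h1.comp (f := fun x : α × (β × γ) => (x.1, x.2.1))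
        (PTime.fst.pair (PTime.fst.comp PTime.snd))
    have h4 : CHP fun x : α × (β × γ) => g x.1 = x.2.2 :=
      h2.comp (f := fun x : α × (β × γ) => (x.1, x.2.2))
        (PTime.fst.pair (PTime.snd.comp PTime.snd))
    exact (h3.and h4).congr fun x => by rw [Prod.ext_iff]

theorem FCH.comp_ptime {g : β → γ} {f : α → β} (hg : FCH g) (hf : PTime f) :
    FCH fun a => g (f a) := by
  obtain ⟨⟨s, hs⟩, h2⟩ := hg
  obtain ⟨r, hr⟩ := hf.length_le
  refine ⟨⟨s.comp r, fun a => ?_⟩, ?_⟩
  · rw [eval_comp]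
    exact (hs _).trans (polyN_mono s (hr a))
  · exact h2.comp (f := fun x : α × γ => (f x.1, x.2)) ((hf.comp PTime.fst).pair PTime.snd)

/-- substitution of an `FCH` function in an `FCH` function; the context need not be decodable -/
theorem FCH.bind [Dec β] {g : α × β → γ} {f : α → β} (hg : FCH g) (hf : FCH f) :
    FCH fun a => g (a, f a) := by
  refine ⟨?_, ?_⟩
  · obtain ⟨⟨s, hs⟩, _⟩ := hg
    obtain ⟨⟨r, hr⟩, _⟩ := hf
    refine ⟨s.comp (2 * X + 2 + r), fun a => ?_⟩
    rw [eval_comp]
    refine (hs _).trans (polyN_mono s ?_)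
    rw [length_code_pair]
    have := hr a
    simp only [eval_add, eval_mul, eval_ofNat, eval_X]
    omega
  · have h1 : CHP fun z : (α × γ) × β => g (z.1.1, z.2) = z.1.2 :=
      hg.2.comp (f := fun z : (α × γ) × β => ((z.1.1, z.2), z.1.2))
        (((PTime.fst.comp PTime.fst).pair PTime.snd).pair (PTime.snd.comp PTime.fst))
    exact CHP.bind h1 (hf.comp_ptime PTime.fst)

theorem FCH.comp [Dec β] {g : β → γ} {f : α → β} (hg : FCH g) (hf : FCH f) :
    FCH fun a => g (f a) :=
  FCH.bind (g := fun x : α × β => g x.2) (hg.comp_ptime PTime.snd) hf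

theorem FCH.comp₂ {g : β × γ → δ} {f : α → β} {h : α → γ} [Dec β] [Dec γ] (hg : FCH g)
    (hf : FCH f) (hh : FCH h) : FCH fun a => g (f a, h a) := hg.comp (hf.pair hh)

theorem FCH.ite {p : α → Prop} [DecidablePred p] (hp : CHP p) {f g : α → β} (hf : FCH f)
    (hg : FCH g) : FCH fun a => if p a then f a else g a := by
  obtain ⟨⟨r, hr⟩, h1⟩ := hf
  obtain ⟨⟨s, hs⟩, h2⟩ := hg
  refine ⟨⟨r + s, fun a => ?_⟩, ?_⟩
  · rw [eval_add]
    have := hr a
    have := hs a
    dsimp only
    split_ifs <;> omega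
  · have h3 : CHP fun x : α × β => p x.1 := hp.comp PTime.fst
    refine (((h3.and h1).or (h3.not.and h2))).congr fun x => ?_
    by_cases h : p x.1 <;> simp [h]

/-! ### natural numbers -/

/-- the bound on the values of an `FCH` function -/
theorem FCH.bound {f : α → ℕ} (hf : FCH f) :
    ∃ r : ℕ[X], ∀ a, f a < 2 ^ r.eval (code a).length := by
  obtain ⟨⟨r, hr⟩, _⟩ := hf
  exact ⟨r, fun a => bits_length_le.1 (hr a)⟩

theorem CHP.of_fst {p : α → Prop} (hp : CHP p) : CHP fun x : α × β => p x.1 := hp.comp PTime.fst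

theorem CHP.lt {f g : α → ℕ} (hf : FCH f) (hg : FCH g) : CHP fun a => f a < g a := by
  have h : CHP fun x : ℕ × ℕ => x.1 < x.2 :=
    (CHP.of_ptime (PTime.lt PTime.fst PTime.snd)).congr fun x => by rw [decide_eq_true_iff]
  exact h.subst (hf.pair hg)

theorem CHP.le {f g : α → ℕ} (hf : FCH f) (hg : FCH g) : CHP fun a => f a ≤ g a :=
  (CHP.lt hg hf).not.congr fun _ => not_lt

theorem CHP.eq [Dec β] {f g : α → β} (hf : FCH f) (hg : FCH g) : CHP fun a => f a = g a := by
  classical
  have h : PTime fun x : β × β => decide (code x.1 = code x.2) :=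
    PTime.eq (PTime.code.comp PTime.fst) (PTime.code.comp PTime.snd)
  have h2 : CHP fun x : β × β => x.1 = x.2 := (CHP.of_ptime h).congr fun x => by
    rw [decide_eq_true_iff]
    exact ⟨fun h => Code.inj h, fun h => by rw [h]⟩
  exact h2.subst (hf.pair hg)

theorem FCH.of_lt {f : α → ℕ} (r : ℕ[X]) (hr : ∀ a, f a < 2 ^ r.eval (code a).length)
    (h : CHP fun x : α × ℕ => x.2 < f x.1) : FCH f := by
  refine ⟨⟨r, fun a => bits_length_le.2 (hr a)⟩, ?_⟩
  have h1 : CHP fun x : α × ℕ => x.2 - 1 < f x.1 :=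
    h.comp (f := fun x : α × ℕ => (x.1, x.2 - 1))
      (PTime.fst.pair (PTime.sub PTime.snd (PTime.const 1)))
  have h2 : CHP fun x : α × ℕ => x.2 = 0 := CHP.eq FCH.snd (FCH.const 0)
  refine (h.not.and (h2.or h1)).congr fun x => ?_
  omega

theorem FCH.map2 {h : ℕ × ℕ → ℕ} (hh : PTime h) {f g : α → ℕ} (hf : FCH f) (hg : FCH g) :
    FCH fun a => h (f a, g a) := (FCH.of_ptime hh).comp (hf.pair hg)

theorem FCH.add {f g : α → ℕ} (hf : FCH f) (hg : FCH g) : FCH fun a => f a + g a :=
  FCH.map2 (PTime.add PTime.fst PTime.snd) hf hg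

theorem FCH.mul {f g : α → ℕ} (hf : FCH f) (hg : FCH g) : FCH fun a => f a * g a :=
  FCH.map2 (PTime.mul PTime.fst PTime.snd) hf hg

theorem FCH.sub {f g : α → ℕ} (hf : FCH f) (hg : FCH g) : FCH fun a => f a - g a :=
  FCH.map2 (PTime.sub PTime.fst PTime.snd) hf hg

theorem FCH.div {f g : α → ℕ} (hf : FCH f) (hg : FCH g) : FCH fun a => f a / g a :=
  FCH.map2 (PTime.div PTime.fst PTime.snd) hf hg

theorem FCH.mod {f g : α → ℕ} (hf : FCH f) (hg : FCH g) : FCH fun a => f a % g a :=
  FCH.map2 (PTime.mod PTime.fst PTime.snd) hf hg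

theorem FCH.powmod {f g h : α → ℕ} (hf : FCH f) (hg : FCH g) (hh : FCH h) :
    FCH fun a => if h a = 0 then 0 else f a ^ g a % h a :=
  (FCH.of_ptime PTime.powmodP).comp (hf.pair (hg.pair hh))

theorem FCH.powmod' {f g h : α → ℕ} (hf : FCH f) (hg : FCH g) (hh : FCH h)
    (h0 : ∀ a, 0 < h a) : FCH fun a => f a ^ g a % h a :=
  (hf.powmod hg hh).congr fun a => if_neg (h0 a).ne'

theorem bval_replicate' (n : ℕ) : bval (List.replicate n true) + 1 = 2 ^ n := by
  induction n with
  | zero => simp [bval]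
  | succ n ih =>
    rw [List.replicate_succ, bval, pow_succ, ← ih]
    simp only [Bool.toNat_true]
    ring

theorem PTime.two_pow (r : ℕ[X]) : PTime fun a : α => 2 ^ r.eval (Code.code a).length :=
  (PTime.add (PTime.bval (PTime.unary r PTime.code)) (PTime.const 1)).congr
    fun _ => bval_replicate' _

theorem FCH.two_pow (r : ℕ[X]) : FCH fun a : α => 2 ^ r.eval (code a).length :=
  FCH.of_ptime (PTime.two_pow r)

theorem CHP.dvd {f g : α → ℕ} (hf : FCH f) (hg : FCH g) : CHP fun a => f a ∣ g a :=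
  (CHP.eq (hg.mod hf) (FCH.const 0)).congr fun _ => (Nat.dvd_iff_mod_eq_zero).symm

theorem bval_lt' (y : List Bool) : bval y < 2 ^ y.length := by
  induction y with
  | nil => simp [bval]
  | cons b l ih =>
    rw [bval, List.length_cons, pow_succ]
    have := Bool.toNat_lt b
    omega

theorem bval_injOn {y z : List Bool} (h : y.length = z.length) (h2 : bval y = bval z) : y = z := by
  induction y generalizing z with
  | nil => cases z with
    | nil => rfl
    | cons c z => simp at h
  | cons b y ih => cases z with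
    | nil => simp at h
    | cons c z =>
      simp only [bval] at h2
      have h3 : bval y = bval z := by cases b <;> cases c <;> simp at h2 ⊢ <;> omega
      have h4 : b = c := by cases b <;> cases c <;> simp at h2 ⊢ <;> omega
      rw [h4, ih (by simpa using h) h3]

/-- a string of length `n` with value `i` -/
theorem exists_bval {n i : ℕ} (h : i < 2 ^ n) : ∃ y : List Bool, y.length = n ∧ bval y = i := by
  induction n generalizing i with
  | zero => exact ⟨[], rfl, by simp [bval]; omega⟩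
  | succ n ih =>
    obtain ⟨y, h1, h2⟩ := ih (i := i / 2) (by rw [pow_succ] at h; omega)
    refine ⟨decide (i % 2 = 1) :: y, by simp [h1], ?_⟩
    rw [bval, h2]
    by_cases h3 : i % 2 = 1
    · simp only [h3, decide_true, Bool.toNat_true]; omega
    · simp only [h3, decide_false, Bool.toNat_false]; omega

/-- the counting closure for numbers -/
theorem FCH.count {p : α × ℕ → Prop} (hp : CHP p) {b : α → ℕ} (hb : FCH b) :
    FCH fun a => Nat.card {i : ℕ // i < b a ∧ p (a, i)} := by
  obtain ⟨r, hr⟩ := hb.bound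
  have hfin : ∀ a, Finite {i : ℕ // i < b a ∧ p (a, i)} := fun a =>
    ((Set.finite_lt_nat (b a)).subset fun i hi => hi.1).to_subtype
  have hle : ∀ a, Nat.card {i : ℕ // i < b a ∧ p (a, i)} ≤ b a := fun a => by
    have h1 : Nat.card {i : ℕ // i < b a ∧ p (a, i)} ≤ Nat.card {i : ℕ // i < b a} :=
      Nat.card_mono (Set.finite_lt_nat (b a)) fun i hi => hi.1
    have h2 : Nat.card {i : ℕ // i < b a} = b a :=
      (Nat.card_congr Fin.equivSubtype.symm).trans (Nat.card_fin (b a))
    omega
  refine FCH.of_lt r (fun a => (hle a).trans_lt (hr a)) ?_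
  have h1 : PTime fun z : (α × ℕ) × List Bool => bval z.2 := PTime.bval PTime.snd
  have h2 : CHP fun z : (α × ℕ) × List Bool => bval z.2 < b z.1.1 ∧ p (z.1.1, bval z.2) :=
    (CHP.lt (FCH.of_ptime h1) (hb.comp_ptime (PTime.fst.comp PTime.fst))).and
      (hp.comp (f := fun z : (α × ℕ) × List Bool => (z.1.1, bval z.2))
        ((PTime.fst.comp PTime.fst).pair h1))
  refine (h2.count_gt r (t := fun x : α × ℕ => x.2) PTime.snd).congr fun x => ?_
  obtain ⟨a, t⟩ := x
  dsimp only
  have hmon : r.eval (code a).length ≤ r.eval (code (a, t)).length :=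
    polyN_mono r (by rw [length_code_pair]; omega)
  have : Nat.card {y : List Bool // y.length = r.eval (code (a, t)).length ∧
      (bval y < b a ∧ p (a, bval y))} = Nat.card {i : ℕ // i < b a ∧ p (a, i)} := by
    refine Nat.card_congr (Equiv.ofBijective
      (fun y => ⟨bval y.1, y.2.2⟩ : {y : List Bool // y.length = r.eval (code (a, t)).length ∧
      (bval y < b a ∧ p (a, bval y))} → {i : ℕ // i < b a ∧ p (a, i)}) ⟨?_, ?_⟩)
    · rintro ⟨y, hy⟩ ⟨z, hz⟩ h
      have h3 : bval y = bval z := congrArg Subtype.val h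
      exact Subtype.ext (bval_injOn (hy.1.trans hz.1.symm) h3)
    · rintro ⟨i, hi⟩
      obtain ⟨y, h3, h4⟩ := exists_bval (n := r.eval (code (a, t)).length) (i := i)
        (hi.1.trans ((hr a).trans_le (Nat.pow_le_pow_right (by norm_num) hmon)))
      exact ⟨⟨y, h3, by rw [h4]; exact hi⟩, Subtype.ext h4⟩
  rw [this]

theorem CHP.exists_lt {p : α × ℕ → Prop} (hp : CHP p) {b : α → ℕ} (hb : FCH b) :
    CHP fun a => ∃ i, i < b a ∧ p (a, i) := by
  refine (CHP.lt (FCH.const 0) (FCH.count hp hb)).congr fun a => ?_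
  have hfin : Finite {i : ℕ // i < b a ∧ p (a, i)} :=
    ((Set.finite_lt_nat (b a)).subset fun i hi => hi.1).to_subtype
  rw [Nat.card_pos_iff]
  constructor
  · rintro ⟨⟨i, hi⟩, _⟩
    exact ⟨i, hi⟩
  · rintro ⟨i, hi⟩
    exact ⟨⟨⟨i, hi⟩⟩, hfin⟩

theorem CHP.forall_lt {p : α × ℕ → Prop} (hp : CHP p) {b : α → ℕ} (hb : FCH b) :
    CHP fun a => ∀ i, i < b a → p (a, i) :=
  (CHP.exists_lt hp.not hb).not.congr fun a => by
    push Not
    rfl

theorem CHP.prime {f : α → ℕ} (hf : FCH f) : CHP fun a => (f a).Prime := by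
  have h1 : CHP fun x : ℕ × ℕ => x.2 ∣ x.1 → x.2 = 1 ∨ x.2 = x.1 :=
    (CHP.dvd FCH.snd FCH.fst).imp ((CHP.eq FCH.snd (FCH.const 1)).or (CHP.eq FCH.snd FCH.fst))
  have h2 : CHP fun n : ℕ => 2 ≤ n ∧ ∀ i, i < n + 1 → (i ∣ n → i = 1 ∨ i = n) :=
    (CHP.le (FCH.const 2) FCH.id).and (h1.forall_lt (FCH.id.add (FCH.const 1)))
  refine (h2.subst hf).congr fun a => ?_
  rw [Nat.prime_def]
  constructor
  · rintro ⟨h3, h4⟩
    exact ⟨h3, fun m hm => h4 m (Nat.lt_succ_of_le (Nat.le_of_dvd (by omega) hm)) hm⟩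
  · rintro ⟨h3, h4⟩
    exact ⟨h3, fun m _ hm => h4 m hm⟩

theorem card_lt_filter (b : ℕ) (p : ℕ → Prop) [DecidablePred p] :
    Nat.card {i : ℕ // i < b ∧ p i} = ((Finset.range b).filter p).card :=
  Nat.subtype_card _ fun i => by simp

theorem sum_count (b M : ℕ) (hM : 0 < M) (f : ℕ → ℕ) (hf : ∀ i < b, f i ≤ M) :
    Nat.card {k : ℕ // k < b * M ∧ k % M < f (k / M)} = ∑ i ∈ Finset.range b, f i := by
  rw [card_lt_filter]
  induction b with
  | zero => simp
  | succ b ih =>
    have ih := ih fun i hi => hf i (by omega)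
    rw [Finset.card_filter] at ih ⊢
    rw [Finset.sum_range_succ, ← ih, Nat.succ_mul, Finset.sum_range_add]
    congr 1
    have h1 : ∀ j ∈ Finset.range M, (if (b * M + j) % M < f ((b * M + j) / M) then 1 else 0) =
        if j < f b then 1 else 0 := by
      intro j hj
      have hj' := Finset.mem_range.1 hj
      have h2 : (b * M + j) % M = j := by
        rw [Nat.mul_add_mod_self_right, Nat.mod_eq_of_lt hj']
      have h3 : (b * M + j) / M = b := by
        rw [Nat.add_comm, Nat.add_mul_div_right _ _ hM, Nat.div_eq_of_lt hj', Nat.zero_add]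
      rw [h2, h3]
    rw [Finset.sum_congr rfl h1, ← Finset.card_filter]
    have h4 : (Finset.range M).filter (fun j => j < f b) = Finset.range (f b) := by
      ext j
      have := hf b (by omega)
      simp only [Finset.mem_filter, Finset.mem_range]
      omega
    rw [h4, Finset.card_range]

theorem FCH.sum {f : α × ℕ → ℕ} (hf : FCH f) {b : α → ℕ} (hb : FCH b) :
    FCH fun a => ∑ i ∈ Finset.range (b a), f (a, i) := by
  obtain ⟨r, hr⟩ := hb.bound
  obtain ⟨s, hs⟩ := hf.bound
  -- a bound for the values `f (a, i)` with `i < b a`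
  set t : ℕ[X] := s.comp (2 * X + 2 + r) with ht
  have hft : ∀ a, ∀ i < b a, f (a, i) ≤ 2 ^ t.eval (code a).length := by
    intro a i hi
    refine (hs (a, i)).le.trans (Nat.pow_le_pow_right (by norm_num) ?_)
    rw [ht, eval_comp]
    refine polyN_mono s ?_
    rw [length_code_pair]
    have h1 : (code i).length ≤ r.eval (code a).length := bits_length_le.2 (hi.trans (hr a))
    simp only [eval_add, eval_mul, eval_ofNat, eval_X]
    omega
  have hM : FCH fun x : α × ℕ => 2 ^ t.eval (code x.1).length :=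
    (FCH.two_pow t).comp_ptime PTime.fst
  have h1 : CHP fun x : α × ℕ => x.2 % 2 ^ t.eval (code x.1).length <
      f (x.1, x.2 / 2 ^ t.eval (code x.1).length) :=
    CHP.lt (FCH.snd.mod hM) (FCH.bind (g := fun z : (α × ℕ) × ℕ => f (z.1.1, z.2))
      (hf.comp_ptime ((PTime.fst.comp PTime.fst).pair PTime.snd)) (FCH.snd.div hM))
  refine (FCH.count h1 (hb.mul (FCH.two_pow t))).congr fun a => ?_
  exact sum_count (b a) (2 ^ t.eval (code a).length) (by positivity) (fun i => f (a, i)) (hft a)

open Classical in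
/-- the least `i < b` with `p i`, and `b` if there is none -/
noncomputable def leastBelow (b : ℕ) (p : ℕ → Prop) : ℕ :=
  if h : ∃ i, i < b ∧ p i then Nat.find h else b

theorem leastBelow_le (b : ℕ) (p : ℕ → Prop) : leastBelow b p ≤ b := by
  classical
  rw [leastBelow]
  split_ifs with h
  · exact (Nat.find_spec h).1.le
  · exact le_rfl

theorem leastBelow_spec {b : ℕ} {p : ℕ → Prop} (h : ∃ i, i < b ∧ p i) :
    leastBelow b p < b ∧ p (leastBelow b p) := by
  classical
  rw [leastBelow, dif_pos h]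
  exact Nat.find_spec h

theorem not_of_lt_leastBelow {b : ℕ} {p : ℕ → Prop} {i : ℕ} (h : i < leastBelow b p) : ¬ p i := by
  classical
  intro hi
  have hb : i < b := h.trans_le (leastBelow_le b p)
  have hex : ∃ i, i < b ∧ p i := ⟨i, hb, hi⟩
  rw [leastBelow, dif_pos hex] at h
  exact Nat.find_min hex h ⟨hb, hi⟩

theorem leastBelow_eq_card (b : ℕ) (p : ℕ → Prop) :
    leastBelow b p = Nat.card {i : ℕ // i < b ∧ ∀ j, j < i + 1 → ¬ p j} := by
  classical
  have h : {i : ℕ | i < b ∧ ∀ j, j < i + 1 → ¬ p j} = {i : ℕ | i < leastBelow b p} := by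
    ext i
    simp only [Set.mem_ofPred_eq]
    constructor
    · rintro ⟨h1, h2⟩
      by_contra hcon
      push Not at hcon
      have h3 : ∃ i, i < b ∧ p i := by
        by_contra h4
        rw [leastBelow, dif_neg h4] at hcon
        omega
      exact h2 _ (Nat.lt_succ_of_le hcon) (leastBelow_spec h3).2
    · intro h1
      exact ⟨h1.trans_le (leastBelow_le b p), fun j hj =>
        not_of_lt_leastBelow ((Nat.lt_succ_iff.1 hj).trans_lt h1)⟩
  have h2 : Nat.card {i : ℕ // i < leastBelow b p} = leastBelow b p :=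
    (Nat.card_congr Fin.equivSubtype.symm).trans (Nat.card_fin _)
  rw [← h2]
  exact (Nat.card_congr (Equiv.setCongr h)).symm

theorem FCH.least {p : α × ℕ → Prop} (hp : CHP p) {b : α → ℕ} (hb : FCH b) :
    FCH fun a => leastBelow (b a) fun i => p (a, i) := by
  have h1 : CHP fun x : (α × ℕ) × ℕ => ¬ p (x.1.1, x.2) :=
    (hp.comp (f := fun x : (α × ℕ) × ℕ => (x.1.1, x.2))
      ((PTime.fst.comp PTime.fst).pair PTime.snd)).not
  have h2 : CHP fun x : α × ℕ => ∀ j, j < x.2 + 1 → ¬ p (x.1, j) :=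
    h1.forall_lt (FCH.snd.add (FCH.const 1))
  exact (FCH.count h2 hb).congr fun a => (leastBelow_eq_card _ _).symm

/-- substitution of a computed value (no decoding of the context is needed) -/
theorem FCH.subst [Dec β] {g : α × β → γ} (hg : FCH g) {f : α → β} (hf : FCH f) :
    FCH fun a => g (a, f a) := hg.bind hf

/-! ### promise types -/

/-- transfer along a map that keeps codes -/
theorem CHP.transfer {P : α → Prop} (hP : CHP P) {q : γ → Prop} (hq : CHP q)
    (e : ∀ a, P a → γ) (he : ∀ a h, Code.code (e a h) = Code.code a) :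
    CHP fun a => ∃ h : P a, q (e a h) := by
  obtain ⟨j, L, hL, h⟩ := hP
  obtain ⟨i, M, hM, h'⟩ := hq
  refine ⟨_, _, (hL.up_le (le_max_left j i)).and (hM.up_le (le_max_right j i)), fun a => ?_⟩
  simp only [Set.mem_ofPred_eq]
  constructor
  · rintro ⟨h1, h2⟩
    refine ⟨(h a).1 h1, ?_⟩
    have := (h' _).1 h2
    rwa [he a h1] at this
  · rintro ⟨h1, h2⟩
    refine ⟨(h a).2 h1, (h' _).2 ?_⟩
    rwa [he a ((h a).2 h1)]

/-- a predicate on a subtype, extended by `False` -/
theorem CHP.extend {P : α → Prop} (hP : CHP P) {q : {a // P a} → Prop} (hq : CHP q) :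
    CHP fun a => ∃ h : P a, q ⟨a, h⟩ :=
  hP.transfer hq _ fun _ _ => rfl

/-- restriction to a subtype -/
theorem CHP.restrict (P : α → Prop) {q : α → Prop} (hq : CHP q) :
    CHP fun a : {a // P a} => q a.val :=
  hq.comp PTime.val

theorem FCH.restrict (P : α → Prop) {F : α → β} (hF : FCH F) :
    FCH fun a : {a // P a} => F a.val :=
  hF.comp_ptime PTime.val

theorem CHP.dite {P : α → Prop} (hP : CHP P) {q : {a // P a} → Prop} (hq : CHP q)
    {c : α → Prop} (hc : CHP c) :
    CHP fun a => (∃ h : P a, q ⟨a, h⟩) ∨ (¬ P a ∧ c a) :=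
  (hP.extend hq).or (hP.not.and hc)

/-- an `FCH` function on a subtype, extended by an `FCH` function -/
theorem FCH.dite {P : α → Prop} [DecidablePred P] (hP : CHP P) {F : {a // P a} → β} (hF : FCH F)
    {c : α → β} (hc : FCH c) : FCH fun a => if h : P a then F ⟨a, h⟩ else c a := by
  obtain ⟨⟨r, hr⟩, h1⟩ := hF
  obtain ⟨⟨s, hs⟩, h2⟩ := hc
  refine ⟨⟨r + s, fun a => ?_⟩, ?_⟩
  · rw [eval_add]
    dsimp only
    split_ifs with h
    · exact (hr ⟨a, h⟩).trans (Nat.le_add_right _ _)
    · exact (hs a).trans (Nat.le_add_left _ _)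
  · have hP' : CHP fun x : α × β => P x.1 := hP.comp PTime.fst
    refine (((hP'.transfer h1 (fun x h => (⟨x.1, h⟩, x.2)) fun _ _ => rfl).or
      (hP'.not.and h2))).congr fun x => ?_
    by_cases h : P x.1
    · simp [h]
    · simp [h]

end

end Vale.Agent.P337
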