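import Vale.Agent.P337.FCH

/-!
# P337: products modulo a prime, factorials and inverses modulo a prime
-/

namespace Vale.Agent.P337

open Finset

namespace ProdAux

theorem eval_mono' (r : Polynomial ℕ) {m n : ℕ} (h : m ≤ n) : r.eval m ≤ r.eval n := by
  simp only [Polynomial.eval_eq_sum, Polynomial.sum]
  exact Finset.sum_le_sum fun i _ => Nat.mul_le_mul_left _ (Nat.pow_le_pow_left h i)

section
variable {α β γ : Type} [Code α] [Code β] [Code γ]

theorem compP {g : β → γ} {f : α → β} (hg : FCH g) (hf : PTime f) : FCH fun a => g (f a) := by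
  obtain ⟨⟨r, hr⟩, h2⟩ := hg
  obtain ⟨s, hs⟩ := hf.length_le
  refine ⟨⟨r.comp s, fun a => ?_⟩, ?_⟩
  · rw [Polynomial.eval_comp]
    exact (hr _).trans (eval_mono' r (hs a))
  · exact h2.comp (f := fun x : α × γ => (f x.1, x.2)) ((hf.comp PTime.fst).pair PTime.snd)

end

/-- total modular power -/
def pw (x e m : ℕ) : ℕ := if m = 0 then 0 else x ^ e % m

theorem leastBelow_spec {b : ℕ} {p : ℕ → Prop} (h : ∃ i, i < b ∧ p i) :
    leastBelow b p < b ∧ p (leastBelow b p) := by
  classical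
  unfold leastBelow
  rw [dif_pos h]
  exact Nat.find_spec h

/-- `g` generates the nonzero residues modulo `p` -/
def IsGen (p g : ℕ) : Prop := ∀ y, y < p → (y ≠ 0 → ∃ e, e < p ∧ pw g e p = y)

theorem pw_cast {p : ℕ} [hp : Fact p.Prime] (x e : ℕ) : ((pw x e p : ℕ) : ZMod p) = (x : ZMod p) ^ e := by
  unfold pw
  rw [if_neg hp.out.ne_zero, ZMod.natCast_mod]
  push_cast
  rfl

theorem pw_lt {p : ℕ} (hp : p.Prime) (x e : ℕ) : pw x e p < p := by
  unfold pw
  rw [if_neg hp.ne_zero]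
  exact Nat.mod_lt _ hp.pos

theorem eq_of_cast {p a b : ℕ} (ha : a < p) (hb : b < p) (h : (a : ZMod p) = b) : a = b := by
  rw [ZMod.natCast_eq_natCast_iff'] at h
  rwa [Nat.mod_eq_of_lt ha, Nat.mod_eq_of_lt hb] at h

theorem exists_gen {p : ℕ} (hp : p.Prime) : ∃ g, g < p ∧ IsGen p g := by
  have : Fact p.Prime := ⟨hp⟩
  obtain ⟨u, hu⟩ := IsCyclic.exists_generator (α := (ZMod p)ˣ)
  refine ⟨(u : ZMod p).val, ZMod.val_lt _, fun y hy hy0 => ?_⟩
  have hy1 : (y : ZMod p) ≠ 0 := by
    intro h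
    rw [ZMod.natCast_eq_zero_iff] at h
    exact hy0 (Nat.eq_zero_of_dvd_of_lt h hy)
  have hmem := hu (Units.mk0 (y : ZMod p) hy1)
  rw [mem_zpowers_iff_mem_range_orderOf] at hmem
  rw [Finset.mem_image] at hmem
  obtain ⟨e, he, hev⟩ := hmem
  rw [Finset.mem_range] at he
  have hord : orderOf u ≤ p - 1 := by
    have h1 := orderOf_dvd_card (x := u)
    rw [ZMod.card_units_eq_totient, Nat.totient_prime hp] at h1
    exact Nat.le_of_dvd (Nat.sub_pos_of_lt hp.one_lt) h1
  have hp0 := hp.pos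
  refine ⟨e, by omega, eq_of_cast (pw_lt hp _ _) hy ?_⟩
  rw [pw_cast, ZMod.natCast_zmod_val]
  have := congrArg (fun v : (ZMod p)ˣ => (v : ZMod p)) hev
  simpa using this

/-- the least generator -/
noncomputable def gen (p : ℕ) : ℕ := leastBelow p (IsGen p)

theorem gen_spec {p : ℕ} (hp : p.Prime) : IsGen p (gen p) :=
  (leastBelow_spec (exists_gen hp)).2

/-- the discrete logarithm -/
noncomputable def dlog (p y : ℕ) : ℕ := leastBelow p fun e => pw (gen p) e p = y

theorem dlog_spec {p y : ℕ} (hp : p.Prime) (hy : y < p) (hy0 : y ≠ 0) :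
    pw (gen p) (dlog p y) p = y :=
  (leastBelow_spec (gen_spec hp y hy hy0)).2

theorem prod_eq {p : ℕ} (hp : p.Prime) (n : ℕ) (f : ℕ → ℕ) (hf : ∀ i, i < n → f i % p ≠ 0) :
    (∏ i ∈ range n, f i) % p = pw (gen p) (∑ i ∈ range n, dlog p (f i % p)) p := by
  have : Fact p.Prime := ⟨hp⟩
  refine eq_of_cast (Nat.mod_lt _ hp.pos) (pw_lt hp _ _) ?_
  rw [pw_cast, ZMod.natCast_mod, Nat.cast_prod, ← Finset.prod_pow_eq_pow_sum]
  refine Finset.prod_congr rfl fun i hi => ?_
  rw [← pw_cast, dlog_spec hp (Nat.mod_lt _ hp.pos) (hf i (Finset.mem_range.1 hi)),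
    ZMod.natCast_mod]

section
variable {α : Type} [Code α]

theorem pw_fch {f g h : α → ℕ} (hf : FCH f) (hg : FCH g) (hh : FCH h) :
    FCH fun a => pw (f a) (g a) (h a) := by
  unfold pw
  exact FCH.powmod hf hg hh

theorem isGen_chp {P G : α → ℕ} (hP : FCH P) (hG : FCH G) : CHP fun a => IsGen (P a) (G a) := by
  unfold IsGen
  refine CHP.forall_lt (p := fun x : α × ℕ => x.2 ≠ 0 → ∃ e, e < P x.1 ∧
    pw (G x.1) e (P x.1) = x.2) (CHP.imp (CHP.not (CHP.eq FCH.snd (FCH.const 0))) ?_) hP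
  refine CHP.exists_lt (p := fun z : (α × ℕ) × ℕ => pw (G z.1.1) z.2 (P z.1.1) = z.1.2) ?_
    (compP hP PTime.fst)
  exact CHP.eq (pw_fch (compP hG (PTime.fst.comp PTime.fst)) FCH.snd
    (compP hP (PTime.fst.comp PTime.fst))) (FCH.of_ptime (PTime.snd.comp PTime.fst))

theorem gen_fch {P : α → ℕ} (hP : FCH P) : FCH fun a => gen (P a) :=
  FCH.least (p := fun x : α × ℕ => IsGen (P x.1) x.2) (isGen_chp (compP hP PTime.fst) FCH.snd) hP

theorem dlog_fch {P y : α → ℕ} (hP : FCH P) (hy : FCH y) : FCH fun a => dlog (P a) (y a) :=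
  FCH.least (p := fun x : α × ℕ => pw (gen (P x.1)) x.2 (P x.1) = y x.1)
    (CHP.eq (pw_fch (gen_fch (compP hP PTime.fst)) FCH.snd (compP hP PTime.fst))
      (compP hy PTime.fst)) hP

end

end ProdAux

open ProdAux

section

variable {α : Type} [Code α]

theorem FCH.prodMod {f : α × ℕ → ℕ} (hf : FCH f) {b P : α → ℕ} (hb : FCH b) (hP : FCH P) :
    FCH fun a => if (P a).Prime then (∏ i ∈ Finset.range (b a), f (a, i)) % P a else 0 := by
  classical
  have hmod : FCH fun x : α × ℕ => f x % P x.1 := FCH.mod hf (compP hP PTime.fst)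
  have h0 : CHP fun a => ∃ i, i < b a ∧ f (a, i) % P a = 0 :=
    CHP.exists_lt (p := fun x : α × ℕ => f x % P x.1 = 0) (CHP.eq hmod (FCH.const 0)) hb
  have hs : FCH fun a => ∑ i ∈ range (b a), dlog (P a) (f (a, i) % P a) :=
    FCH.sum (f := fun x : α × ℕ => dlog (P x.1) (f x % P x.1))
      (dlog_fch (compP hP PTime.fst) hmod) hb
  refine FCH.congr (f := fun a => if (P a).Prime then
    (if ∃ i, i < b a ∧ f (a, i) % P a = 0 then 0
      else pw (gen (P a)) (∑ i ∈ range (b a), dlog (P a) (f (a, i) % P a)) (P a)) else 0)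
    (fun a => ?_) (FCH.ite (CHP.prime hP) (FCH.ite h0 (FCH.const 0)
      (pw_fch (gen_fch hP) hs hP)) (FCH.const 0))
  by_cases hp : (P a).Prime
  · rw [if_pos hp, if_pos hp]
    by_cases h : ∃ i, i < b a ∧ f (a, i) % P a = 0
    · rw [if_pos h]
      obtain ⟨i, hi, h1⟩ := h
      exact (Nat.mod_eq_zero_of_dvd ((Nat.dvd_of_mod_eq_zero h1).trans
        (Finset.dvd_prod_of_mem (fun i => f (a, i)) (Finset.mem_range.2 hi)))).symm
    · rw [if_neg h]
      exact (prod_eq hp (b a) (fun i => f (a, i)) fun i hi h1 => h ⟨i, hi, h1⟩).symm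
  · rw [if_neg hp, if_neg hp]

theorem FCH.factorialMod {f P : α → ℕ} (hf : FCH f) (hP : FCH P) :
    FCH fun a => if (P a).Prime then (f a).factorial % P a else 0 := by
  refine FCH.congr (fun a => ?_) (FCH.prodMod (f := fun x : α × ℕ => x.2 + 1)
    (FCH.add FCH.snd (FCH.const 1)) hf hP)
  simp only [Finset.prod_range_add_one_eq_factorial]

/-- the inverse of `f a` modulo a prime, `0` if there is none -/
theorem FCH.invMod {f P : α → ℕ} (hf : FCH f) (hP : FCH P) :
    FCH fun a => if (P a).Prime then ((f a : ZMod (P a))⁻¹).val else 0 := by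
  classical
  have h1 : FCH fun a => leastBelow (P a) fun y => f a * y % P a = 1 :=
    FCH.least (p := fun x : α × ℕ => f x.1 * x.2 % P x.1 = 1)
      (CHP.eq (FCH.mod (FCH.mul (compP hf PTime.fst) FCH.snd) (compP hP PTime.fst))
        (FCH.const 1)) hP
  refine FCH.congr (f := fun a => if (P a).Prime then (if f a % P a = 0 then 0 else
    leastBelow (P a) fun y => f a * y % P a = 1) else 0) (fun a => ?_)
    (FCH.ite (CHP.prime hP) (FCH.ite (CHP.eq (FCH.mod hf hP) (FCH.const 0)) (FCH.const 0) h1)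
      (FCH.const 0))
  by_cases hp : (P a).Prime
  · have : Fact (P a).Prime := ⟨hp⟩
    rw [if_pos hp, if_pos hp]
    by_cases h : f a % P a = 0
    · rw [if_pos h]
      have : (f a : ZMod (P a)) = 0 := by
        rw [ZMod.natCast_eq_zero_iff]
        exact Nat.dvd_of_mod_eq_zero h
      rw [this]
      simp
    · rw [if_neg h]
      have hne : (f a : ZMod (P a)) ≠ 0 := by
        intro h'
        rw [ZMod.natCast_eq_zero_iff] at h'
        exact h (Nat.mod_eq_zero_of_dvd h')
      have key : ∀ y, y < P a → (f a * y % P a = 1 ↔ (y : ZMod (P a)) = (f a : ZMod (P a))⁻¹) := by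
        intro y _
        rw [← mul_eq_one_iff_eq_inv₀ hne, mul_comm (y : ZMod (P a))]
        constructor
        · intro h2
          have h3 := congrArg (fun n : ℕ => (n : ZMod (P a))) h2
          simpa using h3
        · intro h2
          refine eq_of_cast (Nat.mod_lt _ hp.pos) hp.one_lt ?_
          rw [ZMod.natCast_mod]
          push_cast
          exact h2
      have hex : ∃ y, y < P a ∧ f a * y % P a = 1 :=
        ⟨((f a : ZMod (P a))⁻¹).val, ZMod.val_lt _,
          (key _ (ZMod.val_lt _)).2 (ZMod.natCast_zmod_val _)⟩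
      obtain ⟨h2, h3⟩ := leastBelow_spec hex
      refine eq_of_cast h2 (ZMod.val_lt _) ?_
      rw [(key _ h2).1 h3, ZMod.natCast_zmod_val]
  · rw [if_neg hp, if_neg hp]

end

end Vale.Agent.P337
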