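import Vale.Agent.P337.FPoly

/-!
# P337, layer REAL: token machine computing `(F⁺, F⁻)`, validity of encodings
-/

namespace Vale.Agent.P337

/-- State of the token evaluator over a ring `R`. -/
structure TSt (R : Type) where
  /-- stack of the pairs `(F⁺, F⁻)` of the formulas read so far -/
  stk : List (R × R)
  /-- index of the next auxiliary variable -/
  t : ℕ
  /-- sum of the monomials of the current polynomial -/
  s : R
  /-- sign of the current monomial -/
  neg : Bool
  /-- value of the digits read so far -/
  d : R
  /-- product of the powers read so far -/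
  mo : R
  /-- index of the current variable -/
  i : ℕ

/-- One step of the token evaluator. -/
def tstep {R : Type} [CommRing R] (x y : ℕ → R) (S : TSt R) : Tok → TSt R
  | .plus => { S with neg := false, d := 0, mo := 1, i := 0 }
  | .minus => { S with neg := true, d := 0, mo := 1, i := 0 }
  | .d0 => { S with d := 2 * S.d }
  | .d1 => { S with d := 2 * S.d + 1 }
  | .tick => { S with mo := S.mo * x S.i }
  | .next => { S with i := S.i + 1 }
  | .stop => { S with s := S.s + (if S.neg then -S.d else S.d) * S.mo }
  | .eq => { S with stk := (S.s ^ 2, (S.s * y S.t - 1) ^ 2) :: S.stk, s := 0, t := S.t + 1 }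
  | .gt => { S with
      stk := ((S.s * y S.t ^ 2 - 1) ^ 2, (S.s + y S.t ^ 2) ^ 2) :: S.stk, s := 0, t := S.t + 1 }
  | .and => { S with stk := match S.stk with
      | b :: a :: r => (a.1 + b.1, a.2 * b.2) :: r
      | r => r }
  | .or => { S with stk := match S.stk with
      | b :: a :: r => (a.1 * b.1, a.2 + b.2) :: r
      | r => r }
  | .not => { S with stk := match S.stk with
      | a :: r => (a.2, a.1) :: r
      | r => r }

/-- The initial state. -/
def TSt.init (R : Type) [CommRing R] : TSt R := ⟨[], 0, 0, false, 0, 1, 0⟩

/-- The value `F⁺` at the top of the stack (`1` if the stack is empty). -/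
def TSt.out {R : Type} [CommRing R] (S : TSt R) : R := (S.stk.headD (1, 1)).1

/-- Image of a state under a map. -/
def TSt.map {R S : Type} (g : R → S) (T : TSt R) : TSt S :=
  ⟨T.stk.map (Prod.map g g), T.t, g T.s, T.neg, g T.d, g T.mo, T.i⟩

theorem TSt.map_step {R S : Type} [CommRing R] [CommRing S] (g : R →+* S) (x y : ℕ → R)
    (T : TSt R) (k : Tok) :
    (tstep x y T k).map g = tstep (fun i => g (x i)) (fun i => g (y i)) (T.map g) k := by
  cases k
  case and =>
    rcases T with ⟨_ | ⟨b, _ | ⟨a, r⟩⟩, t, s, neg, d, mo, i⟩ <;> simp [tstep, TSt.map]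
  case or =>
    rcases T with ⟨_ | ⟨b, _ | ⟨a, r⟩⟩, t, s, neg, d, mo, i⟩ <;> simp [tstep, TSt.map]
  case not =>
    rcases T with ⟨_ | ⟨b, r⟩, t, s, neg, d, mo, i⟩ <;> simp [tstep, TSt.map]
  case stop =>
    rcases T with ⟨stk, t, s, neg, d, mo, i⟩
    cases neg <;> simp [tstep, TSt.map]
  all_goals simp [tstep, TSt.map, map_ofNat]

theorem TSt.map_foldl {R S : Type} [CommRing R] [CommRing S] (g : R →+* S) (x y : ℕ → R)
    (T : TSt R) (l : List Tok) :
    (l.foldl (tstep x y) T).map g =
      l.foldl (tstep (fun i => g (x i)) (fun i => g (y i))) (T.map g) := by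
  induction l generalizing T with
  | nil => rfl
  | cons k l ih => rw [List.foldl_cons, List.foldl_cons, ih, TSt.map_step]

theorem TSt.out_map {R S : Type} [CommRing R] [CommRing S] (g : R →+* S) (T : TSt R) :
    (T.map g).out = g T.out := by
  rcases T with ⟨_ | ⟨b, r⟩, t, s, neg, d, mo, i⟩ <;> simp [TSt.out, TSt.map]

theorem TSt.map_init {R S : Type} [CommRing R] [CommRing S] (g : R →+* S) :
    (TSt.init R).map g = TSt.init S := by simp [TSt.init, TSt.map]

/-! ## The evaluator on the encoding of a formula -/

section
variable {R : Type} [CommRing R] (x y : ℕ → R)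

theorem fold_digits (l : List Bool) (S : TSt R) :
    (l.map (fun b => if b then Tok.d1 else Tok.d0)).foldl (tstep x y) S =
      { S with d := l.foldl (fun n b => 2 * n + (b.toNat : R)) S.d } := by
  induction l generalizing S with
  | nil => rfl
  | cons b l ih => cases b <;> simp [tstep, ih]

theorem foldl_digits_cast (l : List Bool) (n : ℕ) :
    l.foldl (fun n b => 2 * n + (b.toNat : R)) (n : R) =
      ((l.foldl (fun n b => 2 * n + b.toNat) n : ℕ) : R) := by
  induction l generalizing n with
  | nil => rfl
  | cons b l ih =>
    rw [List.foldl_cons, List.foldl_cons, ← ih]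
    push_cast
    rfl

theorem fold_ticks (e : ℕ) (S : TSt R) :
    (List.replicate e Tok.tick).foldl (tstep x y) S = { S with mo := S.mo * x S.i ^ e } := by
  induction e generalizing S with
  | zero => simp
  | succ e ih => simp [List.replicate_succ, ih, tstep, pow_succ']; ring

theorem fold_exps (l : List ℕ) (S : TSt R) :
    (l.flatMap (fun e => List.replicate e Tok.tick ++ [Tok.next])).foldl (tstep x y) S =
      { S with mo := S.mo * powProd x S.i l, i := S.i + l.length } := by
  induction l generalizing S with
  | nil => simp [powProd]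
  | cons e l ih =>
    rw [List.flatMap_cons, List.foldl_append, List.foldl_append, fold_ticks, ih]
    simp only [List.foldl_cons, List.foldl_nil, tstep, powProd, List.length_cons]
    congr 1
    · ring
    · ring

/-- Reading one monomial. -/
theorem fold_mono (a : Mono) (S : TSt R) :
    ∃ neg d mo i, a.toks.foldl (tstep x y) S = { S with
      s := S.s + a.eval x, neg := neg, d := d, mo := mo, i := i } := by
  unfold Mono.toks
  simp only [List.cons_append, List.foldl_append, List.foldl_cons, List.foldl_nil]
  rw [fold_digits, fold_exps]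
  have h0 := foldl_digits_cast (R := R) a.digits 0
  rw [Nat.cast_zero] at h0
  rcases a with ⟨neg, digits, exps⟩
  have h1 : tstep x y S (if neg then Tok.minus else Tok.plus) =
      { S with neg := neg, d := 0, mo := 1, i := 0 } := by cases neg <;> rfl
  refine ⟨neg, ((digitsVal digits : ℕ) : R), 1 * powProd x 0 exps, 0 + exps.length, ?_⟩
  simp only [h1, h0]
  cases neg <;> simp [tstep, Mono.eval, Mono.coeff, digitsVal]

theorem fold_monos (p : List Mono) (S : TSt R) :
    ∃ neg d mo i, (p.flatMap Mono.toks).foldl (tstep x y) S = { S with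
      s := S.s + polyEval x p, neg := neg, d := d, mo := mo, i := i } := by
  induction p generalizing S with
  | nil => exact ⟨S.neg, S.d, S.mo, S.i, by simp [polyEval]⟩
  | cons a p ih =>
    rw [List.flatMap_cons, List.foldl_append]
    obtain ⟨n1, d1, m1, i1, h1⟩ := fold_mono x y a S
    rw [h1]
    obtain ⟨n2, d2, m2, i2, h2⟩ := ih { S with s := S.s + a.eval x, neg := n1, d := d1, mo := m1, i := i1 }
    rw [h2]
    refine ⟨n2, d2, m2, i2, ?_⟩
    simp [polyEval, add_assoc]

/-- Reading a formula pushes `(F⁺, F⁻)`. -/
theorem fold_form (φ : Form) (S : TSt R) (hs : S.s = 0) :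
    ∃ neg d mo i, φ.toks.foldl (tstep x y) S = { S with
      stk := φ.pm x y S.t :: S.stk, t := S.t + φ.atoms, s := 0,
      neg := neg, d := d, mo := mo, i := i } := by
  induction φ generalizing S with
  | zero p =>
    unfold Form.toks
    rw [List.foldl_append]
    obtain ⟨n1, d1, m1, i1, h1⟩ := fold_monos x y p S
    rw [h1]
    refine ⟨n1, d1, m1, i1, ?_⟩
    simp [tstep, Form.pm, Form.atoms, hs]
  | pos p =>
    unfold Form.toks
    rw [List.foldl_append]
    obtain ⟨n1, d1, m1, i1, h1⟩ := fold_monos x y p S
    rw [h1]
    refine ⟨n1, d1, m1, i1, ?_⟩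
    simp [tstep, Form.pm, Form.atoms, hs]
  | and a b iha ihb =>
    unfold Form.toks
    rw [List.foldl_append, List.foldl_append]
    obtain ⟨n1, d1, m1, i1, h1⟩ := iha S hs
    rw [h1]
    obtain ⟨n2, d2, m2, i2, h2⟩ := ihb { S with
      stk := a.pm x y S.t :: S.stk, t := S.t + a.atoms, s := 0,
      neg := n1, d := d1, mo := m1, i := i1 } rfl
    rw [h2]
    refine ⟨n2, d2, m2, i2, ?_⟩
    simp [tstep, Form.pm, Form.atoms, add_assoc]
  | or a b iha ihb =>
    unfold Form.toks
    rw [List.foldl_append, List.foldl_append]
    obtain ⟨n1, d1, m1, i1, h1⟩ := iha S hs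
    rw [h1]
    obtain ⟨n2, d2, m2, i2, h2⟩ := ihb { S with
      stk := a.pm x y S.t :: S.stk, t := S.t + a.atoms, s := 0,
      neg := n1, d := d1, mo := m1, i := i1 } rfl
    rw [h2]
    refine ⟨n2, d2, m2, i2, ?_⟩
    simp [tstep, Form.pm, Form.atoms, add_assoc]
  | not a ih =>
    unfold Form.toks
    rw [List.foldl_append]
    obtain ⟨n1, d1, m1, i1, h1⟩ := ih S hs
    rw [h1]
    refine ⟨n1, d1, m1, i1, ?_⟩
    simp [tstep, Form.pm, Form.atoms]

/-- The value of the token evaluator on a formula is `F⁺`. -/
theorem fold_form_out (φ : Form) :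
    (φ.toks.foldl (tstep x y) (TSt.init R)).out = (φ.pm x y 0).1 := by
  obtain ⟨n, d, mo, i, h⟩ := fold_form x y φ (TSt.init R) rfl
  rw [h]
  simp [TSt.out, TSt.init]

end

/-! ## From bits to tokens -/

/-- The token of a block of four bits. -/
def blockTok : List Bool → Option Tok
  | [false, false, false, false] => some .plus
  | [true, false, false, false] => some .minus
  | [false, true, false, false] => some .d0
  | [true, true, false, false] => some .d1
  | [false, false, true, false] => some .tick
  | [true, false, true, false] => some .next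
  | [false, true, true, false] => some .stop
  | [true, true, true, false] => some .eq
  | [false, false, false, true] => some .gt
  | [true, false, false, true] => some .and
  | [false, true, false, true] => some .or
  | [true, true, false, true] => some .not
  | _ => none

theorem blockTok_bits (k : Tok) : blockTok k.bits = some k := by cases k <;> rfl

theorem blockTok_eq_some {l : List Bool} {k : Tok} (h : blockTok l = some k) : l = k.bits := by
  unfold blockTok at h
  split at h <;> first | (cases h; rfl) | cases h

theorem Tok.length_bits (k : Tok) : k.bits.length = 4 := by cases k <;> rfl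

theorem Form.length_enc (φ : Form) : φ.enc.length = 4 * φ.toks.length := by
  unfold Form.enc
  induction φ.toks with
  | nil => rfl
  | cons k l ih => simp [Tok.length_bits, ih]; ring

/-! ## Validity -/

/-- Phase of the validity automaton. -/
inductive Ph
  /-- no pending monomial -/
  | idle
  /-- pending monomials, between two monomials -/
  | betw
  /-- in the digits -/
  | dig
  /-- after `next` -/
  | aft
  /-- after `tick` -/
  | tck
  deriving DecidableEq

/-- State of the validity automaton: `none` = rejected. -/
abbrev VSt := Option (Ph × ℕ)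

/-- One step of the validity automaton (phase, height of the stack). -/
def vstep : VSt → Tok → VSt
  | none, _ => none
  | some (.idle, h), .plus => some (.dig, h)
  | some (.idle, h), .minus => some (.dig, h)
  | some (.idle, h), .eq => some (.idle, h + 1)
  | some (.idle, h), .gt => some (.idle, h + 1)
  | some (.idle, h + 2), .and => some (.idle, h + 1)
  | some (.idle, h + 2), .or => some (.idle, h + 1)
  | some (.idle, h + 1), .not => some (.idle, h + 1)
  | some (.betw, h), .plus => some (.dig, h)
  | some (.betw, h), .minus => some (.dig, h)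
  | some (.betw, h), .eq => some (.idle, h + 1)
  | some (.betw, h), .gt => some (.idle, h + 1)
  | some (.dig, h), .d0 => some (.dig, h)
  | some (.dig, h), .d1 => some (.dig, h)
  | some (.dig, h), .tick => some (.tck, h)
  | some (.dig, h), .next => some (.aft, h)
  | some (.dig, h), .stop => some (.betw, h)
  | some (.tck, h), .tick => some (.tck, h)
  | some (.tck, h), .next => some (.aft, h)
  | some (.aft, h), .tick => some (.tck, h)
  | some (.aft, h), .next => some (.aft, h)
  | some (.aft, h), .stop => some (.betw, h)
  | _, _ => none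

/-- Validity of a list of tokens. -/
def validT (l : List Tok) : Bool := decide (l.foldl vstep (some (.idle, 0)) = some (.idle, 1))

theorem vfold_none (l : List Tok) : l.foldl vstep none = none := by
  induction l with
  | nil => rfl
  | cons k l ih => simpa [vstep] using ih

theorem vfold_digits (l : List Bool) (h : ℕ) :
    (l.map (fun b => if b then Tok.d1 else Tok.d0)).foldl vstep (some (.dig, h)) =
      some (.dig, h) := by
  induction l with
  | nil => rfl
  | cons b l ih => cases b <;> simpa [vstep] using ih

theorem vfold_exps (l : List ℕ) (h : ℕ) (ph : Ph) (hph : ph = .dig ∨ ph = .aft) :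
    (l.flatMap (fun e => List.replicate e Tok.tick ++ [Tok.next])).foldl vstep (some (ph, h)) =
      some (if l = [] then ph else .aft, h) := by
  induction l generalizing ph with
  | nil => simp
  | cons e l ih =>
    rw [List.flatMap_cons, List.foldl_append, List.foldl_append]
    have h1 : [Tok.next].foldl vstep ((List.replicate e Tok.tick).foldl vstep (some (ph, h))) =
        some (.aft, h) := by
      cases e with
      | zero => rcases hph with rfl | rfl <;> rfl
      | succ e =>
        simp only [List.replicate_succ, List.foldl_cons, List.foldl_nil]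
        have h2 : vstep (some (ph, h)) Tok.tick = some (.tck, h) := by
          rcases hph with rfl | rfl <;> rfl
        rw [h2]
        have h3 : (List.replicate e Tok.tick).foldl vstep (some (.tck, h)) = some (.tck, h) := by
          induction e with
          | zero => rfl
          | succ e ih => simpa [List.replicate_succ, vstep] using ih
        rw [h3]
        rfl
    rw [h1, ih .aft (Or.inr rfl)]
    simp

theorem vfold_mono (a : Mono) (h : ℕ) (ph : Ph) (hph : ph = .idle ∨ ph = .betw) :
    a.toks.foldl vstep (some (ph, h)) = some (.betw, h) := by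
  unfold Mono.toks
  simp only [List.cons_append, List.foldl_append, List.foldl_cons, List.foldl_nil]
  have h1 : vstep (some (ph, h)) (if a.neg then Tok.minus else Tok.plus) = some (.dig, h) := by
    rcases hph with rfl | rfl <;> cases a.neg <;> rfl
  rw [h1, vfold_digits, vfold_exps _ _ _ (Or.inl rfl)]
  split_ifs <;> rfl

theorem vfold_monos (p : List Mono) (h : ℕ) (ph : Ph) (hph : ph = .idle ∨ ph = .betw) :
    (p.flatMap Mono.toks).foldl vstep (some (ph, h)) = some (if p = [] then ph else .betw, h) := by
  induction p generalizing ph with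
  | nil => simp
  | cons a p ih =>
    rw [List.flatMap_cons, List.foldl_append, vfold_mono a h ph hph, ih .betw (Or.inr rfl)]
    simp

theorem vfold_form (φ : Form) (h : ℕ) :
    φ.toks.foldl vstep (some (.idle, h)) = some (.idle, h + 1) := by
  induction φ generalizing h with
  | zero p =>
    unfold Form.toks
    rw [List.foldl_append, vfold_monos p h _ (Or.inl rfl)]
    split_ifs <;> rfl
  | pos p =>
    unfold Form.toks
    rw [List.foldl_append, vfold_monos p h _ (Or.inl rfl)]
    split_ifs <;> rfl
  | and a b iha ihb =>
    unfold Form.toks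
    rw [List.foldl_append, List.foldl_append, iha, ihb]
    rfl
  | or a b iha ihb =>
    unfold Form.toks
    rw [List.foldl_append, List.foldl_append, iha, ihb]
    rfl
  | not a ih =>
    unfold Form.toks
    rw [List.foldl_append, ih]
    rfl

/-- What has been read when the automaton is in phase `ph` with height `h`. -/
def VInv (ph : Ph) (h : ℕ) (l : List Tok) : Prop :=
  ∃ (F : List Form), F.length = h ∧ match ph with
    | .idle => l = F.flatMap Form.toks
    | .betw => ∃ p : List Mono, l = F.flatMap Form.toks ++ p.flatMap Mono.toks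
    | .dig => ∃ (p : List Mono) (neg : Bool) (ds : List Bool),
        l = F.flatMap Form.toks ++ p.flatMap Mono.toks ++
          ((if neg then Tok.minus else Tok.plus) :: ds.map (fun b => if b then Tok.d1 else Tok.d0))
    | .aft => ∃ (p : List Mono) (neg : Bool) (ds : List Bool) (es : List ℕ),
        l = F.flatMap Form.toks ++ p.flatMap Mono.toks ++
          (((if neg then Tok.minus else Tok.plus) ::
            ds.map (fun b => if b then Tok.d1 else Tok.d0)) ++
          es.flatMap (fun e => List.replicate e Tok.tick ++ [Tok.next]))
    | .tck => ∃ (p : List Mono) (neg : Bool) (ds : List Bool) (es : List ℕ) (e : ℕ),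
        l = F.flatMap Form.toks ++ p.flatMap Mono.toks ++
          (((if neg then Tok.minus else Tok.plus) ::
            ds.map (fun b => if b then Tok.d1 else Tok.d0)) ++
          es.flatMap (fun e => List.replicate e Tok.tick ++ [Tok.next]) ++
          List.replicate e Tok.tick)

theorem vinv_step {ph : Ph} {h : ℕ} {l : List Tok} (hl : VInv ph h l) (k : Tok) {ph' : Ph} {h' : ℕ}
    (hk : vstep (some (ph, h)) k = some (ph', h')) : VInv ph' h' (l ++ [k]) := by
  obtain ⟨F, hF, hl⟩ := hl
  cases ph
  case idle =>
    simp only at hl
    cases k <;> (try (exfalso; simp [vstep] at hk; done))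
    case plus =>
      simp only [vstep, Option.some.injEq, Prod.mk.injEq] at hk
      obtain ⟨rfl, rfl⟩ := hk
      exact ⟨F, hF, [], false, [], by simp [hl]⟩
    case minus =>
      simp only [vstep, Option.some.injEq, Prod.mk.injEq] at hk
      obtain ⟨rfl, rfl⟩ := hk
      exact ⟨F, hF, [], true, [], by simp [hl]⟩
    case eq =>
      simp only [vstep, Option.some.injEq, Prod.mk.injEq] at hk
      obtain ⟨rfl, rfl⟩ := hk
      exact ⟨F ++ [.zero []], by simp [hF], by simp [hl, Form.toks]⟩
    case gt =>
      simp only [vstep, Option.some.injEq, Prod.mk.injEq] at hk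
      obtain ⟨rfl, rfl⟩ := hk
      exact ⟨F ++ [.pos []], by simp [hF], by simp [hl, Form.toks]⟩
    case and =>
      rcases h with _ | _ | h
      · simp [vstep] at hk
      · simp [vstep] at hk
      · simp only [vstep, Option.some.injEq, Prod.mk.injEq] at hk
        obtain ⟨rfl, rfl⟩ := hk
        obtain ⟨F1, b, rfl⟩ : ∃ F1 b, F = F1 ++ [b] :=
          ⟨F.dropLast, F.getLast (by rintro rfl; simp at hF),
            (List.dropLast_append_getLast _).symm⟩
        simp only [List.length_append, List.length_cons, List.length_nil] at hF
        obtain ⟨F2, a, rfl⟩ : ∃ F2 a, F1 = F2 ++ [a] :=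
          ⟨F1.dropLast, F1.getLast (by rintro rfl; simp at hF),
            (List.dropLast_append_getLast _).symm⟩
        simp only [List.length_append, List.length_cons, List.length_nil] at hF
        exact ⟨F2 ++ [.and a b], by simp; omega, by simp [hl, Form.toks]⟩
    case or =>
      rcases h with _ | _ | h
      · simp [vstep] at hk
      · simp [vstep] at hk
      · simp only [vstep, Option.some.injEq, Prod.mk.injEq] at hk
        obtain ⟨rfl, rfl⟩ := hk
        obtain ⟨F1, b, rfl⟩ : ∃ F1 b, F = F1 ++ [b] :=
          ⟨F.dropLast, F.getLast (by rintro rfl; simp at hF),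
            (List.dropLast_append_getLast _).symm⟩
        simp only [List.length_append, List.length_cons, List.length_nil] at hF
        obtain ⟨F2, a, rfl⟩ : ∃ F2 a, F1 = F2 ++ [a] :=
          ⟨F1.dropLast, F1.getLast (by rintro rfl; simp at hF),
            (List.dropLast_append_getLast _).symm⟩
        simp only [List.length_append, List.length_cons, List.length_nil] at hF
        exact ⟨F2 ++ [.or a b], by simp; omega, by simp [hl, Form.toks]⟩
    case not =>
      rcases h with _ | h
      · simp [vstep] at hk
      · simp only [vstep, Option.some.injEq, Prod.mk.injEq] at hk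
        obtain ⟨rfl, rfl⟩ := hk
        obtain ⟨F1, b, rfl⟩ : ∃ F1 b, F = F1 ++ [b] :=
          ⟨F.dropLast, F.getLast (by rintro rfl; simp at hF),
            (List.dropLast_append_getLast _).symm⟩
        simp only [List.length_append, List.length_cons, List.length_nil] at hF
        exact ⟨F1 ++ [.not b], by simp; omega, by simp [hl, Form.toks]⟩
  case betw =>
    obtain ⟨p, hl⟩ := hl
    cases k <;> (try (exfalso; simp [vstep] at hk; done)) <;>
      simp only [vstep, Option.some.injEq, Prod.mk.injEq] at hk <;> obtain ⟨rfl, rfl⟩ := hk
    case plus => exact ⟨F, hF, p, false, [], by simp [hl]⟩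
    case minus => exact ⟨F, hF, p, true, [], by simp [hl]⟩
    case eq => exact ⟨F ++ [.zero p], by simp [hF], by simp [hl, Form.toks]⟩
    case gt => exact ⟨F ++ [.pos p], by simp [hF], by simp [hl, Form.toks]⟩
  case dig =>
    obtain ⟨p, neg, ds, hl⟩ := hl
    cases k <;> (try (exfalso; simp [vstep] at hk; done)) <;>
      simp only [vstep, Option.some.injEq, Prod.mk.injEq] at hk <;> obtain ⟨rfl, rfl⟩ := hk
    case d0 => exact ⟨F, hF, p, neg, ds ++ [false], by simp [hl]⟩
    case d1 => exact ⟨F, hF, p, neg, ds ++ [true], by simp [hl]⟩
    case tick => exact ⟨F, hF, p, neg, ds, [], 1, by simp [hl]⟩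
    case next => exact ⟨F, hF, p, neg, ds, [0], by simp [hl]⟩
    case stop => exact ⟨F, hF, p ++ [⟨neg, ds, []⟩], by simp [hl, Mono.toks]⟩
  case aft =>
    obtain ⟨p, neg, ds, es, hl⟩ := hl
    cases k <;> (try (exfalso; simp [vstep] at hk; done)) <;>
      simp only [vstep, Option.some.injEq, Prod.mk.injEq] at hk <;> obtain ⟨rfl, rfl⟩ := hk
    case tick => exact ⟨F, hF, p, neg, ds, es, 1, by simp [hl]⟩
    case next => exact ⟨F, hF, p, neg, ds, es ++ [0], by simp [hl]⟩
    case stop => exact ⟨F, hF, p ++ [⟨neg, ds, es⟩], by simp [hl, Mono.toks]⟩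
  case tck =>
    obtain ⟨p, neg, ds, es, e, hl⟩ := hl
    cases k <;> (try (exfalso; simp [vstep] at hk; done)) <;>
      simp only [vstep, Option.some.injEq, Prod.mk.injEq] at hk <;> obtain ⟨rfl, rfl⟩ := hk
    case tick => exact ⟨F, hF, p, neg, ds, es, e + 1, by simp [hl, List.replicate_succ']⟩
    case next => exact ⟨F, hF, p, neg, ds, es ++ [e], by simp [hl]⟩

theorem vinv_foldl (l : List Tok) {ph : Ph} {h : ℕ}
    (hl : l.foldl vstep (some (.idle, 0)) = some (ph, h)) : VInv ph h l := by
  induction l using List.reverseRecOn generalizing ph h with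
  | nil =>
    simp only [List.foldl_nil, Option.some.injEq, Prod.mk.injEq] at hl
    obtain ⟨rfl, rfl⟩ := hl
    exact ⟨[], rfl, rfl⟩
  | append_singleton l k ih =>
    rw [List.foldl_append] at hl
    simp only [List.foldl_cons, List.foldl_nil] at hl
    rcases hc : l.foldl vstep (some (.idle, 0)) with _ | ⟨ph1, h1⟩
    · rw [hc] at hl; simp [vstep] at hl
    · rw [hc] at hl
      exact vinv_step (ih hc) k hl

/-- The automaton accepts exactly the encodings of formulas. -/
theorem validT_iff (l : List Tok) : validT l = true ↔ ∃ φ : Form, φ.toks = l := by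
  unfold validT
  rw [decide_eq_true_iff]
  constructor
  · intro h
    obtain ⟨F, hF, hl⟩ := vinv_foldl l h
    obtain ⟨φ, rfl⟩ := List.length_eq_one_iff.1 hF
    exact ⟨φ, by simpa using hl.symm⟩
  · rintro ⟨φ, rfl⟩
    exact vfold_form φ 0

/-! ## Folding over the bits -/

/-- One bit: collect blocks of four bits, apply `f` to the token of a block. -/
def bstep {σ : Type} (f : σ → Tok → σ) (S : List Bool × Option σ) (b : Bool) :
    List Bool × Option σ :=
  if S.1.length = 3 then
    ([], match blockTok (S.1 ++ [b]), S.2 with
      | some k, some s => some (f s k)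
      | _, _ => none)
  else (S.1 ++ [b], S.2)

theorem bstep_foldl_toks {σ : Type} (f : σ → Tok → σ) (l : List Tok) (s : σ) :
    (l.flatMap Tok.bits).foldl (bstep f) ([], some s) = ([], some (l.foldl f s)) := by
  induction l generalizing s with
  | nil => rfl
  | cons k l ih =>
    rw [List.flatMap_cons, List.foldl_append, List.foldl_cons, ← ih]
    congr 1
    cases k <;> simp [Tok.bits, bstep, blockTok]

theorem bstep_foldl_none {σ : Type} (f : σ → Tok → σ) (w : List Bool) (u : List Bool) :
    (w.foldl (bstep f) (u, none)).2 = none := by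
  induction w generalizing u with
  | nil => rfl
  | cons b w ih =>
    rw [List.foldl_cons]
    unfold bstep
    split_ifs
    · have h : (match blockTok ((u, (none : Option σ)).1 ++ [b]), (u, (none : Option σ)).2 with
        | some k, some s => some (f s k)
        | _, _ => none) = none := by
        split <;> simp_all
      rw [h]
      exact ih _
    · exact ih _

theorem bstep_foldl_inv {σ : Type} (f : σ → Tok → σ) (w : List Bool) (s : σ) {u : List Bool}
    {s' : σ} (h : w.foldl (bstep f) ([], some s) = (u, some s')) :
    ∃ l : List Tok, w = l.flatMap Tok.bits ++ u ∧ l.foldl f s = s' ∧ u.length < 4 := by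
  induction w using List.reverseRecOn generalizing u s' with
  | nil =>
    simp only [List.foldl_nil, Prod.mk.injEq, Option.some.injEq] at h
    obtain ⟨rfl, rfl⟩ := h
    exact ⟨[], rfl, rfl, by simp⟩
  | append_singleton w b ih =>
    rw [List.foldl_append] at h
    simp only [List.foldl_cons, List.foldl_nil] at h
    rcases hc : w.foldl (bstep f) ([], some s) with ⟨u1, _ | s1⟩
    · rw [hc] at h
      have h2 := bstep_foldl_none f [b] u1
      simp only [List.foldl_cons, List.foldl_nil] at h2
      rw [h] at h2
      simp at h2
    · obtain ⟨l, hw, hl, hu⟩ := ih hc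
      rw [hc] at h
      unfold bstep at h
      simp only at h
      split_ifs at h with h3
      · rw [Prod.mk.injEq] at h
        obtain ⟨rfl, h⟩ := h
        rcases hk : blockTok (u1 ++ [b]) with _ | k
        · rw [hk] at h; simp at h
        · rw [hk] at h
          simp only [Option.some.injEq] at h
          refine ⟨l ++ [k], ?_, ?_, by simp⟩
          · rw [hw, List.append_assoc, blockTok_eq_some hk]; simp
          · rw [List.foldl_append, hl]; simpa using h
      · rw [Prod.mk.injEq, Option.some.injEq] at h
        obtain ⟨rfl, rfl⟩ := h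
        exact ⟨l, by rw [hw, List.append_assoc], hl, by simp; omega⟩

/-- The string `w` is the encoding of a formula. -/
def validW (w : List Bool) : Bool :=
  decide (w.foldl (bstep vstep) ([], some (some (.idle, 0))) = ([], some (some (.idle, 1))))

theorem validW_iff (w : List Bool) : validW w = true ↔ ∃ φ : Form, φ.enc = w := by
  unfold validW
  rw [decide_eq_true_iff]
  constructor
  · intro h
    obtain ⟨l, hw, hl, -⟩ := bstep_foldl_inv vstep w _ h
    obtain ⟨φ, rfl⟩ := (validT_iff l).1 (by unfold validT; rw [decide_eq_true_iff]; exact hl)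
    exact ⟨φ, by rw [hw]; simp [Form.enc]⟩
  · rintro ⟨φ, rfl⟩
    unfold Form.enc
    rw [bstep_foldl_toks, vfold_form]

/-- Evaluation of `F⁺` on the string `w`. -/
def evW {R : Type} [CommRing R] (x y : ℕ → R) (w : List Bool) : R :=
  match (w.foldl (bstep (tstep x y)) ([], some (TSt.init R))).2 with
  | some T => T.out
  | none => 1

theorem evW_enc {R : Type} [CommRing R] (x y : ℕ → R) (φ : Form) :
    evW x y φ.enc = (φ.pm x y 0).1 := by
  unfold evW Form.enc
  rw [bstep_foldl_toks]
  exact fold_form_out x y φ

theorem ETR_iff (w : List Bool) :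
    w ∈ ETR ↔ validW w = true ∧ ∃ x y : ℕ → ℝ, evW x y w = 0 := by
  constructor
  · rintro ⟨φ, rfl, x, hx⟩
    obtain ⟨y, hy⟩ := (Form.pm_zero_iff x φ 0).1.2 hx
    exact ⟨(validW_iff _).2 ⟨φ, rfl⟩, x, y, by rw [evW_enc]; exact hy⟩
  · rintro ⟨h, x, y, hxy⟩
    obtain ⟨φ, rfl⟩ := (validW_iff _).1 h
    rw [evW_enc] at hxy
    exact ⟨φ, rfl, x, (Form.pm_zero_iff x φ 0).1.1 ⟨y, hxy⟩⟩

end Vale.Agent.P337
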