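import Vale.Agent.P337.Defs

/-!
# P337, layer REAL: from a formula to one nonnegative polynomial

`Form.pm x y φ t = (F⁺, F⁻)` over any commutative ring; `x` are the variables of the formula, `y` the
auxiliary variables (one per atom, the first free one has index `t`).
-/

namespace Vale.Agent.P337

open MvPolynomial

/-- Number of atoms of a formula. -/
def Form.atoms : Form → ℕ
  | .zero _ => 1
  | .pos _ => 1
  | .and a b => a.atoms + b.atoms
  | .or a b => a.atoms + b.atoms
  | .not a => a.atoms

/-- The pair `(F⁺, F⁻)`. -/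
def Form.pm {R : Type} [CommRing R] (x y : ℕ → R) : Form → ℕ → R × R
  | .zero p, t => ((polyEval x p) ^ 2, (polyEval x p * y t - 1) ^ 2)
  | .pos p, t => ((polyEval x p * y t ^ 2 - 1) ^ 2, (polyEval x p + y t ^ 2) ^ 2)
  | .and a b, t => ((a.pm x y t).1 + (b.pm x y (t + a.atoms)).1,
      (a.pm x y t).2 * (b.pm x y (t + a.atoms)).2)
  | .or a b, t => ((a.pm x y t).1 * (b.pm x y (t + a.atoms)).1,
      (a.pm x y t).2 + (b.pm x y (t + a.atoms)).2)
  | .not a, t => ((a.pm x y t).2, (a.pm x y t).1)

/-! ## Naturality -/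

theorem powProd_map {R S : Type} [CommRing R] [CommRing S] (g : R →+* S) (x : ℕ → R) (l : List ℕ)
    (s : ℕ) : g (powProd x s l) = powProd (fun i => g (x i)) s l := by
  induction l generalizing s with
  | nil => simp [powProd]
  | cons e l ih => simp [powProd, ih]

theorem polyEval_map {R S : Type} [CommRing R] [CommRing S] (g : R →+* S) (x : ℕ → R)
    (p : List Mono) : g (polyEval x p) = polyEval (fun i => g (x i)) p := by
  unfold polyEval
  rw [map_list_sum, List.map_map]
  congr 1
  apply List.map_congr_left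
  intro a _
  simp [Mono.eval, powProd_map]

theorem Form.pm_map {R S : Type} [CommRing R] [CommRing S] (g : R →+* S) (x y : ℕ → R) (φ : Form)
    (t : ℕ) : φ.pm (fun i => g (x i)) (fun i => g (y i)) t =
      (g (φ.pm x y t).1, g (φ.pm x y t).2) := by
  induction φ generalizing t with
  | zero p => simp [Form.pm, polyEval_map]
  | pos p => simp [Form.pm, polyEval_map]
  | and a b iha ihb => simp [Form.pm, iha, ihb]
  | or a b iha ihb => simp [Form.pm, iha, ihb]
  | not a ih => simp [Form.pm, ih]

/-! ## Locality -/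

/-- All variables of a polynomial have index `< n`. -/
def monoVars (n : ℕ) (p : List Mono) : Prop := ∀ a ∈ p, a.exps.length ≤ n

theorem powProd_congr {R : Type} [CommRing R] {x x' : ℕ → R} {n : ℕ} (l : List ℕ) (s : ℕ)
    (hl : s + l.length ≤ n) (h : ∀ i < n, x i = x' i) : powProd x s l = powProd x' s l := by
  induction l generalizing s with
  | nil => simp [powProd]
  | cons e l ih =>
    simp only [List.length_cons] at hl
    simp only [powProd]
    rw [h s (by omega), ih (s + 1) (by omega)]

theorem polyEval_congr {R : Type} [CommRing R] {x x' : ℕ → R} {n : ℕ} (p : List Mono)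
    (hp : monoVars n p) (h : ∀ i < n, x i = x' i) : polyEval x p = polyEval x' p := by
  unfold polyEval
  congr 1
  apply List.map_congr_left
  intro a ha
  unfold Mono.eval
  rw [powProd_congr a.exps 0 (by simpa using hp a ha) h]

/-- All variables of a formula have index `< n`. -/
def Form.Vars (n : ℕ) : Form → Prop
  | .zero p => monoVars n p
  | .pos p => monoVars n p
  | .and a b => a.Vars n ∧ b.Vars n
  | .or a b => a.Vars n ∧ b.Vars n
  | .not a => a.Vars n

theorem Form.pm_congr {R : Type} [CommRing R] {x x' y y' : ℕ → R} {n : ℕ} (φ : Form) (t k : ℕ)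
    (hφ : φ.Vars n) (h : ∀ i < n, x i = x' i) (hk : t + φ.atoms ≤ k)
    (hy : ∀ i < k, t ≤ i → y i = y' i) :
    φ.pm x y t = φ.pm x' y' t := by
  induction φ generalizing t k with
  | zero p =>
    simp only [Form.atoms] at hk
    simp only [Form.pm]
    rw [polyEval_congr p hφ h, hy t (by omega) le_rfl]
  | pos p =>
    simp only [Form.atoms] at hk
    simp only [Form.pm]
    rw [polyEval_congr p hφ h, hy t (by omega) le_rfl]
  | and a b iha ihb =>
    simp only [Form.atoms] at hk
    simp only [Form.pm]
    rw [iha t k hφ.1 (by omega) (fun i hi hti => hy i hi hti),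
      ihb (t + a.atoms) k hφ.2 (by omega) (fun i hi hti => hy i hi (by omega))]
  | or a b iha ihb =>
    simp only [Form.atoms] at hk
    simp only [Form.pm]
    rw [iha t k hφ.1 (by omega) (fun i hi hti => hy i hi hti),
      ihb (t + a.atoms) k hφ.2 (by omega) (fun i hi hti => hy i hi (by omega))]
  | not a ih =>
    simp only [Form.atoms] at hk
    simp only [Form.pm]
    rw [ih t k hφ (by omega) hy]

theorem Form.pm_congr_y {R : Type} [CommRing R] {x y y' : ℕ → R} (φ : Form) (t : ℕ)
    (hy : ∀ i, t ≤ i → i < t + φ.atoms → y i = y' i) :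
    φ.pm x y t = φ.pm x y' t := by
  induction φ generalizing t with
  | zero p => simp only [Form.pm]; rw [hy t le_rfl (by simp [Form.atoms])]
  | pos p => simp only [Form.pm]; rw [hy t le_rfl (by simp [Form.atoms])]
  | and a b iha ihb =>
    simp only [Form.atoms] at hy
    simp only [Form.pm]
    rw [iha t (fun i h1 h2 => hy i h1 (by omega)),
      ihb (t + a.atoms) (fun i h1 h2 => hy i (by omega) (by omega))]
  | or a b iha ihb =>
    simp only [Form.atoms] at hy
    simp only [Form.pm]
    rw [iha t (fun i h1 h2 => hy i h1 (by omega)),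
      ihb (t + a.atoms) (fun i h1 h2 => hy i (by omega) (by omega))]
  | not a ih =>
    simp only [Form.atoms] at hy
    simp only [Form.pm]
    rw [ih t hy]

/-! ## Real zeros -/

theorem Form.pm_nonneg (x y : ℕ → ℝ) (φ : Form) (t : ℕ) :
    0 ≤ (φ.pm x y t).1 ∧ 0 ≤ (φ.pm x y t).2 := by
  induction φ generalizing t with
  | zero p => exact ⟨sq_nonneg _, sq_nonneg _⟩
  | pos p => exact ⟨sq_nonneg _, sq_nonneg _⟩
  | and a b iha ihb =>
    exact ⟨add_nonneg (iha t).1 (ihb _).1, mul_nonneg (iha t).2 (ihb _).2⟩
  | or a b iha ihb =>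
    exact ⟨mul_nonneg (iha t).1 (ihb _).1, add_nonneg (iha t).2 (ihb _).2⟩
  | not a ih => exact ⟨(ih t).2, (ih t).1⟩

theorem Form.pm_zero_iff (x : ℕ → ℝ) (φ : Form) (t : ℕ) :
    ((∃ y : ℕ → ℝ, (φ.pm x y t).1 = 0) ↔ φ.Holds x) ∧
      ((∃ y : ℕ → ℝ, (φ.pm x y t).2 = 0) ↔ ¬ φ.Holds x) := by
  classical
  induction φ generalizing t with
  | zero p =>
    simp only [Form.pm, Form.Holds]
    constructor
    · constructor
      · rintro ⟨y, h⟩; exact pow_eq_zero_iff (two_ne_zero) |>.1 h
      · intro h; exact ⟨0, by rw [h]; simp⟩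
    · constructor
      · rintro ⟨y, h⟩ h0
        rw [h0] at h
        norm_num at h
      · intro h
        refine ⟨fun _ => (polyEval x p)⁻¹, ?_⟩
        rw [mul_inv_cancel₀ h]; norm_num
  | pos p =>
    simp only [Form.pm, Form.Holds]
    constructor
    · constructor
      · rintro ⟨y, h⟩
        have h1 : polyEval x p * y t ^ 2 = 1 := by
          have := pow_eq_zero_iff (two_ne_zero) |>.1 h
          linarith
        by_contra hc
        nlinarith [sq_nonneg (y t)]
      · intro h
        refine ⟨fun _ => (Real.sqrt (polyEval x p))⁻¹, ?_⟩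
        rw [inv_pow, Real.sq_sqrt h.le, mul_inv_cancel₀ h.ne']; norm_num
    · constructor
      · rintro ⟨y, h⟩ h0
        have h1 := pow_eq_zero_iff (two_ne_zero) |>.1 h
        nlinarith [sq_nonneg (y t)]
      · intro h
        refine ⟨fun _ => Real.sqrt (-polyEval x p), ?_⟩
        rw [Real.sq_sqrt (by linarith)]; norm_num
  | and a b iha ihb =>
    simp only [Form.pm, Form.Holds]
    constructor
    · constructor
      · rintro ⟨y, h⟩
        have h1 := (Form.pm_nonneg x y a t).1
        have h2 := (Form.pm_nonneg x y b (t + a.atoms)).1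
        exact ⟨(iha t).1.1 ⟨y, by linarith⟩, (ihb _).1.1 ⟨y, by linarith⟩⟩
      · rintro ⟨ha, hb⟩
        obtain ⟨y1, h1⟩ := (iha t).1.2 ha
        obtain ⟨y2, h2⟩ := (ihb (t + a.atoms)).1.2 hb
        refine ⟨fun i => if i < t + a.atoms then y1 i else y2 i, ?_⟩
        rw [Form.pm_congr_y a t (y := fun i => if i < t + a.atoms then y1 i else y2 i) (y' := y1)
            (fun i h1 h2 => if_pos h2),
          Form.pm_congr_y b (t + a.atoms) (y := fun i => if i < t + a.atoms then y1 i else y2 i)
            (y' := y2) (fun i h1 h2 => if_neg (by omega)), h1, h2, add_zero]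
    · constructor
      · rintro ⟨y, h⟩ ⟨ha, hb⟩
        rcases mul_eq_zero.1 h with h | h
        · exact (iha t).2.1 ⟨y, h⟩ ha
        · exact (ihb _).2.1 ⟨y, h⟩ hb
      · intro h
        rw [not_and_or] at h
        rcases h with h | h
        · obtain ⟨y, hy⟩ := (iha t).2.2 h
          exact ⟨y, by rw [hy, zero_mul]⟩
        · obtain ⟨y, hy⟩ := (ihb (t + a.atoms)).2.2 h
          exact ⟨y, by rw [hy, mul_zero]⟩
  | or a b iha ihb =>
    simp only [Form.pm, Form.Holds]
    constructor
    · constructor
      · rintro ⟨y, h⟩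
        rcases mul_eq_zero.1 h with h | h
        · exact Or.inl ((iha t).1.1 ⟨y, h⟩)
        · exact Or.inr ((ihb _).1.1 ⟨y, h⟩)
      · rintro (h | h)
        · obtain ⟨y, hy⟩ := (iha t).1.2 h
          exact ⟨y, by rw [hy, zero_mul]⟩
        · obtain ⟨y, hy⟩ := (ihb (t + a.atoms)).1.2 h
          exact ⟨y, by rw [hy, mul_zero]⟩
    · constructor
      · rintro ⟨y, h⟩ hc
        have h1 := (Form.pm_nonneg x y a t).2
        have h2 := (Form.pm_nonneg x y b (t + a.atoms)).2
        rcases hc with hc | hc
        · exact (iha t).2.1 ⟨y, by linarith⟩ hc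
        · exact (ihb _).2.1 ⟨y, by linarith⟩ hc
      · intro h
        rw [not_or] at h
        obtain ⟨y1, h1⟩ := (iha t).2.2 h.1
        obtain ⟨y2, h2⟩ := (ihb (t + a.atoms)).2.2 h.2
        refine ⟨fun i => if i < t + a.atoms then y1 i else y2 i, ?_⟩
        rw [Form.pm_congr_y a t (y := fun i => if i < t + a.atoms then y1 i else y2 i) (y' := y1)
            (fun i h1 h2 => if_pos h2),
          Form.pm_congr_y b (t + a.atoms) (y := fun i => if i < t + a.atoms then y1 i else y2 i)
            (y' := y2) (fun i h1 h2 => if_neg (by omega)), h1, h2, add_zero]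
  | not a ih =>
    simp only [Form.pm, Form.Holds, not_not]
    exact ⟨(ih t).2, (ih t).1⟩

end Vale.Agent.P337
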