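import Vale.Agent.P337.Arith2
import Vale.Agent.P337.Sys

/-!
# P337: digits and small powers in polynomial time
-/

namespace Vale.Agent.P337

/-- one division, as long as the counter is positive -/
def divStep (y : (ℕ × ℕ × ℕ) × ℕ × ℕ) : ℕ × ℕ :=
  if decide (0 < y.2.2) then (y.2.1 / y.1.1, y.2.2 - 1) else y.2

theorem divStep_iterate (x : ℕ × ℕ × ℕ) : ∀ (i m c : ℕ),
    (fun s => divStep (x, s))^[i] (m, c) = (m / x.1 ^ min i c, c - i)
  | 0, m, c => by simp
  | i + 1, m, c => by
    rw [Function.iterate_succ_apply]
    rcases Nat.eq_zero_or_pos c with hc | hc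
    · subst hc
      have h1 : divStep (x, m, 0) = (m, 0) := by simp [divStep]
      rw [h1, divStep_iterate x i m 0]
      simp
    · have h1 : divStep (x, m, c) = (m / x.1, c - 1) := by simp [divStep, hc]
      rw [h1, divStep_iterate x i _ _, Nat.div_div_eq_div_mul, ← pow_succ']
      have h2 : min i (c - 1) + 1 = min (i + 1) c := by omega
      rw [h2]
      congr 1
      omega

theorem div_pow_min (b n s : ℕ) : n / b ^ min n.size s = n / b ^ s := by
  rcases le_or_gt s n.size with h | h
  · rw [min_eq_right h]
  · rw [min_eq_left h.le]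
    rcases Nat.lt_or_ge 1 b with hb | hb
    · have h1 : n < b ^ n.size :=
        lt_of_lt_of_le (Nat.lt_size_self n) (Nat.pow_le_pow_left hb _)
      have h2 : n < b ^ s := lt_of_lt_of_le h1 (Nat.pow_le_pow_right (by omega) h.le)
      rw [Nat.div_eq_of_lt h1, Nat.div_eq_of_lt h2]
    · interval_cases b
      · rcases Nat.eq_zero_or_pos n.size with h0 | h0
        · have : n = 0 := Nat.size_eq_zero.1 h0
          simp [this]
        · rw [zero_pow (by omega), zero_pow (by omega)]
      · simp

theorem PTime.dig : PTime fun x : ℕ × ℕ × ℕ => dig x.1 x.2.1 x.2.2 := by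
  have hstep : PTime divStep :=
    PTime.ite (PTime.lt (PTime.const 0) (PTime.snd.comp PTime.snd))
      (PTime.pair (PTime.div (PTime.fst.comp PTime.snd) (PTime.fst.comp PTime.fst))
        (PTime.sub (PTime.snd.comp PTime.snd) (PTime.const 1))) PTime.snd
  have h1 := PTime.iter (step := divStep) (l := fun x : ℕ × ℕ × ℕ => (x.2.1).bits)
    (init := fun x : ℕ × ℕ × ℕ => (x.2.1, x.2.2))
    (PTime.bits (PTime.fst.comp PTime.snd)) PTime.snd hstep (2 * Polynomial.X + 2 + Polynomial.X)
    (fun x i _ => by
      obtain ⟨b, n, s⟩ := x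
      rw [divStep_iterate]
      have h2 : (Code.code (n / b ^ min i s)).length ≤ (Code.code n).length :=
        code_nat_mono (Nat.div_le_self _ _)
      have h3 : (Code.code (s - i)).length ≤ (Code.code s).length :=
        code_nat_mono (Nat.sub_le _ _)
      simp only [code_pair, length_pairL, Polynomial.eval_add, Polynomial.eval_mul,
        Polynomial.eval_ofNat, Polynomial.eval_X]
      omega)
  refine (PTime.mod (PTime.fst.comp h1) PTime.fst).congr fun x => ?_
  obtain ⟨b, n, s⟩ := x
  rw [divStep_iterate]
  show n / b ^ min n.bits.length s % b = _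
  rw [Nat.size_eq_bits_len, div_pow_min]
  rfl

/-- one multiplication, as long as the counter is positive -/
def mulStep (y : (ℕ × ℕ × List Bool) × ℕ × ℕ) : ℕ × ℕ :=
  if decide (0 < y.2.2) then (y.2.1 * y.1.1, y.2.2 - 1) else y.2

theorem mulStep'_iterate (x : ℕ × ℕ × List Bool) : ∀ (i m c : ℕ),
    (fun s => mulStep (x, s))^[i] (m, c) = (m * x.1 ^ min i c, c - i)
  | 0, m, c => by simp
  | i + 1, m, c => by
    rw [Function.iterate_succ_apply]
    rcases Nat.eq_zero_or_pos c with hc | hc
    · subst hc
      have h1 : mulStep (x, m, 0) = (m, 0) := by simp [mulStep]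
      rw [h1, mulStep'_iterate x i m 0]
      simp
    · have h1 : mulStep (x, m, c) = (m * x.1, c - 1) := by simp [mulStep, hc]
      rw [h1, mulStep'_iterate x i _ _, mul_assoc, ← pow_succ']
      have h2 : min i (c - 1) + 1 = min (i + 1) c := by omega
      rw [h2]
      congr 1
      omega

theorem PTime.powMin :
    PTime fun x : ℕ × ℕ × List Bool => x.1 ^ min x.2.1 x.2.2.length := by
  have hstep : PTime mulStep :=
    PTime.ite (PTime.lt (PTime.const 0) (PTime.snd.comp PTime.snd))
      (PTime.pair (PTime.mul (PTime.fst.comp PTime.snd) (PTime.fst.comp PTime.fst))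
        (PTime.sub (PTime.snd.comp PTime.snd) (PTime.const 1))) PTime.snd
  have h1 := PTime.iter (step := mulStep) (l := fun x : ℕ × ℕ × List Bool => x.2.2)
    (init := fun x : ℕ × ℕ × List Bool => (1, x.2.1))
    (PTime.snd.comp PTime.snd) (PTime.pair (PTime.const 1) (PTime.fst.comp PTime.snd)) hstep
    (2 * (Polynomial.X * Polynomial.X + 1) + 2 + Polynomial.X)
    (fun x i hi => by
      obtain ⟨b, e, l⟩ := x
      rw [mulStep'_iterate, one_mul]
      have h0 : min i e ≤ l.length := (min_le_left _ _).trans hi
      have h2 : (Code.code (b ^ min i e)).length ≤ (Code.code b).length * l.length + 1 := by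
        refine code_nat_le ?_
        have h3 : b ^ min i e ≤ (2 ^ (Code.code b).length) ^ min i e :=
          Nat.pow_le_pow_left (lt_two_pow_code b).le _
        rw [← pow_mul] at h3
        refine lt_of_le_of_lt h3 (Nat.pow_lt_pow_right (by norm_num) ?_)
        have := Nat.mul_le_mul_left (Code.code b).length h0
        omega
      have h3 : (Code.code (e - i)).length ≤ (Code.code e).length :=
        code_nat_mono (Nat.sub_le _ _)
      have h4 : (Code.code b).length * l.length ≤
          (2 * (Code.code b).length + 2 + (2 * (Code.code e).length + 2 + l.length)) *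
          (2 * (Code.code b).length + 2 + (2 * (Code.code e).length + 2 + l.length)) :=
        Nat.mul_le_mul (by omega) (by omega)
      simp only [code_pair, length_pairL, code_list, Polynomial.eval_add, Polynomial.eval_mul,
        Polynomial.eval_ofNat, Polynomial.eval_X, Polynomial.eval_one]
      omega)
  refine (PTime.fst.comp h1).congr fun x => ?_
  obtain ⟨b, e, l⟩ := x
  rw [mulStep'_iterate, one_mul, min_comm]

end Vale.Agent.P337
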