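import Vale.Agent.P337.SDefs
import Vale.Agent.P337.PDig

/-!
# P337, S0: the library of residues computed in the counting hierarchy
-/

namespace Vale.Agent.P337

open MvPolynomial

section Aux
variable {α β γ : Type} [Code α] [Code β] [Code γ]

theorem evalMono (r : Polynomial ℕ) {m n : ℕ} (h : m ≤ n) : r.eval m ≤ r.eval n := by
  simp only [Polynomial.eval_eq_sum, Polynomial.sum]
  exact Finset.sum_le_sum fun i _ => Nat.mul_le_mul_left _ (Nat.pow_le_pow_left h i)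

/-- `FCH` functions in a bigger context -/
theorem FCH_comp {g : α → γ} (hg : FCH g) {f : β → α} (hf : PTime f) :
    FCH fun b => g (f b) := by
  obtain ⟨⟨r, hr⟩, h2⟩ := hg
  obtain ⟨s, hs⟩ := hf.length_le
  refine ⟨⟨r.comp s, fun a => ?_⟩, ?_⟩
  · rw [Polynomial.eval_comp]
    exact (hr _).trans (evalMono r (hs a))
  · exact h2.comp (f := fun x : β × γ => (f x.1, x.2)) ((hf.comp PTime.fst).pair PTime.snd)

/-- substitution of a computed natural number -/
theorem FCH_subst {g : α × ℕ → γ} (hg : FCH g) {f : α → ℕ} (hf : FCH f) :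
    FCH fun a => g (a, f a) := by
  have hf' := hf
  obtain ⟨⟨r, hr⟩, h2⟩ := hg
  obtain ⟨⟨s, hs⟩, h3⟩ := hf'
  refine ⟨⟨r.comp (2 * Polynomial.X + 2 + s), fun a => ?_⟩, ?_⟩
  · refine (hr _).trans ?_
    rw [Polynomial.eval_comp]
    apply evalMono
    rw [code_pair, length_pairL]
    have := hs a
    simp only [Polynomial.eval_add, Polynomial.eval_mul, Polynomial.eval_X,
      Polynomial.eval_ofNat]
    omega
  · have hp : CHP fun y : (α × γ) × ℕ => f y.1.1 = y.2 ∧ g (y.1.1, y.2) = y.1.2 :=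
      (h3.comp (f := fun y : (α × γ) × ℕ => (y.1.1, y.2))
        ((PTime.fst.comp PTime.fst).pair PTime.snd)).and
      (h2.comp (f := fun y : (α × γ) × ℕ => ((y.1.1, y.2), y.1.2))
        (((PTime.fst.comp PTime.fst).pair PTime.snd).pair (PTime.snd.comp PTime.fst)))
    have hb : FCH fun y : α × γ => f y.1 + 1 := (FCH_comp hf PTime.fst).add (FCH.const 1)
    refine (CHP.exists_lt hp hb).congr fun y => ?_
    constructor
    · rintro ⟨n, _, h4, h5⟩
      show g (y.1, f y.1) = y.2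
      rw [← h5, ← h4]
    · intro h
      exact ⟨f y.1, Nat.lt_succ_self _, rfl, h⟩

end Aux

section
variable {α β : Type} [Code α] [Code β] {dom : α → Prop} {p N : α → ℕ}

theorem FZ.congr {v v' : ∀ a, ZMod (p a)} (h : ∀ a, dom a → v a = v' a) (hv : FZ dom p v) :
    FZ dom p v' := by
  obtain ⟨g, h1, h2⟩ := hv
  exact ⟨g, h1, fun a ha => (h2 a ha).trans (h a ha)⟩

theorem FZ.mono {dom' : α → Prop} {v : ∀ a, ZMod (p a)} (h : ∀ a, dom' a → dom a)
    (hv : FZ dom p v) : FZ dom' p v := by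
  obtain ⟨g, h1, h2⟩ := hv
  exact ⟨g, h1, fun a ha => h2 a (h a ha)⟩

/-- the representative can be taken to be `(v a).val` -/
theorem FZ.val (hΓ : LCtx dom p N) {v : ∀ a, ZMod (p a)} (hv : FZ dom p v) :
    ∃ g : α → ℕ, FCH g ∧ ∀ a, dom a → g a = (v a).val := by
  obtain ⟨g, h1, h2⟩ := hv
  refine ⟨fun a => g a % p a, h1.mod hΓ.fch_p, fun a ha => ?_⟩
  beta_reduce
  rw [← h2 a ha, ZMod.val_natCast]

theorem FZ.natCast {f : α → ℕ} (hf : FCH f) : FZ dom p fun a => (f a : ZMod (p a)) :=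
  ⟨f, hf, fun _ _ => rfl⟩

theorem FZ.add {v w : ∀ a, ZMod (p a)} (hv : FZ dom p v) (hw : FZ dom p w) :
    FZ dom p fun a => v a + w a := by
  obtain ⟨g, h1, h2⟩ := hv
  obtain ⟨g', h3, h4⟩ := hw
  exact ⟨fun a => g a + g' a, h1.add h3, fun a ha => by
    beta_reduce; rw [Nat.cast_add, h2 a ha, h4 a ha]⟩

theorem FZ.mul {v w : ∀ a, ZMod (p a)} (hv : FZ dom p v) (hw : FZ dom p w) :
    FZ dom p fun a => v a * w a := by
  obtain ⟨g, h1, h2⟩ := hv
  obtain ⟨g', h3, h4⟩ := hw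
  exact ⟨fun a => g a * g' a, h1.mul h3, fun a ha => by
    beta_reduce; rw [Nat.cast_mul, h2 a ha, h4 a ha]⟩

theorem FZ.neg (hΓ : LCtx dom p N) {v : ∀ a, ZMod (p a)} (hv : FZ dom p v) :
    FZ dom p fun a => -v a := by
  obtain ⟨g, h1, h2⟩ := hv
  refine ⟨fun a => p a - g a % p a, hΓ.fch_p.sub (h1.mod hΓ.fch_p), fun a ha => ?_⟩
  beta_reduce
  rw [Nat.cast_sub (Nat.mod_lt _ (hΓ.prime a ha).pos).le, ZMod.natCast_self, ZMod.natCast_mod,
    h2 a ha, zero_sub]

theorem FZ.sub (hΓ : LCtx dom p N) {v w : ∀ a, ZMod (p a)} (hv : FZ dom p v) (hw : FZ dom p w) :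
    FZ dom p fun a => v a - w a :=
  (hv.add (hw.neg hΓ)).congr fun _ _ => (sub_eq_add_neg _ _).symm

theorem FZ.inv (hΓ : LCtx dom p N) {v : ∀ a, ZMod (p a)} (hv : FZ dom p v) :
    FZ dom p fun a => (v a)⁻¹ := by
  obtain ⟨g, h1, h2⟩ := hv
  refine ⟨_, FCH.invMod h1 hΓ.fch_p, fun a ha => ?_⟩
  have : NeZero (p a) := ⟨(hΓ.prime a ha).ne_zero⟩
  beta_reduce
  rw [if_pos (hΓ.prime a ha), h2 a ha, ZMod.natCast_val, ZMod.cast_id]

theorem FZ.ite {c : α → Prop} [DecidablePred c] {c' : α → Prop} (hc : CHP c')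
    (hcc : ∀ a, dom a → (c a ↔ c' a)) {v w : ∀ a, ZMod (p a)} (hv : FZ dom p v)
    (hw : FZ dom p w) : FZ dom p fun a => if c a then v a else w a := by
  classical
  obtain ⟨g, h1, h2⟩ := hv
  obtain ⟨g', h3, h4⟩ := hw
  refine ⟨fun a => if c' a then g a else g' a, FCH.ite hc h1 h3, fun a ha => ?_⟩
  beta_reduce
  by_cases h : c a
  · rw [if_pos ((hcc a ha).1 h), if_pos h, h2 a ha]
  · rw [if_neg (fun h' => h ((hcc a ha).2 h')), if_neg h, h4 a ha]

/-- `if v a = 0 then ... else ...` -/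
theorem FZ.ite_zero (hΓ : LCtx dom p N) {u v w : ∀ a, ZMod (p a)} (hu : FZ dom p u)
    (hv : FZ dom p v) (hw : FZ dom p w) :
    FZ dom p fun a => open Classical in if u a = 0 then v a else w a := by
  classical
  obtain ⟨g, h1, h2⟩ := hu.val hΓ
  refine FZ.ite (CHP.eq h1 (FCH.const 0)) (fun a ha => ?_) hv hw
  rw [h2 a ha, ZMod.val_eq_zero]

/-- change of context by a polynomial time function (no decoding needed: `α` may be a promise
type) -/
theorem FZ.comp {f : β → α} (hf : PTime f) {v : ∀ a, ZMod (p a)} (hv : FZ dom p v) :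
    FZ (fun b => dom (f b)) (fun b => p (f b)) (fun b => v (f b)) := by
  obtain ⟨g, h1, h2⟩ := hv
  exact ⟨fun b => g (f b), FCH_comp h1 hf, fun b hb => h2 (f b) hb⟩

/-- substitution of a computed natural number -/
theorem FZ.subst {D : α × ℕ → Prop} {v : ∀ y : α × ℕ, ZMod (p y.1)}
    (hv : FZ D (fun y => p y.1) v) {f : α → ℕ} (hf : FCH f) (h : ∀ a, dom a → D (a, f a)) :
    FZ dom p fun a => v (a, f a) := by
  obtain ⟨g, h1, h2⟩ := hv
  exact ⟨fun a => g (a, f a), FCH_subst h1 hf, fun a ha => h2 (a, f a) (h a ha)⟩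

theorem FZ.sum {b : α → ℕ} (hb : FCH b) {v : ∀ y : α × ℕ, ZMod (p y.1)}
    (hv : FZ (fun y : α × ℕ => dom y.1 ∧ y.2 < b y.1) (fun y => p y.1) v) :
    FZ dom p fun a => ∑ i ∈ Finset.range (b a), v (a, i) := by
  obtain ⟨g, h1, h2⟩ := hv
  refine ⟨_, FCH.sum h1 hb, fun a ha => ?_⟩
  beta_reduce
  rw [Nat.cast_sum]
  exact Finset.sum_congr rfl fun n hn => h2 (a, n) ⟨ha, Finset.mem_range.1 hn⟩

theorem FZ.prod (hΓ : LCtx dom p N) {b : α → ℕ} (hb : FCH b) {v : ∀ y : α × ℕ, ZMod (p y.1)}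
    (hv : FZ (fun y : α × ℕ => dom y.1 ∧ y.2 < b y.1) (fun y => p y.1) v) :
    FZ dom p fun a => ∏ i ∈ Finset.range (b a), v (a, i) := by
  obtain ⟨g, h1, h2⟩ := hv
  refine ⟨_, FCH.prodMod h1 hb hΓ.fch_p, fun a ha => ?_⟩
  beta_reduce
  rw [if_pos (hΓ.prime a ha), ZMod.natCast_mod, Nat.cast_prod]
  exact Finset.prod_congr rfl fun n hn => h2 (a, n) ⟨ha, Finset.mem_range.1 hn⟩

/-- powers with a computed exponent: a product of equal factors -/
theorem FZ.pow (hΓ : LCtx dom p N) {v : ∀ a, ZMod (p a)} (hv : FZ dom p v) {e : α → ℕ}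
    (he : FCH e) : FZ dom p fun a => v a ^ e a := by
  have h1 : FZ (fun y : α × ℕ => dom y.1 ∧ y.2 < e y.1) (fun y => p y.1)
      (fun y : α × ℕ => v y.1) := (hv.comp PTime.fst).mono fun y hy => hy.1
  refine (FZ.prod hΓ he h1).congr fun a _ => ?_
  change ∏ _i ∈ Finset.range (e a), v a = v a ^ e a
  rw [Finset.prod_const, Finset.card_range]

theorem FZ.factorial (hΓ : LCtx dom p N) {f : α → ℕ} (hf : FCH f) :
    FZ dom p fun a => ((f a).factorial : ZMod (p a)) := by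
  refine ⟨_, FCH.factorialMod hf hΓ.fch_p, fun a ha => ?_⟩
  beta_reduce
  rw [if_pos (hΓ.prime a ha), ZMod.natCast_mod]

theorem LCtx.mono {dom' : α → Prop} (h : ∀ a, dom' a → dom a) (hΓ : LCtx dom p N) :
    LCtx dom' p N := ⟨fun a ha => hΓ.prime a (h a ha), hΓ.fch_p, hΓ.fch_N, hΓ.small⟩

theorem LCtx.comp {f : β → α} (hf : PTime f) (hΓ : LCtx dom p N) :
    LCtx (fun b => dom (f b)) (fun b => p (f b)) (fun b => N (f b)) := by
  obtain ⟨r, hr⟩ := hΓ.small
  obtain ⟨s, hs⟩ := hf.length_le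
  refine ⟨fun b hb => hΓ.prime (f b) hb, FCH_comp hΓ.fch_p hf, FCH_comp hΓ.fch_N hf,
    r.comp s, fun b => ?_⟩
  rw [Polynomial.eval_comp]
  exact (hr _).trans (evalMono r (hs b))

theorem LCtx.fst (hΓ : LCtx dom p N) :
    LCtx (fun y : α × ℕ => dom y.1) (fun y => p y.1) (fun y => N y.1) := hΓ.comp PTime.fst

/-- context extension by one natural number -/
theorem LCtx.ext (hΓ : LCtx dom p N) (P : α × ℕ → Prop) :
    LCtx (fun y : α × ℕ => dom y.1 ∧ P y) (fun y => p y.1) (fun y => N y.1) :=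
  hΓ.fst.mono fun _ hy => hy.1

/-- small powers -/
theorem FCH_pow {f : α → ℕ} (hf : FCH f) {g : α → ℕ} (hg : FCH g)
    (hs : ∃ r : Polynomial ℕ, ∀ a, g a ≤ r.eval (code a).length) :
    FCH fun a => f a ^ g a := by
  obtain ⟨r, hr⟩ := hs
  have h1 : FCH fun a : α => List.replicate (r.eval (code a).length) true :=
    FCH.of_ptime (PTime.unary r PTime.code)
  refine ((FCH.of_ptime PTime.powMin).comp (hf.pair (hg.pair h1))).congr fun a => ?_
  rw [List.length_replicate, Nat.min_eq_left (hr a)]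

/-- digits -/
theorem FCH_dig {b n s : α → ℕ} (hb : FCH b) (hn : FCH n) (hs : FCH s) :
    FCH fun a => dig (b a) (n a) (s a) :=
  (FCH.of_ptime PTime.dig).comp (hb.pair (hn.pair hs))

end

end Vale.Agent.P337
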