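import Mathlib

/-!
# P337: the product of the primes in `(2^a, 2^q]` is at least `2 ^ 2 ^ (q - 2)`
-/

namespace Vale.Agent.P337

namespace PrimeProdAux

theorem aux1 (q : ℕ) (hq : 12 ≤ q) : 1024 * q ^ 2 ≤ 49 * 2 ^ q := by
  induction q, hq using Nat.le_induction with
  | base => norm_num
  | succ n hn ih =>
    rw [pow_succ 2 n]
    nlinarith

theorem aux2 (q : ℕ) (hq : 12 ≤ q) : 16 * (q + 1) ≤ 2 ^ q := by
  induction q, hq using Nat.le_induction with
  | base => norm_num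
  | succ n hn ih =>
    rw [pow_succ 2 n]
    omega

theorem aux3 (q : ℕ) (hq : 12 ≤ q) :
    ((q : ℝ) + 1) + 2 * √((2 : ℝ) ^ q) * q ≤ 2 ^ q / 2 := by
  have h1 : (1024 : ℝ) * (q : ℝ) ^ 2 ≤ 49 * 2 ^ q := by exact_mod_cast aux1 q hq
  have h2 : (16 : ℝ) * ((q : ℝ) + 1) ≤ 2 ^ q := by exact_mod_cast aux2 q hq
  set Q : ℝ := 2 ^ q with hQ
  have hQ0 : 0 < Q := by positivity
  have hs : √Q * √Q = Q := Real.mul_self_sqrt hQ0.le
  have hs0 : 0 < √Q := Real.sqrt_pos.2 hQ0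
  have hq0 : (0 : ℝ) ≤ q := by positivity
  -- 32 q ≤ 7 √Q
  have h3 : 32 * (q : ℝ) ≤ 7 * √Q := by
    apply le_of_sq_le_sq (a := 32 * (q : ℝ)) _ (by positivity)
    nlinarith
  nlinarith

end PrimeProdAux

open PrimeProdAux in
/-- the product of the primes in `(2^a, 2^q]` -/
theorem prime_prod (a q : ℕ) (hq : 12 ≤ q) (ha : a + 3 ≤ q) :
    2 ^ 2 ^ (q - 2) ≤ ∏ p ∈ (Finset.Ioc (2 ^ a) (2 ^ q)).filter Nat.Prime, p := by
  have hl2 : 0 < Real.log 2 := Real.log_pos (by norm_num)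
  have haq : 2 ^ a ≤ 2 ^ q := Nat.pow_le_pow_right (by norm_num) (by omega)
  have hsplit : primorial (2 ^ q) =
      primorial (2 ^ a) * ∏ p ∈ (Finset.Ioc (2 ^ a) (2 ^ q)).filter Nat.Prime, p := by
    unfold primorial
    rw [← Finset.prod_union]
    · congr 1
      ext p
      simp only [Finset.mem_filter, Finset.mem_range, Finset.mem_union, Finset.mem_Ioc]
      constructor
      · rintro ⟨h1, h2⟩
        by_cases h : p < 2 ^ a + 1
        · exact Or.inl ⟨h, h2⟩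
        · exact Or.inr ⟨⟨by omega, by omega⟩, h2⟩
      · rintro (⟨h1, h2⟩ | ⟨⟨h1, h3⟩, h2⟩)
        · exact ⟨by omega, h2⟩
        · exact ⟨by omega, h2⟩
    · rw [Finset.disjoint_left]
      intro p hp hp'
      simp only [Finset.mem_filter, Finset.mem_range, Finset.mem_Ioc] at hp hp'
      omega
  have hthq : (2 ^ q : ℝ) * Real.log 2 - Real.log ((2 : ℝ) ^ q + 1) -
      2 * √((2 : ℝ) ^ q) * (q * Real.log 2) ≤ Real.log (primorial (2 ^ q)) := by
    have := Chebyshev.theta_ge (2 ^ q)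
    rw [Chebyshev.theta_eq_log_primorial, Nat.floor_natCast] at this
    push_cast at this
    rw [Real.log_pow] at this
    exact this
  have htha : Real.log (primorial (2 ^ a)) ≤ 2 * 2 ^ a * Real.log 2 := by
    have h := primorial_le_four_pow (2 ^ a)
    have h' : (primorial (2 ^ a) : ℝ) ≤ (4 : ℝ) ^ (2 ^ a) := by exact_mod_cast h
    have h0 : (0 : ℝ) < primorial (2 ^ a) := by exact_mod_cast primorial_pos _
    have := Real.log_le_log h0 h'
    rw [Real.log_pow, show (4 : ℝ) = 2 ^ 2 by norm_num, Real.log_pow] at this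
    push_cast at this
    linarith
  have hlogq : Real.log ((2 : ℝ) ^ q + 1) ≤ (q + 1) * Real.log 2 := by
    have : (2 : ℝ) ^ q + 1 ≤ 2 ^ (q + 1) := by
      rw [pow_succ]
      have : (1 : ℝ) ≤ 2 ^ q := one_le_pow₀ (by norm_num)
      linarith
    have h := Real.log_le_log (by positivity) this
    rw [Real.log_pow] at h
    push_cast at h
    exact h
  have h3 := aux3 q hq
  have h4 : (8 : ℝ) * 2 ^ a ≤ 2 ^ q := by
    have : 2 ^ (a + 3) ≤ 2 ^ q := Nat.pow_le_pow_right (by norm_num) ha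
    have h' : 8 * 2 ^ a ≤ 2 ^ q := by rw [pow_add] at this; omega
    exact_mod_cast h'
  have hqq : (2 : ℝ) ^ q = 4 * 2 ^ (q - 2) := by
    conv_lhs => rw [show q = (q - 2) + 2 by omega, pow_add]
    ring
  have hP0 : (0 : ℝ) < ∏ p ∈ (Finset.Ioc (2 ^ a) (2 ^ q)).filter Nat.Prime, (p : ℝ) := by
    apply Finset.prod_pos
    intro p hp
    have := (Finset.mem_filter.1 hp).2.pos
    exact_mod_cast this
  have hA0 : (0 : ℝ) < primorial (2 ^ a) := by exact_mod_cast primorial_pos _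
  have hlog : Real.log (primorial (2 ^ q)) = Real.log (primorial (2 ^ a)) +
      Real.log (∏ p ∈ (Finset.Ioc (2 ^ a) (2 ^ q)).filter Nat.Prime, (p : ℝ)) := by
    rw [← Real.log_mul hA0.ne' hP0.ne', hsplit]
    push_cast
    rfl
  have hkey : (2 : ℝ) ^ (q - 2) * Real.log 2 ≤
      Real.log (∏ p ∈ (Finset.Ioc (2 ^ a) (2 ^ q)).filter Nat.Prime, (p : ℝ)) := by
    have e1 : ((q : ℝ) + 1) * Real.log 2 + 2 * √((2 : ℝ) ^ q) * (q * Real.log 2) ≤
        2 ^ q / 2 * Real.log 2 := by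
      have := mul_le_mul_of_nonneg_right h3 hl2.le
      linarith
    have e2 : 2 * (2 : ℝ) ^ a * Real.log 2 ≤ 2 ^ q / 4 * Real.log 2 := by
      apply mul_le_mul_of_nonneg_right _ hl2.le
      linarith
    have e3 : (2 : ℝ) ^ (q - 2) = 2 ^ q / 4 := by rw [hqq]; ring
    rw [e3]
    linarith
  have hfin : ((2 : ℝ) ^ (2 ^ (q - 2)) : ℝ) ≤
      ∏ p ∈ (Finset.Ioc (2 ^ a) (2 ^ q)).filter Nat.Prime, (p : ℝ) := by
    rw [← Real.log_le_log_iff (by positivity) hP0, Real.log_pow]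
    push_cast
    exact hkey
  have hfin' : (((2 ^ 2 ^ (q - 2) : ℕ)) : ℝ) ≤
      ((∏ p ∈ (Finset.Ioc (2 ^ a) (2 ^ q)).filter Nat.Prime, p : ℕ) : ℝ) := by
    rw [Nat.cast_prod, Nat.cast_pow, Nat.cast_ofNat]
    exact hfin
  exact Nat.cast_le.1 hfin'

end Vale.Agent.P337
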