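import Vale.Agent.P337.FCHProd
import Vale.Agent.P337.CRT

/-!
# P337: the sign of an integer given by its residues is in the counting hierarchy
-/

namespace Vale.Agent.P337

open Finset

namespace SignAux

theorem eval_mono' (r : Polynomial ℕ) {m n : ℕ} (h : m ≤ n) : r.eval m ≤ r.eval n := by
  simp only [Polynomial.eval_eq_sum, Polynomial.sum]
  exact Finset.sum_le_sum fun i _ => Nat.mul_le_mul_left _ (Nat.pow_le_pow_left h i)

end SignAux

open SignAux

section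
variable {α : Type} [Code α] {lo hi : α → ℕ} {res : α × ℕ → ℕ}

namespace SignAux

/-- the factors of the product of the other primes -/
def fac (lo : α → ℕ) (x : ((α × ℕ) × ℕ) × ℕ) : ℕ :=
  if lo x.1.1.1 < x.2 ∧ x.2.Prime ∧ x.2 ≠ x.1.2 then x.2 else 1

theorem fac_fch (hlo : FCH lo) : FCH (fac lo) := by
  refine FCH.ite (p := fun x : ((α × ℕ) × ℕ) × ℕ =>
    lo x.1.1.1 < x.2 ∧ x.2.Prime ∧ x.2 ≠ x.1.2) ?_ FCH.snd (FCH.const 1)
  refine CHP.and (CHP.lt (hlo.comp_ptime (PTime.fst.comp (PTime.fst.comp PTime.fst))) FCH.snd) ?_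
  refine CHP.and (CHP.prime FCH.snd) ?_
  exact CHP.not (CHP.eq FCH.snd (FCH.of_ptime (PTime.snd.comp PTime.fst)))

/-- the product of the other primes modulo `p` -/
def pr (lo : α → ℕ) (x : (α × ℕ) × ℕ) : ℕ :=
  if x.2.Prime then (∏ i ∈ range (x.1.2 + 1), fac lo (x, i)) % x.2 else 0

theorem succ_fch {β : Type} [Code β] {f : β → ℕ} (hf : FCH f) : FCH fun x => f x + 1 :=
  hf.add (FCH.const 1)

theorem pr_fch (hlo : FCH lo) : FCH (pr lo) :=
  FCH.prodMod (fac_fch hlo) (b := fun x : (α × ℕ) × ℕ => x.1.2 + 1)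
    (succ_fch (FCH.of_ptime (PTime.snd.comp PTime.fst))) FCH.snd

/-- the normalised residues -/
def sg (lo : α → ℕ) (res : α × ℕ → ℕ) (x : (α × ℕ) × ℕ) : ℕ :=
  res (x.1.1, x.2) * (if x.2.Prime then ((pr lo x : ZMod x.2)⁻¹).val else 0) % x.2

theorem sg_fch (hlo : FCH lo) (hres : FCH res) : FCH (sg lo res) :=
  FCH.mod (FCH.mul (hres.comp_ptime (f := fun x : (α × ℕ) × ℕ => (x.1.1, x.2))
    ((PTime.fst.comp PTime.fst).pair PTime.snd)) (FCH.invMod (pr_fch hlo) FCH.snd)) FCH.snd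

theorem prod_fac (a : α) (L p : ℕ) :
    ∏ i ∈ range (L + 1), fac lo (((a, L), p), i) = prMx (lo a) L p := by
  unfold prMx fac
  rw [← Finset.prod_filter]
  refine Finset.prod_congr ?_ fun _ _ => rfl
  ext i
  simp only [mem_filter, mem_range, mem_erase, CRTAux.mem_prs]
  constructor
  · rintro ⟨h1, h2, h3, h4⟩
    exact ⟨h4, ⟨h2, by omega⟩, h3⟩
  · rintro ⟨h4, ⟨h2, h1⟩, h3⟩
    exact ⟨by omega, h2, h3, h4⟩

theorem prMx_ne {l L p : ℕ} (hp : p.Prime) : (prMx l L p : ZMod p) ≠ 0 := by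
  have := Fact.mk hp
  unfold prMx
  rw [Nat.cast_prod, Finset.prod_ne_zero_iff]
  intro r hr
  rw [mem_erase, CRTAux.mem_prs] at hr
  intro h0
  rw [ZMod.natCast_eq_zero_iff] at h0
  exact hr.1 ((Nat.prime_dvd_prime_iff_eq hp hr.2.2).1 h0).symm

theorem sg_spec {X : ℤ} (a : α) (L p : ℕ) (hp : p.Prime)
    (h : (res (a, p) : ZMod p) = (X : ZMod p)) :
    (sg lo res ((a, L), p) * prMx (lo a) L p : ℤ) ≡ X [ZMOD p] := by
  have := Fact.mk hp
  have h1 : (pr lo ((a, L), p) : ZMod p) = (prMx (lo a) L p : ZMod p) := by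
    unfold pr
    rw [if_pos hp, prod_fac]
    simp
  rw [← ZMod.intCast_eq_intCast_iff]
  push_cast
  have h2 : (sg lo res ((a, L), p) : ZMod p) = X * (prMx (lo a) L p : ZMod p)⁻¹ := by
    unfold sg
    simp only [if_pos hp, h1]
    rw [ZMod.natCast_mod]
    push_cast
    rw [h, ZMod.natCast_zmod_val]
  rw [h2, mul_assoc, inv_mul_cancel₀ (prMx_ne hp), mul_one]

/-- the approximation -/
def rho (lo hi : α → ℕ) (res : α × ℕ → ℕ) (x : α × ℕ) : ℕ :=
  (∑ p ∈ range (x.2 + 1), if lo x.1 < p ∧ p.Prime then sgT (hi x.1) * sg lo res (x, p) / p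
    else 0) % sgT (hi x.1)

theorem rho_eq (a : α) (L : ℕ) :
    rho lo hi res (a, L) = sgRho (lo a) (hi a) (fun L p => sg lo res ((a, L), p)) L := by
  unfold rho sgRho
  rw [← Finset.sum_filter]
  congr 1
  refine Finset.sum_congr ?_ fun _ _ => rfl
  ext i
  simp only [mem_filter, mem_range, CRTAux.mem_prs]
  constructor
  · rintro ⟨h1, h2, h3⟩
    exact ⟨⟨h2, by omega⟩, h3⟩
  · rintro ⟨⟨h2, h1⟩, h3⟩
    exact ⟨by omega, h2, h3⟩

theorem sgT_fch {β : Type} [Code β] {f : β → ℕ} (hf : FCH f) : FCH fun x => sgT (f x) := by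
  refine FCH.congr (f := fun x => 64 * ((f x + 1) * (f x + 1))) (fun x => ?_) ?_
  · rw [sgT, sq]
  · exact (FCH.const 64).mul ((succ_fch hf).mul (succ_fch hf))

theorem rho_fch (hlo : FCH lo) (hhi : FCH hi) (hres : FCH res) : FCH (rho lo hi res) := by
  refine FCH.mod (f := fun x : α × ℕ => ∑ p ∈ range (x.2 + 1),
    if lo x.1 < p ∧ p.Prime then sgT (hi x.1) * sg lo res (x, p) / p else 0) ?_
    (sgT_fch (hhi.comp_ptime PTime.fst))
  refine FCH.sum (f := fun y : (α × ℕ) × ℕ =>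
    if lo y.1.1 < y.2 ∧ y.2.Prime then sgT (hi y.1.1) * sg lo res y / y.2 else 0)
    (b := fun x : α × ℕ => x.2 + 1) ?_ (succ_fch FCH.snd)
  refine FCH.ite (p := fun y : (α × ℕ) × ℕ => lo y.1.1 < y.2 ∧ y.2.Prime) ?_ ?_ (FCH.const 0)
  · exact CHP.and (CHP.lt (hlo.comp_ptime (PTime.fst.comp PTime.fst)) FCH.snd)
      (CHP.prime FCH.snd)
  · exact FCH.div (FCH.mul (sgT_fch (hhi.comp_ptime (PTime.fst.comp PTime.fst)))
      (sg_fch hlo hres)) FCH.snd

/-- the flag -/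
def flag (lo hi : α → ℕ) (res : α × ℕ → ℕ) (x : α × ℕ) : Prop :=
  4 * (hi x.1 + 1) ≤ rho lo hi res x ∧ rho lo hi res x + 4 * (hi x.1 + 1) ≤ sgT (hi x.1)

theorem flag_iff' (a : α) (L : ℕ) : flag lo hi res (a, L) ↔
    sgFlag (lo a) (hi a) (fun L p => sg lo res ((a, L), p)) L := by
  unfold flag sgFlag
  rw [rho_eq]

theorem flag_chp (hlo : FCH lo) (hhi : FCH hi) (hres : FCH res) : CHP (flag lo hi res) := by
  have h1 : FCH fun x : α × ℕ => hi x.1 := hhi.comp_ptime PTime.fst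
  have h2 : FCH fun x : α × ℕ => 4 * (hi x.1 + 1) := (FCH.const 4).mul (succ_fch h1)
  have h3 := rho_fch hlo hhi hres
  exact CHP.and (CHP.le h2 h3) (CHP.le (h3.add h2) (sgT_fch h1))

end SignAux

/-- The sign of an integer `X a` is in the counting hierarchy, if its residues modulo the primes
in `(lo a, hi a]` are in the counting hierarchy and the product of these primes is large. -/
theorem CHP.sign {X : α → ℤ} (hlo : FCH lo) (hhi : FCH hi) (hres : FCH res)
    (h : ∀ a p, p.Prime → lo a < p → p ≤ hi a → (res (a, p) : ZMod p) = (X a : ZMod p))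
    (hX : ∀ a, 8 * ((hi a : ℤ) + 1) * |X a| < prM (lo a) (hi a)) :
    CHP fun a => X a < 0 := by
  have hfl := flag_chp hlo hhi hres
  refine CHP.congr (p := fun a => ∃ L, L < hi a + 1 ∧ (lo a ≤ L ∧ flag lo hi res (a, L) ∧
    sgT (hi a) < 2 * rho lo hi res (a, L) ∧
    ∀ L', L' < hi a + 1 → (L < L' → ¬ flag lo hi res (a, L')))) (fun a => ?_) ?_
  · rw [sign_iff (a := lo a) (b := hi a) (X := X a)
      (σ := fun L p => sg lo res ((a, L), p)) ?_ (hX a)]
    · constructor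
      · rintro ⟨L, h1, h2, h3, h4, h5⟩
        refine ⟨L, h2, by omega, (flag_iff' a L).1 h3, ?_, fun L' h6 h7 h8 => ?_⟩
        · rwa [rho_eq] at h4
        · exact h5 L' (by omega) h6 ((flag_iff' a L').2 h8)
      · rintro ⟨L, h1, h2, h3, h4, h5⟩
        refine ⟨L, by omega, h1, (flag_iff' a L).2 h3, ?_, fun L' h6 h7 h8 => ?_⟩
        · rwa [rho_eq]
        · exact h5 L' h7 (by omega) ((flag_iff' a L').1 h8)
    · intro L hL p hp
      rw [CRTAux.mem_prs] at hp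
      exact sg_spec a L p hp.2 (h a p hp.2 hp.1.1 (hp.1.2.trans hL))
  · refine CHP.exists_lt (p := fun x : α × ℕ => lo x.1 ≤ x.2 ∧ flag lo hi res x ∧
      sgT (hi x.1) < 2 * rho lo hi res x ∧
      ∀ L', L' < hi x.1 + 1 → (x.2 < L' → ¬ flag lo hi res (x.1, L'))) ?_ (succ_fch hhi)
    have h1 : FCH fun x : α × ℕ => hi x.1 := hhi.comp_ptime PTime.fst
    refine CHP.and (CHP.le (hlo.comp_ptime PTime.fst) FCH.snd) (CHP.and hfl (CHP.and ?_ ?_))
    · exact CHP.lt (sgT_fch h1) ((FCH.const 2).mul (rho_fch hlo hhi hres))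
    · refine CHP.forall_lt (p := fun y : (α × ℕ) × ℕ =>
        y.1.2 < y.2 → ¬ flag lo hi res (y.1.1, y.2)) ?_ (succ_fch h1)
      refine CHP.imp (CHP.lt (FCH.of_ptime (PTime.snd.comp PTime.fst)) FCH.snd) (CHP.not ?_)
      exact hfl.comp (f := fun y : (α × ℕ) × ℕ => (y.1.1, y.2))
        ((PTime.fst.comp PTime.fst).pair PTime.snd)

end

end Vale.Agent.P337
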