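import Vale.Agent.P337.Sys
import Vale.Agent.P337.Nrm
import Vale.Agent.P337.TauTop
import Vale.Agent.P337.Newton

/-!
# P337 [N1]-[N3]: sizes of the residue functional, of the Jacobian and of `ehJ`
-/

namespace Vale.Agent.P337

open MvPolynomial

variable {N : ℕ}

/-- [N1] -/
theorem tau_nrm {R : Type*} [CommRing R] (n : Nrm R) (m E : ℕ)
    (fs : Fin N → MvPolynomial (Fin N) R) (g : MvPolynomial (Fin N) R) (φ : ℝ) (h1 : 1 ≤ φ)
    (hφ : ∀ i, (n.mv (Fin N)).ν (fs i) ≤ φ) :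
    n.ν (tau m E fs g) ≤ (E + 1) ^ N * (n.mv (Fin N)).ν g * φ ^ (N * E) := by
  unfold tau
  refine (n.sum_le _ _).trans ?_
  have hcard : ((Fintype.piFinset (fun _ : Fin N => Finset.range (E + 1))).card : ℝ) =
      ((E : ℝ) + 1) ^ N := by
    rw [Fintype.card_piFinset]
    simp
  have hterm : ∀ k ∈ Fintype.piFinset (fun _ : Fin N => Finset.range (E + 1)),
      n.ν (coeff (topExp m k) (g * ∏ i, fs i ^ k i)) ≤ (n.mv (Fin N)).ν g * φ ^ (N * E) := by
    intro k hk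
    rw [Fintype.mem_piFinset] at hk
    refine (n.coeff_le _ _).trans (((n.mv (Fin N)).mul' _ _).trans ?_)
    refine mul_le_mul_of_nonneg_left ?_ ((n.mv (Fin N)).nn _)
    refine ((n.mv (Fin N)).prod_le _ _).trans ?_
    have h2 : ∀ i ∈ (Finset.univ : Finset (Fin N)),
        (n.mv (Fin N)).ν (fs i ^ k i) ≤ φ ^ E := by
      intro i _
      have h3 := hk i
      rw [Finset.mem_range] at h3
      refine ((n.mv (Fin N)).pow_le _ _).trans ?_
      refine (pow_le_pow_left₀ ((n.mv (Fin N)).nn _) (hφ i) _).trans ?_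
      exact pow_le_pow_right₀ h1 (by omega)
    refine (Finset.prod_le_prod (fun i _ => (n.mv (Fin N)).nn _) h2).trans ?_
    rw [Finset.prod_const, Finset.card_univ, Fintype.card_fin, ← pow_mul, mul_comm E N]
  refine (Finset.sum_le_sum hterm).trans ?_
  rw [Finset.sum_const, nsmul_eq_mul, hcard]
  exact le_of_eq (by ring)

theorem pderiv_nrm {R : Type*} [CommRing R] (n : Nrm R) (f : MvPolynomial (Fin N) R) (d : ℕ)
    (hd : f.totalDegree ≤ d) (j : Fin N) :
    (n.mv (Fin N)).ν (pderiv j f) ≤ d * (n.mv (Fin N)).ν f := by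
  have h1 : pderiv j f = ∑ a ∈ f.support,
      monomial (a - Finsupp.single j 1) (coeff a f * (a j : R)) := by
    conv_lhs => rw [as_sum f]
    rw [map_sum]
    exact Finset.sum_congr rfl fun a _ => pderiv_monomial
  rw [h1]
  refine ((n.mv (Fin N)).sum_le _ _).trans ?_
  rw [Nrm.mv_def, Finset.mul_sum]
  refine Finset.sum_le_sum fun a ha => (n.monomial_le _ _).trans ?_
  rw [mul_comm (coeff a f)]
  refine (n.natCast_mul_le _ _).trans ?_
  refine mul_le_mul_of_nonneg_right ?_ (n.nn _)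
  have h2 := le_totalDegree ha
  rw [finsupp_sum_eq] at h2
  have h3 : a j ≤ ∑ i, a i := Finset.single_le_sum (f := fun i => a i) (fun _ _ => Nat.zero_le _)
    (Finset.mem_univ j)
  exact_mod_cast h3.trans (h2.trans hd)

theorem det_nrm {R : Type*} [CommRing R] (n : Nrm R) (A : Matrix (Fin N) (Fin N) R) (c : ℝ)
    (hA : ∀ i j, n.ν (A i j) ≤ c) : n.ν A.det ≤ N.factorial * c ^ N := by
  rw [Matrix.det_apply]
  refine (n.sum_le _ _).trans ?_
  have hterm : ∀ σ ∈ (Finset.univ : Finset (Equiv.Perm (Fin N))),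
      n.ν (Equiv.Perm.sign σ • ∏ i, A (σ i) i) ≤ c ^ N := by
    intro σ _
    have h1 : n.ν (Equiv.Perm.sign σ • ∏ i, A (σ i) i) = n.ν (∏ i, A (σ i) i) := by
      rcases Int.units_eq_one_or (Equiv.Perm.sign σ) with h | h
      · rw [h, one_smul]
      · rw [h, Units.neg_smul, one_smul, n.neg']
    rw [h1]
    refine (n.prod_le _ _).trans ?_
    refine (Finset.prod_le_prod (fun i _ => n.nn _) fun i _ => hA (σ i) i).trans ?_
    rw [Finset.prod_const, Finset.card_univ, Fintype.card_fin]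
  refine (Finset.sum_le_sum hterm).trans ?_
  rw [Finset.sum_const, Finset.card_univ, Fintype.card_perm, Fintype.card_fin, nsmul_eq_mul]

/-- [N2] -/
theorem jac_nrm {R : Type*} [CommRing R] (n : Nrm R) {m : ℕ} (hm : 0 < m)
    (fs : Fin N → MvPolynomial (Fin N) R) (hf : ∀ i, (fs i).totalDegree < m) (φ : ℝ) (h1 : 1 ≤ φ)
    (hφ : ∀ i, (n.mv (Fin N)).ν (fs i) ≤ φ) :
    (n.mv (Fin N)).ν (jac m fs) ≤ N.factorial * (2 * m * φ) ^ N := by
  unfold jac
  refine det_nrm (n.mv (Fin N)) _ _ fun i j => ?_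
  rw [Matrix.of_apply, jac_entry]
  refine ((n.mv (Fin N)).add' _ _).trans ?_
  rw [(n.mv (Fin N)).neg']
  have hm1 : (1 : ℝ) ≤ m := by exact_mod_cast hm
  have h2 : (n.mv (Fin N)).ν (if i = j then C (m : R) * X i ^ (m - 1) else 0) ≤ m * φ := by
    split_ifs
    · rw [map_natCast]
      refine ((n.mv (Fin N)).natCast_mul_le _ _).trans ?_
      refine mul_le_mul_of_nonneg_left ?_ (by positivity)
      exact (n.X_pow_le _ _).trans h1
    · rw [(n.mv (Fin N)).zero']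
      positivity
  have h3 : (n.mv (Fin N)).ν (pderiv j (fs i)) ≤ m * φ := by
    refine (pderiv_nrm n (fs i) m (hf i).le j).trans ?_
    exact mul_le_mul_of_nonneg_left (hφ i) (by positivity)
  linarith

/-- [N3] size of `ehJ`; here `E₀` is any number `≥ D deg g + N (m - 1)` -/
theorem ehJ_nrm {R : Type*} [CommRing R] (n : Nrm R) {m E E₀ : ℕ} (hm : 0 < m)
    (fs : Fin N → MvPolynomial (Fin N) R) (hf : ∀ i, (fs i).totalDegree < m) (φ : ℝ) (h1 : 1 ≤ φ)
    (hφ : ∀ i, (n.mv (Fin N)).ν (fs i) ≤ φ) (g : MvPolynomial (Fin N) R)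
    (hE₀ : m ^ N * g.totalDegree + N * (m - 1) ≤ E₀) (hE : E₀ ≤ E) (Λ : ℝ) (hΛ : 1 ≤ Λ)
    (hg : (n.mv (Fin N)).ν g ≤ Λ) (a : ℕ)
    (ha : (E₀ + 1) ^ N * (N.factorial * (2 * m * φ) ^ N) * φ ^ (N * E₀) ≤ a) {r : ℕ}
    (hr : r ≤ m ^ N) :
    n.ν (ehJ m E fs g r) ≤ (a + m ^ N : ℝ) ^ (m ^ N) * Λ ^ (m ^ N) := by
  have hmN : 1 ≤ m ^ N := Nat.one_le_pow _ _ hm
  have hs : ∀ l, 1 ≤ l → l ≤ r → n.ν (tau m E fs (g ^ l * jac m fs)) ≤ a * Λ ^ l := by
    intro l _ hl
    have hdeg : (g ^ l * jac m fs).totalDegree ≤ E₀ := by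
      refine (totalDegree_mul _ _).trans (le_trans ?_ hE₀)
      refine Nat.add_le_add ((totalDegree_pow _ _).trans ?_) (jac_totalDegree hm hf)
      exact Nat.mul_le_mul_right _ (hl.trans hr)
    rw [tau_indep hm hf (hdeg.trans hE) hdeg]
    refine (tau_nrm n m E₀ fs _ φ h1 hφ).trans ?_
    have h2 : (n.mv (Fin N)).ν (g ^ l * jac m fs) ≤
        Λ ^ l * (N.factorial * (2 * m * φ) ^ N) := by
      refine ((n.mv (Fin N)).mul' _ _).trans ?_
      refine mul_le_mul ?_ (jac_nrm n hm fs hf φ h1 hφ) ((n.mv (Fin N)).nn _) (by positivity)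
      exact ((n.mv (Fin N)).pow_le _ _).trans
        (pow_le_pow_left₀ ((n.mv (Fin N)).nn _) hg _)
    calc ((E₀ : ℝ) + 1) ^ N * (n.mv (Fin N)).ν (g ^ l * jac m fs) * φ ^ (N * E₀)
        ≤ ((E₀ : ℝ) + 1) ^ N * (Λ ^ l * (N.factorial * (2 * m * φ) ^ N)) * φ ^ (N * E₀) := by
          gcongr
      _ = (((E₀ : ℝ) + 1) ^ N * (N.factorial * (2 * m * φ) ^ N) * φ ^ (N * E₀)) * Λ ^ l := by
          ring
      _ ≤ a * Λ ^ l := by
          gcongr
  have h3 := eh_bound n.ν n.zero' n.one' n.nn n.neg' n.add' n.mul'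
    (fun l => tau m E fs (g ^ l * jac m fs)) a Λ (by linarith) r hs
  refine h3.trans ?_
  have h4 : (a.ascFactorial r : ℝ) ≤ ((a : ℝ) + m ^ N) ^ (m ^ N) := by
    have h5 : a.ascFactorial r ≤ (a + m ^ N) ^ (m ^ N) := by
      calc a.ascFactorial r ≤ (a + 1).ascFactorial r := Nat.ascFactorial_le r (Nat.le_succ a)
        _ ≤ (a + r) ^ r := Nat.ascFactorial_le_pow_add a r
        _ ≤ (a + m ^ N) ^ r := Nat.pow_le_pow_left (by omega) _
        _ ≤ (a + m ^ N) ^ (m ^ N) := Nat.pow_le_pow_right (by omega) hr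
    exact_mod_cast h5
  have h6 : Λ ^ r ≤ Λ ^ (m ^ N) := pow_le_pow_right₀ hΛ hr
  exact mul_le_mul h4 h6 (by positivity) (by positivity)

end Vale.Agent.P337
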