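import Vale.Agent.P337.Deg
import Vale.Agent.P337.NrmTau

/-!
# P337, piece [M-b]: sizes of the coefficients
-/

namespace Vale.Agent.P337

open MvPolynomial

/-! ## general lemmas -/

section general

variable {R : Type*} [CommRing R] {N : ℕ}

theorem Nrm.one_le_of (n : Nrm R) : n.ν 1 ≤ 1 := n.one'

theorem Nrm.two_le (n : Nrm R) : n.ν 2 ≤ 2 := by
  have := n.natCast_le 2
  push_cast at this
  exact this

theorem Nrm.two_pow_le (n : Nrm R) (s : ℕ) : n.ν (2 ^ s) ≤ 2 ^ s :=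
  (n.pow_le _ _).trans (pow_le_pow_left₀ (n.nn _) n.two_le s)

theorem Nrm.mul_le_of (n : Nrm R) {x y : R} {a b : ℝ} (hx : n.ν x ≤ a) (hy : n.ν y ≤ b) :
    n.ν (x * y) ≤ a * b :=
  (n.mul' x y).trans (mul_le_mul hx hy (n.nn _) ((n.nn _).trans hx))

theorem Nrm.add_le_of (n : Nrm R) {x y : R} {a b : ℝ} (hx : n.ν x ≤ a) (hy : n.ν y ≤ b) :
    n.ν (x + y) ≤ a + b := (n.add' x y).trans (add_le_add hx hy)

theorem Nrm.sub_le_of (n : Nrm R) {x y : R} {a b : ℝ} (hx : n.ν x ≤ a) (hy : n.ν y ≤ b) :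
    n.ν (x - y) ≤ a + b := (n.sub_le x y).trans (add_le_add hx hy)

theorem Nrm.pow_le_of (n : Nrm R) {x : R} {a : ℝ} (hx : n.ν x ≤ a) (k : ℕ) :
    n.ν (x ^ k) ≤ a ^ k := (n.pow_le x k).trans (pow_le_pow_left₀ (n.nn _) hx k)

theorem Nrm.sgn_le (n : Nrm R) (b : ℕ) : n.ν (sgn b) ≤ 1 := by
  unfold sgn
  split_ifs
  · exact n.one'
  · rw [n.neg']; exact n.one'

/-- multiplying powers of two -/
theorem two_pow_mul (a b : ℕ) : (2 : ℝ) ^ a * 2 ^ b = 2 ^ (a + b) := (pow_add _ _ _).symm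

theorem two_pow_mono {a b : ℕ} (h : a ≤ b) : (2 : ℝ) ^ a ≤ 2 ^ b :=
  pow_le_pow_right₀ one_le_two h

theorem one_le_two_pow' (a : ℕ) : (1 : ℝ) ≤ 2 ^ a := one_le_pow₀ one_le_two

theorem two_pow_add_le (a : ℕ) : (2 : ℝ) ^ a + 2 ^ a = 2 ^ (a + 1) := by
  rw [pow_succ]; ring

theorem natCast_le_two_pow (a : ℕ) : (a : ℝ) ≤ 2 ^ a := by
  exact_mod_cast Nat.lt_two_pow_self.le

theorem qg_nrm (n : Nrm R) {S : ℕ} {t : R} (ht : n.ν t ≤ 2 ^ S) :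
    n.ν (qg S t) ≤ 2 ^ ((S + 2) ^ 2) := by
  unfold qg
  have h1 : n.ν (2 * t + 1) ≤ 2 ^ (S + 2) := by
    refine (n.add_le_of (n.mul_le_of n.two_le ht) n.one').trans ?_
    have := one_le_two_pow' S
    rw [pow_add]
    linarith
  have h2 : n.ν (∏ s ∈ Finset.range (S + 1), (t + 2 ^ s)) ≤ (2 ^ (S + 1)) ^ (S + 1) := by
    refine (n.prod_le _ _).trans ?_
    have h3 : ∀ s ∈ Finset.range (S + 1), n.ν (t + 2 ^ s) ≤ 2 ^ (S + 1) := by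
      intro s hs
      have hs' : s ≤ S := by have := Finset.mem_range.1 hs; omega
      refine (n.add_le_of ht ((n.two_pow_le s).trans (two_pow_mono hs'))).trans ?_
      rw [two_pow_add_le]
    refine (Finset.prod_le_prod (fun s _ => n.nn _) h3).trans ?_
    rw [Finset.prod_const, Finset.card_range]
  refine (n.mul_le_of h1 h2).trans ?_
  rw [← pow_mul, two_pow_mul]
  apply two_pow_mono
  nlinarith

theorem dg_nrm (n : Nrm R) {S k : ℕ} {t : R} (ht : n.ν t ≤ 2 ^ S) :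
    n.ν (dg S k t) ≤ 2 ^ (2 * k * (S + 2) ^ 2 + 1) := by
  unfold dg
  have h1 := n.pow_le_of (qg_nrm n ht) (2 * k)
  have h2 := n.pow_le_of (qg_nrm n (S := S) (t := -t) (by rwa [n.neg'])) (2 * k)
  refine (n.add_le_of h1 h2).trans ?_
  rw [← pow_mul, mul_comm ((S + 2) ^ 2) (2 * k), two_pow_add_le]

theorem gg_nrm {ι : Type*} [DecidableEq ι] (n : Nrm R) {S k : ℕ} (I : Finset ι) {t : ι → R}
    (ht : ∀ i ∈ I, n.ν (t i) ≤ 2 ^ S) :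
    n.ν (gg S k I t) ≤
      (2 * I.card + 1) * 2 ^ (I.card * (2 * k * (S + 2) ^ 2 + 1)) := by
  unfold gg
  set W := 2 * k * (S + 2) ^ 2 + 1 with hW
  have hprod : ∀ J : Finset ι, J ⊆ I → n.ν (∏ r ∈ J, dg S k (t r)) ≤ 2 ^ (J.card * W) := by
    intro J hJ
    refine (n.prod_le _ _).trans ?_
    refine (Finset.prod_le_prod (fun s _ => n.nn _)
      (fun s hs => dg_nrm n (k := k) (ht s (hJ hs)))).trans ?_
    rw [Finset.prod_const, ← pow_mul, mul_comm]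
  have h1 := hprod I (Finset.Subset.refl _)
  have h2 : n.ν (∑ r ∈ I, qg S (-t r) ^ (2 * k) * ∏ s ∈ I.erase r, dg S k (t s)) ≤
      I.card * 2 ^ (I.card * W) := by
    refine (n.sum_le _ _).trans ?_
    have h3 : ∀ r ∈ I, n.ν (qg S (-t r) ^ (2 * k) * ∏ s ∈ I.erase r, dg S k (t s)) ≤
        2 ^ (I.card * W) := by
      intro r hr
      have ha : n.ν (qg S (-t r) ^ (2 * k)) ≤ 2 ^ W := by
        refine (n.pow_le_of (qg_nrm n (S := S) (t := -t r)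
          (by rw [n.neg']; exact ht r hr)) (2 * k)).trans ?_
        rw [← pow_mul, mul_comm ((S + 2) ^ 2) (2 * k)]
        exact two_pow_mono (Nat.le_succ _)
      have hb := hprod (I.erase r) (Finset.erase_subset _ _)
      refine (n.mul_le_of ha hb).trans ?_
      rw [two_pow_mul, Finset.card_erase_of_mem hr]
      have : 0 < I.card := Finset.card_pos.2 ⟨r, hr⟩
      obtain ⟨c, hc⟩ : ∃ c, I.card = c + 1 := ⟨I.card - 1, by omega⟩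
      rw [hc, Nat.add_sub_cancel]
      exact le_of_eq (by ring)
    refine (Finset.sum_le_sum h3).trans ?_
    rw [Finset.sum_const, nsmul_eq_mul]
  refine (n.sub_le_of h1 (n.mul_le_of n.two_le h2)).trans ?_
  exact le_of_eq (by ring)

end general

/-! ## number lemmas -/

namespace SizesAux

theorem exp_le1 {Z B : ℕ} (hZ10 : 10 ≤ Z) (hZB : Z ≤ B) :
    3 * Z * Z + (Z * Z + (1 + Z + (B ^ 2 + B)) * Z) + (B ^ 2 + B) * (Z * Z ^ 3) ≤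
      B ^ 2 * Z ^ 5 := by
  have hB10 : 10 ≤ B := hZ10.trans hZB
  have hBB : B ^ 2 + B ≤ 2 * B ^ 2 := by nlinarith
  have h1Z : 1 + Z + (B ^ 2 + B) ≤ 3 * B ^ 2 := by nlinarith
  have hB21 : 1 ≤ B ^ 2 := Nat.one_le_pow _ _ (by omega)
  have hZ5 : 4 * (Z * Z) + (3 * Z + 2 * (Z * Z ^ 3)) ≤ Z ^ 5 := by
    have a1 : 10 * (Z * Z ^ 3) ≤ Z ^ 5 := by
      calc 10 * (Z * Z ^ 3) ≤ Z * (Z * Z ^ 3) := Nat.mul_le_mul_right _ hZ10
        _ = Z ^ 5 := by ring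
    have a2 : Z * Z ≤ Z * Z ^ 3 :=
      Nat.mul_le_mul_left _ (Nat.le_self_pow (by norm_num) Z)
    have a3 : Z ≤ Z * Z := Nat.le_mul_of_pos_left _ (by omega)
    omega
  calc 3 * Z * Z + (Z * Z + (1 + Z + (B ^ 2 + B)) * Z) + (B ^ 2 + B) * (Z * Z ^ 3)
      ≤ 3 * Z * Z + (Z * Z + (3 * B ^ 2) * Z) + (2 * B ^ 2) * (Z * Z ^ 3) := by gcongr
    _ = 1 * (4 * (Z * Z)) + B ^ 2 * (3 * Z + 2 * (Z * Z ^ 3)) := by ring
    _ ≤ B ^ 2 * (4 * (Z * Z)) + B ^ 2 * (3 * Z + 2 * (Z * Z ^ 3)) :=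
        Nat.add_le_add_right (Nat.mul_le_mul_right _ hB21) _
    _ = B ^ 2 * (4 * (Z * Z) + (3 * Z + 2 * (Z * Z ^ 3))) := by ring
    _ ≤ B ^ 2 * Z ^ 5 := Nat.mul_le_mul_left _ hZ5

theorem numA {Z B N m E₀ : ℕ} (hZ10 : 10 ≤ Z) (hZB : Z ≤ B) (hNZ : N ≤ Z) (hmZ : m ≤ Z)
    (hE₀Z : E₀ + 1 ≤ Z ^ 3) :
    ((E₀ : ℝ) + 1) ^ N * (N.factorial * (2 * m * (2 : ℝ) ^ (B ^ 2 + B)) ^ N) *
      ((2 : ℝ) ^ (B ^ 2 + B)) ^ (N * E₀) ≤ ((2 ^ (B ^ 2 * Z ^ 5) : ℕ) : ℝ) := by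
  have hE1 : ((E₀ : ℝ) + 1) ≤ 2 ^ (3 * Z) := by
    have h1 : ((E₀ + 1 : ℕ) : ℝ) ≤ ((Z ^ 3 : ℕ) : ℝ) := Nat.cast_le.2 hE₀Z
    push_cast at h1
    refine h1.trans ?_
    rw [mul_comm 3 Z, pow_mul]
    exact pow_le_pow_left₀ (by positivity) (natCast_le_two_pow Z) 3
  have hE2 : ((E₀ : ℝ) + 1) ^ N ≤ 2 ^ (3 * Z * Z) := by
    refine (pow_le_pow_left₀ (by positivity) hE1 N).trans ?_
    rw [← pow_mul]
    exact two_pow_mono (Nat.mul_le_mul_left _ hNZ)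
  have hF : (N.factorial : ℝ) ≤ 2 ^ (Z * Z) := by
    have h1 : ((N.factorial : ℕ) : ℝ) ≤ ((N ^ N : ℕ) : ℝ) := Nat.cast_le.2 N.factorial_le_pow
    push_cast at h1
    refine h1.trans ?_
    refine (pow_le_pow_left₀ (by positivity) (natCast_le_two_pow N) N).trans ?_
    rw [← pow_mul]
    exact two_pow_mono (Nat.mul_le_mul hNZ hNZ)
  have hM : (2 * m * (2 : ℝ) ^ (B ^ 2 + B)) ^ N ≤ 2 ^ ((1 + Z + (B ^ 2 + B)) * Z) := by
    have h1 : (2 * m * (2 : ℝ) ^ (B ^ 2 + B)) ≤ 2 ^ (1 + Z + (B ^ 2 + B)) := by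
      rw [pow_add (2 : ℝ) (1 + Z), pow_add (2 : ℝ) 1, pow_one]
      have : (m : ℝ) ≤ 2 ^ Z := (natCast_le_two_pow m).trans (two_pow_mono hmZ)
      gcongr
    refine (pow_le_pow_left₀ (by positivity) h1 N).trans ?_
    rw [← pow_mul]
    exact two_pow_mono (Nat.mul_le_mul_left _ hNZ)
  have hP : ((2 : ℝ) ^ (B ^ 2 + B)) ^ (N * E₀) ≤ 2 ^ ((B ^ 2 + B) * (Z * Z ^ 3)) := by
    rw [← pow_mul]
    apply two_pow_mono
    exact Nat.mul_le_mul_left _ (Nat.mul_le_mul hNZ (by omega))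
  have hexp := exp_le1 hZ10 hZB
  calc ((E₀ : ℝ) + 1) ^ N * (N.factorial * (2 * m * (2 : ℝ) ^ (B ^ 2 + B)) ^ N) *
        ((2 : ℝ) ^ (B ^ 2 + B)) ^ (N * E₀)
      ≤ 2 ^ (3 * Z * Z) * (2 ^ (Z * Z) * 2 ^ ((1 + Z + (B ^ 2 + B)) * Z)) *
        2 ^ ((B ^ 2 + B) * (Z * Z ^ 3)) :=
        mul_le_mul (mul_le_mul hE2 (mul_le_mul hF hM (by positivity) (by positivity))
          (by positivity) (by positivity)) hP (by positivity) (by positivity)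
    _ = 2 ^ (3 * Z * Z + (Z * Z + (1 + Z + (B ^ 2 + B)) * Z) +
        (B ^ 2 + B) * (Z * Z ^ 3)) := by rw [two_pow_mul, two_pow_mul, two_pow_mul]
    _ ≤ 2 ^ (B ^ 2 * Z ^ 5) := two_pow_mono hexp
    _ = ((2 ^ (B ^ 2 * Z ^ 5) : ℕ) : ℝ) := by rw [Nat.cast_pow, Nat.cast_ofNat]

theorem exp_le2 {Z B : ℕ} (hZ10 : 10 ≤ Z) (hZ7 : Z ^ 7 ≤ B) :
    Z * Z + ((B ^ 2 * Z ^ 5 + 1) * Z + Z) ≤ 2 * B ^ 3 := by
  have a1 : Z * Z + Z + Z ≤ Z ^ 7 := by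
    have b1 : Z ≤ Z * Z := Nat.le_mul_of_pos_left _ (by omega)
    have b2 : 10 * (Z * Z) ≤ Z * (Z * Z) := Nat.mul_le_mul_right _ hZ10
    have b3 : Z * (Z * Z) ≤ Z ^ 7 := by
      calc Z * (Z * Z) = Z ^ 3 := by ring
        _ ≤ Z ^ 7 := Nat.pow_le_pow_right (by omega) (by norm_num)
    omega
  have a2 : Z ^ 6 ≤ Z ^ 7 := Nat.pow_le_pow_right (by omega) (by norm_num)
  have a3 : B ≤ B ^ 3 := Nat.le_self_pow (by norm_num) B
  calc Z * Z + ((B ^ 2 * Z ^ 5 + 1) * Z + Z) = (Z * Z + Z + Z) + B ^ 2 * Z ^ 6 := by ring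
    _ ≤ B + B ^ 2 * B := by
        gcongr
        · exact a1.trans hZ7
        · exact a2.trans hZ7
    _ ≤ B ^ 3 + B ^ 3 := by
        have : B ^ 2 * B = B ^ 3 := by ring
        omega
    _ = 2 * B ^ 3 := by ring

theorem numF {Z B D : ℕ} (hZ10 : 10 ≤ Z) (hZ7 : Z ^ 7 ≤ B) (hDZ : D ≤ Z) :
    (2 : ℝ) ^ (Z * Z) * ((((2 ^ (B ^ 2 * Z ^ 5) : ℕ) : ℝ) + (D : ℝ)) ^ D * 2 ^ D) ≤
      2 ^ (2 * B ^ 3) := by
  have hB1 : 0 < B := lt_of_lt_of_le (by positivity) hZ7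
  have hbase : (((2 ^ (B ^ 2 * Z ^ 5) : ℕ) : ℝ) + (D : ℝ)) ≤ 2 ^ (B ^ 2 * Z ^ 5 + 1) := by
    have h1 : (D : ℝ) ≤ 2 ^ (B ^ 2 * Z ^ 5) := by
      refine (natCast_le_two_pow D).trans (two_pow_mono (hDZ.trans ?_))
      calc Z ≤ Z ^ 5 := Nat.le_self_pow (by norm_num) Z
        _ ≤ B ^ 2 * Z ^ 5 := Nat.le_mul_of_pos_left _ (by positivity)
    rw [← two_pow_add_le]
    rw [Nat.cast_pow, Nat.cast_ofNat]
    linarith
  have hpow : (((2 ^ (B ^ 2 * Z ^ 5) : ℕ) : ℝ) + (D : ℝ)) ^ D ≤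
      2 ^ ((B ^ 2 * Z ^ 5 + 1) * Z) := by
    refine (pow_le_pow_left₀ (by positivity) hbase D).trans ?_
    rw [← pow_mul]
    exact two_pow_mono (Nat.mul_le_mul_left _ hDZ)
  have htwo : (2 : ℝ) ^ D ≤ 2 ^ Z := two_pow_mono hDZ
  have hexp := exp_le2 hZ10 hZ7
  calc (2 : ℝ) ^ (Z * Z) * ((((2 ^ (B ^ 2 * Z ^ 5) : ℕ) : ℝ) + (D : ℝ)) ^ D * 2 ^ D)
      ≤ 2 ^ (Z * Z) * (2 ^ ((B ^ 2 * Z ^ 5 + 1) * Z) * 2 ^ Z) :=
        mul_le_mul_of_nonneg_left (mul_le_mul hpow htwo (by positivity) (by positivity))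
          (by positivity)
    _ = 2 ^ (Z * Z + ((B ^ 2 * Z ^ 5 + 1) * Z + Z)) := by rw [two_pow_mul, two_pow_mul]
    _ ≤ 2 ^ (2 * B ^ 3) := two_pow_mono hexp

theorem numFac {D Z r : ℕ} (hDZ : D ≤ Z) :
    ((D.factorial / r.factorial : ℕ) : ℝ) ≤ 2 ^ (Z * Z) := by
  have h1 : D.factorial / r.factorial ≤ D ^ D := (Nat.div_le_self _ _).trans D.factorial_le_pow
  have h1' : ((D.factorial / r.factorial : ℕ) : ℝ) ≤ ((D ^ D : ℕ) : ℝ) := Nat.cast_le.2 h1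
  refine h1'.trans ?_
  rw [Nat.cast_pow]
  refine (pow_le_pow_left₀ (Nat.cast_nonneg _) (natCast_le_two_pow D) D).trans ?_
  rw [← pow_mul]
  exact two_pow_mono (Nat.mul_le_mul hDZ hDZ)

theorem numHp {Z B N m P c : ℕ} (hZ10 : 10 ≤ Z) (hZ5 : Z ^ 5 ≤ B) (hNZ : N ≤ Z) (hmZ : m ≤ Z)
    (hPZ : P ≤ Z) (hc : c ≤ B) :
    ((m : ℝ) + 1) * 2 ^ B ^ 2 * P + N + (m + 1) * c * N ≤ 2 ^ (B ^ 2 + B) := by
  have g1 : (m + 1) * P + N + (m + 1) * N ≤ B := by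
    refine le_trans ?_ hZ5
    calc (m + 1) * P + N + (m + 1) * N ≤ (Z + 1) * Z + Z + (Z + 1) * Z := by gcongr
      _ ≤ Z ^ 5 := by
        have b1 : Z ≤ Z * Z := Nat.le_mul_of_pos_left _ (by omega)
        have b2 : 10 * (Z * Z) ≤ Z * (Z * Z) := Nat.mul_le_mul_right _ hZ10
        have b3 : Z * (Z * Z) ≤ Z ^ 5 := by
          calc Z * (Z * Z) = Z ^ 3 := by ring
            _ ≤ Z ^ 5 := Nat.pow_le_pow_right (by omega) (by norm_num)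
        have b4 : (Z + 1) * Z = Z * Z + Z := by ring
        omega
  have g1' : ((m : ℝ) + 1) * P + N + (m + 1) * N ≤ B := by exact_mod_cast g1
  have g2 : (c : ℝ) ≤ 2 ^ B ^ 2 := by
    have : (c : ℝ) ≤ B := by exact_mod_cast hc
    refine this.trans ((natCast_le_two_pow B).trans (two_pow_mono ?_))
    exact Nat.le_self_pow (by norm_num) B
  have g3 : (1 : ℝ) ≤ 2 ^ B ^ 2 := one_le_two_pow' _
  have hN0 : (0 : ℝ) ≤ N := Nat.cast_nonneg N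
  have hm0 : (0 : ℝ) ≤ m := Nat.cast_nonneg m
  set K : ℝ := 2 ^ B ^ 2 with hK
  have e1 : (N : ℝ) ≤ N * K := le_mul_of_one_le_right hN0 g3
  have e2 : ((m : ℝ) + 1) * c * N ≤ (m + 1) * K * N :=
    mul_le_mul_of_nonneg_right (mul_le_mul_of_nonneg_left g2 (by positivity)) hN0
  calc ((m : ℝ) + 1) * K * P + N + (m + 1) * c * N
      ≤ ((m : ℝ) + 1) * K * P + N * K + (m + 1) * K * N := by linarith
    _ = K * (((m : ℝ) + 1) * P + N + (m + 1) * N) := by ring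
    _ ≤ K * B := mul_le_mul_of_nonneg_left g1' (by positivity)
    _ ≤ K * 2 ^ B := mul_le_mul_of_nonneg_left (natCast_le_two_pow B) (by positivity)
    _ = 2 ^ (B ^ 2 + B) := two_pow_mul _ _

theorem numT {B : ℕ} (hB10 : 10 ≤ B) : B ^ 5 + 2 * B ^ 3 + B ^ 2 + B + 3 ≤ B ^ 6 := by
  have a0 : 1 ≤ B := by omega
  have a1 : B ^ 3 ≤ B ^ 5 := Nat.pow_le_pow_right a0 (by norm_num)
  have a2 : B ^ 2 ≤ B ^ 5 := Nat.pow_le_pow_right a0 (by norm_num)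
  have a3 : B ≤ B ^ 5 := Nat.le_self_pow (by norm_num) B
  have a4 : 10 * B ^ 5 ≤ B ^ 6 := by
    calc 10 * B ^ 5 ≤ B * B ^ 5 := Nat.mul_le_mul_right _ hB10
      _ = B ^ 6 := by ring
  have a5 : 3 ≤ B ^ 5 := le_trans (by omega) a3
  omega

theorem numW {B k : ℕ} (hB : 17 ≤ B) (hk : k ≤ B) :
    (k + 1) * (2 * B * (B ^ 6 + 2) ^ 2 + 1) ≤ B ^ 15 := by
  have a1 : B ^ 6 + 2 ≤ 2 * B ^ 6 := by
    have : B ≤ B ^ 6 := Nat.le_self_pow (by norm_num) B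
    omega
  have h1 : k + 1 ≤ 2 * B := by omega
  calc (k + 1) * (2 * B * (B ^ 6 + 2) ^ 2 + 1)
      ≤ (2 * B) * (2 * B * (2 * B ^ 6) ^ 2 + 1) := by gcongr
    _ = 16 * B ^ 14 + 2 * B := by ring
    _ ≤ 17 * B ^ 14 := by
        have : 2 * B ≤ B ^ 14 := by
          calc 2 * B ≤ B * B := Nat.mul_le_mul_right _ (by omega)
            _ = B ^ 2 := by ring
            _ ≤ B ^ 14 := Nat.pow_le_pow_right (by omega) (by norm_num)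
        omega
    _ ≤ B * B ^ 14 := Nat.mul_le_mul_right _ hB
    _ = B ^ 15 := by ring

theorem numG {B k : ℕ} (hB : 17 ≤ B) (hk : k ≤ B) :
    (4 : ℝ) * B * ((2 * ((k + 1 : ℕ) : ℝ) + 1) *
      2 ^ ((k + 1) * (2 * B * (B ^ 6 + 2) ^ 2 + 1))) + B ≤ 2 ^ B ^ 16 := by
  have hkB : ((k + 1 : ℕ) : ℝ) ≤ 2 * B := by
    have : k + 1 ≤ 2 * B := by omega
    exact_mod_cast this
  have hB0 : (0 : ℝ) ≤ B := Nat.cast_nonneg B
  have hB17 : (17 : ℝ) ≤ B := by exact_mod_cast hB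
  have hpre : (4 : ℝ) * B * (2 * ((k + 1 : ℕ) : ℝ) + 1) + B ≤ 2 ^ (3 * B) := by
    have h7 : (4 : ℝ) * B * (2 * ((k + 1 : ℕ) : ℝ) + 1) + B ≤ (B : ℝ) ^ 3 * 2 := by
      have e1 : (4 : ℝ) * B * (2 * ((k + 1 : ℕ) : ℝ) + 1) ≤ 4 * B * (2 * (2 * B) + 1) := by
        gcongr
      have e2 : (B : ℝ) * B * 17 ≤ B * B * B := mul_le_mul_of_nonneg_left hB17 (by positivity)
      have e3 : (B : ℝ) * 17 ≤ B * B := mul_le_mul_of_nonneg_left hB17 hB0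
      nlinarith
    have h8 : (B : ℝ) ≤ 2 ^ (B - 1) := by
      have : B ≤ 2 ^ (B - 1) := by
        have h9 := (B - 1).lt_two_pow_self
        omega
      exact_mod_cast this
    calc (4 : ℝ) * B * (2 * ((k + 1 : ℕ) : ℝ) + 1) + B ≤ (B : ℝ) ^ 3 * 2 := h7
      _ ≤ (2 ^ (B - 1)) ^ 3 * 2 :=
          mul_le_mul_of_nonneg_right (pow_le_pow_left₀ hB0 h8 3) (by norm_num)
      _ = 2 ^ ((B - 1) * 3 + 1) := by rw [← pow_mul, pow_succ]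
      _ ≤ 2 ^ (3 * B) := two_pow_mono (by omega)
  have hWle := numW hB hk
  set W := (k + 1) * (2 * B * (B ^ 6 + 2) ^ 2 + 1) with hWdef
  have h1W : (1 : ℝ) ≤ 2 ^ W := one_le_two_pow' _
  have e0 : (B : ℝ) ≤ B * 2 ^ W := le_mul_of_one_le_right hB0 h1W
  have hexp : 3 * B + W ≤ B ^ 16 := by
    have a1 : 3 * B ≤ B ^ 15 := by
      calc 3 * B ≤ B * B := Nat.mul_le_mul_right _ (by omega)
        _ = B ^ 2 := by ring
        _ ≤ B ^ 15 := Nat.pow_le_pow_right (by omega) (by norm_num)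
    have a2 : 17 * B ^ 15 ≤ B ^ 16 := by
      calc 17 * B ^ 15 ≤ B * B ^ 15 := Nat.mul_le_mul_right _ hB
        _ = B ^ 16 := by ring
    omega
  calc (4 : ℝ) * B * ((2 * ((k + 1 : ℕ) : ℝ) + 1) * 2 ^ W) + B
      ≤ (4 : ℝ) * B * ((2 * ((k + 1 : ℕ) : ℝ) + 1) * 2 ^ W) + B * 2 ^ W := by linarith
    _ = (4 * B * (2 * ((k + 1 : ℕ) : ℝ) + 1) + B) * 2 ^ W := by ring
    _ ≤ 2 ^ (3 * B) * 2 ^ W := mul_le_mul_of_nonneg_right hpre (by positivity)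
    _ = 2 ^ (3 * B + W) := two_pow_mul _ _
    _ ≤ 2 ^ B ^ 16 := two_pow_mono hexp

end SizesAux

/-! ## part M -/

variable {N : ℕ} {L m : ℕ} {f : MvPolynomial (Fin N) ℤ} {B : ℕ}

theorem norm1_eq (f : MvPolynomial (Fin N) ℤ) : ((norm1 f : ℕ) : ℝ) = (Nrm.int.mv (Fin N)).ν f := by
  rw [Nrm.mv_def, norm1]
  push_cast
  refine Finset.sum_congr rfl fun a _ => ?_
  rw [Nat.cast_natAbs, Int.cast_abs]
  rfl

theorem int_natCast_le (c : ℕ) : (Nrm.int.mv (Fin N)).ν (C (c : ℤ)) ≤ c :=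
  (Nrm.int.C_le _).trans (Nrm.int.natCast_le c)

theorem C_two_pow_le (a : ℕ) : (Nrm.int.mv (Fin N)).ν (C ((2 : ℤ) ^ a)) ≤ 2 ^ a :=
  (Nrm.int.C_le _).trans (Nrm.int.two_pow_le a)

namespace Std

theorem Z10 (_h : Std L m f B) : 10 ≤ m ^ N + 2 ^ L + 10 := Nat.le_add_left 10 _

theorem N_le_Z (h : Std L m f B) : N ≤ m ^ N + 2 ^ L + 10 := by
  have h1 := h.NL
  have h2 := L.lt_two_pow_self
  have h3 := Nat.zero_le (m ^ N)
  omega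

theorem m_le_Z (h : Std L m f B) : m ≤ m ^ N + 2 ^ L + 10 := by
  have h1 := h.mL
  have h2 := L.lt_two_pow_self
  have h3 := Nat.zero_le (m ^ N)
  omega

theorem D_le_Z (_h : Std L m f B) : m ^ N ≤ m ^ N + 2 ^ L + 10 := by
  have h3 := Nat.zero_le (2 ^ L)
  omega

theorem P_le_Z (_h : Std L m f B) : 2 ^ L ≤ m ^ N + 2 ^ L + 10 := by
  have h3 := Nat.zero_le (m ^ N)
  omega

end Std

/-- [M-b] -/
theorem fK_nrm (h : Std L m f B) {c : ℕ} (hc : c ≤ B) (i : Fin N) :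
    (Nrm.int.mv (Fin N)).ν (fK f (2 ^ B ^ 2) (c : ℤ) i) ≤ 2 ^ (B ^ 2 + B) := by
  have hf : (Nrm.int.mv (Fin N)).ν f ≤ 2 ^ L := by
    rw [← norm1_eq]
    exact_mod_cast h.nrm
  have hp := pderiv_nrm Nrm.int f m h.deg.le i
  have h1 : (Nrm.int.mv (Fin N)).ν (pderiv i f) ≤ m * 2 ^ L :=
    hp.trans (mul_le_mul_of_nonneg_left hf (Nat.cast_nonneg m))
  unfold fK
  refine ((Nrm.int.mv (Fin N)).sub_le_of (int_natCast_le c)
    ((Nrm.int.mv (Fin N)).mul_le_of (C_two_pow_le (B ^ 2)) h1)).trans ?_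
  have hZ2 : (m ^ N + 2 ^ L + 10) ^ 2 ≤ B := h.Zpow_le (by norm_num)
  have hmL : m * 2 ^ L ≤ B := by
    refine le_trans ?_ hZ2
    rw [pow_two]
    exact Nat.mul_le_mul h.m_le_Z h.P_le_Z
  have hmL' : (m : ℝ) * 2 ^ L ≤ B := by exact_mod_cast hmL
  have hc' : (c : ℝ) ≤ B := by exact_mod_cast hc
  have hB : 2 * B ≤ 2 ^ B := by
    have h10 : 10 ≤ B := h.Z10.trans h.Z_le
    obtain ⟨b, rfl⟩ : ∃ b, B = b + 1 := ⟨B - 1, by omega⟩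
    have := b.lt_two_pow_self
    rw [pow_succ]
    omega
  have hB' : (2 : ℝ) * B ≤ 2 ^ B := by exact_mod_cast hB
  have h2 := one_le_two_pow' (B ^ 2)
  have hB0 : (0 : ℝ) ≤ B := Nat.cast_nonneg B
  calc (c : ℝ) + 2 ^ B ^ 2 * (m * 2 ^ L) ≤ 2 ^ B ^ 2 * B + 2 ^ B ^ 2 * B := by
        apply add_le_add
        · nlinarith
        · exact mul_le_mul_of_nonneg_left hmL' (by positivity)
    _ = 2 ^ B ^ 2 * (2 * B) := by ring
    _ ≤ 2 ^ B ^ 2 * 2 ^ B := mul_le_mul_of_nonneg_left hB' (by positivity)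
    _ = 2 ^ (B ^ 2 + B) := two_pow_mul _ _

theorem map_C_nrm (g : MvPolynomial (Fin N) ℤ) :
    (Nrm.int.poly.mv (Fin N)).ν (map Polynomial.C g) ≤ (Nrm.int.mv (Fin N)).ν g := by
  rw [Nrm.mv_def, Nrm.mv_def]
  rw [Nrm.mv_eq_of_subset Nrm.int.poly (support_map_subset (Polynomial.C : ℤ →+* _) g)]
  refine Finset.sum_le_sum fun a _ => ?_
  rw [coeff_map]
  exact Nrm.int.poly_C_le _

theorem aeval_X_nrm (i : Fin N) (p : Polynomial ℤ) :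
    (Nrm.int.mv (Fin N)).ν (Polynomial.aeval (X i : MvPolynomial (Fin N) ℤ) p) ≤
      Nrm.int.poly.ν p := by
  rw [Polynomial.aeval_def, Polynomial.eval₂_eq_sum, Polynomial.sum, Nrm.poly_def]
  refine ((Nrm.int.mv (Fin N)).sum_le _ _).trans (Finset.sum_le_sum fun a _ => ?_)
  refine ((Nrm.int.mv (Fin N)).mul' _ _).trans ?_
  have h1 : (Nrm.int.mv (Fin N)).ν ((algebraMap ℤ (MvPolynomial (Fin N) ℤ)) (p.coeff a)) ≤
      Nrm.int.ν (p.coeff a) := Nrm.int.C_le _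
  have h2 := Nrm.int.X_pow_le i a
  have h3 := (Nrm.int.mv (Fin N)).nn (X i ^ a)
  have h4 := Nrm.int.nn (p.coeff a)
  nlinarith [(Nrm.int.mv (Fin N)).nn ((algebraMap ℤ (MvPolynomial (Fin N) ℤ)) (p.coeff a))]

/-- the size of `w_{i,r}` as a polynomial in `u` -/
theorem wU_nrm (h : Std L m f B) {c : ℕ} (hc : c ≤ B) (i : Fin N) {r : ℕ} (hr : r ≤ m ^ N) :
    Nrm.int.poly.ν (wU m (B ^ 12) (fK f (2 ^ B ^ 2) (c : ℤ)) i r) ≤ 2 ^ (2 * B ^ 3) := by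
  classical
  set Z := m ^ N + 2 ^ L + 10 with hZ
  have hZ10 : 10 ≤ Z := h.Z10
  have hNZ : N ≤ Z := h.N_le_Z
  have hmZ : m ≤ Z := h.m_le_Z
  have hDZ : m ^ N ≤ Z := h.D_le_Z
  have hZB : Z ≤ B := h.Z_le
  have hZ7 : Z ^ 7 ≤ B := h.Zpow_le (by norm_num)
  have hB10 : 10 ≤ B := hZ10.trans hZB
  set g : MvPolynomial (Fin N) (Polynomial ℤ) := C Polynomial.X - X i with hg
  have hgdeg : g.totalDegree ≤ 1 := by
    rw [← leD_iff]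
    refine (leD_C _ _).sub ?_
    simpa using leD_X_pow (R := Polynomial ℤ) i 1
  have hgn : (Nrm.int.poly.mv (Fin N)).ν g ≤ 2 := by
    refine ((Nrm.int.poly.mv (Fin N)).sub_le_of
      ((Nrm.int.poly.C_le _).trans Nrm.int.poly_X_le) (Nrm.int.poly.X_le i)).trans ?_
    norm_num
  set E₀ := m ^ N + N * (m - 1) with hE₀
  have hE₀Z : E₀ + 1 ≤ Z ^ 3 := by
    have h1 : N * (m - 1) ≤ Z * Z := Nat.mul_le_mul hNZ (by omega)
    have h2 : Z ^ 3 = Z * (Z * Z) := by ring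
    have h3 : 10 * (Z * Z) ≤ Z * (Z * Z) := Nat.mul_le_mul_right _ hZ10
    have h4 : 10 * Z ≤ Z * Z := Nat.mul_le_mul_right _ hZ10
    omega
  have hE : E₀ ≤ B ^ 12 := by
    have h1 : Z ^ 3 ≤ B := h.Zpow_le (by norm_num)
    have h2 : B ≤ B ^ 12 := Nat.le_self_pow (by norm_num) B
    omega
  have hfd : ∀ j, (map Polynomial.C (fK f (2 ^ B ^ 2) (c : ℤ) j) :
      MvPolynomial (Fin N) (Polynomial ℤ)).totalDegree < m := fun j =>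
    lt_of_le_of_lt (Finset.sup_mono (support_map_subset _ _)) (fK_deg h _ _ j)
  have hfn : ∀ j, (Nrm.int.poly.mv (Fin N)).ν (map Polynomial.C (fK f (2 ^ B ^ 2) (c : ℤ) j)) ≤
      2 ^ (B ^ 2 + B) := fun j => (map_C_nrm _).trans (fK_nrm h hc j)
  have hA := SizesAux.numA hZ10 hZB hNZ hmZ hE₀Z
  have hmain := ehJ_nrm Nrm.int.poly (E := B ^ 12) (E₀ := E₀) h.m0
    (fun j => map Polynomial.C (fK f (2 ^ B ^ 2) (c : ℤ) j)) hfd (2 ^ (B ^ 2 + B))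
    (one_le_two_pow' _) hfn g (by
      rw [hE₀]
      have := Nat.mul_le_mul_left (m ^ N) hgdeg
      omega) hE 2 one_le_two hgn (2 ^ (B ^ 2 * Z ^ 5)) hA hr
  unfold wU
  have hfac : Nrm.int.poly.ν (Polynomial.C ((((m ^ N).factorial / r.factorial : ℕ)) : ℤ)) ≤
      2 ^ (Z * Z) := by
    refine (Nrm.int.poly_C_le _).trans ((Nrm.int.natCast_le _).trans ?_)
    exact SizesAux.numFac hDZ
  refine (Nrm.int.poly.mul_le_of hfac hmain).trans ?_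
  have hfin := SizesAux.numF hZ10 hZ7 hDZ
  rw [Nat.cast_pow m N] at hfin
  exact hfin

theorem wP_nrm (h : Std L m f B) {c : ℕ} (hc : c ≤ B) (i : Fin N) {r : ℕ} (hr : r ≤ m ^ N) :
    (Nrm.int.mv (Fin N)).ν (wP m (B ^ 12) (fK f (2 ^ B ^ 2) (c : ℤ)) i r) ≤ 2 ^ (2 * B ^ 3) :=
  (aeval_X_nrm i _).trans (wU_nrm h hc i hr)

theorem Hp_nrm (h : Std L m f B) {c : ℕ} (hc : c ≤ B) :
    (Nrm.int.mv (Fin N)).ν (Hp m f (2 ^ B ^ 2) (c : ℤ)) ≤ 2 ^ (B ^ 2 + B) := by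
  have hf : (Nrm.int.mv (Fin N)).ν f ≤ 2 ^ L := by
    rw [← norm1_eq]
    exact_mod_cast h.nrm
  have hB10 : 10 ≤ B := h.Z10.trans h.Z_le
  have hZ10 := h.Z10
  have hmZ := h.m_le_Z
  have hNZ := h.N_le_Z
  have hPZ := h.P_le_Z
  have hZ5 : (m ^ N + 2 ^ L + 10) ^ 5 ≤ B := h.Zpow_le (by norm_num)
  unfold Hp
  have e1 : (Nrm.int.mv (Fin N)).ν (C (((m : ℤ) + 1) * 2 ^ B ^ 2)) ≤ (m + 1) * 2 ^ B ^ 2 := by
    refine (Nrm.int.C_le _).trans (Nrm.int.mul_le_of ?_ (Nrm.int.two_pow_le _))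
    have := Nrm.int.natCast_le (m + 1)
    push_cast at this
    exact this
  have e2 : (Nrm.int.mv (Fin N)).ν (∑ i : Fin N, X i ^ (m + 1)) ≤ N := by
    refine ((Nrm.int.mv (Fin N)).sum_le _ _).trans ?_
    refine (Finset.sum_le_sum fun i _ => Nrm.int.X_pow_le i (m + 1)).trans ?_
    simp
  have e3 : (Nrm.int.mv (Fin N)).ν (C (((m : ℤ) + 1) * (c : ℤ))) ≤ (m + 1) * c := by
    refine (Nrm.int.C_le _).trans (Nrm.int.mul_le_of ?_ ?_)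
    · have := Nrm.int.natCast_le (m + 1)
      push_cast at this
      exact this
    · exact Nrm.int.natCast_le c
  have e4 : (Nrm.int.mv (Fin N)).ν (∑ i : Fin N, X i) ≤ N := by
    refine ((Nrm.int.mv (Fin N)).sum_le _ _).trans ?_
    refine (Finset.sum_le_sum fun i _ => Nrm.int.X_le i).trans ?_
    simp
  refine ((Nrm.int.mv (Fin N)).sub_le_of ((Nrm.int.mv (Fin N)).add_le_of
    ((Nrm.int.mv (Fin N)).mul_le_of e1 hf) e2) ((Nrm.int.mv (Fin N)).mul_le_of e3 e4)).trans ?_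
  have hfin := SizesAux.numHp hZ10 hZ5 hNZ hmZ hPZ hc
  rw [Nat.cast_pow, Nat.cast_ofNat] at hfin
  exact hfin

theorem condP_nrm [NeZero N] (h : Std L m f B) {c : ℕ} (hc : c ≤ B) (e : ℕ) :
    (Nrm.int.mv (Fin N)).ν (condP m (B ^ 12) B (fK f (2 ^ B ^ 2) (c : ℤ)) e) ≤
      2 ^ (B ^ 5 + 2 * B ^ 3 + 2) := by
  unfold condP
  have hw := wP_nrm h hc (Fin.ofNat N e) (r := e / N % (m ^ N + 1))
    (Nat.lt_succ_iff.1 (Nat.mod_lt _ (Nat.succ_pos _)))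
  have hs : ∀ b : ℕ, (Nrm.int.mv (Fin N)).ν (C (sgn b : ℤ)) ≤ 1 := fun b =>
    (Nrm.int.C_le _).trans (Nrm.int.sgn_le b)
  have h2 : (Nrm.int.mv (Fin N)).ν (C (2 * 2 ^ B ^ 5 : ℤ)) ≤ 2 ^ (B ^ 5 + 1) := by
    rw [show (2 * 2 ^ B ^ 5 : ℤ) = 2 ^ (B ^ 5 + 1) by rw [pow_succ]; ring]
    exact C_two_pow_le _
  refine ((Nrm.int.mv (Fin N)).mul_le_of (hs _) ((Nrm.int.mv (Fin N)).sub_le_of
    ((Nrm.int.mv (Fin N)).mul_le_of h2 ((Nrm.int.mv (Fin N)).mul_le_of (hs _) hw))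
    (Nrm.int.mv (Fin N)).one')).trans ?_
  rw [one_mul, one_mul, two_pow_mul]
  have : (1 : ℝ) ≤ 2 ^ (B ^ 5 + 1 + 2 * B ^ 3) := one_le_two_pow' _
  calc (2 : ℝ) ^ (B ^ 5 + 1 + 2 * B ^ 3) + 1 ≤
      2 ^ (B ^ 5 + 1 + 2 * B ^ 3) + 2 ^ (B ^ 5 + 1 + 2 * B ^ 3) := by linarith
    _ = 2 ^ (B ^ 5 + 1 + 2 * B ^ 3 + 1) := two_pow_add_le _
    _ = 2 ^ (B ^ 5 + 2 * B ^ 3 + 2) := by congr 1; ring

theorem tP_nrm [NeZero N] (h : Std L m f B) {c cc s : ℕ} (hc : c ≤ B) :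
    (Nrm.int.mv (Fin N)).ν (tP m (B ^ 12) B f c cc s) ≤ 2 ^ B ^ 6 := by
  have hB10 : 10 ≤ B := h.Z10.trans h.Z_le
  have hB5 := SizesAux.numT hB10
  unfold tP
  split_ifs
  · have h2 : (Nrm.int.mv (Fin N)).ν (C (2 * 2 ^ B ^ 5 : ℤ)) ≤ 2 ^ (B ^ 5 + 1) := by
      rw [show (2 * 2 ^ B ^ 5 : ℤ) = 2 ^ (B ^ 5 + 1) by rw [pow_succ]; ring]
      exact C_two_pow_le _
    refine ((Nrm.int.mv (Fin N)).sub_le_of ((Nrm.int.mv (Fin N)).mul_le_of h2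
      ((Nrm.int.mv (Fin N)).sub_le_of (C_two_pow_le B) (Hp_nrm h hc)))
      (Nrm.int.mv (Fin N)).one').trans ?_
    have h3 : (2 : ℝ) ^ B ≤ 2 ^ (B ^ 2 + B) := two_pow_mono (Nat.le_add_left _ _)
    have h4 : (2 : ℝ) ^ B + 2 ^ (B ^ 2 + B) ≤ 2 ^ (B ^ 2 + B + 1) := by
      rw [← two_pow_add_le]
      linarith
    have h5 : (1 : ℝ) ≤ 2 ^ (B ^ 5 + 1 + (B ^ 2 + B + 1)) := one_le_two_pow' _
    calc (2 : ℝ) ^ (B ^ 5 + 1) * (2 ^ B + 2 ^ (B ^ 2 + B)) + 1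
        ≤ 2 ^ (B ^ 5 + 1) * 2 ^ (B ^ 2 + B + 1) + 1 := by gcongr
      _ = 2 ^ (B ^ 5 + 1 + (B ^ 2 + B + 1)) + 1 := by rw [two_pow_mul]
      _ ≤ 2 ^ (B ^ 5 + 1 + (B ^ 2 + B + 1)) + 2 ^ (B ^ 5 + 1 + (B ^ 2 + B + 1)) := by linarith
      _ = 2 ^ (B ^ 5 + 1 + (B ^ 2 + B + 1) + 1) := two_pow_add_le _
      _ ≤ 2 ^ B ^ 6 := two_pow_mono (by omega)
  · exact (condP_nrm h hc _).trans (two_pow_mono (by omega))

theorem gP_nrm [NeZero N] (h : Std L m f B) {c k cc j : ℕ} (hc : c ≤ B) (hk : k ≤ B)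
    (hj : j ≤ m ^ N) : (Nrm.int.mv (Fin N)).ν (gP m (B ^ 12) B f c k cc j) ≤ 2 ^ B ^ 16 := by
  have hB10 : 10 ≤ B := h.Z10.trans h.Z_le
  have hDB : m ^ N + 1 ≤ B := by
    have := h.Z_le
    have h3 := Nat.zero_le (2 ^ L)
    omega
  unfold gP
  have hg := gg_nrm (Nrm.int.mv (Fin N)) (S := B ^ 6) (k := B) (Finset.range (k + 1))
    (t := tP m (B ^ 12) B f c cc) fun s _ => tP_nrm h hc
  rw [Finset.card_range] at hg
  have h4 : (Nrm.int.mv (Fin N)).ν (C (4 * ((m : ℤ) ^ N + 1))) ≤ 4 * B := by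
    refine (Nrm.int.C_le _).trans ?_
    have h5 := Nrm.int.natCast_le (4 * (m ^ N + 1))
    push_cast at h5
    refine h5.trans ?_
    have : ((m ^ N + 1 : ℕ) : ℝ) ≤ B := Nat.cast_le.2 hDB
    push_cast at this
    linarith
  have h6 : (Nrm.int.mv (Fin N)).ν (C (j : ℤ)) ≤ B := by
    refine (int_natCast_le j).trans ?_
    exact_mod_cast (hj.trans (by omega))
  rw [(Nrm.int.mv (Fin N)).neg']
  refine ((Nrm.int.mv (Fin N)).add_le_of ((Nrm.int.mv (Fin N)).mul_le_of h4 hg) h6).trans ?_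
  exact SizesAux.numG (le_trans (by norm_num) h.B10) hk

end Vale.Agent.P337
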