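import Vale.Agent.P337.StdDef
import Vale.Agent.P337.Nrm
import Vale.Agent.P337.NrmTau
import Vale.Agent.P337.Deg
import Vale.Agent.P337.Sizes

/-!
# P337, piece M3: size of `XX`
-/

namespace Vale.Agent.P337

open MvPolynomial

variable {N : ℕ} {L m : ℕ} {f : MvPolynomial (Fin N) ℤ} {B : ℕ}

namespace XBd

theorem N_lt (h : Std L m f B) : 10 * N ≤ B ∧ N ≤ B ∧ m ≤ B := by
  have h1 : N < 2 ^ L := lt_of_le_of_lt h.NL Nat.lt_two_pow_self
  have h2 : m < 2 ^ L := lt_of_le_of_lt h.mL Nat.lt_two_pow_self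
  have h3 := h.Zpow_le (n := 2) (by norm_num)
  have h4 := h.Z_le
  have h5 : 10 * N ≤ (m ^ N + 2 ^ L + 10) ^ 2 := by
    rw [sq]
    exact Nat.mul_le_mul (by omega) (by omega)
  exact ⟨h5.trans h3, by omega, by omega⟩

theorem factor_bound (h : Std L m f B) :
    (((B ^ 10 : ℕ) : ℝ) + 1) ^ N * (N.factorial * (2 * m * (2 : ℝ) ^ (B ^ 2 + B)) ^ N) *
      ((2 : ℝ) ^ (B ^ 2 + B)) ^ (N * B ^ 10) ≤ ((2 ^ B ^ 13 : ℕ) : ℝ) := by
  obtain ⟨hN10, hNB, hmB⟩ := N_lt h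
  have hB1 : 10 ^ 100 ≤ B := h.B10
  have hB15 : 15 ≤ B := le_trans (by norm_num) hB1
  have hBlt : B ≤ 2 ^ B := Nat.lt_two_pow_self.le
  have e1 : B ^ 10 + 1 ≤ 2 ^ (11 * B) := by
    calc B ^ 10 + 1 ≤ B ^ 10 + B ^ 10 := by
          have := Nat.one_le_pow 10 B (by omega)
          omega
      _ = 2 * B ^ 10 := by ring
      _ ≤ B * B ^ 10 := Nat.mul_le_mul_right _ (by omega)
      _ = B ^ 11 := by ring
      _ ≤ (2 ^ B) ^ 11 := Nat.pow_le_pow_left hBlt 11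
      _ = 2 ^ (11 * B) := by rw [← pow_mul, mul_comm]
  have e2 : N.factorial ≤ 2 ^ (B * N) := by
    calc N.factorial ≤ N ^ N := Nat.factorial_le_pow N
      _ ≤ (2 ^ B) ^ N := Nat.pow_le_pow_left (hNB.trans hBlt) N
      _ = 2 ^ (B * N) := by rw [← pow_mul]
  have e3 : 2 * m * 2 ^ (B ^ 2 + B) ≤ 2 ^ (B ^ 2 + 3 * B) := by
    have h2 : 2 ≤ 2 ^ B := by
      calc 2 = 2 ^ 1 := by norm_num
        _ ≤ 2 ^ B := Nat.pow_le_pow_right (by norm_num) (by omega)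
    calc 2 * m * 2 ^ (B ^ 2 + B) ≤ 2 ^ B * 2 ^ B * 2 ^ (B ^ 2 + B) :=
          Nat.mul_le_mul_right _ (Nat.mul_le_mul h2 (hmB.trans hBlt))
      _ = 2 ^ (B ^ 2 + 3 * B) := by rw [← pow_add, ← pow_add]; congr 1; ring
  have key : (B ^ 10 + 1) ^ N * (N.factorial * (2 * m * 2 ^ (B ^ 2 + B)) ^ N) *
      (2 ^ (B ^ 2 + B)) ^ (N * B ^ 10) ≤ 2 ^ B ^ 13 := by
    calc (B ^ 10 + 1) ^ N * (N.factorial * (2 * m * 2 ^ (B ^ 2 + B)) ^ N) *
        (2 ^ (B ^ 2 + B)) ^ (N * B ^ 10)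
        ≤ (2 ^ (11 * B)) ^ N * (2 ^ (B * N) * (2 ^ (B ^ 2 + 3 * B)) ^ N) *
          (2 ^ (B ^ 2 + B)) ^ (N * B ^ 10) :=
          Nat.mul_le_mul_right _ (Nat.mul_le_mul (Nat.pow_le_pow_left e1 N)
            (Nat.mul_le_mul e2 (Nat.pow_le_pow_left e3 N)))
      _ = 2 ^ (N * (15 * B + B ^ 2 + B ^ 11 + B ^ 12)) := by
          rw [← pow_mul, ← pow_mul, ← pow_mul, ← pow_add, ← pow_add, ← pow_add]
          congr 1
          ring
      _ ≤ 2 ^ B ^ 13 := by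
          apply Nat.pow_le_pow_right (by norm_num)
          have f1 : 15 * B ≤ B ^ 12 := by
            calc 15 * B ≤ B * B := Nat.mul_le_mul_right _ hB15
              _ = B ^ 2 := by ring
              _ ≤ B ^ 12 := Nat.pow_le_pow_right (by omega) (by norm_num)
          have f2 : B ^ 2 ≤ B ^ 12 := Nat.pow_le_pow_right (by omega) (by norm_num)
          have f3 : B ^ 11 ≤ B ^ 12 := Nat.pow_le_pow_right (by omega) (by norm_num)
          calc N * (15 * B + B ^ 2 + B ^ 11 + B ^ 12) ≤ N * (10 * B ^ 12) :=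
                Nat.mul_le_mul_left _ (by omega)
            _ = 10 * N * B ^ 12 := by ring
            _ ≤ B * B ^ 12 := Nat.mul_le_mul_right _ hN10
            _ = B ^ 13 := by ring
  have := (Nat.cast_le (α := ℝ)).2 key
  push_cast at this ⊢
  exact this

end XBd

/-- [M3] size of `XX` -/
theorem XX_bound [NeZero N] (h : Std L m f B) {c k cc j : ℕ} (hc : c ≤ B) (hk : k ≤ B)
    (hj : j ≤ m ^ N) : |XX m (B ^ 12) B f c k cc j| < 2 ^ B ^ 20 := by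
  obtain ⟨hN10, hNB, hmB⟩ := XBd.N_lt h
  have hB1 : 10 ^ 100 ≤ B := h.B10
  have hB10 : 10 ≤ B := le_trans (by norm_num) hB1
  have hDB := h.D_le
  have hZ : (m ^ N + 2 ^ L + 10) ^ 2 ≤ B := h.Zpow_le (by norm_num)
  have hE₀ : m ^ N * (gP m (B ^ 12) B f c k cc j).totalDegree + N * (m - 1) ≤ B ^ 10 := by
    have h1 := gP_deg h (cc := cc) (j := j) hc hk
    have h2 : m ^ N * (gP m (B ^ 12) B f c k cc j).totalDegree ≤ m ^ N * B ^ 9 :=
      Nat.mul_le_mul_left _ h1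
    have h3 : N * (m - 1) ≤ B * B := Nat.mul_le_mul hNB (by omega)
    have h4 : 2 * m ^ N ≤ B := by
      have : 2 * m ^ N ≤ (m ^ N + 2 ^ L + 10) ^ 2 := by
        rw [sq]
        exact Nat.mul_le_mul ((by norm_num : 2 ≤ 10).trans (Nat.le_add_left 10 _))
          (by rw [add_assoc]; exact Nat.le_add_right _ _)
      exact this.trans hZ
    have h5 : B * B ≤ B ^ 9 := by
      calc B * B = B ^ 2 := by ring
        _ ≤ B ^ 9 := Nat.pow_le_pow_right (by omega) (by norm_num)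
    have h6 : 2 * m ^ N * B ^ 9 ≤ B * B ^ 9 := Nat.mul_le_mul_right _ h4
    have h7 : B * B ^ 9 = B ^ 10 := by ring
    have h8 : 2 * B ^ 9 ≤ B * B ^ 9 := Nat.mul_le_mul_right _ (by omega)
    nlinarith
  have hmain := ehJ_nrm Nrm.int h.m0 (fK f (2 ^ B ^ 2) (c : ℤ))
    (fun i => fK_deg h _ _ i) ((2 : ℝ) ^ (B ^ 2 + B)) (one_le_pow₀ (by norm_num))
    (fun i => fK_nrm h hc i) (gP m (B ^ 12) B f c k cc j) hE₀
    (Nat.pow_le_pow_right (by omega) (by norm_num) : B ^ 10 ≤ B ^ 12) ((2 : ℝ) ^ B ^ 16)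
    (one_le_pow₀ (by norm_num)) (gP_nrm h hc hk hj) (2 ^ B ^ 13) (XBd.factor_bound h)
    (r := m ^ N) le_rfl
  have hν : Nrm.int.ν (XX m (B ^ 12) B f c k cc j) = |((XX m (B ^ 12) B f c k cc j : ℤ) : ℝ)| :=
    rfl
  have hX : ehJ m (B ^ 12) (fK f (2 ^ B ^ 2) (c : ℤ)) (gP m (B ^ 12) B f c k cc j) (m ^ N) =
    XX m (B ^ 12) B f c k cc j := rfl
  rw [hX, hν] at hmain
  have hnat : (2 ^ B ^ 13 + m ^ N) ^ (m ^ N) * (2 ^ B ^ 16) ^ (m ^ N) < 2 ^ B ^ 20 := by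
    have hBlt : B ≤ 2 ^ B := Nat.lt_two_pow_self.le
    have e1 : 2 ^ B ^ 13 + m ^ N ≤ 2 ^ (B ^ 13 + 1) := by
      have : 2 ^ B ≤ 2 ^ B ^ 13 :=
        Nat.pow_le_pow_right (by norm_num) (Nat.le_self_pow (by norm_num) B)
      rw [pow_succ 2 (B ^ 13), mul_two]
      exact Nat.add_le_add_left ((hDB.trans hBlt).trans this) _
    calc (2 ^ B ^ 13 + m ^ N) ^ (m ^ N) * (2 ^ B ^ 16) ^ (m ^ N)
        ≤ (2 ^ (B ^ 13 + 1)) ^ (m ^ N) * (2 ^ B ^ 16) ^ (m ^ N) :=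
          Nat.mul_le_mul_right _ (Nat.pow_le_pow_left e1 _)
      _ = 2 ^ ((B ^ 13 + 1 + B ^ 16) * m ^ N) := by
          rw [← pow_mul, ← pow_mul, ← pow_add]
          congr 1
          ring
      _ < 2 ^ B ^ 20 := by
          apply Nat.pow_lt_pow_right (by norm_num)
          have f1 : B ^ 13 ≤ B ^ 16 := Nat.pow_le_pow_right (by omega) (by norm_num)
          have f2 : 1 ≤ B ^ 16 := Nat.one_le_pow _ _ (by omega)
          calc (B ^ 13 + 1 + B ^ 16) * m ^ N ≤ (3 * B ^ 16) * B :=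
                Nat.mul_le_mul (by omega) hDB
            _ = 3 * B ^ 17 := by ring
            _ < B * B ^ 17 := Nat.mul_lt_mul_of_pos_right (by omega) (by positivity)
            _ = B ^ 18 := by ring
            _ ≤ B ^ 20 := Nat.pow_le_pow_right (by omega) (by norm_num)
  have hreal : |((XX m (B ^ 12) B f c k cc j : ℤ) : ℝ)| < (2 : ℝ) ^ B ^ 20 := by
    refine lt_of_le_of_lt hmain ?_
    have := (Nat.cast_lt (α := ℝ)).2 hnat
    push_cast at this ⊢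
    exact this
  have h9 : ((|XX m (B ^ 12) B f c k cc j| : ℤ) : ℝ) < ((2 ^ B ^ 20 : ℤ) : ℝ) := by
    push_cast
    exact hreal
  exact_mod_cast h9

end Vale.Agent.P337
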