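import Vale.Agent.P337.Final0
import Vale.Agent.P337.FW1
import Vale.Agent.P337.EvFW
import Vale.Agent.P337.Complete
import Vale.Agent.P337.SignCH
import Vale.Agent.P337.PrimeProd
import Vale.Agent.P337.ExC
import Vale.Agent.P337.XBound
import Vale.Agent.P337.StubGP

/-!
# P337: the existential theory of the reals is in the counting hierarchy
-/

namespace Vale.Agent.P337

open MvPolynomial

namespace Final

/-- the number of variables and the degree -/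
abbrev Nv (a : VB) : ℕ := 2 * a.1.1.length + 1

theorem std (a : VB) : Std (N := Nv a) (Nv a) (Nv a) (fW1 a.1.1) a.1.2 where
  N0 := by simp
  NL := le_rfl
  mL := le_rfl
  odd := ⟨_, rfl⟩
  m1 := by have := validW_length a.2.1; simp only [Nv]; omega
  deg := lt_of_le_of_lt (fW1_totalDegree a.2.1) (by simp only [Nv]; omega)
  nrm := (fW1_norm1 a.2.1).trans (Nat.pow_le_pow_right (by norm_num) (by simp only [Nv]; omega))
  nn := fW1_nonneg a.2.1
  hB := a.2.2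

/-- the tuples (a, c, k, cc, j) -/
abbrev T5 : Type := (((VB × ℕ) × ℕ) × ℕ) × ℕ

/-- the integer of a tuple -/
noncomputable def X5 (x : T5) : ℤ :=
  XX (Nv x.1.1.1.1) (x.1.1.1.1.1.2 ^ 12) x.1.1.1.1.1.2 (fW1 x.1.1.1.1.1.1)
    x.1.1.1.2 x.1.1.2 x.1.2 x.2

/-- legal tuples -/
def D5 (x : T5) : Prop :=
  x.1.1.1.2 ≤ x.1.1.1.1.1.2 ∧ x.1.1.2 ≤ x.1.1.1.1.1.2 ∧
    x.2 ≤ Nv x.1.1.1.1 ^ Nv x.1.1.1.1

theorem mem_iff (a : VB) : a.1.1 ∈ ETR ↔
    ∃ c, c < a.1.2 + 1 ∧ ∃ k, k < a.1.2 + 1 ∧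
      ∃ cc, cc < (4 * Nv a * (Nv a ^ Nv a + 1)) ^ (Nv a * Nv a + 1) ∧
      ∃ j, j < Nv a ^ Nv a + 1 ∧ ∃ _ : D5 ((((a, c), k), cc), j), X5 ((((a, c), k), cc), j) < 0 := by
  rw [ETR_iff_fW1]
  constructor
  · rintro ⟨-, hz⟩
    obtain ⟨c, hc, k, hk, cc, hcc, j, hj, hX⟩ := complete (std a) hz
    have hk' : k ≤ a.1.2 := by have := (small (std a)).1; omega
    exact ⟨c, by omega, k, by omega, cc, hcc, j, by omega, ⟨hc, hk', hj⟩, hX⟩
  · rintro ⟨c, -, k, -, cc, -, j, -, hD, hX⟩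
    exact ⟨a.2.1, sound (std a) hD.1 hD.2.1 hD.2.2 hX⟩

/-! ### the parameters are in FCH -/

/-- the word -/
theorem pt_w : PTime fun a : VB => a.1.1 := PTime.fst.comp PTime.val

/-- the size -/
theorem pt_B : PTime fun a : VB => a.1.2 := PTime.snd.comp PTime.val

theorem pt_Nv : PTime Nv :=
  (PTime.add (PTime.mul (PTime.const 2) (PTime.length pt_w)) (PTime.const 1)).congr fun _ => rfl

theorem Nv_le (a : VB) : Nv a ≤ (code a).length + 1 := by
  have h : (code a).length = 2 * a.1.1.length + 2 + (code a.1.2).length := by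
    rw [code_subtype, show a.1 = (a.1.1, a.1.2) from rfl, code_pair, length_pairL, code_list]
  simp only [Nv]
  omega

theorem fch_D : FCH fun a : VB => Nv a ^ Nv a :=
  FCH_pow (FCH.of_ptime pt_Nv) (FCH.of_ptime pt_Nv)
    ⟨Polynomial.X + 1, fun a => by simpa using Nv_le a⟩

theorem fch_cc : FCH fun a : VB => (4 * Nv a * (Nv a ^ Nv a + 1)) ^ (Nv a * Nv a + 1) := by
  refine FCH_pow (f := fun a => 4 * Nv a * (Nv a ^ Nv a + 1)) (g := fun a => Nv a * Nv a + 1)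
    ?_ ?_ ?_
  · exact ((FCH.const 4).mul (FCH.of_ptime pt_Nv)).mul (fch_D.add (FCH.const 1))
  · exact ((FCH.of_ptime pt_Nv).mul (FCH.of_ptime pt_Nv)).add (FCH.const 1)
  · refine ⟨(Polynomial.X + 1) ^ 2 + 1, fun a => ?_⟩
    simp only [Polynomial.eval_add, Polynomial.eval_pow, Polynomial.eval_X, Polynomial.eval_one]
    have := Nv_le a
    nlinarith

/-- powers with a constant exponent -/
theorem fch_powc {α : Type} [Code α] {f : α → ℕ} (hf : FCH f) (e : ℕ) : FCH fun a => f a ^ e :=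
  FCH_pow hf (FCH.const e) ⟨Polynomial.C e, fun _ => by simp⟩

/-- a power of two larger than the size -/
def sz (a : VB) : ℕ := 2 ^ a.1.2.bits.length

theorem fch_sz : FCH sz := FCH.of_ptime (PTime.two_pow_length (PTime.bits pt_B))

theorem sz_eq (a : VB) : sz a = 2 ^ a.1.2.size := by
  unfold sz
  rw [Nat.size_eq_bits_len]

theorem B_lt (a : VB) : a.1.2 < sz a := by
  rw [sz_eq]
  exact Nat.lt_size_self _

theorem chp_D5 : CHP D5 := by
  have ha : PTime fun x : T5 => x.1.1.1.1 :=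
    PTime.fst.comp (PTime.fst.comp (PTime.fst.comp PTime.fst))
  have hB : FCH fun x : T5 => x.1.1.1.1.1.2 := FCH.of_ptime (pt_B.comp ha)
  have hc : FCH fun x : T5 => x.1.1.1.2 :=
    FCH.of_ptime (PTime.snd.comp (PTime.fst.comp (PTime.fst.comp PTime.fst)))
  have hk : FCH fun x : T5 => x.1.1.2 := FCH.of_ptime (PTime.snd.comp (PTime.fst.comp PTime.fst))
  exact CHP.and (CHP.le hc hB) (CHP.and (CHP.le hk hB)
    (CHP.le FCH.snd (fch_D.comp_ptime ha)))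

/-! ### the residues -/

/-- legal tuples -/
abbrev L5 : Type := {x : T5 // D5 x}

/-- the word with its size -/
abbrev L5.a (x : L5) : VB := x.1.1.1.1.1

theorem pt_a : PTime L5.a :=
  (PTime.fst.comp (PTime.fst.comp (PTime.fst.comp PTime.fst))).comp PTime.val

theorem pow_facts (x : L5) : 10 ≤ x.a.1.2 ∧ Nv x.a ≤ x.a.1.2 ∧ Nv x.a ^ Nv x.a ≤ x.a.1.2 := by
  have h := std x.a
  have h1 : (10 : ℕ) ≤ 10 ^ 100 := by norm_num
  exact ⟨h1.trans h.B10, h.m_le_D.trans h.D_le, h.D_le⟩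

theorem code_fst_le {α β : Type} [Code α] [Code β] (y : α × β) :
    (code y.1).length ≤ (code y).length := by
  have : code y = pairL (code y.1) (code y.2) := rfl
  rw [this, length_pairL]
  omega

theorem code_a_le (x : L5) : (code x.a).length ≤ (code x).length := by
  rw [code_subtype]
  exact (code_fst_le x.1.1.1.1).trans ((code_fst_le x.1.1.1).trans
    ((code_fst_le x.1.1).trans (code_fst_le x.1)))

/-- the side conditions of layer S -/
theorem side (x : L5) {p : ℕ} (hlo : sz x.a ^ 16 < p) :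
    1 < Nv x.a ∧ (map (Int.castRingHom (ZMod p)) (fW1 x.a.1.1)).totalDegree < Nv x.a ∧
      Nv x.a ^ Nv x.a + Nv x.a * (Nv x.a - 1) ≤ x.a.1.2 ^ 12 ∧
      Nv x.a * Nv x.a * (x.a.1.2 ^ 12 + 2) + x.a.1.2 ^ 12 + 2 < p ∧
      (Nv x.a ^ Nv x.a) ^ 2 + 1 < p ∧
      Nv x.a ^ Nv x.a * (gP (Nv x.a) (x.a.1.2 ^ 12) x.a.1.2
        (map (Int.castRingHom (ZMod p)) (fW1 x.a.1.1)) x.1.1.1.1.2 x.1.1.1.2 x.1.1.2
        x.1.2).totalDegree + Nv x.a * (Nv x.a - 1) ≤ x.a.1.2 ^ 12 := by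
  have hstd := std x.a
  obtain ⟨h10, hN, hD⟩ := pow_facts x
  have hp16 : x.a.1.2 ^ 16 < p :=
    lt_of_le_of_lt (Nat.pow_le_pow_left (B_lt x.a).le 16) hlo
  have hbig := big hstd
  set B := x.a.1.2 with hBdef
  set m := Nv x.a with hm
  have hD1 : 1 ≤ m ^ m := Nat.one_le_pow _ _ hstd.m0
  have h9 : 1 ≤ B ^ 9 := Nat.one_le_pow _ _ (by omega)
  refine ⟨hstd.m1, lt_of_le_of_lt (totalDegree_map_le' _ _) hstd.deg, ?_, ?_, ?_, ?_⟩
  · refine le_trans ?_ hbig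
    gcongr
    exact Nat.le_mul_of_pos_right _ (by omega)
  · refine lt_of_le_of_lt ?_ hp16
    have h12 : 1 ≤ B ^ 12 := Nat.one_le_pow _ _ (by omega)
    calc m * m * (B ^ 12 + 2) + B ^ 12 + 2 ≤ B * B * (B ^ 12 + 2) + B ^ 12 + 2 := by gcongr
      _ ≤ B * B * (3 * B ^ 12) + B ^ 12 + 2 * B ^ 12 := by
          gcongr
          · omega
          · omega
      _ = 3 * (B ^ 2 * B ^ 12) + 3 * B ^ 12 := by ring
      _ ≤ 3 * (B ^ 2 * B ^ 12) + 3 * (B ^ 2 * B ^ 12) := by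
          have : 1 ≤ B ^ 2 := Nat.one_le_pow _ _ (by omega)
          have := Nat.le_mul_of_pos_left (B ^ 12) this
          omega
      _ = 6 * B ^ 14 := by ring
      _ ≤ B * B ^ 14 := Nat.mul_le_mul_right _ (by omega)
      _ = B ^ 15 := by ring
      _ ≤ B ^ 16 := Nat.pow_le_pow_right (by omega) (by norm_num)
  · refine lt_of_le_of_lt ?_ hp16
    calc (m ^ m) ^ 2 + 1 ≤ B ^ 2 + B ^ 2 := by
          gcongr
          exact Nat.one_le_pow _ _ (by omega)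
      _ = 2 * B ^ 2 := by ring
      _ ≤ B * B ^ 2 := Nat.mul_le_mul_right _ (by omega)
      _ = B ^ 3 := by ring
      _ ≤ B ^ 16 := Nat.pow_le_pow_right (by omega) (by norm_num)
  · refine le_trans ?_ hbig
    gcongr
    rw [gP_map]
    exact (totalDegree_map_le' _ _).trans (gP_deg hstd x.2.1 x.2.2.1)

theorem exists_res : ∃ g : L5 × ℕ → ℕ, FCH g ∧ ∀ x p, p.Prime → sz x.a ^ 16 < p →
    (g (x, p) : ZMod p) = ((X5 x.1 : ℤ) : ZMod p) := by
  have ha : PTime fun y : L5 × ℕ => y.1.a := pt_a.comp PTime.fst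
  have hΓ : LCtx (fun y : L5 × ℕ => y.2.Prime ∧ sz y.1.a ^ 16 < y.2) (fun y => y.2)
      (fun y => Nv y.1.a) := by
    refine ⟨fun y hy => hy.1, FCH.snd, FCH.of_ptime (pt_Nv.comp ha), Polynomial.X + 1, ?_⟩
    intro y
    have h1 := Nv_le y.1.a
    have h2 := (code_a_le y.1).trans (code_fst_le y)
    simp only [Polynomial.eval_add, Polynomial.eval_X, Polynomial.eval_one]
    omega
  have hw : PTime fun y : L5 × ℕ => y.1.a.1.1 := pt_w.comp ha
  have hB : FCH fun y : L5 × ℕ => y.1.a.1.2 := FCH.of_ptime (pt_B.comp ha)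
  have hf := PE.fW1 (dom := fun y : L5 × ℕ => y.2.Prime ∧ sz y.1.a ^ 16 < y.2)
    (p := fun y => y.2) (w := fun y => y.1.a.1.1) hw PTime.snd (fun y hy => hy.1)
    (fun y _ => y.1.a.2.1)
  have hc : FCH fun y : L5 × ℕ => y.1.1.1.1.1.2 := FCH.of_ptime
    ((PTime.snd.comp (PTime.fst.comp (PTime.fst.comp PTime.fst))).comp (PTime.val.comp PTime.fst))
  have hk : FCH fun y : L5 × ℕ => y.1.1.1.1.2 := FCH.of_ptime
    ((PTime.snd.comp (PTime.fst.comp PTime.fst)).comp (PTime.val.comp PTime.fst))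
  have hcc : FCH fun y : L5 × ℕ => y.1.1.1.2 := FCH.of_ptime
    ((PTime.snd.comp PTime.fst).comp (PTime.val.comp PTime.fst))
  have hj : FCH fun y : L5 × ℕ => y.1.1.2 := FCH.of_ptime
    (PTime.snd.comp (PTime.val.comp PTime.fst))
  obtain ⟨g, hg, h⟩ := FZ.XX hΓ hf (m := fun y => Nv y.1.a) (E := fun y => y.1.a.1.2 ^ 12)
    (B := fun y => y.1.a.1.2) (c := fun y => y.1.1.1.1.1.2) (k := fun y => y.1.1.1.1.2)
    (cc := fun y => y.1.1.1.2) (j := fun y => y.1.1.2)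
    (FCH.of_ptime (pt_Nv.comp ha)) (fch_powc hB 12) hB hc hk hcc hj
    (fun y hy => side y.1 hy.2)
  refine ⟨g, hg, fun x p hp hlo => ?_⟩
  have h1 := h (x, p) ⟨hp, hlo⟩
  simp only at h1
  rw [h1, XX_map]
  rfl

theorem prM_gt (x : L5) : 8 * (((sz x.a ^ 24 : ℕ) : ℤ) + 1) * |X5 x.1| <
    prM (sz x.a ^ 16) (sz x.a ^ 24) := by
  obtain ⟨h10, hN, hD⟩ := pow_facts x
  have hstd := std x.a
  set s := x.a.1.2.size with hs
  have hsz : sz x.a = 2 ^ s := sz_eq _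
  have hs1 : 1 ≤ s := by
    rw [hs]
    exact Nat.size_pos.2 (by omega)
  have h1 := prime_prod (16 * s) (24 * s) (by omega) (by omega)
  have h2 : prM (sz x.a ^ 16) (sz x.a ^ 24) =
      ∏ p ∈ (Finset.Ioc (2 ^ (16 * s)) (2 ^ (24 * s))).filter Nat.Prime, p := by
    rw [hsz, ← pow_mul, ← pow_mul, mul_comm s 16, mul_comm s 24]
    rfl
  have h3 := XX_bound hstd x.2.1 x.2.2.1 (j := x.1.2) x.2.2.2 (cc := x.1.1.2)
  have h4 : |X5 x.1| < 2 ^ x.a.1.2 ^ 20 := h3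
  have h5 : x.a.1.2 ^ 20 ≤ 2 ^ (20 * s) := by
    calc x.a.1.2 ^ 20 ≤ (2 ^ s) ^ 20 := Nat.pow_le_pow_left (by rw [← hsz]; exact (B_lt _).le) _
      _ = 2 ^ (20 * s) := by rw [← pow_mul, mul_comm]
  have h6 : |X5 x.1| < 2 ^ 2 ^ (20 * s) :=
    h4.trans_le (pow_le_pow_right₀ (by norm_num) h5)
  have h7 : 8 * (2 ^ (24 * s) + 1) ≤ 2 ^ (24 * s + 4) := by
    have : 1 ≤ 2 ^ (24 * s) := Nat.one_le_two_pow
    rw [pow_add]
    omega
  have h8 : 24 * s + 4 + 2 ^ (20 * s) ≤ 2 ^ (24 * s - 2) := by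
    have e1 : 2 ^ (24 * s - 2) = 2 ^ (20 * s) * 2 ^ (4 * s - 2) := by
      rw [← pow_add]
      congr 1
      omega
    have e2 : 2 ^ 2 ≤ 2 ^ (4 * s - 2) := Nat.pow_le_pow_right (by norm_num) (by omega)
    have e3 : 20 * s < 2 ^ (20 * s) := Nat.lt_two_pow_self
    rw [e1]
    calc 24 * s + 4 + 2 ^ (20 * s) ≤ 2 ^ (20 * s) * 2 ^ 2 := by omega
      _ ≤ _ := Nat.mul_le_mul_left _ e2
  rw [h2]
  have h9 : (2 : ℤ) ^ 2 ^ (24 * s - 2) ≤
      ((∏ p ∈ (Finset.Ioc (2 ^ (16 * s)) (2 ^ (24 * s))).filter Nat.Prime, p : ℕ) : ℤ) := by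
    exact_mod_cast h1
  refine lt_of_lt_of_le ?_ h9
  have h10' : 8 * (((sz x.a ^ 24 : ℕ) : ℤ) + 1) ≤ 2 ^ (24 * s + 4) := by
    rw [hsz, ← pow_mul, mul_comm s 24]
    exact_mod_cast h7
  calc 8 * (((sz x.a ^ 24 : ℕ) : ℤ) + 1) * |X5 x.1|
      ≤ 2 ^ (24 * s + 4) * |X5 x.1| := by gcongr
    _ < 2 ^ (24 * s + 4) * 2 ^ 2 ^ (20 * s) := by gcongr
    _ = 2 ^ (24 * s + 4 + 2 ^ (20 * s)) := by rw [← pow_add]
    _ ≤ 2 ^ 2 ^ (24 * s - 2) := pow_le_pow_right₀ (by norm_num) h8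

/-- the lower end of the interval of primes -/
def lo5 (x : L5) : ℕ := sz x.a ^ 16

/-- the upper end of the interval of primes -/
def hi5 (x : L5) : ℕ := sz x.a ^ 24

/-- the integer of a legal tuple -/
noncomputable def X6 (x : L5) : ℤ := X5 x.1

theorem fch_lo5 : FCH lo5 := fch_powc (fch_sz.comp_ptime pt_a) 16

theorem fch_hi5 : FCH hi5 := fch_powc (fch_sz.comp_ptime pt_a) 24

theorem prM_gt' (x : L5) : 8 * ((hi5 x : ℤ) + 1) * |X6 x| < prM (lo5 x) (hi5 x) := prM_gt x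

theorem exists_res' : ∃ g : L5 × ℕ → ℕ, FCH g ∧ ∀ x p, p.Prime → lo5 x < p →
    (g (x, p) : ZMod p) = ((X6 x : ℤ) : ZMod p) := exists_res

theorem chp_neg : CHP fun x : L5 => X6 x < 0 := by
  obtain ⟨g, hg, h⟩ := exists_res'
  exact CHP.sign fch_lo5 fch_hi5 hg (fun x p hp h1 _ => h x p hp h1) prM_gt'

/-- The sentence is decided in the counting hierarchy, if the size is given. -/
theorem chp_mem : CHP fun a : VB => a.1.1 ∈ ETR := by
  have h5 : CHP fun x : T5 => ∃ _ : D5 x, X5 x < 0 := chp_D5.extend chp_neg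
  have hB : FCH fun a : VB => a.1.2 + 1 := (FCH.of_ptime pt_B).add (FCH.const 1)
  have h4 := CHP.exists_lt (α := ((VB × ℕ) × ℕ) × ℕ) h5
    (b := fun y => Nv y.1.1.1 ^ Nv y.1.1.1 + 1)
    ((fch_D.add (FCH.const 1)).comp_ptime (PTime.fst.comp (PTime.fst.comp PTime.fst)))
  have h3 := CHP.exists_lt (α := (VB × ℕ) × ℕ) h4
    (b := fun y => (4 * Nv y.1.1 * (Nv y.1.1 ^ Nv y.1.1 + 1)) ^ (Nv y.1.1 * Nv y.1.1 + 1))
    (fch_cc.comp_ptime (PTime.fst.comp PTime.fst))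
  have h2 := CHP.exists_lt (α := VB × ℕ) h3 (b := fun y => y.1.1.2 + 1)
    (hB.comp_ptime PTime.fst)
  have h1 := CHP.exists_lt (α := VB) h2 (b := fun y => y.1.2 + 1) hB
  exact h1.congr fun a => (mem_iff a).symm

end Final

/-- The existential theory of the reals is in the counting hierarchy. -/
theorem etr_ch : CH ETR :=
  ch_of_ctx (fun _ => rfl) Final.chp_mem PTime.validW exists_C

end Vale.Agent.P337
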