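import Vale.Agent.P337.CHP
import Vale.Agent.P337.FBound

/-!
# P337: from contexts (valid word, large size) to words
-/

namespace Vale.Agent.P337

open MvPolynomial

/-- The size which is large enough for the word `w`. -/
def Zb (w : List Bool) : ℕ :=
  ((2 * w.length + 1) ^ (2 * w.length + 1) + 2 ^ (2 * w.length + 1) + 10) ^ 100

/-- Contexts: a valid word and a large size. -/
abbrev VB : Type := {a : List Bool × ℕ // validW a.1 = true ∧ Zb a.1 ≤ a.2}

theorem mem_ETR_valid {w : List Bool} (h : w ∈ ETR) : validW w = true := ((ETR_iff_fW w).1 h).1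

/-- It is enough to decide `ETR` for large sizes: the size is found by a majority vote. -/
theorem ch_of_ctx [Code VB] (hcode : ∀ a : VB, code a = code a.1)
    (hS : CHP fun a : VB => a.1.1 ∈ ETR)
    (hv : PTime fun w : List Bool => validW w)
    (hC : ∃ C : ℕ, ∀ L N m : ℕ, N ≤ L → m ≤ L →
      (m ^ N + 2 ^ L + 10) ^ 100 ≤ 2 ^ (L + 2) ^ C) : CH ETR := by
  classical
  obtain ⟨j, L, hL, h⟩ := hS
  obtain ⟨C, hC⟩ := hC
  obtain ⟨g, hg, hgv⟩ := hv
  -- the language with a size
  have hA1 : Lev 0 {z : List Bool | (g (fstL z)).headD false = true} := by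
    unfold Lev
    convert PTB.head (PT.comp hg PT.id.fst) using 1
    funext x
    simp
  have hA2 : Lev j {z : List Bool | pairL (fstL z) (bval (sndL z)).bits ∈ L} :=
    hL.preimage (PT.id.fst.pair PT.id.snd.bits)
  have hA := (hA1.up_le (Nat.zero_le j)).and hA2
  set A : Set (List Bool) := {z | z ∈ {z : List Bool | (g (fstL z)).headD false = true} ∧
    z ∈ {z : List Bool | pairL (fstL z) (bval (sndL z)).bits ∈ L}} with hAdef
  have hmem : ∀ w y : List Bool, pairL w y ∈ A ↔
      validW w = true ∧ pairL w (bval y).bits ∈ L := by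
    intro w y
    have h1 : (g w).headD false = validW w := by
      have := hgv w
      rw [code_list] at this
      rw [this]
      rfl
    rw [hAdef, Set.mem_ofPred_eq, Set.mem_ofPred_eq, Set.mem_ofPred_eq, fstL_pairL, sndL_pairL, h1]
  let q : Polynomial ℕ := (Polynomial.C 2 * Polynomial.X + Polynomial.C 3) ^ C + Polynomial.C 2
  have hq : ∀ n, q.eval n = (2 * n + 3) ^ C + 2 := by
    intro n
    simp [q]
  have hZ : ∀ w : List Bool, Zb w ≤ 2 ^ (2 * w.length + 3) ^ C := by
    intro w
    exact hC (2 * w.length + 1) (2 * w.length + 1) (2 * w.length + 1) le_rfl le_rfl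
  suffices hE : ETR = {x : List Bool | 2 ^ q.eval x.length <
      2 * cnt (q.eval x.length) fun y => pairL x y ∈ A} by
    have hLev : Lev (j + 1 + 1) ETR := ⟨A, hA, q, fun x => by
      constructor
      · intro hx
        rw [hE] at hx
        exact hx
      · intro hx
        rw [hE]
        exact hx⟩
    exact ⟨_, hLev.chLevel⟩
  ext w
  rw [Set.mem_ofPred_eq, hq]
  set e := (2 * w.length + 3) ^ C with he
  have h4 : (2 : ℕ) ^ (e + 2) = 4 * 2 ^ e := by ring
  have hpos : 0 < 2 ^ e := by positivity
  by_cases hval : validW w = true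
  · have hL' : ∀ y : List Bool, 2 ^ e ≤ bval y → (pairL w y ∈ A ↔ w ∈ ETR) := by
      intro y hy
      rw [hmem]
      have hb : Zb w ≤ bval y := le_trans (hZ w) hy
      have h5 := h ⟨(w, bval y), hval, hb⟩
      rw [hcode] at h5
      constructor
      · rintro ⟨_, h6⟩
        exact h5.2 h6
      · intro h6
        exact ⟨hval, h5.1 h6⟩
    constructor
    · intro hw
      have h6 : cnt (e + 2) (fun y => 2 ^ e ≤ bval y) ≤ cnt (e + 2) fun y => pairL w y ∈ A :=
        cnt_mono fun y _ hy => (hL' y hy).2 hw
      rw [cnt_le_bval, min_eq_left (by rw [h4]; omega)] at h6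
      omega
    · intro hw
      by_contra hn
      have h6 : cnt (e + 2) (fun y => pairL w y ∈ A) ≤ cnt (e + 2) fun y => bval y < 2 ^ e := by
        apply cnt_mono
        intro y _ hy
        by_contra hlt
        exact hn ((hL' y (not_lt.1 hlt)).1 hy)
      rw [cnt_bval_lt, min_eq_left (by rw [h4]; omega)] at h6
      omega
  · constructor
    · intro hw
      exact absurd (mem_ETR_valid hw) hval
    · intro hw
      exfalso
      have h6 : cnt (e + 2) (fun y => pairL w y ∈ A) ≤ cnt (e + 2) fun _ => False := by
        apply cnt_mono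
        intro y _ hy
        exact hval ((hmem w y).1 hy).1
      rw [cnt_false] at h6
      omega

end Vale.Agent.P337
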