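import Vale.Agent.P337.TauFZ
import Vale.Agent.P337.Deg
import Vale.Agent.P337.CharRoot

/-!
# P337: [S6] [S7] the polynomials of Sys.lean, values computed in the counting hierarchy
-/

namespace Vale.Agent.P337

open MvPolynomial

/-! ## pure algebra -/

/-- [S6a] value of `w_{i,r}(x_i)`: naturality of `ehJ` (over any commutative ring) -/
theorem eval_wP {R : Type*} [CommRing R] {N : ℕ} (m E : ℕ)
    (fs : Fin N → MvPolynomial (Fin N) R) (i : Fin N) (r : ℕ) (x : Fin N → R) :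
    eval x (wP m E fs i r) = (((m ^ N).factorial / r.factorial : ℕ) : R) *
      ehJ m E fs (MvPolynomial.C (x i) - MvPolynomial.X i) r := by
  have h1 : ∀ P : Polynomial R, eval x (Polynomial.aeval (X i : MvPolynomial (Fin N) R) P) =
      Polynomial.evalRingHom (x i) P := by
    intro P
    rw [Polynomial.coe_evalRingHom, Polynomial.aeval_def, Polynomial.hom_eval₂]
    rw [eval_X]
    have : (eval x).comp (algebraMap R (MvPolynomial (Fin N) R)) = RingHom.id R := by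
      ext a
      simp [MvPolynomial.algebraMap_eq]
    rw [this]
    rfl
  unfold wP
  rw [h1]
  unfold wU
  rw [map_mul]
  congr 1
  · rw [Polynomial.coe_evalRingHom, Polynomial.eval_C]
  · rw [← ehJ_map]
    congr 1
    · funext j
      rw [MvPolynomial.map_map]
      have : (Polynomial.evalRingHom (x i)).comp Polynomial.C = RingHom.id R := by
        ext a
        simp
      rw [this, MvPolynomial.map_id]
    · simp

theorem fK_deg_ring {R : Type*} [CommRing R] {N m : ℕ} {f : MvPolynomial (Fin N) R}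
    (hm : 0 < m) (hf : f.totalDegree < m) (K c : R) (i : Fin N) :
    (fK f K c i).totalDegree < m := by
  have h1 : LeD (m - 1) f := leD_iff.2 (by omega)
  have h2 : LeD (m - 1) (fK f K c i) := by
    unfold fK
    refine (leD_C _ _).sub ?_
    have := (leD_C (N := N) K 0).mul (h1.pderiv i)
    rw [zero_add] at this
    exact this.mono (by omega)
  have := leD_iff.1 h2
  omega

theorem gg_range {R : Type*} [CommRing R] (S k n : ℕ) (t : ℕ → R) :
    gg S k (Finset.range n) t = ∏ r ∈ Finset.range n, dg S k (t r) -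
      2 * ∑ r ∈ Finset.range n, (qg S (-t r) ^ (2 * k) *
        ∏ s ∈ Finset.range n, if s = r then 1 else dg S k (t s)) := by
  unfold gg
  congr 2
  refine Finset.sum_congr rfl fun r _ => ?_
  congr 1
  rw [← Finset.prod_erase (s := Finset.range n) (a := r)
    (f := fun s => if s = r then 1 else dg S k (t s)) (if_pos rfl)]
  refine Finset.prod_congr rfl fun s hs => ?_
  rw [if_neg (Finset.ne_of_mem_erase hs)]

theorem deg_C_sub_X {R : Type*} [CommRing R] {N : ℕ} (a : R) (i : Fin N) :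
    (MvPolynomial.C a - MvPolynomial.X i : MvPolynomial (Fin N) R).totalDegree ≤ 1 := by
  rw [← leD_iff]
  refine (leD_C _ _).sub ?_
  simpa using leD_X_pow (R := R) i 1

/-! ## closure -/

section
variable {α β : Type} [Code α] [Code β] {dom : α → Prop} {p N : α → ℕ}

theorem FZ.one : FZ dom p fun a => (1 : ZMod (p a)) :=
  FZ.congr (fun a _ => by simp) (FZ.natCast (dom := dom) (p := p) (FCH.const 1))

theorem FZ.two : FZ dom p fun a => (2 : ZMod (p a)) :=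
  FZ.congr (fun a _ => by simp) (FZ.natCast (dom := dom) (p := p) (FCH.const 2))

theorem FZ.four : FZ dom p fun a => (4 : ZMod (p a)) :=
  FZ.congr (fun a _ => by simp) (FZ.natCast (dom := dom) (p := p) (FCH.const 4))

theorem FZ.sgn (hΓ : LCtx dom p N) {b : α → ℕ} (hb : FCH b) :
    FZ dom p fun a => (sgn (b a) : ZMod (p a)) :=
  FZ.ite (c := fun a => b a = 0) (c' := fun a => b a = 0) (CHP.eq hb (FCH.const 0))
    (fun _ _ => Iff.rfl) FZ.one (FZ.neg hΓ FZ.one)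

/-- constant exponents -/
theorem FCH.pow_const {f : α → ℕ} (hf : FCH f) (n : ℕ) : FCH fun a => f a ^ n :=
  FCH_pow hf (FCH.const n) ⟨Polynomial.C n, fun a => by simp⟩

theorem LCtx.fch_pow (hΓ : LCtx dom p N) {m : α → ℕ} (hm : FCH m) : FCH fun a => m a ^ N a :=
  FCH_pow hm hΓ.fch_N hΓ.small

theorem PE.one : PE dom p N fun a => (1 : MvPolynomial (Fin (N a)) (ZMod (p a))) :=
  PE.congr (fun a _ => by simp) (PE.C (N := N) (FZ.one (dom := dom) (p := p)))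

theorem PE.two : PE dom p N fun a => (2 : MvPolynomial (Fin (N a)) (ZMod (p a))) :=
  PE.congr (fun a _ => by rw [map_ofNat]) (PE.C (N := N) (FZ.two (dom := dom) (p := p)))

theorem PE.qg (hΓ : LCtx dom p N) {S : α → ℕ} (hS : FCH S)
    {t : ∀ a, MvPolynomial (Fin (N a)) (ZMod (p a))} (ht : PE dom p N t) :
    PE dom p N fun a => qg (S a) (t a) := by
  have h1 : PE dom p N fun a => 2 * t a + 1 := PE.add (PE.mul PE.two ht) PE.one
  have h2 : PE (fun y : α × ℕ => dom y.1) (fun y => p y.1) (fun y => N y.1)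
      (fun y => t y.1 + 2 ^ y.2) := by
    refine PE.add (PE.comp PTime.fst ht) ?_
    refine PE.congr (fun y _ => ?_) (PE.C (N := fun y : α × ℕ => N y.1)
      (FZ.pow hΓ.fst (FZ.two (dom := fun y : α × ℕ => dom y.1) (p := fun y => p y.1))
        (e := fun y : α × ℕ => y.2) FCH.snd))
    rw [map_pow, map_ofNat]
  have h3 := PE.prod hΓ (b := fun a => S a + 1) (FCH.add hS (FCH.const 1))
    (g := fun y => t y.1 + 2 ^ y.2) (PE.mono (fun y hy => hy.1) h2)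
  exact PE.mul h1 h3

theorem PE.dg (hΓ : LCtx dom p N) {S k : α → ℕ} (hS : FCH S) (hk : FCH k)
    {t : ∀ a, MvPolynomial (Fin (N a)) (ZMod (p a))} (ht : PE dom p N t) :
    PE dom p N fun a => dg (S a) (k a) (t a) := by
  have h2k : FCH fun a => 2 * k a := FCH.mul (FCH.const 2) hk
  exact PE.add (PE.pow hΓ (PE.qg hΓ hS ht) h2k) (PE.pow hΓ (PE.qg hΓ hS (PE.neg hΓ ht)) h2k)

theorem ptime_zmap : PTime fun z : (α × ℕ) × ℕ => ((z.1.1, z.2) : α × ℕ) :=
  (PTime.fst.comp PTime.fst).pair PTime.snd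

theorem fch_z11 {S : α → ℕ} (hS : FCH S) : FCH fun z : (α × ℕ) × ℕ => S z.1.1 :=
  FCH_comp hS (PTime.fst.comp PTime.fst)

theorem PE.gg_inner (hΓ : LCtx dom p N) {S k n : α → ℕ} (hS : FCH S) (hk : FCH k)
    {t : ∀ y : α × ℕ, MvPolynomial (Fin (N y.1)) (ZMod (p y.1))}
    (ht : PE (fun y : α × ℕ => dom y.1 ∧ y.2 < n y.1) (fun y => p y.1) (fun y => N y.1) t) :
    PE (fun z : (α × ℕ) × ℕ => dom z.1.1 ∧ z.2 < n z.1.1) (fun z => p z.1.1)
      (fun z => N z.1.1) (fun z => if z.2 = z.1.2 then 1 else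
        Vale.Agent.P337.dg (S z.1.1) (k z.1.1) (t (z.1.1, z.2))) := by
  have ht2 : PE (fun z : (α × ℕ) × ℕ => dom z.1.1 ∧ z.2 < n z.1.1) (fun z => p z.1.1)
      (fun z => N z.1.1) (fun z => t (z.1.1, z.2)) := PE.comp ptime_zmap ht
  have hΓ2 : LCtx (fun z : (α × ℕ) × ℕ => dom z.1.1 ∧ z.2 < n z.1.1) (fun z => p z.1.1)
      (fun z => N z.1.1) := hΓ.fst.ext fun z => z.2 < n z.1.1
  have hc : CHP fun z : (α × ℕ) × ℕ => z.2 = z.1.2 :=
    CHP.eq FCH.snd (FCH_comp (g := fun y : α × ℕ => y.2) FCH.snd PTime.fst)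
  exact PE.ite hc PE.one (PE.dg hΓ2 (fch_z11 hS) (fch_z11 hk) ht2)

theorem PE.gg_prod (hΓ : LCtx dom p N) {S k n : α → ℕ} (hS : FCH S) (hk : FCH k)
    (hn : FCH n) {t : ∀ y : α × ℕ, MvPolynomial (Fin (N y.1)) (ZMod (p y.1))}
    (ht : PE (fun y : α × ℕ => dom y.1 ∧ y.2 < n y.1) (fun y => p y.1) (fun y => N y.1) t) :
    PE (fun y : α × ℕ => dom y.1 ∧ y.2 < n y.1) (fun y => p y.1) (fun y => N y.1)
      (fun y => ∏ s ∈ Finset.range (n y.1), if s = y.2 then 1 else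
        Vale.Agent.P337.dg (S y.1) (k y.1) (t (y.1, s))) := by
  have hn1 : FCH fun y : α × ℕ => n y.1 := FCH_comp hn PTime.fst
  have hΓ1 : LCtx (fun y : α × ℕ => dom y.1 ∧ y.2 < n y.1) (fun y => p y.1)
      (fun y => N y.1) := hΓ.ext fun y => y.2 < n y.1
  have h := PE.gg_inner hΓ hS hk ht
  have h2 : PE (fun z : (α × ℕ) × ℕ => (dom z.1.1 ∧ z.1.2 < n z.1.1) ∧ z.2 < n z.1.1)
      (fun z => p z.1.1) (fun z => N z.1.1) (fun z => if z.2 = z.1.2 then 1 else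
        Vale.Agent.P337.dg (S z.1.1) (k z.1.1) (t (z.1.1, z.2))) :=
    PE.mono (fun z hz => ⟨hz.1.1, hz.2⟩) h
  have h3 := PE.prod hΓ1 hn1 h2
  exact h3

theorem PE.gg_sum (hΓ : LCtx dom p N) {S k n : α → ℕ} (hS : FCH S) (hk : FCH k)
    (hn : FCH n) {t : ∀ y : α × ℕ, MvPolynomial (Fin (N y.1)) (ZMod (p y.1))}
    (ht : PE (fun y : α × ℕ => dom y.1 ∧ y.2 < n y.1) (fun y => p y.1) (fun y => N y.1) t) :
    PE dom p N (fun a => ∑ r ∈ Finset.range (n a), (Vale.Agent.P337.qg (S a) (-t (a, r)) ^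
      (2 * k a) * ∏ s ∈ Finset.range (n a), if s = r then 1 else
        Vale.Agent.P337.dg (S a) (k a) (t (a, s)))) := by
  have hΓ1 : LCtx (fun y : α × ℕ => dom y.1 ∧ y.2 < n y.1) (fun y => p y.1)
      (fun y => N y.1) := hΓ.ext fun y => y.2 < n y.1
  have hS1 : FCH fun y : α × ℕ => S y.1 := FCH_comp hS PTime.fst
  have h2k : FCH fun y : α × ℕ => 2 * k y.1 := FCH.mul (FCH.const 2) (FCH_comp hk PTime.fst)
  have hq : PE (fun y : α × ℕ => dom y.1 ∧ y.2 < n y.1) (fun y => p y.1) (fun y => N y.1)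
      (fun y => Vale.Agent.P337.qg (S y.1) (-t y) ^ (2 * k y.1)) :=
    PE.pow hΓ1 (PE.qg hΓ1 hS1 (PE.neg hΓ1 ht)) h2k
  have hp := PE.gg_prod hΓ hS hk hn ht
  have hm := PE.mul hq hp
  have h3 := PE.sum hn hm
  exact h3

/-- [S6d] the gadget; the family of polynomials is indexed by natural numbers -/
theorem PE.gg (hΓ : LCtx dom p N) {S k n : α → ℕ} (hS : FCH S) (hk : FCH k) (hn : FCH n)
    {t : ∀ y : α × ℕ, MvPolynomial (Fin (N y.1)) (ZMod (p y.1))}
    (ht : PE (fun y : α × ℕ => dom y.1 ∧ y.2 < n y.1) (fun y => p y.1) (fun y => N y.1) t) :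
    PE dom p N fun a => gg (S a) (k a) (Finset.range (n a)) (fun s => t (a, s)) := by
  have hΓ1 : LCtx (fun y : α × ℕ => dom y.1 ∧ y.2 < n y.1) (fun y => p y.1)
      (fun y => N y.1) := hΓ.ext fun y => y.2 < n y.1
  have hS1 : FCH fun y : α × ℕ => S y.1 := FCH_comp hS PTime.fst
  have hk1 : FCH fun y : α × ℕ => k y.1 := FCH_comp hk PTime.fst
  have hdg := PE.dg hΓ1 hS1 hk1 ht
  have h1' := PE.prod hΓ hn hdg
  have h1 : PE dom p N fun a => ∏ r ∈ Finset.range (n a),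
      Vale.Agent.P337.dg (S a) (k a) (t (a, r)) := h1'
  have h2 := PE.gg_sum hΓ hS hk hn ht
  have h4 := PE.mul PE.two h2
  have h3 := PE.sub hΓ h1 h4
  refine PE.congr (fun a _ => ?_) h3
  have h5 := gg_range (R := MvPolynomial (Fin (N a)) (ZMod (p a))) (S a) (k a) (n a)
    (fun s => t (a, s))
  exact h5.symm

end

section
variable {α β : Type} [Code α] [Code β] {dom : α → Prop} {p N : α → ℕ} [∀ a, NeZero (N a)]

/-- [S6b] -/
theorem PE.wP (hΓ : LCtx dom p N)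
    {fs : ∀ a, Fin (N a) → MvPolynomial (Fin (N a)) (ZMod (p a))} (hf : FE dom p N fs)
    {i : ∀ a, Fin (N a)} (hi : FCH fun a => (i a : ℕ)) {m E r : α → ℕ}
    (hm : FCH m) (hE : FCH E) (hr : FCH r)
    (hd : ∀ a, dom a → 0 < m a ∧ (∀ i, (fs a i).totalDegree < m a) ∧
      m a ^ N a + N a * (m a - 1) ≤ E a ∧ r a ≤ m a ^ N a ∧
      m a * N a * (E a + 2) + E a + 2 < p a ∧ (m a ^ N a) ^ 2 + 1 < p a) :
    PE dom p N fun a => wP (m a) (E a) (fs a) (i a) (r a) := by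
  have hΓ1 := hΓ.fst
  have hm1 : FCH fun y : α × ℕ => m y.1 := FCH_comp hm PTime.fst
  have hE1 : FCH fun y : α × ℕ => E y.1 := FCH_comp hE PTime.fst
  have hr1 : FCH fun y : α × ℕ => r y.1 := FCH_comp hr PTime.fst
  have hi1 : FCH fun y : α × ℕ => (i y.1 : ℕ) := FCH_comp hi PTime.fst
  have hD1 : FCH fun y : α × ℕ => m y.1 ^ N y.1 := hΓ1.fch_pow hm1
  have hx : FZ (fun y : α × ℕ => dom y.1) (fun y => p y.1)
      (fun y => pt (N y.1) (p y.1) y.2 (i y.1)) :=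
    FZ.natCast (FCH_dig hΓ1.fch_p FCH.snd hi1)
  have hg : PE (fun y : α × ℕ => dom y.1) (fun y => p y.1) (fun y => N y.1)
      (fun y => MvPolynomial.C (pt (N y.1) (p y.1) y.2 (i y.1)) - MvPolynomial.X (i y.1)) :=
    PE.sub hΓ1 (PE.C hx) (PE.X hΓ1 hi1)
  have hJ := FZ.ehJ hΓ1 (FE.comp (f := fun y : α × ℕ => y.1) PTime.fst hf) hg hm1 hE1 hr1
    (fun y hy => by
      obtain ⟨h1, h2, h3, h4, h5, h6⟩ := hd y.1 hy
      refine ⟨h1, h2, ?_, h4, h5, h6⟩
      have := Nat.mul_le_mul_left (m y.1 ^ N y.1)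
        (deg_C_sub_X (pt (N y.1) (p y.1) y.2 (i y.1)) (i y.1))
      omega)
  have hfac : FZ (fun y : α × ℕ => dom y.1) (fun y => p y.1)
      (fun y => (((m y.1 ^ N y.1).factorial / (r y.1).factorial : ℕ) : ZMod (p y.1))) := by
    refine FZ.congr (fun y hy => ?_) (FZ.mul (FZ.factorial hΓ1 hD1)
      (FZ.inv hΓ1 (FZ.factorial hΓ1 hr1)))
    obtain ⟨_, _, _, h4, _, h6⟩ := hd y.1 hy
    have : Fact (p y.1).Prime := ⟨hΓ.prime _ hy⟩
    have hdvd : (r y.1).factorial ∣ (m y.1 ^ N y.1).factorial := Nat.factorial_dvd_factorial h4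
    have hne : (((r y.1).factorial : ℕ) : ZMod (p y.1)) ≠ 0 := by
      rw [Ne, ZMod.natCast_eq_zero_iff, (hΓ.prime _ hy).dvd_factorial]
      have : m y.1 ^ N y.1 ≤ (m y.1 ^ N y.1) ^ 2 := Nat.le_self_pow (by norm_num) _
      omega
    rw [Nat.cast_div hdvd hne, div_eq_mul_inv]
  refine FZ.congr (fun y hy => ?_) (FZ.mul hfac hJ)
  exact (eval_wP _ _ _ _ _ _).symm

/-- [S6c] -/
theorem PE.Hp (hΓ : LCtx dom p N) {f : ∀ a, MvPolynomial (Fin (N a)) (ZMod (p a))}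
    (hf : PE dom p N f) {K c : ∀ a, ZMod (p a)} (hK : FZ dom p K) (hc : FZ dom p c)
    {m : α → ℕ} (hm : FCH m) : PE dom p N fun a => Hp (m a) (f a) (K a) (c a) := by
  have hm1 : FZ dom p fun a => (m a : ZMod (p a)) + 1 := FZ.add (FZ.natCast hm) FZ.one
  have hX := FE.X (dom := dom) (p := p) (N := N) hΓ
  have hmy : FCH fun y : α × ℕ => m y.1 + 1 := FCH.add (FCH_comp hm PTime.fst) (FCH.const 1)
  have hXp : FE dom p N fun a (i : Fin (N a)) =>
      (MvPolynomial.X i ^ (m a + 1) : MvPolynomial (Fin (N a)) (ZMod (p a))) :=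
    PE.pow (hΓ.ext fun y => y.2 < N y.1) hX hmy
  exact PE.sub hΓ (PE.add (PE.mul (PE.C (FZ.mul hm1 hK)) hf) (FE.sum hΓ hXp))
    (PE.mul (PE.C (FZ.mul hm1 hc)) (FE.sum hΓ hX))

/-- the condition with code `e` -/
theorem PE.condP (hΓ : LCtx dom p N)
    {fs : ∀ a, Fin (N a) → MvPolynomial (Fin (N a)) (ZMod (p a))} (hf : FE dom p N fs)
    {m E B e : α → ℕ} (hm : FCH m) (hE : FCH E) (hB : FCH B) (he : FCH e)
    (hd : ∀ a, dom a → 0 < m a ∧ (∀ i, (fs a i).totalDegree < m a) ∧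
      m a ^ N a + N a * (m a - 1) ≤ E a ∧
      m a * N a * (E a + 2) + E a + 2 < p a ∧ (m a ^ N a) ^ 2 + 1 < p a) :
    PE dom p N fun a => condP (m a) (E a) (B a) (fs a) (e a) := by
  have hD : FCH fun a => m a ^ N a := hΓ.fch_pow hm
  have hD1 : FCH fun a => m a ^ N a + 1 := FCH.add hD (FCH.const 1)
  have hN := hΓ.fch_N
  have hi : FCH fun a => ((Fin.ofNat (N a) (e a) : Fin (N a)) : ℕ) :=
    FCH.congr (f := fun a => e a % N a) (fun a => by simp) (FCH.mod he hN)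
  have hr : FCH fun a => e a / N a % (m a ^ N a + 1) := FCH.mod (FCH.div he hN) hD1
  have hw := PE.wP hΓ hf hi hm hE hr (fun a ha => by
    obtain ⟨h1, h2, h3, h5, h6⟩ := hd a ha
    exact ⟨h1, h2, h3, Nat.lt_succ_iff.1 (Nat.mod_lt _ (Nat.succ_pos _)), h5, h6⟩)
  have hs1 : FZ dom p fun a => (Vale.Agent.P337.sgn (e a / (N a * (m a ^ N a + 1)) % 2) :
      ZMod (p a)) :=
    FZ.sgn hΓ (FCH.mod (FCH.div he (FCH.mul hN hD1)) (FCH.const 2))
  have hs2 : FZ dom p fun a => (Vale.Agent.P337.sgn (e a / (2 * N a * (m a ^ N a + 1)) % 2) :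
      ZMod (p a)) :=
    FZ.sgn hΓ (FCH.mod (FCH.div he (FCH.mul (FCH.mul (FCH.const 2) hN) hD1)) (FCH.const 2))
  have hΔ : FZ dom p fun a => (2 * 2 ^ (B a ^ 5) : ZMod (p a)) :=
    FZ.mul FZ.two (FZ.pow hΓ FZ.two (hB.pow_const 5))
  exact PE.mul (PE.C hs2) (PE.sub hΓ (PE.mul (PE.C hΔ) (PE.mul (PE.C hs1) hw)) PE.one)

/-- [S6e] the conditions -/
theorem PE.tP (hΓ : LCtx dom p N) {f : ∀ a, MvPolynomial (Fin (N a)) (ZMod (p a))}
    (hf : PE dom p N f) {m E B c cc s : α → ℕ}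
    (hm : FCH m) (hE : FCH E) (hB : FCH B) (hc : FCH c) (hcc : FCH cc) (hs : FCH s)
    (hd : ∀ a, dom a → 1 < m a ∧ (f a).totalDegree < m a ∧
      m a ^ N a + N a * (m a - 1) ≤ E a ∧
      m a * N a * (E a + 2) + E a + 2 < p a ∧ (m a ^ N a) ^ 2 + 1 < p a) :
    PE dom p N fun a => tP (m a) (E a) (B a) (f a) (c a) (cc a) (s a) := by
  have hK : FZ dom p fun a => (2 ^ (B a ^ 2) : ZMod (p a)) :=
    FZ.pow hΓ FZ.two (hB.pow_const 2)
  have hcZ : FZ dom p fun a => (c a : ZMod (p a)) := FZ.natCast hc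
  have hsmall : ∀ a, dom a → 2 < p a ∧ (f a).totalDegree < p a - 1 := by
    intro a ha
    obtain ⟨h1, h2, h3, h5, h6⟩ := hd a ha
    have hN : 0 < N a := Nat.pos_of_ne_zero (NeZero.ne _)
    have hmD : m a ≤ m a ^ N a := Nat.le_self_pow hN.ne' _
    have hDD : m a ^ N a ≤ (m a ^ N a) ^ 2 := Nat.le_self_pow (by norm_num) _
    omega
  have hfs : FE dom p N fun a => fK (f a) (2 ^ (B a ^ 2)) (c a : ZMod (p a)) :=
    FE.fK hΓ hf hK hcZ hsmall
  have hD : FCH fun a => m a ^ N a := hΓ.fch_pow hm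
  have hbase : FCH fun a => 4 * N a * (m a ^ N a + 1) :=
    FCH.mul (FCH.mul (FCH.const 4) hΓ.fch_N) (FCH.add hD (FCH.const 1))
  have he : FCH fun a => dig (4 * N a * (m a ^ N a + 1)) (cc a) (s a) := FCH_dig hbase hcc hs
  have hcond := PE.condP hΓ hfs hm hE hB he (fun a ha => by
    obtain ⟨h1, h2, h3, h5, h6⟩ := hd a ha
    exact ⟨by omega, fun i => fK_deg_ring (by omega) h2 _ _ i, h3, h5, h6⟩)
  have hΔ : FZ dom p fun a => (2 * 2 ^ (B a ^ 5) : ZMod (p a)) :=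
    FZ.mul FZ.two (FZ.pow hΓ FZ.two (hB.pow_const 5))
  have h2B : FZ dom p fun a => (2 ^ (B a) : ZMod (p a)) := FZ.pow hΓ FZ.two hB
  have hH := PE.Hp hΓ hf hK hcZ hm
  have h0 := PE.sub hΓ (PE.mul (PE.C hΔ) (PE.sub hΓ (PE.C h2B) hH)) PE.one
  exact PE.ite (CHP.eq hs (FCH.const 0)) h0 hcond

/-- [S6f] -/
theorem PE.gP (hΓ : LCtx dom p N) {f : ∀ a, MvPolynomial (Fin (N a)) (ZMod (p a))}
    (hf : PE dom p N f) {m E B c k cc j : α → ℕ}
    (hm : FCH m) (hE : FCH E) (hB : FCH B) (hc : FCH c) (hk : FCH k) (hcc : FCH cc) (hj : FCH j)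
    (hd : ∀ a, dom a → 1 < m a ∧ (f a).totalDegree < m a ∧
      m a ^ N a + N a * (m a - 1) ≤ E a ∧
      m a * N a * (E a + 2) + E a + 2 < p a ∧ (m a ^ N a) ^ 2 + 1 < p a) :
    PE dom p N fun a => gP (m a) (E a) (B a) (f a) (c a) (k a) (cc a) (j a) := by
  have ht : PE (fun y : α × ℕ => dom y.1 ∧ y.2 < k y.1 + 1) (fun y => p y.1) (fun y => N y.1)
      (fun y => Vale.Agent.P337.tP (m y.1) (E y.1) (B y.1) (f y.1) (c y.1) (cc y.1) y.2) := by
    refine PE.mono (fun y hy => hy.1) (PE.tP hΓ.fst (PE.comp PTime.fst hf)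
      (FCH_comp hm PTime.fst) (FCH_comp hE PTime.fst) (FCH_comp hB PTime.fst) (FCH_comp hc PTime.fst)
      (FCH_comp hcc PTime.fst) FCH.snd fun y hy => hd y.1 hy)
  have hgg := PE.gg hΓ (hB.pow_const 6) hB (FCH.add hk (FCH.const 1)) ht
  have hD : FZ dom p fun a => (4 * ((m a : ZMod (p a)) ^ N a + 1) : ZMod (p a)) :=
    FZ.mul FZ.four (FZ.add (FZ.pow hΓ (FZ.natCast hm) hΓ.fch_N) FZ.one)
  have hjZ : FZ dom p fun a => (j a : ZMod (p a)) := FZ.natCast hj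
  exact PE.neg hΓ (PE.add (PE.mul (PE.C hD) hgg) (PE.C hjZ))

/-- [S7] the residues of `XX` -/
theorem FZ.XX (hΓ : LCtx dom p N) {f : ∀ a, MvPolynomial (Fin (N a)) (ZMod (p a))}
    (hf : PE dom p N f) {m E B c k cc j : α → ℕ}
    (hm : FCH m) (hE : FCH E) (hB : FCH B) (hc : FCH c) (hk : FCH k) (hcc : FCH cc) (hj : FCH j)
    (hd : ∀ a, dom a → 1 < m a ∧ (f a).totalDegree < m a ∧
      m a ^ N a + N a * (m a - 1) ≤ E a ∧
      m a * N a * (E a + 2) + E a + 2 < p a ∧ (m a ^ N a) ^ 2 + 1 < p a ∧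
      m a ^ N a * (gP (m a) (E a) (B a) (f a) (c a) (k a) (cc a) (j a)).totalDegree +
        N a * (m a - 1) ≤ E a) :
    FZ dom p fun a => XX (m a) (E a) (B a) (f a) (c a) (k a) (cc a) (j a) := by
  have hK : FZ dom p fun a => (2 ^ (B a ^ 2) : ZMod (p a)) :=
    FZ.pow hΓ FZ.two (hB.pow_const 2)
  have hcZ : FZ dom p fun a => (c a : ZMod (p a)) := FZ.natCast hc
  have hsmall : ∀ a, dom a → 2 < p a ∧ (f a).totalDegree < p a - 1 := by
    intro a ha
    obtain ⟨h1, h2, h3, h5, h6, _⟩ := hd a ha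
    have hN : 0 < N a := Nat.pos_of_ne_zero (NeZero.ne _)
    have hmD : m a ≤ m a ^ N a := Nat.le_self_pow hN.ne' _
    have hDD : m a ^ N a ≤ (m a ^ N a) ^ 2 := Nat.le_self_pow (by norm_num) _
    omega
  have hfs : FE dom p N fun a => fK (f a) (2 ^ (B a ^ 2)) (c a : ZMod (p a)) :=
    FE.fK hΓ hf hK hcZ hsmall
  have hg := PE.gP hΓ hf hm hE hB hc hk hcc hj fun a ha => by
    obtain ⟨h1, h2, h3, h5, h6, _⟩ := hd a ha
    exact ⟨h1, h2, h3, h5, h6⟩
  exact FZ.ehJ hΓ hfs hg hm hE (hΓ.fch_pow hm) fun a ha => by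
    obtain ⟨h1, h2, h3, h5, h6, h7⟩ := hd a ha
    exact ⟨by omega, fun i => fK_deg_ring (by omega) h2 _ _ i, h7, le_rfl, h5, h6⟩

end

end Vale.Agent.P337
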