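import Mathlib

/-!
P337, layer REAL: the gap lemma (section 3), in abstract form, and the compactness of the
sublevel sets of `∑ x_i^(m+1)/(m+1) - c ∑ x_i`.
-/

namespace Vale.Agent.P337

namespace GapAux

/-- Cauchy's root bound: `∑_{i ≤ n} c_i r^i` has absolute value at least `1` if `|c_n| ≥ 1`,
`|c_i| ≤ M` for `i < n` and `r ≥ 1 + M`. -/
theorem cauchy_ge (c : ℕ → ℝ) (n : ℕ) (M r : ℝ) (hn : 1 ≤ |c n|) (hM : ∀ i < n, |c i| ≤ M)
    (hM0 : 0 ≤ M) (hr : 1 + M ≤ r) : 1 ≤ |∑ i ∈ Finset.range (n + 1), c i * r ^ i| := by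
  have hr0 : 0 ≤ r := by linarith
  rw [Finset.sum_range_succ]
  have h1 : |∑ i ∈ Finset.range n, c i * r ^ i| ≤ r ^ n - 1 := by
    calc |∑ i ∈ Finset.range n, c i * r ^ i| ≤ ∑ i ∈ Finset.range n, |c i * r ^ i| :=
          Finset.abs_sum_le_sum_abs _ _
      _ ≤ ∑ i ∈ Finset.range n, (r - 1) * r ^ i := by
          refine Finset.sum_le_sum fun i hi => ?_
          rw [abs_mul, abs_of_nonneg (pow_nonneg hr0 i)]
          have := hM i (Finset.mem_range.mp hi)
          exact mul_le_mul_of_nonneg_right (by linarith) (pow_nonneg hr0 i)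
      _ = (∑ i ∈ Finset.range n, r ^ i) * (r - 1) := by
          rw [← Finset.mul_sum, mul_comm]
      _ = r ^ n - 1 := geom_sum_mul r n
  have h2 : r ^ n ≤ |c n * r ^ n| := by
    rw [abs_mul, abs_of_nonneg (pow_nonneg hr0 n)]
    nlinarith [pow_nonneg hr0 n]
  have h3 : |c n * r ^ n| ≤ |∑ i ∈ Finset.range n, c i * r ^ i + c n * r ^ n| +
      |∑ i ∈ Finset.range n, c i * r ^ i| := by
    have := abs_sub (∑ i ∈ Finset.range n, c i * r ^ i + c n * r ^ n)
      (∑ i ∈ Finset.range n, c i * r ^ i)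
    rwa [add_sub_cancel_left] at this
  linarith

/-- The sum up to `d` may be cut at the largest index with a nonzero coefficient. -/
theorem exists_top (c : ℕ → ℤ) (d : ℕ) (h : ∃ i ≤ d, c i ≠ 0) :
    ∃ n ≤ d, c n ≠ 0 ∧ ∀ r : ℝ, ∑ i ∈ Finset.range (d + 1), (c i : ℝ) * r ^ i =
      ∑ i ∈ Finset.range (n + 1), (c i : ℝ) * r ^ i := by
  classical
  obtain ⟨i, hi, hci⟩ := h
  obtain ⟨n, hn, hmax⟩ : ∃ n ∈ (Finset.range (d + 1)).filter (fun i => c i ≠ 0),
      ∀ j ∈ (Finset.range (d + 1)).filter (fun i => c i ≠ 0), j ≤ n := by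
    have hS : ((Finset.range (d + 1)).filter (fun i => c i ≠ 0)).Nonempty :=
      ⟨i, by simp only [Finset.mem_filter, Finset.mem_range]; exact ⟨by omega, hci⟩⟩
    exact ⟨_, Finset.max'_mem _ hS, fun j hj => Finset.le_max' _ j hj⟩
  simp only [Finset.mem_filter, Finset.mem_range] at hn hmax
  refine ⟨n, by omega, hn.2, fun r => ?_⟩
  symm
  apply Finset.sum_subset
  · intro j hj
    rw [Finset.mem_range] at hj ⊢
    omega
  · intro j hj hj'
    rw [Finset.mem_range] at hj hj'
    by_contra hne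
    have hcj : c j ≠ 0 := by
      intro h0
      apply hne
      rw [h0]
      simp
    have := hmax j ⟨hj, hcj⟩
    omega

/-- For `v ≥ 1 + M` a nonzero integer polynomial relation bounds `K`. -/
theorem relation_bound (a : ℕ → ℕ → ℤ) (d e : ℕ) (ha : ∃ i ≤ d, ∃ j ≤ e, a i j ≠ 0) (M : ℝ)
    (hM : ∀ i j, |(a i j : ℝ)| ≤ M) (v K : ℝ) (hv : 1 + M ≤ v) (_hK : 0 ≤ K)
    (h0 : ∑ i ∈ Finset.range (d + 1), ∑ j ∈ Finset.range (e + 1),
      (a i j : ℝ) * v ^ i * K ^ j = 0) : K < 1 + (d + 1) * M * v ^ d := by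
  classical
  have hM0 : 0 ≤ M := (abs_nonneg _).trans (hM 0 0)
  have hv1 : 1 ≤ v := by linarith
  have hv0 : 0 ≤ v := by linarith
  -- the coefficients as polynomials in `v`
  let A : ℕ → ℝ := fun j => ∑ i ∈ Finset.range (d + 1), (a i j : ℝ) * v ^ i
  have hA : ∀ j, |A j| ≤ (d + 1) * M * v ^ d := by
    intro j
    calc |A j| ≤ ∑ i ∈ Finset.range (d + 1), |(a i j : ℝ) * v ^ i| :=
          Finset.abs_sum_le_sum_abs _ _
      _ ≤ ∑ i ∈ Finset.range (d + 1), M * v ^ d := by
          refine Finset.sum_le_sum fun i hi => ?_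
          rw [abs_mul, abs_of_nonneg (pow_nonneg hv0 i)]
          exact mul_le_mul (hM i j)
            (pow_le_pow_right₀ hv1 (by rw [Finset.mem_range] at hi; omega))
            (pow_nonneg hv0 i) hM0
      _ = (d + 1) * M * v ^ d := by
          rw [Finset.sum_const, Finset.card_range, nsmul_eq_mul]
          push_cast
          ring
  have hsum : ∑ j ∈ Finset.range (e + 1), A j * K ^ j = 0 := by
    rw [← h0, Finset.sum_comm]
    refine Finset.sum_congr rfl fun j _ => ?_
    rw [Finset.sum_mul]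
  -- the top coefficient in `K`
  let S := (Finset.range (e + 1)).filter fun j => ∃ i ≤ d, a i j ≠ 0
  have hS : S.Nonempty := by
    obtain ⟨i, hi, j, hj, hij⟩ := ha
    refine ⟨j, ?_⟩
    simp only [S, Finset.mem_filter, Finset.mem_range]
    exact ⟨by omega, i, hi, hij⟩
  obtain ⟨J, hJS, hJmax⟩ : ∃ J ∈ S, ∀ j ∈ S, j ≤ J :=
    ⟨S.max' hS, S.max'_mem hS, fun j hj => S.le_max' j hj⟩
  simp only [S, Finset.mem_filter, Finset.mem_range] at hJS hJmax
  obtain ⟨hJe, hJi⟩ := hJS
  have hzero : ∀ j, J < j → j < e + 1 → A j = 0 := by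
    intro j hj hje
    have : ¬ ∃ i ≤ d, a i j ≠ 0 := fun h => by
      have := hJmax j ⟨hje, h⟩
      omega
    push Not at this
    refine Finset.sum_eq_zero fun i hi => ?_
    rw [Finset.mem_range] at hi
    rw [this i (by omega)]
    simp
  have hsum2 : ∑ j ∈ Finset.range (J + 1), A j * K ^ j = 0 := by
    rw [← hsum]
    apply Finset.sum_subset
    · intro j hj
      rw [Finset.mem_range] at hj ⊢
      omega
    · intro j hj hj'
      rw [Finset.mem_range] at hj hj'
      rw [hzero j (by omega) hj, zero_mul]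
  -- the top coefficient is at least one
  have htop : 1 ≤ |A J| := by
    obtain ⟨n, hn, hcn, heq⟩ := exists_top (fun i => a i J) d hJi
    have h1 : A J = ∑ i ∈ Finset.range (n + 1), (a i J : ℝ) * v ^ i := heq v
    rw [h1]
    refine cauchy_ge (fun i => (a i J : ℝ)) n M v ?_ (fun i _ => hM i J) hM0 hv
    have h2 : (1 : ℤ) ≤ |a n J| := Int.one_le_abs hcn
    have h3 : ((1 : ℤ) : ℝ) ≤ ((|a n J| : ℤ) : ℝ) := by exact_mod_cast h2
    simpa using h3
  by_contra hcon
  push Not at hcon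
  have := cauchy_ge A J ((d + 1) * M * v ^ d) K htop (fun i _ => hA i) (by positivity) hcon
  rw [hsum2, abs_zero] at this
  linarith

/-- A continuous function with compact sublevel sets, plus a nonnegative one, attains its
minimum. -/
theorem exists_min {E : Type*} [TopologicalSpace E] [Nonempty E] (f b : E → ℝ)
    (hf : Continuous f) (hb : Continuous b) (hf0 : ∀ x, 0 ≤ f x)
    (hc : ∀ t : ℝ, IsCompact {x | b x ≤ t}) (K : ℝ) (hK : 0 ≤ K) :
    ∃ x, ∀ y, K * f x + b x ≤ K * f y + b y := by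
  obtain ⟨x₀⟩ := ‹Nonempty E›
  have hcont : Continuous fun x => K * f x + b x := (continuous_const.mul hf).add hb
  have hcomp : IsCompact {x | b x ≤ K * f x₀ + b x₀} := hc _
  have hne : ({x | b x ≤ K * f x₀ + b x₀} : Set E).Nonempty :=
    ⟨x₀, by
      have := mul_nonneg hK (hf0 x₀)
      show b x₀ ≤ K * f x₀ + b x₀
      linarith⟩
  obtain ⟨x, hx, hmin⟩ := hcomp.exists_isMinOn hne hcont.continuousOn
  refine ⟨x, fun y => ?_⟩
  have hx0 : K * f x + b x ≤ K * f x₀ + b x₀ := by
    have h1 : x₀ ∈ {x | b x ≤ K * f x₀ + b x₀} := by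
      have := mul_nonneg hK (hf0 x₀)
      show b x₀ ≤ K * f x₀ + b x₀
      linarith
    exact hmin h1
  by_cases hy : b y ≤ K * f x₀ + b x₀
  · exact hmin hy
  · push Not at hy
    have := mul_nonneg hK (hf0 y)
    linarith

/-- A continuous function with compact sublevel sets is bounded below. -/
theorem exists_min_b {E : Type*} [TopologicalSpace E] [Nonempty E] (b : E → ℝ)
    (hb : Continuous b) (hc : ∀ t : ℝ, IsCompact {x | b x ≤ t}) : ∃ x, ∀ y, b x ≤ b y := by
  obtain ⟨x, hx⟩ := exists_min (fun _ => 0) b continuous_const hb (fun _ => le_rfl) hc 0 le_rfl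
  exact ⟨x, fun y => by simpa using hx y⟩

end GapAux

open GapAux Finset in
/-- **The gap lemma.** -/
theorem gap_abstract {E : Type*} [TopologicalSpace E] [Nonempty E] (f b : E → ℝ)
    (hf : Continuous f) (hb : Continuous b) (hf0 : ∀ x, 0 ≤ f x)
    (hc : ∀ t : ℝ, IsCompact {x | b x ≤ t}) (a : ℕ → ℕ → ℤ) (d e : ℕ)
    (ha : ∃ i ≤ d, ∃ j ≤ e, a i j ≠ 0) (M : ℝ) (hM : ∀ i j, |(a i j : ℝ)| ≤ M)
    (hroot : ∀ (K : ℝ) (x : E), 0 ≤ K → (∀ y, K * f x + b x ≤ K * f y + b y) →
      ∑ i ∈ range (d + 1), ∑ j ∈ range (e + 1), (a i j : ℝ) * (K * f x + b x) ^ i * K ^ j = 0)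
    (T K : ℝ) (hT : 1 + M ≤ T) (hK : 1 + (d + 1) * M * T ^ d ≤ K) :
    (∃ x, f x = 0) ↔ ∃ x, K * f x + b x < T := by
  have hM0 : 0 ≤ M := (abs_nonneg _).trans (hM 0 0)
  have hT1 : 1 ≤ T := by linarith
  have hT0 : 0 ≤ T := by linarith
  have hK1 : 1 ≤ K := by
    have : 0 ≤ (d + 1) * M * T ^ d := by positivity
    linarith
  have hK0 : 0 ≤ K := by linarith
  -- the minimum
  choose! X hX using fun (L : ℝ) (hL : 0 ≤ L) => exists_min f b hf hb hf0 hc L hL
  set v : ℝ → ℝ := fun L => L * f (X L) + b (X L) with hv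
  have hvmin : ∀ L, 0 ≤ L → ∀ y, v L ≤ L * f y + b y := fun L hL y => hX L hL y
  have hbound : ∀ L, 0 ≤ L → 1 + M ≤ v L → L < 1 + (d + 1) * M * v L ^ d := fun L hL hvL =>
    relation_bound a d e ha M hM (v L) L hvL hL (hroot L (X L) hL (hX L hL))
  have hmono : ∀ L L', 0 ≤ L → L ≤ L' → v L ≤ v L' := by
    intro L L' hL hLL
    have h1 := hvmin L hL (X L')
    have h2 : L * f (X L') ≤ L' * f (X L') := mul_le_mul_of_nonneg_right hLL (hf0 _)
    simp only [hv] at h1 ⊢
    linarith
  constructor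
  · rintro ⟨z, hz⟩
    by_contra hcon
    push Not at hcon
    have hvK : T ≤ v K := hcon (X K)
    have hup : ∀ L, 0 ≤ L → v L ≤ b z := by
      intro L hL
      have := hvmin L hL z
      rw [hz] at this
      linarith
    set L := max K (1 + (d + 1) * M * (b z) ^ d) with hL
    have hKL : K ≤ L := le_max_left _ _
    have hL0 : 0 ≤ L := hK0.trans hKL
    have h1 : T ≤ v L := hvK.trans (hmono K L hK0 hKL)
    have h2 := hbound L hL0 (hT.trans h1)
    have h3 : v L ^ d ≤ (b z) ^ d := pow_le_pow_left₀ (hT0.trans h1) (hup L hL0) d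
    have h4 : (d + 1) * M * v L ^ d ≤ (d + 1) * M * (b z) ^ d :=
      mul_le_mul_of_nonneg_left h3 (by positivity)
    have h5 : 1 + (d + 1) * M * (b z) ^ d ≤ L := le_max_right _ _
    linarith
  · rintro ⟨x₁, hx₁⟩
    by_contra hcon
    push Not at hcon
    have hfpos : ∀ x, 0 < f x := fun x => lt_of_le_of_ne (hf0 x) (Ne.symm (hcon x))
    have hvK : v K < T := (hvmin K hK0 x₁).trans_lt hx₁
    -- `v` is unbounded
    obtain ⟨K₁, hKK₁, hvK₁⟩ : ∃ K₁, K ≤ K₁ ∧ T ≤ v K₁ := by
      by_contra hno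
      push Not at hno
      have hcomp := hc T
      have hmem : ∀ L, K ≤ L → X L ∈ {x | b x ≤ T} := by
        intro L hL
        have h1 := hno L hL
        have h2 := mul_nonneg (hK0.trans hL) (hf0 (X L))
        simp only [hv] at h1
        show b (X L) ≤ T
        linarith
      obtain ⟨y, hy, hymin⟩ := hcomp.exists_isMinOn ⟨X K, hmem K le_rfl⟩ hf.continuousOn
      obtain ⟨w, hw⟩ := exists_min_b b hb hc
      have hfy := hfpos y
      set L := max K ((T - b w) / f y) with hL
      have hKL : K ≤ L := le_max_left _ _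
      have h1 := hno L hKL
      have h2 : f y ≤ f (X L) := hymin (hmem L hKL)
      have h3 : (T - b w) / f y ≤ L := le_max_right _ _
      have h4 : T - b w ≤ L * f y := by rwa [div_le_iff₀ hfy] at h3
      have h5 : L * f y ≤ L * f (X L) := mul_le_mul_of_nonneg_left h2 (hK0.trans hKL)
      have h6 := hw (X L)
      simp only [hv] at h1
      linarith
    have hlip : ∀ L ∈ Set.Icc K K₁, ∀ L' ∈ Set.Icc K K₁, L ≤ L' →
        v L' - v L ≤ (f (X K)) * (L' - L) := by
      intro L hL L' hL' hLL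
      have hL0 : 0 ≤ L := hK0.trans hL.1
      have h1 := hvmin L' (hL0.trans hLL) (X L)
      -- `f (X L) ≤ f (X K)`
      have h2 : f (X L) ≤ f (X K) := by
        by_cases hLK : L = K
        · rw [hLK]
        have hlt : K < L := lt_of_le_of_ne hL.1 (Ne.symm hLK)
        have h3 := hvmin L hL0 (X K)
        have h4 := hvmin K hK0 (X L)
        simp only [hv] at h3 h4
        nlinarith
      have h5 : v L' ≤ L' * f (X L) + b (X L) := h1
      have h6 : (L' - L) * f (X L) ≤ (L' - L) * f (X K) :=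
        mul_le_mul_of_nonneg_left h2 (by linarith)
      simp only [hv] at h5 ⊢
      nlinarith
    have hcontv : ContinuousOn v (Set.Icc K K₁) := by
      have : LipschitzOnWith (Real.toNNReal (f (X K))) v (Set.Icc K K₁) := by
        refine LipschitzOnWith.of_dist_le_mul fun L hL L' hL' => ?_
        rw [Real.coe_toNNReal _ (hf0 _), Real.dist_eq, Real.dist_eq]
        rcases le_total L L' with h | h
        · have h1 := hlip L hL L' hL' h
          have h2 := hmono L L' (hK0.trans hL.1) h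
          rw [abs_sub_comm, abs_of_nonneg (by linarith), abs_sub_comm L L',
            abs_of_nonneg (by linarith)]
          exact h1
        · have h1 := hlip L' hL' L hL h
          have h2 := hmono L' L (hK0.trans hL'.1) h
          rw [abs_of_nonneg (by linarith), abs_of_nonneg (by linarith)]
          exact h1
      exact this.continuousOn
    obtain ⟨L, hL, hvL⟩ := intermediate_value_Icc hKK₁ hcontv ⟨hvK.le, hvK₁⟩
    have h1 := hbound L (hK0.trans hL.1) (by rw [hvL]; exact hT)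
    rw [hvL] at h1
    linarith [hL.1]

end Vale.Agent.P337
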