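import Vale.Agent.P337.Alg
import Vale.Agent.P337.Gap

/-!
P337, layer REAL: the concrete barrier `∑ x_i^(m+1)/(m+1) - c ∑ x_i` has compact sublevel sets,
and a minimizer of `K f + barrier` is a zero of the system `F_i = x_i^m - (c - K ∂_i f)`.
-/

namespace Vale.Agent.P337

open MvPolynomial

/-- The barrier. -/
noncomputable def barr {N : ℕ} (m : ℕ) (c : ℝ) (x : Fin N → ℝ) : ℝ :=
  ∑ i, x i ^ (m + 1) / (m + 1) - c * ∑ i, x i

theorem barr_continuous {N : ℕ} (m : ℕ) (c : ℝ) : Continuous (barr (N := N) m c) := by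
  unfold barr
  fun_prop

theorem pow_ge_sq {m : ℕ} (hm : Odd m) (y : ℝ) : y ^ 2 - 1 ≤ y ^ (m + 1) := by
  have heven : Even (m + 1) := hm.add_one
  rcases le_or_gt 1 (|y|) with h | h
  · have h1 : |y| ^ 2 ≤ |y| ^ (m + 1) := pow_le_pow_right₀ h (by
      rcases hm with ⟨k, hk⟩
      omega)
    rw [heven.pow_abs, sq_abs] at h1
    linarith
  · have h1 : 0 ≤ y ^ (m + 1) := heven.pow_nonneg y
    have h2 : y ^ 2 < 1 := by
      rw [← sq_abs]
      nlinarith [abs_nonneg y]
    linarith

theorem barr_ge {N m : ℕ} (hm : Odd m) (c : ℝ) (x : Fin N → ℝ) :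
    (∑ i, x i ^ 2) / (2 * (m + 1)) - N * (1 / (m + 1) + c ^ 2 * (m + 1) / 2) ≤ barr m c x := by
  unfold barr
  have hm1 : (0 : ℝ) < m + 1 := by positivity
  have h1 : ∀ i, x i ^ 2 / (2 * (m + 1)) - (1 / (m + 1) + c ^ 2 * (m + 1) / 2) ≤
      x i ^ (m + 1) / (m + 1) - c * x i := by
    intro i
    have h2 := pow_ge_sq hm (x i)
    have h3 : (x i ^ 2 - 1) / (m + 1) ≤ x i ^ (m + 1) / (m + 1) :=
      div_le_div_of_nonneg_right h2 hm1.le
    have h4 : c * x i ≤ x i ^ 2 / (2 * (m + 1)) + c ^ 2 * (m + 1) / 2 := by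
      have h5 : 0 ≤ (x i - c * (m + 1)) ^ 2 / (2 * (m + 1)) := by positivity
      have h6 : (x i - c * (m + 1)) ^ 2 / (2 * (m + 1)) =
          x i ^ 2 / (2 * (m + 1)) + c ^ 2 * (m + 1) / 2 - c * x i := by
        field_simp
        ring
      linarith
    have h7 : (x i ^ 2 - 1) / (m + 1) = 2 * (x i ^ 2 / (2 * (m + 1))) - 1 / (m + 1) := by
      field_simp
    linarith
  calc (∑ i, x i ^ 2) / (2 * (m + 1)) - N * (1 / (m + 1) + c ^ 2 * (m + 1) / 2)
      = ∑ i, (x i ^ 2 / (2 * (m + 1)) - (1 / (m + 1) + c ^ 2 * (m + 1) / 2)) := by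
        rw [Finset.sum_sub_distrib, Finset.sum_div, Finset.sum_const, Finset.card_univ,
          Fintype.card_fin, nsmul_eq_mul]
    _ ≤ ∑ i, (x i ^ (m + 1) / (m + 1) - c * x i) := Finset.sum_le_sum fun i _ => h1 i
    _ = ∑ i, x i ^ (m + 1) / (m + 1) - c * ∑ i, x i := by
        rw [Finset.sum_sub_distrib, Finset.mul_sum]

theorem barr_isCompact {N m : ℕ} (hm : Odd m) (c t : ℝ) :
    IsCompact {x : Fin N → ℝ | barr m c x ≤ t} := by
  have hm1 : (0 : ℝ) < 2 * (m + 1) := by positivity
  set R : ℝ := 2 * (m + 1) * (t + N * (1 / (m + 1) + c ^ 2 * (m + 1) / 2)) with hR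
  refine Metric.isCompact_of_isClosed_isBounded
    (isClosed_le (barr_continuous m c) continuous_const) ?_
  refine (Metric.isBounded_closedBall (x := (0 : Fin N → ℝ)) (r := Real.sqrt (max R 0))).subset ?_
  intro x hx
  have hx' : barr m c x ≤ t := hx
  have h1 := barr_ge hm c x
  have h2 : (∑ i, x i ^ 2) ≤ R := by
    have h3 : (∑ i, x i ^ 2) / (2 * (m + 1)) ≤ t + N * (1 / (m + 1) + c ^ 2 * (m + 1) / 2) := by
      linarith
    rw [div_le_iff₀ hm1] at h3
    rw [hR]
    linarith
  rw [Metric.mem_closedBall, dist_pi_le_iff (Real.sqrt_nonneg _)]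
  intro i
  rw [Real.dist_eq, Pi.zero_apply, sub_zero]
  apply Real.abs_le_sqrt
  calc x i ^ 2 ≤ ∑ j, x j ^ 2 :=
        Finset.single_le_sum (f := fun j => x j ^ 2) (fun j _ => sq_nonneg _) (Finset.mem_univ i)
    _ ≤ R := h2
    _ ≤ max R 0 := le_max_left _ _

/-- Restriction of a polynomial to a coordinate line. -/
theorem eval_line {N : ℕ} (P : MvPolynomial (Fin N) ℝ) (x : Fin N → ℝ) (i : Fin N) (s : ℝ) :
    (aeval (fun j => if j = i then Polynomial.X else Polynomial.C (x j)) P :
      Polynomial ℝ).eval s = eval (fun j => if j = i then s else x j) P := by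
  induction P using MvPolynomial.induction_on with
  | C a => simp
  | add p q hp hq => simp [hp, hq]
  | mul_X p j hp =>
    rw [map_mul, Polynomial.eval_mul, hp, aeval_X, map_mul, eval_X]
    by_cases h : j = i <;> simp [h]

theorem derivative_line {N : ℕ} (P : MvPolynomial (Fin N) ℝ) (x : Fin N → ℝ) (i : Fin N) :
    Polynomial.derivative (aeval (fun j => if j = i then Polynomial.X else Polynomial.C (x j)) P :
      Polynomial ℝ) =
      aeval (fun j => if j = i then Polynomial.X else Polynomial.C (x j)) (pderiv i P) := by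
  induction P using MvPolynomial.induction_on with
  | C a =>
    rw [pderiv_C, map_zero, aeval_C]
    simp
  | add p q hp hq => simp [hp, hq]
  | mul_X p j hp =>
    rw [map_mul, Polynomial.derivative_mul, hp, pderiv_mul, map_add, map_mul, map_mul, pderiv_X]
    congr 1
    by_cases h : j = i
    · subst h
      simp
    · simp [h]

/-- At a minimizer of a polynomial all partial derivatives vanish. -/
theorem pderiv_eq_zero_of_min {N : ℕ} (P : MvPolynomial (Fin N) ℝ) (x : Fin N → ℝ)
    (hx : ∀ y, eval x P ≤ eval y P) (i : Fin N) : eval x (pderiv i P) = 0 := by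
  set q : Polynomial ℝ :=
    aeval (fun j => if j = i then Polynomial.X else Polynomial.C (x j)) P with hq
  have hxi : (fun j => if j = i then x i else x j) = x := by
    funext j
    by_cases h : j = i
    · simp [h]
    · simp [h]
  have h1 : IsLocalMin (fun s => q.eval s) (x i) := by
    refine Filter.Eventually.of_forall fun s => ?_
    show q.eval (x i) ≤ q.eval s
    rw [hq, eval_line, eval_line, hxi]
    exact hx _
  have h2 := h1.hasDerivAt_eq_zero (q.hasDerivAt (x i))
  rw [hq, derivative_line, eval_line, hxi] at h2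
  exact h2

/-- A minimizer of `K f + barrier` is a zero of the system. -/
theorem sysF_eq_zero_of_min {N m : ℕ} (f : MvPolynomial (Fin N) ℝ) (K c : ℝ) (x : Fin N → ℝ)
    (hx : ∀ y, K * eval x f + barr m c x ≤ K * eval y f + barr m c y) (i : Fin N) :
    eval x (sysF m (fun j => C c - C K * pderiv j f) i) = 0 := by
  set P : MvPolynomial (Fin N) ℝ :=
    C K * f + ∑ j, C (1 / ((m : ℝ) + 1)) * X j ^ (m + 1) - C c * ∑ j, X j with hP
  have hP1 : ∀ y, eval y P = K * eval y f + barr m c y := by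
    intro y
    simp only [hP, barr, map_sub, map_add, map_mul, eval_C, map_sum, map_pow, eval_X]
    have : ∑ j, 1 / ((m : ℝ) + 1) * y j ^ (m + 1) = ∑ j, y j ^ (m + 1) / (m + 1) :=
      Finset.sum_congr rfl fun j _ => by ring
    rw [this]
    ring
  have h := pderiv_eq_zero_of_min P x (fun y => by rw [hP1, hP1]; exact hx y) i
  have hm1 : (m : ℝ) + 1 ≠ 0 := by positivity
  have hP2 : pderiv i P = C K * pderiv i f + X i ^ m - C c := by
    simp only [hP, map_sub, map_add, map_sum, pderiv_C_mul, pderiv_pow, pderiv_X]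
    have h1 : ∑ j, C (1 / ((m : ℝ) + 1)) * ((((m + 1 : ℕ) : MvPolynomial (Fin N) ℝ)) *
        X j ^ (m + 1 - 1) * (Pi.single i (1 : MvPolynomial (Fin N) ℝ) : Fin N → _) j) =
        X i ^ m := by
      rw [Finset.sum_eq_single i]
      · rw [Pi.single_eq_same, mul_one, ← mul_assoc]
        have : C (1 / ((m : ℝ) + 1)) * (((m + 1 : ℕ) : MvPolynomial (Fin N) ℝ)) = 1 := by
          have h2 : (((m + 1 : ℕ) : MvPolynomial (Fin N) ℝ)) = C ((m : ℝ) + 1) := by
            rw [← map_natCast (C : ℝ →+* MvPolynomial (Fin N) ℝ)]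
            push_cast
            rfl
          rw [h2, ← map_mul, one_div, inv_mul_cancel₀ hm1, map_one]
        rw [this, one_mul, Nat.add_sub_cancel]
      · intro j _ hj
        rw [Pi.single_eq_of_ne hj, mul_zero, mul_zero]
      · intro h
        exact absurd (Finset.mem_univ i) h
    have h2 : ∑ j, (Pi.single i (1 : MvPolynomial (Fin N) ℝ) : Fin N → _) j = 1 := by
      rw [Finset.sum_eq_single i]
      · rw [Pi.single_eq_same]
      · intro j _ hj
        rw [Pi.single_eq_of_ne hj]
      · intro h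
        exact absurd (Finset.mem_univ i) h
    rw [h1, h2, mul_one]
  rw [hP2] at h
  simp only [sysF, map_sub, map_add, map_mul, map_pow, eval_C, eval_X] at h ⊢
  linarith

end Vale.Agent.P337
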