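import Vale.Agent.P337.StdDef
import Vale.Agent.P337.CharRoot
import Vale.Agent.P337.GapPoly
import Vale.Agent.P337.SysMap
import Vale.Agent.P337.NrmTau
import Vale.Agent.P337.TauTop

/-!
# P337 [G]: the gap theorem
-/

namespace Vale.Agent.P337

open MvPolynomial

namespace GapF

/-! ### growth -/

theorem sq_le_two_pow {n : ℕ} (hn : 6 ≤ n) : (n + 1) ^ 2 ≤ 2 ^ n := by
  induction n, hn using Nat.le_induction with
  | base => norm_num
  | succ n hn ih =>
    have : (n + 1 + 1) ^ 2 ≤ 2 * (n + 1) ^ 2 := by nlinarith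
    calc (n + 1 + 1) ^ 2 ≤ 2 * (n + 1) ^ 2 := this
      _ ≤ 2 * 2 ^ n := Nat.mul_le_mul_left 2 ih
      _ = 2 ^ (n + 1) := by ring

/-- `B ^ (Z ^ k) ≤ 2 ^ B` if `Z ^ 100 ≤ B`, `k ≤ 50`. -/
theorem pow_le_two_pow {Z B k : ℕ} (hZ : 10 ≤ Z) (hk : k ≤ 50) (hB : Z ^ 100 ≤ B) :
    B ^ (Z ^ k) ≤ 2 ^ B := by
  have hB1 : 10 ^ 100 ≤ B := (Nat.pow_le_pow_left hZ 100).trans hB
  have hB0 : B ≠ 0 := by
    intro h
    rw [h] at hB1
    norm_num at hB1
  set n := Nat.log 2 B with hn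
  have h1 : 2 ^ n ≤ B := Nat.pow_log_le_self 2 hB0
  have h2 : B < 2 ^ (n + 1) := Nat.lt_pow_succ_log_self (by norm_num) B
  have hn6 : 6 ≤ n := by
    by_contra hlt
    have : B < 2 ^ 6 := h2.trans_le (Nat.pow_le_pow_right (by norm_num) (by omega))
    have h3 : (2 : ℕ) ^ 6 ≤ 10 ^ 100 := by norm_num
    omega
  have h4 : (n + 1) ^ 2 ≤ B := (sq_le_two_pow hn6).trans h1
  have h5 : (Z ^ k) ^ 2 ≤ B := by
    rw [← pow_mul]
    exact (Nat.pow_le_pow_right (by omega) (by omega)).trans hB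
  have h6 : (n + 1) * Z ^ k ≤ B := by
    have h7 : ((n + 1) * Z ^ k) ^ 2 ≤ B ^ 2 := by
      rw [mul_pow, sq B]
      exact Nat.mul_le_mul h4 h5
    exact (Nat.pow_le_pow_iff_left (by norm_num)).mp h7
  calc B ^ (Z ^ k) ≤ (2 ^ (n + 1)) ^ (Z ^ k) := Nat.pow_le_pow_left h2.le _
    _ = 2 ^ ((n + 1) * Z ^ k) := by rw [← pow_mul]
    _ ≤ 2 ^ B := Nat.pow_le_pow_right (by norm_num) h6

/-- the size of the coefficients of the relation -/
theorem num_bound {Z B c m N D n E φ Λ a : ℕ} (hZ : 10 ≤ Z) (hB : Z ^ 100 ≤ B) (hc : c ≤ B)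
    (hN : N ≤ Z) (hm : m + 1 ≤ Z) (hD : D ≤ Z) (hn : n ≤ Z) (hE : E = D * (m + 1) + N * (m - 1))
    (hφ : φ = c + m * n + 1) (hΛ : Λ = (m + 1) * n + N + (m + 1) * c * N + 1)
    (ha : a = (E + 1) ^ N * (N.factorial * (2 * m * φ) ^ N) * φ ^ (N * E)) :
    1 + D.factorial * ((a + D) ^ D * Λ ^ D) ≤ 2 ^ B := by
  have hZpos : 0 < Z := by omega
  have hpow : ∀ k ≤ 100, Z ^ k ≤ B := fun k hk => (Nat.pow_le_pow_right hZpos hk).trans hB
  have hZB : Z ≤ B := by simpa using hpow 1 (by norm_num)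
  have hB1 : 1 ≤ B := by omega
  have hB2 : 2 ≤ B := by omega
  have hZ2 : Z ^ 3 ≤ B := hpow 3 (by norm_num)
  have hZZ : 10 * Z ^ 2 ≤ Z ^ 3 := by
    rw [pow_succ Z 2, mul_comm]
    exact Nat.mul_le_mul_left _ hZ
  have hZ10 : 10 * Z ≤ Z ^ 2 := by
    rw [sq]
    exact Nat.mul_le_mul_right _ hZ
  have hmn : m * n ≤ Z ^ 2 := by
    rw [sq]
    exact Nat.mul_le_mul (by omega) hn
  have hE1 : E + 1 ≤ Z ^ 3 := by
    have h1 : D * (m + 1) ≤ Z ^ 2 := by
      rw [sq]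
      exact Nat.mul_le_mul hD hm
    have h2 : N * (m - 1) ≤ Z ^ 2 := by
      rw [sq]
      exact Nat.mul_le_mul hN (by omega)
    omega
  have hφB : φ ≤ B ^ 2 := by
    have h1 : φ ≤ 2 * B := by omega
    rw [sq]
    exact h1.trans (Nat.mul_le_mul_right _ hB2)
  have hφ1 : 1 ≤ φ := by omega
  have hΛB : Λ ≤ B ^ 2 := by
    have h1 : (m + 1) * n ≤ Z ^ 2 := by
      rw [sq]
      exact Nat.mul_le_mul hm hn
    have h2 : (m + 1) * c * N ≤ Z ^ 2 * B := by
      calc (m + 1) * c * N = ((m + 1) * N) * c := by ring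
        _ ≤ (Z * Z) * B := Nat.mul_le_mul (Nat.mul_le_mul hm hN) hc
        _ = Z ^ 2 * B := by rw [sq]
    have h3 : Z ^ 2 + Z + 1 ≤ B := by omega
    have h4 : (Z ^ 2 + 1) * B ≤ B * B := Nat.mul_le_mul_right _ (by omega)
    rw [sq B]
    calc Λ ≤ Z ^ 2 + Z + Z ^ 2 * B + 1 := by omega
      _ ≤ (Z ^ 2 + 1) * B := by
          rw [Nat.add_mul]
          omega
      _ ≤ B * B := h4
  have ha' : a ≤ B ^ (5 * Z + 2 * Z ^ 4) := by
    have h1 : (E + 1) ^ N ≤ B ^ Z :=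
      (Nat.pow_le_pow_left (hE1.trans hZ2) N).trans (Nat.pow_le_pow_right hB1 hN)
    have h2 : N.factorial ≤ B ^ Z :=
      (Nat.factorial_le_pow N).trans
        ((Nat.pow_le_pow_left (hN.trans hZB) N).trans (Nat.pow_le_pow_right hB1 hN))
    have h3 : (2 * m * φ) ^ N ≤ B ^ (3 * Z) := by
      have h4 : 2 * m * φ ≤ B ^ 3 := by
        rw [pow_succ' B 2]
        exact Nat.mul_le_mul (by omega) hφB
      calc (2 * m * φ) ^ N ≤ (B ^ 3) ^ N := Nat.pow_le_pow_left h4 N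
        _ = B ^ (3 * N) := by rw [← pow_mul]
        _ ≤ B ^ (3 * Z) := Nat.pow_le_pow_right hB1 (by omega)
    have h5 : φ ^ (N * E) ≤ B ^ (2 * Z ^ 4) := by
      calc φ ^ (N * E) ≤ (B ^ 2) ^ (N * E) := Nat.pow_le_pow_left hφB _
        _ = B ^ (2 * (N * E)) := by rw [← pow_mul]
        _ ≤ B ^ (2 * Z ^ 4) := by
            refine Nat.pow_le_pow_right hB1 (Nat.mul_le_mul_left 2 ?_)
            rw [pow_succ' Z 3]
            exact Nat.mul_le_mul hN (by omega)
    rw [ha]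
    calc (E + 1) ^ N * (N.factorial * (2 * m * φ) ^ N) * φ ^ (N * E)
        ≤ B ^ Z * (B ^ Z * B ^ (3 * Z)) * B ^ (2 * Z ^ 4) :=
          Nat.mul_le_mul (Nat.mul_le_mul h1 (Nat.mul_le_mul h2 h3)) h5
      _ = B ^ (5 * Z + 2 * Z ^ 4) := by
          rw [← pow_add, ← pow_add, ← pow_add]
          congr 1
          ring
  have haD : a + D ≤ B ^ (5 * Z + 2 * Z ^ 4 + 1) := by
    have h1 : D ≤ B ^ (5 * Z + 2 * Z ^ 4) :=
      (hD.trans hZB).trans (Nat.le_self_pow (by positivity) B)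
    calc a + D ≤ B ^ (5 * Z + 2 * Z ^ 4) * 2 := by omega
      _ ≤ B ^ (5 * Z + 2 * Z ^ 4) * B := Nat.mul_le_mul_left _ hB2
      _ = B ^ (5 * Z + 2 * Z ^ 4 + 1) := (pow_succ _ _).symm
  have h1 : (a + D) ^ D ≤ B ^ ((5 * Z + 2 * Z ^ 4 + 1) * Z) := by
    calc (a + D) ^ D ≤ (B ^ (5 * Z + 2 * Z ^ 4 + 1)) ^ D := Nat.pow_le_pow_left haD D
      _ = B ^ ((5 * Z + 2 * Z ^ 4 + 1) * D) := by rw [← pow_mul]
      _ ≤ _ := Nat.pow_le_pow_right hB1 (Nat.mul_le_mul_left _ hD)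
  have h2 : Λ ^ D ≤ B ^ (2 * Z) := by
    calc Λ ^ D ≤ (B ^ 2) ^ D := Nat.pow_le_pow_left hΛB D
      _ = B ^ (2 * D) := by rw [← pow_mul]
      _ ≤ _ := Nat.pow_le_pow_right hB1 (Nat.mul_le_mul_left _ hD)
  have h3 : D.factorial ≤ B ^ Z :=
    (Nat.factorial_le_pow D).trans
      ((Nat.pow_le_pow_left (hD.trans hZB) D).trans (Nat.pow_le_pow_right hB1 hD))
  have h4 : D.factorial * ((a + D) ^ D * Λ ^ D) ≤
      B ^ (Z + ((5 * Z + 2 * Z ^ 4 + 1) * Z + 2 * Z)) := by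
    rw [pow_add, pow_add]
    exact Nat.mul_le_mul h3 (Nat.mul_le_mul h1 h2)
  have h5 : 1 + D.factorial * ((a + D) ^ D * Λ ^ D) ≤
      B ^ (Z + ((5 * Z + 2 * Z ^ 4 + 1) * Z + 2 * Z) + 1) := by
    have h6 : 1 ≤ B ^ (Z + ((5 * Z + 2 * Z ^ 4 + 1) * Z + 2 * Z)) := Nat.one_le_pow _ _ hB1
    calc 1 + D.factorial * ((a + D) ^ D * Λ ^ D)
        ≤ B ^ (Z + ((5 * Z + 2 * Z ^ 4 + 1) * Z + 2 * Z)) * 2 := by omega
      _ ≤ B ^ (Z + ((5 * Z + 2 * Z ^ 4 + 1) * Z + 2 * Z)) * B := Nat.mul_le_mul_left _ hB2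
      _ = _ := (pow_succ _ _).symm
  refine h5.trans ((Nat.pow_le_pow_right hB1 ?_).trans (pow_le_two_pow hZ (k := 6) (by norm_num) hB))
  have h7 : Z ^ 6 = Z * Z ^ 5 := by ring
  have h8 : 10 * Z ^ 5 ≤ Z ^ 6 := by
    rw [h7]
    exact Nat.mul_le_mul_right _ hZ
  have h9 : Z ^ 2 ≤ Z ^ 5 := Nat.pow_le_pow_right hZpos (by norm_num)
  have h10 : (5 * Z + 2 * Z ^ 4 + 1) * Z = 5 * Z ^ 2 + 2 * Z ^ 5 + Z := by ring
  rw [h10]
  omega

/-! ### norms -/

section
variable {R : Type*} [CommRing R] {N : ℕ}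

theorem pderiv_nrm (n : Nrm R) {d : ℕ} (F : MvPolynomial (Fin N) R) (hF : F.totalDegree ≤ d)
    (i : Fin N) : (n.mv (Fin N)).ν (pderiv i F) ≤ d * (n.mv (Fin N)).ν F := by
  classical
  have h1 : pderiv i F = ∑ a ∈ F.support,
      monomial (a - Finsupp.single i 1) (coeff a F * (a i : R)) := by
    conv_lhs => rw [F.as_sum]
    rw [map_sum]
    exact Finset.sum_congr rfl fun a _ => pderiv_monomial
  rw [h1]
  refine ((n.mv _).sum_le _ _).trans ?_
  rw [Nrm.mv_def, Finset.mul_sum]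
  refine Finset.sum_le_sum fun a ha => (n.monomial_le _ _).trans ?_
  rw [mul_comm]
  refine (n.natCast_mul_le _ _).trans (mul_le_mul_of_nonneg_right ?_ (n.nn _))
  have h2 : a i ≤ a.sum fun _ e => e := by
    by_cases hi : i ∈ a.support
    · exact Finset.single_le_sum (f := fun j => a j) (fun _ _ => Nat.zero_le _) hi
    · rw [Finsupp.notMem_support_iff.mp hi]
      exact Nat.zero_le _
  exact_mod_cast (h2.trans (le_totalDegree ha)).trans hF

theorem mapC_nrm (n : Nrm R) (F : MvPolynomial (Fin N) R) :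
    (n.poly.mv (Fin N)).ν (map Polynomial.C F) ≤ (n.mv (Fin N)).ν F := by
  classical
  rw [Nrm.mv_def, Nrm.mv_def, n.poly.mv_eq_of_subset (support_map_subset Polynomial.C F)]
  refine Finset.sum_le_sum fun a _ => ?_
  rw [coeff_map]
  exact n.poly_C_le _

theorem norm1_eq (F : MvPolynomial (Fin N) ℤ) : (Nrm.int.mv (Fin N)).ν F = (norm1 F : ℝ) := by
  rw [Nrm.mv_def, norm1]
  push_cast
  refine Finset.sum_congr rfl fun a _ => ?_
  show |((coeff a F : ℤ) : ℝ)| = _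
  rw [Nat.cast_natAbs, Int.cast_abs]

theorem fK_nrm (n : Nrm R) {d : ℕ} (F : MvPolynomial (Fin N) R) (hF : F.totalDegree ≤ d) (K : R)
    (hK : n.ν K ≤ 1) (c : ℕ) (i : Fin N) :
    (n.mv (Fin N)).ν (fK F K (c : R) i) ≤ c + d * (n.mv (Fin N)).ν F := by
  unfold fK
  refine ((n.mv _).sub_le _ _).trans (add_le_add ?_ ?_)
  · exact (n.C_le _).trans (n.natCast_le c)
  · refine ((n.mv _).mul' _ _).trans ?_
    have h1 : (n.mv (Fin N)).ν (C K) ≤ 1 := (n.C_le _).trans hK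
    calc (n.mv (Fin N)).ν (C K) * (n.mv (Fin N)).ν (pderiv i F)
        ≤ 1 * (d * (n.mv (Fin N)).ν F) :=
          mul_le_mul h1 (pderiv_nrm n F hF i) ((n.mv _).nn _) zero_le_one
      _ = d * (n.mv (Fin N)).ν F := one_mul _

theorem Hp_nrm (n : Nrm R) (m : ℕ) (F : MvPolynomial (Fin N) R) (K : R)
    (hK : n.ν K ≤ 1) (c : ℕ) :
    (n.mv (Fin N)).ν (Hp m F K (c : R)) ≤
      (m + 1) * (n.mv (Fin N)).ν F + N + (m + 1) * c * N := by
  unfold Hp
  refine ((n.mv _).sub_le _ _).trans (add_le_add ?_ ?_)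
  · refine ((n.mv _).add' _ _).trans (add_le_add ?_ ?_)
    · refine ((n.mv _).mul' _ _).trans (mul_le_mul_of_nonneg_right ?_ ((n.mv _).nn _))
      refine (n.C_le _).trans ?_
      have h1 : ((m : R) + 1) * K = ((m + 1 : ℕ) : R) * K := by push_cast; ring
      rw [h1]
      refine (n.natCast_mul_le _ _).trans ?_
      have h2 := mul_le_mul_of_nonneg_left hK (Nat.cast_nonneg (α := ℝ) (m + 1))
      push_cast at h2 ⊢
      linarith
    · refine ((n.mv _).sum_le _ _).trans ?_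
      calc ∑ i : Fin N, (n.mv (Fin N)).ν (X i ^ (m + 1)) ≤ ∑ i : Fin N, (1 : ℝ) :=
            Finset.sum_le_sum fun i _ => n.X_pow_le i _
        _ = N := by simp
  · refine ((n.mv _).mul' _ _).trans ?_
    refine mul_le_mul ?_ ?_ ((n.mv _).nn _) (by positivity)
    · refine (n.C_le _).trans ?_
      have h1 : ((m : R) + 1) * (c : R) = (((m + 1) * c : ℕ) : R) := by push_cast; ring
      rw [h1]
      refine (n.natCast_le _).trans ?_
      push_cast
      exact le_rfl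
    · refine ((n.mv _).sum_le _ _).trans ?_
      calc ∑ i : Fin N, (n.mv (Fin N)).ν (X i) ≤ ∑ i : Fin N, (1 : ℝ) :=
            Finset.sum_le_sum fun i _ => n.X_le i
        _ = N := by simp

/-! ### degrees -/

theorem leD_C (a : R) : LeD (N := N) 0 (C a) := by
  rw [leD_iff, totalDegree_C]

theorem fK_deg_lt {m : ℕ} (hm : 0 < m) (F : MvPolynomial (Fin N) R) (hF : F.totalDegree < m)
    (K c : R) (i : Fin N) : (fK F K c i).totalDegree < m := by
  have h1 : LeD (m - 1) F := leD_iff.mpr (by omega)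
  have h2 : LeD (m - 1) (fK F K c i) := by
    unfold fK
    rw [sub_eq_add_neg]
    refine LeD.add ?_ (LeD.neg ?_)
    · rw [leD_iff, totalDegree_C]
      exact Nat.zero_le _
    · have h3 : LeD (m - 1 - 1) (pderiv i F) := h1.pderiv i
      have h4 : LeD (0 + (m - 1 - 1)) (C K * pderiv i F) := LeD.mul (leD_C K) h3
      rw [leD_iff] at h4 ⊢
      omega
  rw [leD_iff] at h2
  omega

theorem Hp_deg {m : ℕ} (F : MvPolynomial (Fin N) R) (hF : F.totalDegree < m)
    (K c : R) : (Hp m F K c).totalDegree ≤ m + 1 := by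
  rw [← leD_iff]
  unfold Hp
  rw [sub_eq_add_neg]
  refine LeD.add (LeD.add ?_ (LeD.sum _ fun i _ => ?_)) (LeD.neg ?_)
  · have h1 : LeD m F := leD_iff.mpr (by omega)
    have h2 := LeD.mul (leD_C (((m : R) + 1) * K)) h1
    rw [leD_iff] at h2 ⊢
    omega
  · exact leD_X_pow i (m + 1)
  · have h1 : LeD 1 (∑ i : Fin N, (X i : MvPolynomial (Fin N) R)) :=
      LeD.sum _ fun i _ => by simpa using leD_X_pow (R := R) i 1
    have h2 := LeD.mul (leD_C (((m : R) + 1) * c)) h1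
    rw [leD_iff] at h2 ⊢
    omega

end

/-! ### the polynomial relation -/

section rel
variable {N : ℕ}

/-- the system over `ℤ[u]`, with `K = u` -/
noncomputable def fsU (f : MvPolynomial (Fin N) ℤ) (c : ℕ) (i : Fin N) :
    MvPolynomial (Fin N) (Polynomial ℤ) :=
  fK (map Polynomial.C f) Polynomial.X (c : Polynomial ℤ) i

/-- `H` over `ℤ[u]` -/
noncomputable def HU (m : ℕ) (f : MvPolynomial (Fin N) ℤ) (c : ℕ) :
    MvPolynomial (Fin N) (Polynomial ℤ) :=
  Hp m (map Polynomial.C f) Polynomial.X (c : Polynomial ℤ)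

/-- the coefficient of `T^i` in `D! det (T - M_H)`, a polynomial in `K` -/
noncomputable def coU (m E : ℕ) (f : MvPolynomial (Fin N) ℤ) (c : ℕ) (i : ℕ) : Polynomial ℤ :=
  (-1) ^ (m ^ N - i) * (((m ^ N).factorial / (m ^ N - i).factorial : ℕ) : Polynomial ℤ) *
    ehJ m E (fsU f c) (HU m f c) (m ^ N - i)

/-- evaluation of an integer polynomial at a real number -/
noncomputable def evK (K : ℝ) : Polynomial ℤ →+* ℝ := Polynomial.eval₂RingHom (Int.castRingHom ℝ) K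

theorem evK_X (K : ℝ) : evK K Polynomial.X = K := by simp [evK]

theorem evK_comp (K : ℝ) : (evK K).comp Polynomial.C = Int.castRingHom ℝ :=
  RingHom.ext_int _ _

theorem evK_sum (K : ℝ) (p : Polynomial ℤ) {e : ℕ} (he : p.natDegree ≤ e) :
    evK K p = ∑ j ∈ Finset.range (e + 1), (p.coeff j : ℝ) * K ^ j := by
  have := Polynomial.eval₂_eq_sum_range' (Int.castRingHom ℝ) (Nat.lt_succ_of_le he) K
  simpa [evK] using this

theorem map_fsU (f : MvPolynomial (Fin N) ℤ) (c : ℕ) (K : ℝ) (i : Fin N) :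
    map (evK K) (fsU f c i) = fK (map (Int.castRingHom ℝ) f) K (c : ℝ) i := by
  rw [fsU, map_fK, map_map, evK_comp, evK_X, map_natCast]

theorem map_HU (m : ℕ) (f : MvPolynomial (Fin N) ℤ) (c : ℕ) (K : ℝ) :
    map (evK K) (HU m f c) = Hp m (map (Int.castRingHom ℝ) f) K (c : ℝ) := by
  rw [HU, map_Hp, map_map, evK_comp, evK_X, map_natCast]

theorem totalDegree_map_le {σ R S : Type*} [CommRing R] [CommRing S] (φ : R →+* S)
    (g : MvPolynomial σ R) : (map φ g).totalDegree ≤ g.totalDegree := by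
  classical
  exact Finset.sup_mono (support_map_subset φ g)

/-- the values of `H` at real zeros of the system satisfy the relation -/
theorem relation {m E : ℕ} (hm : 0 < m) (f : MvPolynomial (Fin N) ℤ) (hf : f.totalDegree < m)
    (c : ℕ) (hE : m ^ N * (m + 1) + N * (m - 1) ≤ E) (K : ℝ) (x : Fin N → ℝ)
    (hx : ∀ i, eval x (sysF m (fK (map (Int.castRingHom ℝ) f) K (c : ℝ)) i) = 0) {e : ℕ}
    (he : ∀ i ≤ m ^ N, (coU m E f c i).natDegree ≤ e) :
    ∑ i ∈ Finset.range (m ^ N + 1), ∑ j ∈ Finset.range (e + 1),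
      ((coU m E f c i).coeff j : ℝ) *
        eval x (Hp m (map (Int.castRingHom ℝ) f) K (c : ℝ)) ^ i * K ^ j = 0 := by
  have hfR : (map (Int.castRingHom ℝ) f).totalDegree < m := (totalDegree_map_le _ _).trans_lt hf
  have h1 := char_root (E := E) hm (fun i => fK_deg_lt hm (map (Int.castRingHom ℝ) f) hfR K (c : ℝ) i)
    (Hp m (map (Int.castRingHom ℝ) f) K (c : ℝ)) (by
      have := Nat.mul_le_mul_left (m ^ N) (Hp_deg (map (Int.castRingHom ℝ) f) hfR K (c : ℝ))
      omega) x hx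
  rw [← Finset.sum_flip] at h1
  rw [← h1]
  refine Finset.sum_congr rfl fun i hi => ?_
  have hi' : i ≤ m ^ N := by
    rw [Finset.mem_range] at hi
    omega
  have h2 := evK_sum K (coU m E f c i) (he i hi')
  have h3 : evK K (coU m E f c i) = (-1) ^ (m ^ N - i) *
      (((m ^ N).factorial / (m ^ N - i).factorial : ℕ) : ℝ) *
      ehJ m E (fK (map (Int.castRingHom ℝ) f) K (c : ℝ))
        (Hp m (map (Int.castRingHom ℝ) f) K (c : ℝ)) (m ^ N - i) := by
    rw [coU, map_mul, map_mul, map_pow, map_neg, map_one, map_natCast, map_ehJ, map_HU]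
    congr 2
    funext j
    exact map_fsU f c K j
  rw [← h3, h2, Nat.sub_sub_self hi', Finset.sum_mul]
  refine Finset.sum_congr rfl fun j _ => ?_
  ring

/-- size of the coefficients -/
theorem coU_bound {m : ℕ} (hm : 0 < m) (f : MvPolynomial (Fin N) ℤ) (hf : f.totalDegree < m)
    (c a φ Λ : ℕ) (hφ : c + m * norm1 f ≤ φ) (h1 : 1 ≤ φ)
    (hΛ : (m + 1) * norm1 f + N + (m + 1) * c * N ≤ Λ) (hΛ1 : 1 ≤ Λ)
    (ha : (m ^ N * (m + 1) + N * (m - 1) + 1) ^ N * (N.factorial * (2 * m * φ) ^ N) *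
      φ ^ (N * (m ^ N * (m + 1) + N * (m - 1))) ≤ a) (i j : ℕ) :
    |((coU m (m ^ N * (m + 1) + N * (m - 1)) f c i).coeff j : ℝ)| ≤
      (m ^ N).factorial * ((a + m ^ N : ℝ) ^ (m ^ N) * (Λ : ℝ) ^ (m ^ N)) := by
  set E := m ^ N * (m + 1) + N * (m - 1) with hE
  have hfU : (map Polynomial.C f : MvPolynomial (Fin N) (Polynomial ℤ)).totalDegree < m :=
    (totalDegree_map_le _ _).trans_lt hf
  have hX : (Nrm.int.poly).ν Polynomial.X ≤ 1 := Nrm.int.poly_X_le
  have hnf : (Nrm.int.poly.mv (Fin N)).ν (map Polynomial.C f) ≤ (norm1 f : ℝ) :=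
    (mapC_nrm Nrm.int f).trans (norm1_eq f).le
  have hfs : ∀ i, (Nrm.int.poly.mv (Fin N)).ν (fsU f c i) ≤ (φ : ℝ) := by
    intro i
    refine (fK_nrm Nrm.int.poly (d := m) _ hfU.le Polynomial.X hX c i).trans ?_
    calc (c : ℝ) + m * (Nrm.int.poly.mv (Fin N)).ν (map Polynomial.C f)
        ≤ (c : ℝ) + m * (norm1 f : ℝ) := by
          have := mul_le_mul_of_nonneg_left hnf (Nat.cast_nonneg (α := ℝ) m)
          linarith
      _ = ((c + m * norm1 f : ℕ) : ℝ) := by push_cast; ring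
      _ ≤ (φ : ℝ) := by exact_mod_cast hφ
  have hH : (Nrm.int.poly.mv (Fin N)).ν (HU m f c) ≤ (Λ : ℝ) := by
    refine (Hp_nrm Nrm.int.poly m _ Polynomial.X hX c).trans ?_
    calc ((m : ℝ) + 1) * (Nrm.int.poly.mv (Fin N)).ν (map Polynomial.C f) + N + (m + 1) * c * N
        ≤ ((m : ℝ) + 1) * (norm1 f : ℝ) + N + (m + 1) * c * N := by
          have := mul_le_mul_of_nonneg_left hnf (by positivity : (0 : ℝ) ≤ (m : ℝ) + 1)
          linarith
      _ = (((m + 1) * norm1 f + N + (m + 1) * c * N : ℕ) : ℝ) := by push_cast; ring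
      _ ≤ (Λ : ℝ) := by exact_mod_cast hΛ
  have hmain := ehJ_nrm Nrm.int.poly (E := E) (E₀ := E) hm (fsU f c)
    (fun i => fK_deg_lt hm _ hfU _ _ i) (φ : ℝ) (by exact_mod_cast h1) hfs (HU m f c)
    (by
      have := Nat.mul_le_mul_left (m ^ N) (Hp_deg (map Polynomial.C f) hfU Polynomial.X
        (c : Polynomial ℤ))
      unfold HU
      omega) le_rfl (Λ : ℝ) (by exact_mod_cast hΛ1) hH a
    (by exact_mod_cast ha) (r := m ^ N - i) (Nat.sub_le _ _)
  have hcoef : |((coU m E f c i).coeff j : ℝ)| ≤ Nrm.int.poly.ν (coU m E f c i) :=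
    Nrm.int.poly_coeff_le j (coU m E f c i)
  refine hcoef.trans ?_
  unfold coU
  refine (Nrm.int.poly.mul' _ _).trans ?_
  refine mul_le_mul ?_ hmain (Nrm.int.poly.nn _) (by positivity)
  have h2 : ((-1) ^ (m ^ N - i) * (((m ^ N).factorial / (m ^ N - i).factorial : ℕ) :
      Polynomial ℤ)) = (((m ^ N).factorial / (m ^ N - i).factorial : ℕ) : Polynomial ℤ) ∨
      ((-1) ^ (m ^ N - i) * (((m ^ N).factorial / (m ^ N - i).factorial : ℕ) :
      Polynomial ℤ)) = -(((m ^ N).factorial / (m ^ N - i).factorial : ℕ) : Polynomial ℤ) := by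
    rcases neg_one_pow_eq_or (Polynomial ℤ) (m ^ N - i) with h | h
    · left
      rw [h, one_mul]
    · right
      rw [h, neg_one_mul]
  have h3 : Nrm.int.poly.ν (((m ^ N).factorial / (m ^ N - i).factorial : ℕ) : Polynomial ℤ) ≤
      ((m ^ N).factorial : ℝ) := by
    refine (Nrm.int.poly.natCast_le _).trans ?_
    exact_mod_cast Nat.div_le_self _ _
  rcases h2 with h | h
  · rw [h]
    exact h3
  · rw [h, Nrm.int.poly.neg']
    exact h3

end rel

end GapF

open GapF in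
/-- [G] the gap theorem -/
theorem gap {N L m : ℕ} {f : MvPolynomial (Fin N) ℤ} {B : ℕ} (h : Std L m f B) {c : ℕ}
    (hc : c ≤ B) : (∃ x : Fin N → ℝ, aeval x f = 0) ↔
    ∃ α : Fin N → ℝ, (∀ i, aeval α (sysF m (fK f (2 ^ B ^ 2) (c : ℤ)) i) = 0) ∧
      aeval α (Hp m f (2 ^ B ^ 2) (c : ℤ)) < (2 : ℝ) ^ B := by
  have hm := h.m0
  -- the real objects
  set fR : MvPolynomial (Fin N) ℝ := map (Int.castRingHom ℝ) f with hfR
  have haeval : ∀ (g : MvPolynomial (Fin N) ℤ) (x : Fin N → ℝ),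
      aeval x g = eval x (map (Int.castRingHom ℝ) g) := by
    intro g x
    rw [aeval_def, eval₂_eq_eval_map, algebraMap_int_eq]
  have hfx : ∀ x, aeval x f = eval x fR := fun x => haeval f x
  have hsys : ∀ (α : Fin N → ℝ) i, aeval α (sysF m (fK f (2 ^ B ^ 2) (c : ℤ)) i) =
      eval α (sysF m (fK fR ((2 : ℝ) ^ B ^ 2) (c : ℝ)) i) := by
    intro α i
    rw [haeval, map_sysF]
    have : (fun j => map (Int.castRingHom ℝ) (fK f (2 ^ B ^ 2) (c : ℤ) j)) =
        fK fR ((2 : ℝ) ^ B ^ 2) (c : ℝ) := by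
      funext j
      rw [map_fK]
      simp [hfR]
    rw [this]
  have hH : ∀ α : Fin N → ℝ, aeval α (Hp m f (2 ^ B ^ 2) (c : ℤ)) =
      eval α (Hp m fR ((2 : ℝ) ^ B ^ 2) (c : ℝ)) := by
    intro α
    rw [haeval, map_Hp]
    simp [hfR]
  have hHval : ∀ (K : ℝ) (x : Fin N → ℝ), eval x (Hp m fR K (c : ℝ)) =
      K * ((m + 1) * eval x fR) + (m + 1) * barr m c x := by
    intro K x
    have hm1 : (m : ℝ) + 1 ≠ 0 := by positivity
    simp only [Hp, barr, map_sub, map_add, map_mul, map_natCast, map_one, eval_C, map_sum,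
      map_pow, eval_X]
    have : ∑ j, x j ^ (m + 1) = ((m : ℝ) + 1) * ∑ j, x j ^ (m + 1) / (m + 1) := by
      rw [Finset.mul_sum]
      refine Finset.sum_congr rfl fun j _ => ?_
      field_simp
    rw [this]
    ring
  have hmin0 : ∀ (K : ℝ) (x : Fin N → ℝ),
      (∀ y, K * ((m + 1) * eval x fR) + (m + 1) * barr m c x ≤
        K * ((m + 1) * eval y fR) + (m + 1) * barr m c y) →
      ∀ i, eval x (sysF m (fK fR K (c : ℝ)) i) = 0 := by
    intro K x hx i
    have hm1 : (0 : ℝ) < (m : ℝ) + 1 := by positivity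
    refine sysF_eq_zero_of_min fR K c x (fun y => ?_) i
    have h1 := hx y
    have h2 : ((m : ℝ) + 1) * (K * eval x fR + barr m c x) ≤
        ((m : ℝ) + 1) * (K * eval y fR + barr m c y) := by linarith
    exact le_of_mul_le_mul_left h2 hm1
  -- the numbers
  set D := m ^ N with hD
  set Z := m ^ N + 2 ^ L + 10 with hZ
  set E := m ^ N * (m + 1) + N * (m - 1) with hE
  set φ := c + m * norm1 f + 1 with hφ
  set Λ := (m + 1) * norm1 f + N + (m + 1) * c * N + 1 with hΛ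
  set a := (E + 1) ^ N * (N.factorial * (2 * m * φ) ^ N) * φ ^ (N * E) with ha
  set M : ℕ := D.factorial * ((a + D) ^ D * Λ ^ D) with hM
  have hLZ : L < 2 ^ L := Nat.lt_two_pow_self
  have hmD : m ≤ m ^ N := h.m_le_D
  have hMB : 1 + M ≤ 2 ^ B :=
    num_bound (Z := Z) (by omega) h.hB hc (by have := h.NL; omega) (by omega) (by omega)
      (by have := h.nrm; omega) hE hφ hΛ ha
  have hKB : 1 + (D + 1) * M * (2 ^ B) ^ D ≤ 2 ^ B ^ 2 := by
    have h1 : D + 3 ≤ B := by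
      have h0 := h.Z_le
      have h2 := Nat.one_le_two_pow (n := L)
      omega
    have h2 : D + 1 ≤ 2 ^ B := by
      have := (Nat.lt_two_pow_self (n := B))
      omega
    have h3 : (D + 1) * M * (2 ^ B) ^ D + (2 ^ B) ^ D ≤ (2 ^ B) * 2 ^ B * (2 ^ B) ^ D := by
      have h4 : (D + 1) * M + (D + 1) ≤ (D + 1) * 2 ^ B := by
        rw [← Nat.mul_succ]
        exact Nat.mul_le_mul_left _ (by omega)
      have h5 : (D + 1) * M + 1 ≤ 2 ^ B * 2 ^ B :=
        le_trans (by omega) (h4.trans (Nat.mul_le_mul_right _ h2))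
      calc (D + 1) * M * (2 ^ B) ^ D + (2 ^ B) ^ D = ((D + 1) * M + 1) * (2 ^ B) ^ D := by ring
        _ ≤ (2 ^ B) * 2 ^ B * (2 ^ B) ^ D := Nat.mul_le_mul_right _ h5
    have h6 : 1 ≤ (2 ^ B) ^ D := Nat.one_le_pow _ _ (by positivity)
    calc 1 + (D + 1) * M * (2 ^ B) ^ D ≤ (2 ^ B) * 2 ^ B * (2 ^ B) ^ D := by omega
      _ = 2 ^ (B * (D + 2)) := by
          rw [← pow_mul, ← pow_add, ← pow_add]
          congr 1
          ring
      _ ≤ 2 ^ B ^ 2 := by
          refine Nat.pow_le_pow_right (by norm_num) ?_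
          rw [sq]
          exact Nat.mul_le_mul_left _ (by omega)
  -- the application
  set e : ℕ := ∑ i ∈ Finset.range (D + 1), (coU m E f c i).natDegree with he
  have heb : ∀ i ≤ m ^ N, (coU m E f c i).natDegree ≤ e := by
    intro i hi
    exact Finset.single_le_sum (f := fun i => (coU m E f c i).natDegree)
      (fun _ _ => Nat.zero_le _) (Finset.mem_range.mpr (by omega))
  have habs := gap_abstract (fun x : Fin N → ℝ => ((m : ℝ) + 1) * eval x fR)
    (fun x => ((m : ℝ) + 1) * barr m c x)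
    (continuous_const.mul (continuous_eval fR))
    (continuous_const.mul (barr_continuous m c))
    (fun x => mul_nonneg (by positivity) (by rw [← hfx]; exact h.nn x))
    (fun t => by
      have h1 : {x : Fin N → ℝ | ((m : ℝ) + 1) * barr m c x ≤ t} =
          {x : Fin N → ℝ | barr m c x ≤ t / (m + 1)} := by
        ext x
        have hm1 : (0 : ℝ) < (m : ℝ) + 1 := by positivity
        show ((m : ℝ) + 1) * barr m c x ≤ t ↔ barr m c x ≤ t / (m + 1)
        rw [le_div_iff₀ hm1, mul_comm]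
      rw [h1]
      exact barr_isCompact h.odd _ _)
    (fun i j => (coU m E f c i).coeff j) D e
    ⟨D, le_rfl, 0, Nat.zero_le _, by
      simp only [coU, ← hD, Nat.sub_self, pow_zero, one_mul, Nat.factorial_zero, Nat.div_one,
        ehJ]
      rw [eh_zero, mul_one]
      have : ((D.factorial : ℕ) : Polynomial ℤ) = Polynomial.C ((D.factorial : ℕ) : ℤ) := by simp
      rw [this, Polynomial.coeff_C_zero]
      exact_mod_cast D.factorial_ne_zero⟩
    (M : ℝ) (fun i j => by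
      have := coU_bound hm f h.deg c a φ Λ (by omega) (by omega) (by omega) (by omega)
        le_rfl i j
      have hDR : (D : ℝ) = (m : ℝ) ^ N := by
        rw [hD]
        push_cast
        rfl
      rw [hM]
      push_cast
      rw [hDR]
      exact this)
    (fun K x _ hx => by
      have h1 := relation (E := E) hm f h.deg c le_rfl K x (hmin0 K x hx) heb
      rw [hHval] at h1
      exact h1)
    ((2 : ℝ) ^ B) ((2 : ℝ) ^ B ^ 2) (by exact_mod_cast hMB) (by exact_mod_cast hKB)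
  have hm1 : (0 : ℝ) < (m : ℝ) + 1 := by positivity
  constructor
  · rintro ⟨x, hx⟩
    obtain ⟨y, hy⟩ := habs.mp ⟨x, by
      show ((m : ℝ) + 1) * eval x fR = 0
      rw [← hfx, hx, mul_zero]⟩
    obtain ⟨z, hz⟩ := GapAux.exists_min (fun x : Fin N → ℝ => ((m : ℝ) + 1) * eval x fR)
      (fun x => ((m : ℝ) + 1) * barr m c x)
      (continuous_const.mul (continuous_eval fR))
      (continuous_const.mul (barr_continuous m c))
      (fun x => mul_nonneg (by positivity) (by rw [← hfx]; exact h.nn x))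
      (fun t => by
        have h1 : {x : Fin N → ℝ | ((m : ℝ) + 1) * barr m c x ≤ t} =
            {x : Fin N → ℝ | barr m c x ≤ t / (m + 1)} := by
          ext x
          show ((m : ℝ) + 1) * barr m c x ≤ t ↔ barr m c x ≤ t / (m + 1)
          rw [le_div_iff₀ hm1, mul_comm]
        rw [h1]
        exact barr_isCompact h.odd _ _) ((2 : ℝ) ^ B ^ 2) (by positivity)
    refine ⟨z, fun i => ?_, ?_⟩
    · rw [hsys]
      exact hmin0 _ z hz i
    · rw [hH, hHval]
      exact (hz y).trans_lt hy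
  · rintro ⟨α, _, hα⟩
    rw [hH, hHval] at hα
    obtain ⟨x, hx⟩ := habs.mpr ⟨α, hα⟩
    refine ⟨x, ?_⟩
    rw [hfx]
    exact (mul_eq_zero.mp hx).resolve_left hm1.ne'

end Vale.Agent.P337
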