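import Vale.Agent.P337.Zeros

/-!
# P337, layer REAL: bounds for the roots of polynomials with integer coefficients
-/

namespace Vale.Agent.P337

section
variable {K : Type*} [NormedField K]

/-- If the nonzero coefficients of `p` have norm at least `1` and all coefficients have norm at
most `C`, the roots of `p` have norm at most `C + 1`. -/
theorem root_norm_le {p : Polynomial K} (hp : p ≠ 0) {C : ℝ}
    (h1 : ∀ r, p.coeff r ≠ 0 → 1 ≤ ‖p.coeff r‖) (hC : ∀ r, ‖p.coeff r‖ ≤ C) {z : K}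
    (hz : p.eval z = 0) : ‖z‖ < C + 1 := by
  have hC0 : 0 ≤ C := le_trans (norm_nonneg _) (hC 0)
  have h := Polynomial.IsRoot.norm_lt_cauchyBound hp hz
  have hl : 1 ≤ ‖p.leadingCoeff‖ := h1 _ (Polynomial.leadingCoeff_ne_zero.2 hp)
  have h3 : (Polynomial.cauchyBound p : ℝ) ≤ C + 1 := by
    rw [Polynomial.cauchyBound]
    push_cast
    gcongr
    rw [div_le_iff₀ (by linarith)]
    have h4 : ((Finset.sup (Finset.range p.natDegree) (fun i => ‖p.coeff i‖₊) : NNReal) : ℝ)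
        ≤ C := by
      have h6 : (Finset.sup (Finset.range p.natDegree) (fun i => ‖p.coeff i‖₊)) ≤
          Real.toNNReal C := by
        apply Finset.sup_le
        intro i _
        exact (Real.le_toNNReal_iff_coe_le hC0).2 (hC i)
      have h7 := NNReal.coe_le_coe.2 h6
      rwa [Real.coe_toNNReal _ hC0] at h7
    nlinarith
  have h5 : ‖z‖ < (Polynomial.cauchyBound p : ℝ) := by exact_mod_cast h
  linarith

/-- Under the same hypotheses the nonzero roots have norm at least `1 / (C + 1)`. -/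
theorem one_lt_root_norm {p : Polynomial K} (hp : p ≠ 0) {C : ℝ}
    (h1 : ∀ r, p.coeff r ≠ 0 → 1 ≤ ‖p.coeff r‖) (hC : ∀ r, ‖p.coeff r‖ ≤ C) {z : K}
    (hz : p.eval z = 0) (hz0 : z ≠ 0) : 1 < (C + 1) * ‖z‖ := by
  have hrev : p.reverse ≠ 0 := by
    rw [ne_eq, Polynomial.reverse_eq_zero]; exact hp
  have hroot : p.reverse.eval (z⁻¹) = 0 := by
    let _ : Invertible z := invertibleOfNonzero hz0
    have h := (Polynomial.eval₂_reverse_eq_zero_iff (RingHom.id K) z p).2
      (by rw [Polynomial.eval₂_id]; exact hz)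
    rw [Polynomial.eval₂_id] at h
    rwa [invOf_eq_inv] at h
  have h := root_norm_le hrev (C := C) (fun r hr => by
      rw [Polynomial.coeff_reverse] at hr ⊢
      exact h1 _ hr) (fun r => by rw [Polynomial.coeff_reverse]; exact hC _) hroot
  rw [norm_inv] at h
  have hzpos : 0 < ‖z‖ := norm_pos_iff.2 hz0
  rw [inv_lt_iff_one_lt_mul₀ hzpos] at h
  exact h

end

/-- Real polynomial whose coefficients are integers. -/
theorem root_bounds_int {p : Polynomial ℝ} (hp : p ≠ 0) {C : ℝ}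
    (h1 : ∀ r, ∃ n : ℤ, p.coeff r = n) (hC : ∀ r, |p.coeff r| ≤ C) {z : ℝ}
    (hz : p.eval z = 0) : |z| < C + 1 ∧ (z ≠ 0 → 1 < (C + 1) * |z|) := by
  have h2 : ∀ r, p.coeff r ≠ 0 → 1 ≤ ‖p.coeff r‖ := by
    intro r hr
    obtain ⟨n, hn⟩ := h1 r
    rw [hn] at hr ⊢
    have : n ≠ 0 := by exact_mod_cast hr
    rw [Real.norm_eq_abs, ← Int.cast_abs]
    exact_mod_cast Int.one_le_abs this
  exact ⟨root_norm_le hp h2 hC hz, one_lt_root_norm hp h2 hC hz⟩

/-- Complex version: real coefficients which are integers. -/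
theorem root_bounds_int_complex {p : Polynomial ℂ} (hp : p ≠ 0) {C : ℝ}
    (h1 : ∀ r, ∃ n : ℤ, p.coeff r = n) (hC : ∀ r, ‖p.coeff r‖ ≤ C) {z : ℂ}
    (hz : p.eval z = 0) : ‖z‖ < C + 1 ∧ (z ≠ 0 → 1 < (C + 1) * ‖z‖) := by
  have h2 : ∀ r, p.coeff r ≠ 0 → 1 ≤ ‖p.coeff r‖ := by
    intro r hr
    obtain ⟨n, hn⟩ := h1 r
    rw [hn] at hr ⊢
    have : n ≠ 0 := by exact_mod_cast hr
    rw [Complex.norm_intCast, ← Int.cast_abs]
    exact_mod_cast Int.one_le_abs this
  exact ⟨root_norm_le hp h2 hC hz, one_lt_root_norm hp h2 hC hz⟩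

end Vale.Agent.P337
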