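import Vale.Agent.P337.StdDef
import Vale.Agent.P337.Sizes
import Vale.Agent.P337.Deg
import Vale.Agent.P337.CharRoot
import Vale.Agent.P337.Root

/-!
# P337, pieces M-c and M-d: values of the conditions at real zeros
-/

namespace Vale.Agent.P337

open MvPolynomial

variable {N : ℕ} {L m : ℕ} {f : MvPolynomial (Fin N) ℤ} {B : ℕ}

namespace ValsB

theorem cast_zero (α : Fin N → ℝ) (fs : Fin N → MvPolynomial (Fin N) ℤ) (m : ℕ) (i : Fin N) :
    eval α (sysF m (fun j => map (Int.castRingHom ℝ) (fs j)) i) = aeval α (sysF m fs i) := by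
  have h : sysF m (fun j => map (Int.castRingHom ℝ) (fs j)) i =
      map (Int.castRingHom ℝ) (sysF m fs i) := by simp [sysF]
  rw [h, eval_map]
  rfl

theorem aeval_eq (α : Fin N → ℝ) (g : MvPolynomial (Fin N) ℤ) :
    eval α (map (Int.castRingHom ℝ) g) = aeval α g := by
  rw [eval_map]
  rfl

theorem int_bound {x : ℤ} {C : ℝ} (h : Nrm.int.ν x ≤ C) : |(x : ℝ)| ≤ C := h

/-- bound for the coefficients -/
theorem coef_bound (h : Std L m f B) {c : ℕ} (hc : c ≤ B) (g : MvPolynomial (Fin N) ℤ)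
    (hg : g.totalDegree ≤ m ^ N + m + 1) (hn : (Nrm.int.mv (Fin N)).ν g ≤ 2 ^ (2 * B ^ 3))
    {r : ℕ} (hr : r ≤ m ^ N) :
    (((m ^ N).factorial / r.factorial : ℕ) : ℝ) *
      |((ehJ m (B ^ 12) (fK f (2 ^ B ^ 2) (c : ℤ)) g r : ℤ) : ℝ)| ≤ 2 ^ (B ^ 4) ∧
    m ^ N * g.totalDegree + N * (m - 1) ≤ B ^ 12 := by
  set Z := m ^ N + 2 ^ L + 10 with hZ
  have hZ10 : 10 ≤ Z := h.Z10
  have hNZ : N ≤ Z := h.N_le_Z
  have hmZ : m ≤ Z := h.m_le_Z
  have hDZ : m ^ N ≤ Z := h.D_le_Z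
  have hZ7 : Z ^ 7 ≤ B := h.Zpow_le (by norm_num)
  have hZB : Z ≤ B := h.Z_le
  have hB10 : 10 ≤ B := hZ10.trans hZB
  have hE : m ^ N * g.totalDegree + N * (m - 1) + 1 ≤ Z ^ 3 := by
    calc m ^ N * g.totalDegree + N * (m - 1) + 1 ≤ Z * (Z + Z + 1) + Z * Z + 1 := by
          gcongr
          · exact hg.trans (by omega)
          · omega
      _ ≤ Z ^ 3 := by nlinarith [Nat.mul_le_mul hZ10 (le_refl (Z * Z)), Nat.mul_le_mul hZ10 (le_refl Z)]
  have hE12 : m ^ N * g.totalDegree + N * (m - 1) ≤ B ^ 12 := by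
    calc m ^ N * g.totalDegree + N * (m - 1) ≤ Z ^ 3 := by omega
      _ ≤ B ^ 3 := Nat.pow_le_pow_left hZB 3
      _ ≤ B ^ 12 := Nat.pow_le_pow_right (by omega) (by norm_num)
  refine ⟨?_, hE12⟩
  have hφ : ∀ i, (Nrm.int.mv (Fin N)).ν (fK f (2 ^ B ^ 2) (c : ℤ) i) ≤ 2 ^ (B ^ 2 + B) :=
    fK_nrm h hc
  have h1 := ehJ_nrm Nrm.int h.m0 (fK f (2 ^ B ^ 2) (c : ℤ)) (fK_deg h _ _) (2 ^ (B ^ 2 + B))
    (one_le_two_pow' _) hφ g (E₀ := m ^ N * g.totalDegree + N * (m - 1)) le_rfl hE12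
    (2 ^ (2 * B ^ 3)) (one_le_two_pow' _) hn (2 ^ (B ^ 2 * Z ^ 5))
    (SizesAux.numA hZ10 hZB hNZ hmZ hE) hr
  have h2 := int_bound h1
  have h3 := SizesAux.numFac (r := r) hDZ
  have h4 := SizesAux.numF hZ10 hZ7 hDZ
  have h5 : (1 : ℝ) ≤ 2 ^ (m ^ N) := one_le_two_pow' _
  have hpos : (0 : ℝ) ≤ (((2 ^ (B ^ 2 * Z ^ 5) : ℕ) : ℝ) + (m ^ N : ℕ)) ^ (m ^ N) := by positivity
  push_cast at h2 h4 hpos
  calc (((m ^ N).factorial / r.factorial : ℕ) : ℝ) *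
      |((ehJ m (B ^ 12) (fK f (2 ^ B ^ 2) (c : ℤ)) g r : ℤ) : ℝ)|
      ≤ 2 ^ (Z * Z) * ((2 ^ (B ^ 2 * Z ^ 5) + (m : ℝ) ^ N) ^ m ^ N * (2 ^ (2 * B ^ 3)) ^ m ^ N) :=
        mul_le_mul h3 h2 (abs_nonneg _) (by positivity)
    _ ≤ (2 ^ (Z * Z) * ((2 ^ (B ^ 2 * Z ^ 5) + (m : ℝ) ^ N) ^ m ^ N * 2 ^ m ^ N)) *
        (2 ^ (2 * B ^ 3)) ^ m ^ N := by
        have : (2 ^ (B ^ 2 * Z ^ 5) + (m : ℝ) ^ N) ^ m ^ N ≤
            (2 ^ (B ^ 2 * Z ^ 5) + (m : ℝ) ^ N) ^ m ^ N * 2 ^ m ^ N :=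
          le_mul_of_one_le_right hpos h5
        calc _ ≤ 2 ^ (Z * Z) * (((2 ^ (B ^ 2 * Z ^ 5) + (m : ℝ) ^ N) ^ m ^ N * 2 ^ m ^ N) *
              (2 ^ (2 * B ^ 3)) ^ m ^ N) := by gcongr
          _ = _ := by ring
    _ ≤ 2 ^ (2 * B ^ 3) * (2 ^ (2 * B ^ 3)) ^ m ^ N := by gcongr
    _ ≤ 2 ^ (2 * B ^ 3) * (2 ^ (2 * B ^ 3)) ^ Z := by
        gcongr
        exact one_le_two_pow' _
    _ = 2 ^ (2 * B ^ 3 * (Z + 1)) := by
        rw [← pow_mul, ← pow_add]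
        congr 1
        ring
    _ ≤ 2 ^ (B ^ 4) := by
        apply two_pow_mono
        have h6 : 2 * (Z + 1) ≤ B := by
          calc 2 * (Z + 1) ≤ Z * Z := by nlinarith
            _ = Z ^ 2 := by ring
            _ ≤ Z ^ 7 := Nat.pow_le_pow_right (by omega) (by norm_num)
            _ ≤ B := hZ7
        calc 2 * B ^ 3 * (Z + 1) = B ^ 3 * (2 * (Z + 1)) := by ring
          _ ≤ B ^ 3 * B := Nat.mul_le_mul_left _ h6
          _ = B ^ 4 := by ring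

/-- the values of small polynomials at the real zeros are zero or not small -/
theorem val_bounds (h : Std L m f B) {c : ℕ} (hc : c ≤ B) (g : MvPolynomial (Fin N) ℤ)
    (hg : g.totalDegree ≤ m ^ N + m + 1) (hn : (Nrm.int.mv (Fin N)).ν g ≤ 2 ^ (2 * B ^ 3))
    (α : Fin N → ℝ) (hα : ∀ i, aeval α (sysF m (fK f (2 ^ B ^ 2) (c : ℤ)) i) = 0) :
    |aeval α g| ≤ 2 ^ B ^ 5 ∧ (aeval α g ≠ 0 → 1 ≤ 2 ^ B ^ 5 * |aeval α g|) := by
  have hB10 : 10 ≤ B := h.Z10.trans h.Z_le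
  set fs := fK f (2 ^ B ^ 2) (c : ℤ) with hfs
  set D := m ^ N with hD
  have hE := (coef_bound h hc g hg hn (Nat.zero_le _)).2
  have hfd : ∀ i, (map (Int.castRingHom ℝ) (fs i)).totalDegree < m := fun i =>
    lt_of_le_of_lt (Finset.sup_mono (support_map_subset _ _)) (fK_deg h _ _ i)
  have hroot := char_root (k := ℝ) (m := m) (E := B ^ 12) h.m0
    (fs := fun i => map (Int.castRingHom ℝ) (fs i)) hfd (map (Int.castRingHom ℝ) g)
    (le_trans (by gcongr; exact Finset.sup_mono (support_map_subset _ _)) hE) α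
    (fun i => by rw [cast_zero]; exact hα i)
  simp only [ehJ_map, aeval_eq] at hroot
  set P : Polynomial ℝ := ∑ r ∈ Finset.range (D + 1), Polynomial.monomial (D - r)
    ((-1) ^ r * (((D).factorial / r.factorial : ℕ) : ℝ) *
      (((ehJ m (B ^ 12) fs g r : ℤ)) : ℝ)) with hP
  have hcoef : ∀ j, P.coeff j = if j ≤ D then ((-1) ^ (D - j) *
      (((D).factorial / (D - j).factorial : ℕ) : ℝ) *
      (((ehJ m (B ^ 12) fs g (D - j) : ℤ)) : ℝ)) else 0 := by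
    intro j
    rw [hP, Polynomial.finsetSum_coeff]
    simp only [Polynomial.coeff_monomial]
    split_ifs with hj
    · rw [Finset.sum_eq_single (D - j)]
      · rw [if_pos (by omega)]
      · intro b hb hne
        rw [if_neg]
        have := Finset.mem_range.1 hb
        omega
      · intro hb
        exact absurd (Finset.mem_range.2 (by omega)) hb
    · refine Finset.sum_eq_zero fun r _ => ?_
      rw [if_neg (by omega)]
  have hlead : P.coeff D ≠ 0 := by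
    rw [hcoef, if_pos le_rfl, Nat.sub_self]
    have : ehJ m (B ^ 12) fs g 0 = 1 := by
      unfold ehJ
      simp [eh]
    rw [this]
    have hf := Nat.factorial_pos D
    simp only [pow_zero, Nat.factorial_zero, Nat.div_one, one_mul, Int.cast_one, mul_one]
    exact_mod_cast hf.ne'
  have hP0 : P ≠ 0 := fun h0 => hlead (by rw [h0]; simp)
  have heval : P.eval (aeval α g) = 0 := by
    rw [hP, Polynomial.eval_finsetSum]
    simp only [Polynomial.eval_monomial]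
    rw [← hroot]
    rfl
  have hint : ∀ r, ∃ n : ℤ, P.coeff r = n := by
    intro r
    rw [hcoef]
    split_ifs
    · exact ⟨(-1) ^ (D - r) * (((D).factorial / (D - r).factorial : ℕ) : ℤ) *
        (ehJ m (B ^ 12) fs g (D - r)), by
          rw [Int.cast_mul, Int.cast_mul, Int.cast_pow, Int.cast_neg, Int.cast_one,
            Int.cast_natCast]⟩
    · exact ⟨0, by simp⟩
  have hbd : ∀ r, |P.coeff r| ≤ 2 ^ (B ^ 4) := by
    intro r
    rw [hcoef]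
    split_ifs with hr
    · rw [abs_mul, abs_mul, abs_pow, abs_neg, abs_one, one_pow, one_mul, Nat.abs_cast]
      exact (coef_bound h hc g hg hn (Nat.sub_le D r)).1
    · rw [abs_zero]; positivity
  obtain ⟨h1, h2⟩ := root_bounds_int hP0 hint hbd heval
  have h3 : (2 : ℝ) ^ B ^ 4 + 1 ≤ 2 ^ B ^ 5 := by
    have h4 : (2 : ℝ) ^ B ^ 4 + 1 ≤ 2 ^ (B ^ 4 + 1) := by
      have h5 := one_le_two_pow' (B ^ 4)
      rw [pow_succ (2 : ℝ) (B ^ 4)]
      linarith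
    refine h4.trans (two_pow_mono ?_)
    have : B ^ 5 = B * B ^ 4 := by ring
    have h5 : 1 ≤ B ^ 4 := Nat.one_le_pow _ _ (by omega)
    rw [this]
    nlinarith
  refine ⟨h1.le.trans h3, fun h0 => ?_⟩
  exact (h2 h0).le.trans (mul_le_mul_of_nonneg_right h3 (abs_nonneg _))

theorem abs_bounds {Δ v s : ℝ} (hΔ : 1 ≤ Δ) (hs : s = 1 ∨ s = -1) (h1 : |v| ≤ Δ)
    (h2 : v ≠ 0 → 1 ≤ Δ * |v|) : 1 ≤ |2 * Δ * (s * v) - 1| ∧ |2 * Δ * (s * v) - 1| ≤ 4 * Δ ^ 2 := by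
  have hsv : |s * v| = |v| := by
    rcases hs with rfl | rfl <;> simp
  have h3 : |2 * Δ * (s * v)| = 2 * Δ * |v| := by
    rw [abs_mul, hsv, abs_of_nonneg (by positivity)]
  constructor
  · by_cases hv : v = 0
    · subst hv
      simp
    · have h4 := abs_sub_abs_le_abs_sub (2 * Δ * (s * v)) 1
      rw [h3, abs_one] at h4
      have := h2 hv
      linarith
  · have h4 := abs_sub (2 * Δ * (s * v)) 1
    rw [h3, abs_one] at h4
    have h5 : Δ * |v| ≤ Δ * Δ := mul_le_mul_of_nonneg_left h1 (by linarith)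
    nlinarith

end ValsB

open ValsB

/-- value of `t_0` -/
theorem aeval_tP_zero [NeZero N] (m E B : ℕ) (f : MvPolynomial (Fin N) ℤ) (c cc : ℕ)
    (α : Fin N → ℝ) : aeval α (tP m E B f c cc 0) =
      2 * 2 ^ (B ^ 5) * (1 * aeval α (C (2 ^ B) - Hp m f (2 ^ (B ^ 2)) (c : ℤ))) - 1 := by
  unfold tP
  rw [if_pos rfl, map_sub, map_mul, map_one, aeval_C]
  simp

/-- values of the conditions -/
theorem aeval_condP [NeZero N] (m E B : ℕ) (fs : Fin N → MvPolynomial (Fin N) ℤ) (e : ℕ)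
    (α : Fin N → ℝ) : |aeval α (condP m E B fs e)| =
      |2 * 2 ^ (B ^ 5) * ((sgn (e / (N * (m ^ N + 1)) % 2) : ℝ) *
        aeval α (wP m E fs (Fin.ofNat N e) (e / N % (m ^ N + 1)))) - 1| := by
  have hs : ∀ b, ((sgn b : ℤ) : ℝ) = sgn b := by
    intro b
    unfold sgn
    split_ifs <;> simp
  have ha : ∀ b, |(sgn b : ℝ)| = 1 := by
    intro b
    unfold sgn
    split_ifs <;> simp
  unfold condP
  simp only [map_sub, map_mul, map_one, aeval_C]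
  rw [abs_mul]
  simp only [algebraMap_int_eq, eq_intCast, hs, ha, one_mul]
  push_cast
  rfl

/-- [M-c] values of the conditions at real zeros -/
theorem tP_val [NeZero N] (h : Std L m f B) {c cc s : ℕ} (hc : c ≤ B) (α : Fin N → ℝ)
    (hα : ∀ i, aeval α (sysF m (fK f (2 ^ B ^ 2) (c : ℤ)) i) = 0) :
    1 ≤ |aeval α (tP m (B ^ 12) B f c cc s)| ∧
      |aeval α (tP m (B ^ 12) B f c cc s)| ≤ 2 ^ B ^ 6 := by
  have hB10 : 10 ≤ B := h.Z10.trans h.Z_le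
  have hΔ : (1 : ℝ) ≤ 2 ^ (B ^ 5) := one_le_two_pow' _
  have hfin : (4 : ℝ) * (2 ^ (B ^ 5)) ^ 2 ≤ 2 ^ B ^ 6 := by
    calc (4 : ℝ) * (2 ^ (B ^ 5)) ^ 2 = 2 ^ (B ^ 5 * 2 + 2) := by
          rw [← pow_mul, pow_add]; ring
      _ ≤ 2 ^ B ^ 6 := by
          apply two_pow_mono
          have h1 : 1 ≤ B ^ 5 := Nat.one_le_pow _ _ (by omega)
          have h2 : B ^ 6 = B * B ^ 5 := by ring
          rw [h2]
          nlinarith
  by_cases hs : s = 0
  · subst hs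
    rw [aeval_tP_zero]
    have hg : (C (2 ^ B) - Hp m f (2 ^ (B ^ 2)) (c : ℤ)).totalDegree ≤ m ^ N + m + 1 := by
      refine (totalDegree_sub _ _).trans (max_le ?_ ((Hp_deg h _ _).trans (by omega)))
      rw [totalDegree_C]
      omega
    have hn : (Nrm.int.mv (Fin N)).ν (C (2 ^ B) - Hp m f (2 ^ (B ^ 2)) (c : ℤ)) ≤
        2 ^ (2 * B ^ 3) := by
      refine ((Nrm.int.mv (Fin N)).sub_le_of (C_two_pow_le B) (Hp_nrm h hc)).trans ?_
      calc (2 : ℝ) ^ B + 2 ^ (B ^ 2 + B) ≤ 2 ^ (B ^ 2 + B) + 2 ^ (B ^ 2 + B) := by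
            gcongr
            · norm_num
            · omega
        _ = 2 ^ (B ^ 2 + B + 1) := two_pow_add_le _
        _ ≤ 2 ^ (2 * B ^ 3) := two_pow_mono (by nlinarith [Nat.one_le_pow 2 B (by omega)])
    obtain ⟨h1, h2⟩ := val_bounds h hc _ hg hn α hα
    obtain ⟨h3, h4⟩ := abs_bounds hΔ (Or.inl rfl) h1 h2
    exact ⟨h3, h4.trans hfin⟩
  · unfold tP
    rw [if_neg hs, aeval_condP]
    set e := dig (4 * N * (m ^ N + 1)) cc s with he
    have hr : e / N % (m ^ N + 1) ≤ m ^ N := by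
      exact Nat.le_of_lt_succ (Nat.mod_lt (e / N) (Nat.succ_pos (m ^ N)))
    have hE : m ^ N + N * (m - 1) ≤ B ^ 12 := by
      have h1 := (coef_bound h hc (0 : MvPolynomial (Fin N) ℤ) (by simp)
        (by rw [(Nrm.int.mv (Fin N)).zero']; positivity) (Nat.zero_le _)).2
      have hZ7 := h.Zpow_le (n := 2) (by norm_num)
      have hNZ := h.N_le_Z
      have hmZ := h.m_le_Z
      have hDZ := h.D_le_Z
      have hZ10 := h.Z10
      set Z := m ^ N + 2 ^ L + 10 with hZ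
      calc m ^ N + N * (m - 1) ≤ Z + Z * Z := by gcongr; omega
        _ ≤ 2 * Z ^ 2 := by nlinarith
        _ ≤ B * B := Nat.mul_le_mul (by omega) hZ7
        _ = B ^ 2 := by ring
        _ ≤ B ^ 12 := Nat.pow_le_pow_right (by omega) (by norm_num)
    obtain ⟨h1, h2⟩ := val_bounds h hc (wP m (B ^ 12) (fK f (2 ^ B ^ 2) (c : ℤ))
      (Fin.ofNat N e) (e / N % (m ^ N + 1)))
      ((wP_deg _ hE h.m0 (fK_deg h _ _) _ _ hr).trans (by omega)) (wP_nrm h hc _ hr) α hα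
    have hsg : (sgn (e / (N * (m ^ N + 1)) % 2) : ℝ) = 1 ∨
        (sgn (e / (N * (m ^ N + 1)) % 2) : ℝ) = -1 := by
      unfold sgn
      split_ifs
      · exact Or.inl rfl
      · exact Or.inr rfl
    obtain ⟨h3, h4⟩ := abs_bounds hΔ hsg h1 h2
    exact ⟨h3, h4.trans hfin⟩

/-- [M-d] the sign of `t_0` -/
theorem tP_zero_iff [NeZero N] (h : Std L m f B) {c cc : ℕ} (hc : c ≤ B) (α : Fin N → ℝ)
    (hα : ∀ i, aeval α (sysF m (fK f (2 ^ B ^ 2) (c : ℤ)) i) = 0) :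
    0 < aeval α (tP m (B ^ 12) B f c cc 0) ↔
      aeval α (Hp m f (2 ^ B ^ 2) (c : ℤ)) < (2 : ℝ) ^ B := by
  have h1 := (tP_val h (cc := cc) (s := 0) hc α hα).1
  rw [aeval_tP_zero] at h1 ⊢
  have e1 : aeval α (C (2 ^ B) - Hp m f (2 ^ (B ^ 2)) (c : ℤ)) =
      (2 : ℝ) ^ B - aeval α (Hp m f (2 ^ B ^ 2) (c : ℤ)) := by
    rw [map_sub, aeval_C]
    simp
  rw [e1] at h1 ⊢
  have hΔ : (0 : ℝ) < 2 ^ (B ^ 5) := by positivity
  constructor
  · intro h2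
    by_contra hcon
    have h3 : (2 : ℝ) ^ B - aeval α (Hp m f (2 ^ B ^ 2) (c : ℤ)) ≤ 0 := by linarith
    nlinarith [mul_nonpos_of_nonneg_of_nonpos hΔ.le h3]
  · intro h2
    have h3 : 0 < (2 : ℝ) ^ B - aeval α (Hp m f (2 ^ B ^ 2) (c : ℤ)) := by linarith
    have h4 : 0 < 2 * 2 ^ (B ^ 5) * (1 * ((2 : ℝ) ^ B - aeval α (Hp m f (2 ^ B ^ 2) (c : ℤ)))) := by
      positivity
    rcases le_or_gt 0 (2 * 2 ^ (B ^ 5) * (1 * ((2 : ℝ) ^ B -
      aeval α (Hp m f (2 ^ B ^ 2) (c : ℤ)))) - 1) with h5 | h5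
    · rw [abs_of_nonneg h5] at h1
      linarith
    · rw [abs_of_neg h5] at h1
      linarith

end Vale.Agent.P337
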