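import Vale.Agent.P337.IsolateCore
import Vale.Agent.P337.Vals
import Vale.Agent.P337.EhJ
import Vale.Agent.P337.Trace

/-!
# P337, piece M-e: isolation of one real zero
-/

namespace Vale.Agent.P337

open MvPolynomial

variable {N : ℕ} {L m : ℕ} {f : MvPolynomial (Fin N) ℤ} {B : ℕ}

/-- [M-e] isolation: if some real zero has `H < 2 ^ B`, then some list of at most `N m`
conditions is satisfied by exactly one real zero with `H < 2 ^ B` -/
theorem isolate [NeZero N] (h : Std L m f B) {c : ℕ} (hc : c ≤ B)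
    (hex : ∃ α : Fin N → ℝ, (∀ i, aeval α (sysF m (fK f (2 ^ B ^ 2) (c : ℤ)) i) = 0) ∧
      aeval α (Hp m f (2 ^ B ^ 2) (c : ℤ)) < (2 : ℝ) ^ B) :
    ∃ k ≤ N * m, ∃ cc < (4 * N * (m ^ N + 1)) ^ (N * m + 1),
      ∃! α : Fin N → ℝ, (∀ i, aeval α (sysF m (fK f (2 ^ B ^ 2) (c : ℤ)) i) = 0) ∧
        ∀ s ∈ Finset.range (k + 1), 0 < aeval α (tP m (B ^ 12) B f c cc s) := by
  have hfd : ∀ i, (map (Int.castRingHom ℝ) (fK f (2 ^ B ^ 2) (c : ℤ) i)).totalDegree < m :=
    fun i => lt_of_le_of_lt (Finset.sup_mono (support_map_subset _ _)) (fK_deg h _ _ i)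
  have hfin : Module.Finite ℝ (SysA m fun j =>
      map (Int.castRingHom ℝ) (fK f (2 ^ B ^ 2) (c : ℤ) j)) := sysA_finite h.m0 hfd
  have hE : m ^ N + N * (m - 1) ≤ B ^ 12 := by
    have h2 := h.Zpow_le (n := 2) (by norm_num)
    have hNZ := h.N_le_Z
    have hmZ := h.m_le_Z
    have hDZ := h.D_le_Z
    have hZ10 := h.Z10
    set Z := m ^ N + 2 ^ L + 10 with hZ
    have hB : 10 ≤ B := hZ10.trans h.Z_le
    calc m ^ N + N * (m - 1) ≤ Z + Z * Z := by gcongr; omega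
      _ ≤ 2 * Z ^ 2 := by nlinarith
      _ ≤ B * B := Nat.mul_le_mul (by omega) h2
      _ = B ^ 2 := by ring
      _ ≤ B ^ 12 := Nat.pow_le_pow_right (by omega) (by norm_num)
  exact isolate_core (E := B ^ 12) h.m1 (finrank_eq h.m0 hfd)
    (fun i r hr u => wU_eval h.m0 hfd i hr hE u)
    (fun cc s α hα => (tP_val h hc α hα).1)
    (fun cc α hα => tP_zero_iff h hc α hα) hex

end Vale.Agent.P337
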