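import Vale.Agent.P337.StdDef
import Vale.Agent.P337.SysMap
import Vale.Agent.P337.Zeros
import Vale.Agent.P337.Thom

/-!
# P337, M-e: isolation of one real zero (core, with the analytic facts as hypotheses)
-/

namespace Vale.Agent.P337

open MvPolynomial

variable {N : ℕ} {L m : ℕ} {f : MvPolynomial (Fin N) ℤ} {B : ℕ}

theorem aeval_eq_eval_map (α : Fin N → ℝ) (g : MvPolynomial (Fin N) ℤ) :
    aeval α g = eval α (map (Int.castRingHom ℝ) g) := by
  rw [eval_map, aeval_def, algebraMap_int_eq]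

theorem eval_wP_real (m E : ℕ) (fs : Fin N → MvPolynomial (Fin N) ℝ) (i : Fin N) (r : ℕ)
    (α : Fin N → ℝ) : eval α (wP m E fs i r) = (wU m E fs i r).eval (α i) := by
  unfold wP
  rw [Polynomial.aeval_def, Polynomial.hom_eval₂, eval_X]
  have h : (eval α : MvPolynomial (Fin N) ℝ →+* ℝ).comp (algebraMap ℝ (MvPolynomial (Fin N) ℝ)) =
      RingHom.id ℝ := by
    ext a
    simp [MvPolynomial.algebraMap_eq]
  rw [h, Polynomial.eval₂_id]

theorem aeval_wP (m E : ℕ) (fs : Fin N → MvPolynomial (Fin N) ℤ) (i : Fin N) (r : ℕ)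
    (α : Fin N → ℝ) : aeval α (wP m E fs i r) =
      (wU m E (fun j => map (Int.castRingHom ℝ) (fs j)) i r).eval (α i) := by
  rw [aeval_eq_eval_map, map_wP, eval_wP_real]

theorem dig_ofDigits {b : ℕ} (hb : 0 < b) : ∀ (l : List ℕ), (∀ x ∈ l, x < b) → ∀ s,
    dig b (Nat.ofDigits b l) s = l.getD s 0 := by
  intro l
  induction l with
  | nil =>
    intro _ s
    simp [dig]
  | cons a l ih =>
    intro h s
    have ha : a < b := h a (by simp)
    have hl := ih fun x hx => h x (by simp [hx])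
    rw [Nat.ofDigits_cons]
    cases s with
    | zero =>
      rw [dig, pow_zero, Nat.div_one, Nat.add_mul_mod_self_left, Nat.mod_eq_of_lt ha,
        List.getD_cons_zero]
    | succ s =>
      have h2 := hl s
      rw [dig] at h2
      rw [dig, pow_succ', ← Nat.div_div_eq_div_mul, Nat.add_mul_div_left _ _ hb,
        Nat.div_eq_of_lt ha, zero_add, h2, List.getD_cons_succ]

theorem pos_iff_of_one_le {P u : ℝ} (hP : 0 < P) (h : 1 ≤ |P * u - 1|) :
    0 < P * u - 1 ↔ 0 < u := by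
  constructor
  · intro h1
    by_contra hu
    have : P * u ≤ 0 := mul_nonpos_of_nonneg_of_nonpos hP.le (not_lt.mp hu)
    linarith
  · intro hu
    by_contra h1
    have h2 : 0 < P * u := mul_pos hP hu
    rw [abs_of_nonpos (not_lt.mp h1)] at h
    linarith

theorem neg_iff_of_one_le {t : ℝ} (h : 1 ≤ |t|) : ¬ 0 < t ↔ 0 < -t := by
  constructor
  · intro h1
    rcases lt_or_eq_of_le (not_lt.mp h1) with h2 | h2
    · linarith
    · rw [h2, abs_zero] at h
      linarith
  · intro h1 h2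
    linarith

/-- codes of conditions -/
theorem condP_lt [NeZero N] (m E B : ℕ) (fs : Fin N → MvPolynomial (Fin N) ℤ) (e : ℕ)
    (he : e < 2 * N * (m ^ N + 1)) (α : Fin N → ℝ) :
    aeval α (condP m E B fs e) = 2 * 2 ^ (B ^ 5) *
      (sgn (e / (N * (m ^ N + 1)) % 2) *
        aeval α (wP m E fs (Fin.ofNat N e) (e / N % (m ^ N + 1)))) - 1 := by
  have h1 : e / (2 * N * (m ^ N + 1)) = 0 := Nat.div_eq_of_lt he
  simp only [condP, h1, Nat.zero_mod]
  rw [show (sgn 0 : ℤ) = 1 from rfl, C_1, one_mul]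
  have e1 : aeval α (C (2 * 2 ^ (B ^ 5)) : MvPolynomial (Fin N) ℤ) = (2 * 2 ^ (B ^ 5) : ℝ) := by
    rw [aeval_C]
    simp
  have e2 : aeval α (C (sgn (e / (N * (m ^ N + 1)) % 2)) : MvPolynomial (Fin N) ℤ) =
      (sgn (e / (N * (m ^ N + 1)) % 2) : ℝ) := by
    rw [aeval_C]
    unfold sgn
    split_ifs <;> simp
  have e3 : aeval α (C (2 * 2 ^ (B ^ 5)) * (C (sgn (e / (N * (m ^ N + 1)) % 2)) *
      wP m E fs (Fin.ofNat N e) (e / N % (m ^ N + 1))) - 1 : MvPolynomial (Fin N) ℤ) =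
      aeval α (C (2 * 2 ^ (B ^ 5)) : MvPolynomial (Fin N) ℤ) *
        (aeval α (C (sgn (e / (N * (m ^ N + 1)) % 2)) : MvPolynomial (Fin N) ℤ) *
          aeval α (wP m E fs (Fin.ofNat N e) (e / N % (m ^ N + 1)))) - (1 : ℝ) := by
    simp only [map_sub, map_mul, map_one]
  rw [e3, e1, e2]

theorem condP_add [NeZero N] (m E B : ℕ) (fs : Fin N → MvPolynomial (Fin N) ℤ) (e : ℕ)
    (he : e < 2 * N * (m ^ N + 1)) :
    condP m E B fs (e + 2 * N * (m ^ N + 1)) = -condP m E B fs e := by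
  have hN : 0 < N := Nat.pos_of_ne_zero (NeZero.ne N)
  have hM : 0 < m ^ N + 1 := Nat.succ_pos _
  have hM2 : 0 < N * (m ^ N + 1) := Nat.mul_pos hN hM
  have h1 : e / (2 * N * (m ^ N + 1)) = 0 := Nat.div_eq_of_lt he
  have h2 : (e + 2 * N * (m ^ N + 1)) / (2 * N * (m ^ N + 1)) = 1 := by
    rw [Nat.add_div_right _ (by rw [mul_assoc]; omega), h1]
  have h3 : (e + 2 * N * (m ^ N + 1)) / (N * (m ^ N + 1)) % 2 =
      e / (N * (m ^ N + 1)) % 2 := by
    rw [show e + 2 * N * (m ^ N + 1) = e + (N * (m ^ N + 1)) * 2 by ring,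
      Nat.add_mul_div_left _ _ hM2, Nat.add_mod_right]
  have h4 : (e + 2 * N * (m ^ N + 1)) / N % (m ^ N + 1) = e / N % (m ^ N + 1) := by
    rw [show e + 2 * N * (m ^ N + 1) = e + N * ((m ^ N + 1) * 2) by ring,
      Nat.add_mul_div_left _ _ hN, Nat.add_mul_mod_self_left]
  have h5 : Fin.ofNat N (e + 2 * N * (m ^ N + 1)) = Fin.ofNat N e := by
    apply Fin.ext
    simp only [Fin.ofNat]
    rw [show e + 2 * N * (m ^ N + 1) = e + N * (2 * (m ^ N + 1)) by ring,
      Nat.add_mul_mod_self_left]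
  simp only [condP, h1, h2, h3, h4, h5, Nat.zero_mod]
  rw [show (sgn 0 : ℤ) = 1 from rfl, show (sgn (1 % 2) : ℤ) = -1 from rfl, C_1, one_mul, C_neg,
    C_1, neg_one_mul]

/-- the code with index `i`, order `r` and sign `b` -/
theorem code_facts {D : ℕ} (hN : 0 < N) (i : Fin N) {r b : ℕ} (hr : r ≤ D) (hb : b < 2) :
    let e := (i : ℕ) + N * (r + (D + 1) * b)
    e < 2 * N * (D + 1) ∧ e % N = i ∧ e / N % (D + 1) = r ∧ e / (N * (D + 1)) % 2 = b := by
  intro e
  have h1 : e / N = r + (D + 1) * b := by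
    rw [Nat.add_mul_div_left _ _ hN, Nat.div_eq_of_lt i.2, zero_add]
  have h2 : (r + (D + 1) * b) / (D + 1) = b := by
    rw [Nat.add_mul_div_left _ _ (Nat.succ_pos D), Nat.div_eq_of_lt (by omega), zero_add]
  refine ⟨?_, ?_, ?_, ?_⟩
  · have h3 : r + (D + 1) * b + 1 ≤ 2 * (D + 1) := by
      have : (D + 1) * b ≤ (D + 1) * 1 := Nat.mul_le_mul_left _ (by omega)
      omega
    have h4 := Nat.mul_le_mul_left N h3
    have h5 := i.2
    have h6 : N * (r + (D + 1) * b + 1) = N * (r + (D + 1) * b) + N := by ring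
    have h7 : N * (2 * (D + 1)) = 2 * N * (D + 1) := by ring
    show (i : ℕ) + N * (r + (D + 1) * b) < 2 * N * (D + 1)
    omega
  · rw [Nat.add_mul_mod_self_left, Nat.mod_eq_of_lt i.2]
  · rw [h1, Nat.add_mul_mod_self_left, Nat.mod_eq_of_lt (by omega)]
  · rw [← Nat.div_div_eq_div_mul, h1, h2, Nat.mod_eq_of_lt hb]

/-- the core of the isolation lemma -/
theorem isolate_core [NeZero N] {m E B : ℕ} {f : MvPolynomial (Fin N) ℤ} {c : ℕ}
    (hm : 1 < m)
    [hfin : Module.Finite ℝ (SysA m fun j =>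
      map (Int.castRingHom ℝ) (fK f (2 ^ B ^ 2) (c : ℤ) j))]
    (hrank : Module.finrank ℝ (SysA m fun j =>
      map (Int.castRingHom ℝ) (fK f (2 ^ B ^ 2) (c : ℤ) j)) = m ^ N)
    (hwU : ∀ (i : Fin N) (r : ℕ), r ≤ m ^ N → ∀ u : ℝ,
      ((m ^ N - r).factorial : ℝ) *
        (wU m E (fun j => map (Int.castRingHom ℝ) (fK f (2 ^ B ^ 2) (c : ℤ) j)) i r).eval u =
      ((m ^ N).factorial : ℝ) * (Polynomial.derivative^[m ^ N - r]
        (LinearMap.mulLeft ℝ (cls m (fun j =>
          map (Int.castRingHom ℝ) (fK f (2 ^ B ^ 2) (c : ℤ) j)) (X i))).charpoly).eval u)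
    (hval : ∀ (cc s : ℕ) (α : Fin N → ℝ),
      (∀ i, aeval α (sysF m (fK f (2 ^ B ^ 2) (c : ℤ)) i) = 0) →
      1 ≤ |aeval α (tP m E B f c cc s)|)
    (ht0 : ∀ (cc : ℕ) (α : Fin N → ℝ),
      (∀ i, aeval α (sysF m (fK f (2 ^ B ^ 2) (c : ℤ)) i) = 0) →
      (0 < aeval α (tP m E B f c cc 0) ↔
        aeval α (Hp m f (2 ^ B ^ 2) (c : ℤ)) < (2 : ℝ) ^ B))
    (hex : ∃ α : Fin N → ℝ, (∀ i, aeval α (sysF m (fK f (2 ^ B ^ 2) (c : ℤ)) i) = 0) ∧
      aeval α (Hp m f (2 ^ B ^ 2) (c : ℤ)) < (2 : ℝ) ^ B) :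
    ∃ k ≤ N * m, ∃ cc < (4 * N * (m ^ N + 1)) ^ (N * m + 1),
      ∃! α : Fin N → ℝ, (∀ i, aeval α (sysF m (fK f (2 ^ B ^ 2) (c : ℤ)) i) = 0) ∧
        ∀ s ∈ Finset.range (k + 1), 0 < aeval α (tP m E B f c cc s) := by
  classical
  set fs := fK f (2 ^ B ^ 2) (c : ℤ) with hfs
  set fR := fun j => map (Int.castRingHom ℝ) (fs j) with hfR
  have hN : 0 < N := Nat.pos_of_ne_zero (NeZero.ne N)
  set D := m ^ N with hD
  set M := 2 * N * (D + 1) with hM
  have hMpos : 0 < M := by
    rw [hM]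
    positivity
  have h4M : 4 * N * (D + 1) = 2 * M := by rw [hM]; ring
  rw [h4M]
  -- zeros over the reals
  have hzero : ∀ α : Fin N → ℝ, (∀ i, aeval α (sysF m fs i) = 0) ↔
      ∀ i, eval α (sysF m fR i) = 0 := by
    intro α
    refine forall_congr' fun i => ?_
    rw [aeval_eq_eval_map, map_sysF]
  have hZfin : {α : Fin N → ℝ | ∀ i, aeval α (sysF m fR i) = 0}.Finite := zeros_finite
  have hZcard : {α : Fin N → ℝ | ∀ i, aeval α (sysF m fR i) = 0}.ncard ≤ D := by
    rw [← hrank]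
    exact zeros_ncard_le
  have hzero' : ∀ α : Fin N → ℝ, (∀ i, aeval α (sysF m fs i) = 0) ↔
      α ∈ {α : Fin N → ℝ | ∀ i, aeval α (sysF m fR i) = 0} := by
    intro α
    rw [hzero, Set.mem_ofPred_eq]
    simp only [MvPolynomial.aeval_eq_eval]
  set X : Finset (Fin N → ℝ) := hZfin.toFinset.filter
    (fun α => aeval α (Hp m f (2 ^ B ^ 2) (c : ℤ)) < (2 : ℝ) ^ B) with hX
  have hXmem : ∀ α, α ∈ X ↔ (∀ i, aeval α (sysF m fs i) = 0) ∧
      aeval α (Hp m f (2 ^ B ^ 2) (c : ℤ)) < (2 : ℝ) ^ B := by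
    intro α
    rw [hX, Finset.mem_filter, Set.Finite.mem_toFinset, hzero']
  have hXne : X.Nonempty := by
    obtain ⟨α, h1, h2⟩ := hex
    exact ⟨α, (hXmem α).2 ⟨h1, h2⟩⟩
  have hXcard : X.card ≤ D := by
    refine le_trans (Finset.card_filter_le _ _) ?_
    rw [← Set.ncard_eq_toFinset_card _ hZfin]
    exact hZcard
  -- conditions
  have hcval : ∀ (e : ℕ), e < 2 * M → ∀ α : Fin N → ℝ, (∀ i, aeval α (sysF m fs i) = 0) →
      1 ≤ |aeval α (condP m E B fs e)| := by
    intro e he α hα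
    have h1 := hval (e * (4 * N * (D + 1))) 1 α hα
    rw [tP, if_neg one_ne_zero, dig, pow_one, h4M, Nat.mul_div_cancel _ (by omega),
      Nat.mod_eq_of_lt he] at h1
    exact h1
  have hcpos : ∀ (e : ℕ), e < M → ∀ α : Fin N → ℝ, (∀ i, aeval α (sysF m fs i) = 0) →
      (0 < aeval α (condP m E B fs e) ↔ (0 : ℝ) < sgn (e / (N * (D + 1)) % 2) *
        aeval α (wP m E fs (Fin.ofNat N e) (e / N % (D + 1)))) := by
    intro e he α hα
    have h1 := hcval e (by omega) α hα
    rw [condP_lt m E B fs e he α] at h1 ⊢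
    exact pos_iff_of_one_le (by positivity) h1
  have hcneg : ∀ (e : ℕ), e < M → ∀ α : Fin N → ℝ, (∀ i, aeval α (sysF m fs i) = 0) →
      (¬ 0 < aeval α (condP m E B fs e) ↔ 0 < aeval α (condP m E B fs (e + M))) := by
    intro e he α hα
    have h1 := hcval e (by omega) α hα
    rw [condP_add m E B fs e he, map_neg]
    exact neg_iff_of_one_le h1
  -- separation
  have hsep : ∀ x ∈ X, ∀ y ∈ X, x ≠ y → ∃ e : Fin M,
      ¬ (0 < aeval x (condP m E B fs e) ↔ 0 < aeval y (condP m E B fs e)) := by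
    intro x hx y hy hxy
    have hx' := ((hXmem x).1 hx).1
    have hy' := ((hXmem y).1 hy).1
    obtain ⟨i, r, hr, hs⟩ := thom_zeros (f := fR) (m := m) ((hzero x).1 hx') ((hzero y).1 hy') hxy
    rw [hrank] at hr
    -- signs of the values of w
    have hsign : ∀ z : Fin N → ℝ, SignType.sign (aeval z (wP m E fs i (D - r))) =
        SignType.sign ((Polynomial.derivative^[r]
          (LinearMap.mulLeft ℝ (cls m fR (MvPolynomial.X i))).charpoly).eval (z i)) := by
      intro z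
      have h1 := hwU i (D - r) (Nat.sub_le _ _) (z i)
      rw [Nat.sub_sub_self hr] at h1
      have h2 : (0 : ℝ) < (r.factorial : ℝ) := by exact_mod_cast Nat.factorial_pos _
      have h3 : (0 : ℝ) < (D.factorial : ℝ) := by exact_mod_cast Nat.factorial_pos _
      have h4 := congrArg SignType.sign h1
      rw [sign_mul, sign_mul, sign_pos h2, sign_pos h3, one_mul, one_mul] at h4
      rw [aeval_wP, h4]
    by_contra hcon
    push Not at hcon
    apply hs
    rw [← hsign x, ← hsign y]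
    -- both signs
    have key : ∀ b : ℕ, b < 2 → ((0 : ℝ) < sgn b * aeval x (wP m E fs i (D - r)) ↔
        (0 : ℝ) < sgn b * aeval y (wP m E fs i (D - r))) := by
      intro b hb
      obtain ⟨h1, h2, h3, h4⟩ := code_facts hN i (D := D) (r := D - r) (Nat.sub_le _ _) hb
      have h5 := hcon ⟨_, h1⟩
      rw [hcpos _ h1 x hx', hcpos _ h1 y hy', h3, h4] at h5
      have h6 : Fin.ofNat N ((i : ℕ) + N * (D - r + (D + 1) * b)) = i := by
        apply Fin.ext
        simpa only [Fin.ofNat] using h2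
      rw [h6] at h5
      exact h5
    have k0 := key 0 (by norm_num)
    have k1 := key 1 (by norm_num)
    simp only [sgn, if_pos, if_neg one_ne_zero, one_mul, neg_one_mul, neg_pos] at k0 k1
    rcases lt_trichotomy (aeval x (wP m E fs i (D - r)) : ℝ) 0 with h | h | h
    · rw [sign_neg h, sign_neg (k1.1 h)]
    · have h1 : (aeval y (wP m E fs i (D - r)) : ℝ) = 0 := by
        rcases lt_trichotomy (aeval y (wP m E fs i (D - r)) : ℝ) 0 with h' | h' | h'
        · exact absurd (k1.2 h') (by rw [h]; exact lt_irrefl _)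
        · exact h'
        · exact absurd (k0.2 h') (by rw [h]; exact lt_irrefl _)
      rw [h, h1]
    · rw [sign_pos h, sign_pos (k0.1 h)]
  -- halving
  obtain ⟨l, hl, x, hx, hiso⟩ := _root_.P337.halving
    (fun (e : Fin M) (α : Fin N → ℝ) => 0 < aeval α (condP m E B fs e)) X.card X le_rfl hXne hsep
  have hlog : Nat.log 2 X.card ≤ N * m := by
    refine (Nat.log_mono_right hXcard).trans ?_
    have h1 : D ≤ 2 ^ (N * m) := by
      rw [hD, mul_comm, pow_mul]
      exact Nat.pow_le_pow_left (Nat.lt_two_pow_self).le _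
    refine (Nat.log_mono_right h1).trans ?_
    rw [Nat.log_pow (by norm_num)]
  let cd : Fin M × Bool → ℕ := fun eb => if eb.2 then (eb.1 : ℕ) else eb.1 + M
  have hcd : ∀ eb, cd eb < 2 * M := by
    intro eb
    have := eb.1.2
    simp only [cd]
    split_ifs <;> omega
  set l' := l.map cd with hl'
  have hl'len : l'.length = l.length := by rw [hl', List.length_map]
  have hl'lt : ∀ e ∈ (0 :: l'), e < 2 * M := by
    intro e he
    rw [List.mem_cons] at he
    rcases he with rfl | he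
    · omega
    · rw [hl', List.mem_map] at he
      obtain ⟨eb, _, rfl⟩ := he
      exact hcd eb
  refine ⟨l.length, hl.trans hlog, Nat.ofDigits (2 * M) (0 :: l'), ?_, x, ?_, ?_⟩
  · refine lt_of_lt_of_le (Nat.ofDigits_lt_base_pow_length (by omega) hl'lt) ?_
    refine Nat.pow_le_pow_right (by omega) ?_
    rw [List.length_cons, hl'len]
    exact Nat.succ_le_succ (hl.trans hlog)
  all_goals
    have hdig : ∀ s, s < l.length → ∀ α : Fin N → ℝ,
        aeval α (tP m E B f c (Nat.ofDigits (2 * M) (0 :: l')) (s + 1)) =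
          (aeval α (condP m E B fs (l'.getD s 0)) : ℝ) := by
      intro s hs α
      rw [tP, if_neg (Nat.succ_ne_zero s), h4M, dig_ofDigits (by omega) _ hl'lt,
        List.getD_cons_succ]
    have hall : ∀ α : Fin N → ℝ, (∀ i, aeval α (sysF m fs i) = 0) →
        ((∀ cb ∈ l, ((fun (e : Fin M) (α : Fin N → ℝ) => 0 < aeval α (condP m E B fs e)) cb.1 α ↔
          cb.2 = true)) ↔ ∀ s < l.length, 0 < aeval α (condP m E B fs (l'.getD s 0))) := by
      intro α hα
      have h1 : ∀ cb : Fin M × Bool, ((0 < aeval α (condP m E B fs (cb.1 : ℕ)) ↔ cb.2 = true) ↔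
          0 < aeval α (condP m E B fs (cd cb))) := by
        intro cb
        rcases hb : cb.2 with _ | _
        · simp only [cd, hb, Bool.false_eq_true, if_false, iff_false]
          exact hcneg _ cb.1.2 α hα
        · simp only [cd, hb, if_true, iff_true]
      constructor
      · intro h s hs
        have hs' : s < l'.length := by rw [hl'len]; exact hs
        rw [List.getD_eq_getElem _ _ hs']
        have : l'[s] = cd l[s] := by simp [hl']
        rw [this]
        exact (h1 _).1 (h _ (List.getElem_mem hs))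
      · intro h cb hcb
        obtain ⟨s, hs, rfl⟩ := List.mem_iff_getElem.1 hcb
        have hs' : s < l'.length := by rw [hl'len]; exact hs
        have h2 := h s hs
        rw [List.getD_eq_getElem _ _ hs'] at h2
        have : l'[s] = cd l[s] := by simp [hl']
        rw [this] at h2
        exact (h1 _).2 h2
  · have hx' := (hXmem x).1 hx
    refine ⟨hx'.1, ?_⟩
    intro s hs
    rw [Finset.mem_range] at hs
    cases s with
    | zero => exact (ht0 _ x hx'.1).2 hx'.2
    | succ s =>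
      rw [hdig s (by omega)]
      exact (hall x hx'.1).1 ((hiso x hx).2 rfl) s (by omega)
  · rintro y ⟨hy, hys⟩
    have hyX : y ∈ X := (hXmem y).2 ⟨hy, (ht0 _ y hy).1 (hys 0 (by simp))⟩
    apply (hiso y hyX).1
    apply (hall y hy).2
    intro s hs
    rw [← hdig s hs]
    exact hys (s + 1) (by rw [Finset.mem_range]; omega)

end Vale.Agent.P337
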