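import Vale.Agent.P337.StubPE

/-!
# P337: [S4] families of polynomials, the Jacobian
-/

namespace Vale.Agent.P337

open MvPolynomial

section
variable {α β : Type} [Code α] [Code β] {dom : α → Prop} {p N : α → ℕ} [∀ a, NeZero (N a)]

theorem Fin_ofNat_coe (n : ℕ) [NeZero n] (i : Fin n) : Fin.ofNat n (i : ℕ) = i := by
  apply Fin.ext
  simp [Fin.ofNat, Nat.mod_eq_of_lt i.isLt]

theorem FE.get {fs : ∀ a, Fin (N a) → MvPolynomial (Fin (N a)) (ZMod (p a))}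
    (hf : FE dom p N fs) {i : ∀ a, Fin (N a)} (hi : FCH fun a => (i a : ℕ)) :
    PE dom p N fun a => fs a (i a) := by
  have h := PE.subst (dom := dom) (p := p) (N := N)
    (g := fun y : α × ℕ => fs y.1 (Fin.ofNat (N y.1) y.2)) hf hi
    (fun a ha => ⟨ha, (i a).isLt⟩)
  exact PE.congr (fun a _ => by rw [Fin_ofNat_coe]) h

theorem FE.comp {f : β → α} (hf : PTime f)
    {fs : ∀ a, Fin (N a) → MvPolynomial (Fin (N a)) (ZMod (p a))} (h : FE dom p N fs) :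
    FE (fun b => dom (f b)) (fun b => p (f b)) (fun b => N (f b)) (fun b => fs (f b)) :=
  PE.comp (f := fun y : β × ℕ => (f y.1, y.2)) ((hf.comp PTime.fst).pair PTime.snd) h

theorem FE.mono {dom' : α → Prop}
    {fs : ∀ a, Fin (N a) → MvPolynomial (Fin (N a)) (ZMod (p a))}
    (h : ∀ a, dom' a → dom a) (hf : FE dom p N fs) : FE dom' p N fs :=
  PE.mono (fun _ hy => ⟨h _ hy.1, hy.2⟩) hf

theorem FE.congr {fs fs' : ∀ a, Fin (N a) → MvPolynomial (Fin (N a)) (ZMod (p a))}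
    (h : ∀ a, dom a → ∀ i, fs a i = fs' a i) (hf : FE dom p N fs) : FE dom p N fs' :=
  PE.congr (fun _ hy => h _ hy.1 _) hf

/-- `FCH` of the index in the context of a family -/
theorem FCH_ofNat {N : α → ℕ} [∀ a, NeZero (N a)] {n : α → ℕ} (hN : FCH N) (hn : FCH n) :
    FCH fun a => ((Fin.ofNat (N a) (n a) : Fin (N a)) : ℕ) :=
  (FCH.mod hn hN).congr fun a => by simp [Fin.ofNat]

theorem FE.X (hΓ : LCtx dom p N) :
    FE dom p N fun a (i : Fin (N a)) => (X i : MvPolynomial (Fin (N a)) (ZMod (p a))) :=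
  PE.X (hΓ.ext fun y => y.2 < N y.1)
    (FCH_ofNat (FCH_comp hΓ.fch_N PTime.fst) FCH.snd)

theorem FE.sum (hΓ : LCtx dom p N)
    {fs : ∀ a, Fin (N a) → MvPolynomial (Fin (N a)) (ZMod (p a))} (hf : FE dom p N fs) :
    PE dom p N fun a => ∑ i, fs a i := by
  have h := PE.sum (dom := dom) (p := p) (N := N) hΓ.fch_N
    (g := fun y : α × ℕ => fs y.1 (Fin.ofNat (N y.1) y.2)) hf
  refine PE.congr (fun a _ => ?_) h
  rw [← Fin.sum_univ_eq_sum_range (fun i => fs a (Fin.ofNat (N a) i))]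
  exact Finset.sum_congr rfl fun i _ => by rw [Fin_ofNat_coe]

/-- product over `Fin (N a)` of residues -/
theorem FZ.prodFin (hΓ : LCtx dom p N) {v : ∀ a, Fin (N a) → ZMod (p a)}
    (hv : FZ (fun y : α × ℕ => dom y.1 ∧ y.2 < N y.1) (fun y => p y.1)
      (fun y => v y.1 (Fin.ofNat (N y.1) y.2))) : FZ dom p fun a => ∏ i, v a i := by
  have h := FZ.prod (dom := dom) (p := p) (N := N) hΓ hΓ.fch_N
    (v := fun y : α × ℕ => v y.1 (Fin.ofNat (N y.1) y.2)) hv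
  refine FZ.congr (fun a _ => ?_) h
  rw [← Fin.prod_univ_eq_prod_range (fun i => v a (Fin.ofNat (N a) i))]
  exact Finset.prod_congr rfl fun i _ => by rw [Fin_ofNat_coe]

/-- the family `f_i = c - K ∂_i f` -/
theorem FE.fK (hΓ : LCtx dom p N) {f : ∀ a, MvPolynomial (Fin (N a)) (ZMod (p a))}
    (hf : PE dom p N f) {K c : ∀ a, ZMod (p a)} (hK : FZ dom p K) (hc : FZ dom p c)
    (hd : ∀ a, dom a → 2 < p a ∧ (f a).totalDegree < p a - 1) :
    FE dom p N fun a => fK (f a) (K a) (c a) := by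
  have hΓ' := hΓ.ext fun y => y.2 < N y.1
  have hm : ∀ y : α × ℕ, dom y.1 ∧ y.2 < N y.1 → dom y.1 := fun y hy => hy.1
  exact PE.sub hΓ' (PE.C (FZ.mono hm (FZ.comp PTime.fst hc)))
    (PE.mul (PE.C (FZ.mono hm (FZ.comp PTime.fst hK)))
      (PE.pderiv hΓ' (PE.mono hm (PE.comp PTime.fst hf))
        (FCH_ofNat (FCH_comp hΓ.fch_N PTime.fst) FCH.snd) (fun y hy => hd _ hy.1)))

/-- the value of a coded map -/
theorem FCH_mp {n i : α → ℕ} (hN : FCH N) (hn : FCH n) (hi : FCH i) :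
    FCH fun a => ((mp (N a) (n a) (Fin.ofNat (N a) (i a)) : Fin (N a)) : ℕ) := by
  have h : FCH fun a => dig (N a) (n a) (i a % N a) := FCH_dig hN hn (FCH.mod hi hN)
  refine (FCH.mod h hN).congr fun a => ?_
  simp [mp, Fin.ofNat]

/-- the sign part of `jac_formula` -/
theorem FZ.jacSgn (hΓ : LCtx dom p N) {n : α → ℕ} (hn : FCH n) :
    FZ dom p fun a => ∏ i : Fin (N a), ∏ j : Fin (N a),
      if i < j then (if mp (N a) (n a) i < mp (N a) (n a) j then (1 : ZMod (p a)) else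
        if mp (N a) (n a) j < mp (N a) (n a) i then -1 else 0) else 1 := by
  have hΓ1 := hΓ.ext fun y => y.2 < N y.1
  have hΓ2 := hΓ1.ext fun y => y.2 < N y.1.1
  refine FZ.prodFin hΓ ?_
  refine FZ.prodFin (dom := fun y : α × ℕ => dom y.1 ∧ y.2 < N y.1) (p := fun y => p y.1)
    (N := fun y => N y.1) hΓ1 ?_
  have hN2 : FCH fun y : (α × ℕ) × ℕ => N y.1.1 :=
    FCH_comp (FCH_comp hΓ.fch_N PTime.fst) PTime.fst
  have hn2 : FCH fun y : (α × ℕ) × ℕ => n y.1.1 :=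
    FCH_comp (FCH_comp hn PTime.fst) PTime.fst
  have hi2 : FCH fun y : (α × ℕ) × ℕ => y.1.2 := FCH_comp FCH.snd PTime.fst
  have hj2 : FCH fun y : (α × ℕ) × ℕ => y.2 := FCH.snd
  have hI := FCH_ofNat (N := fun y : (α × ℕ) × ℕ => N y.1.1) hN2 hi2
  have hJ := FCH_ofNat (N := fun y : (α × ℕ) × ℕ => N y.1.1) hN2 hj2
  have hMI := FCH_mp (N := fun y : (α × ℕ) × ℕ => N y.1.1) hN2 hn2 hi2
  have hMJ := FCH_mp (N := fun y : (α × ℕ) × ℕ => N y.1.1) hN2 hn2 hj2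
  have h1 : FZ (fun y : (α × ℕ) × ℕ => (dom y.1.1 ∧ y.1.2 < N y.1.1) ∧ y.2 < N y.1.1)
      (fun y => p y.1.1) (fun y => (1 : ZMod (p y.1.1))) :=
    FZ.congr (fun _ _ => by simp) (FZ.natCast (FCH.const 1))
  have h0 : FZ (fun y : (α × ℕ) × ℕ => (dom y.1.1 ∧ y.1.2 < N y.1.1) ∧ y.2 < N y.1.1)
      (fun y => p y.1.1) (fun y => (0 : ZMod (p y.1.1))) :=
    FZ.congr (fun _ _ => by simp) (FZ.natCast (FCH.const 0))
  refine FZ.ite (CHP.lt hI hJ) (fun y _ => Iff.rfl) ?_ h1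
  refine FZ.ite (CHP.lt hMI hMJ) (fun y _ => Iff.rfl) h1 ?_
  exact FZ.ite (CHP.lt hMJ hMI) (fun y _ => Iff.rfl) (FZ.neg hΓ2 h1) h0

theorem sysF_totalDegree_lt {R : Type*} [CommRing R] [Nontrivial R] {N m q : ℕ}
    {f : Fin N → MvPolynomial (Fin N) R} (hf : ∀ i, (f i).totalDegree < m) (hq : m < q)
    (i : Fin N) : (sysF m f i).totalDegree < q := by
  unfold sysF
  refine lt_of_le_of_lt (totalDegree_sub _ _) (max_lt ?_ ((hf i).trans hq))
  refine lt_of_le_of_lt (totalDegree_pow _ _) ?_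
  rw [totalDegree_X]
  omega

/-- the product part of `jac_formula` -/
theorem FZ.jacProd (hΓ : LCtx dom p N)
    {fs : ∀ a, Fin (N a) → MvPolynomial (Fin (N a)) (ZMod (p a))} (hf : FE dom p N fs)
    {m n x : α → ℕ} (hm : FCH m) (hn : FCH n) (hx : FCH x)
    (hd : ∀ a, dom a → 0 < m a ∧ (∀ i, (fs a i).totalDegree < m a) ∧ m a + 2 < p a) :
    FZ dom p fun a => ∏ i : Fin (N a),
      eval (pt (N a) (p a) (x a)) (pderiv i (sysF (m a) (fs a) (mp (N a) (n a) i))) := by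
  have hΓ1 := hΓ.ext fun y => y.2 < N y.1
  refine FZ.prodFin hΓ ?_
  have hN1 : FCH fun y : α × ℕ => N y.1 := FCH_comp hΓ.fch_N PTime.fst
  have hn1 : FCH fun y : α × ℕ => n y.1 := FCH_comp hn PTime.fst
  have hm1 : FCH fun y : α × ℕ => m y.1 := FCH_comp hm PTime.fst
  have hx1 : FCH fun y : α × ℕ => x y.1 := FCH_comp hx PTime.fst
  have hI := FCH_ofNat (N := fun y : α × ℕ => N y.1) hN1 FCH.snd
  have hMI := FCH_mp (N := fun y : α × ℕ => N y.1) hN1 hn1 FCH.snd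
  have hmono : ∀ y : α × ℕ, dom y.1 ∧ y.2 < N y.1 → dom y.1 := fun y hy => hy.1
  have hf1 : FE (fun y : α × ℕ => dom y.1 ∧ y.2 < N y.1) (fun y => p y.1) (fun y => N y.1)
      (fun y => fs y.1) := FE.mono hmono (FE.comp PTime.fst hf)
  refine PE.evalAt (dom := fun y : α × ℕ => dom y.1 ∧ y.2 < N y.1) (p := fun y => p y.1)
    (N := fun y => N y.1) ?_ hx1
  refine PE.pderiv hΓ1 ?_ hI ?_
  · exact PE.sub hΓ1 (PE.pow hΓ1 (PE.X hΓ1 hMI) hm1) (FE.get hf1 hMI)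
  · intro y hy
    obtain ⟨h1, h2, h3⟩ := hd _ hy.1
    have : Fact (p y.1).Prime := ⟨hΓ.prime _ hy.1⟩
    exact ⟨by omega, sysF_totalDegree_lt h2 (by omega) _⟩

/-- [S4] the Jacobian (uses `jac_formula`) -/
theorem FE.jac (hΓ : LCtx dom p N)
    {fs : ∀ a, Fin (N a) → MvPolynomial (Fin (N a)) (ZMod (p a))} (hf : FE dom p N fs)
    {m : α → ℕ} (hm : FCH m)
    (hd : ∀ a, dom a → 0 < m a ∧ (∀ i, (fs a i).totalDegree < m a) ∧ m a + 2 < p a) :
    PE dom p N fun a => jac (m a) (fs a) := by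
  have hΓ1 := hΓ.fst
  have hΓ2 := hΓ1.ext fun y => y.2 < N y.1.1 ^ N y.1.1
  have hN1 : FCH fun y : α × ℕ => N y.1 := FCH_comp hΓ.fch_N PTime.fst
  have hNN : FCH fun y : α × ℕ => N y.1 ^ N y.1 := FCH_pow hN1 hN1 hΓ1.small
  have hmono : ∀ y : (α × ℕ) × ℕ, (dom y.1.1 ∧ y.2 < N y.1.1 ^ N y.1.1) → dom y.1.1 :=
    fun y hy => hy.1
  have hf2 : FE (fun y : (α × ℕ) × ℕ => dom y.1.1 ∧ y.2 < N y.1.1 ^ N y.1.1)
      (fun y => p y.1.1) (fun y => N y.1.1) (fun y => fs y.1.1) :=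
    FE.mono hmono (FE.comp (f := fun y : (α × ℕ) × ℕ => y.1.1)
      (PTime.fst.comp PTime.fst) hf)
  have h := FZ.sum (dom := fun y : α × ℕ => dom y.1) (p := fun y => p y.1) hNN
    (v := fun z : (α × ℕ) × ℕ =>
      (∏ i : Fin (N z.1.1), ∏ j : Fin (N z.1.1), if i < j then
        (if mp (N z.1.1) z.2 i < mp (N z.1.1) z.2 j then (1 : ZMod (p z.1.1)) else
          if mp (N z.1.1) z.2 j < mp (N z.1.1) z.2 i then -1 else 0) else 1) *
        ∏ i : Fin (N z.1.1), eval (pt (N z.1.1) (p z.1.1) z.1.2)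
          (pderiv i (sysF (m z.1.1) (fs z.1.1) (mp (N z.1.1) z.2 i))))
    (FZ.mul (FZ.jacSgn hΓ2 FCH.snd)
      (FZ.jacProd hΓ2 hf2 (FCH_comp (FCH_comp hm PTime.fst) PTime.fst) FCH.snd
        (FCH_comp FCH.snd PTime.fst) (fun y hy => hd _ hy.1)))
  exact FZ.congr (fun y hy => (jac_formula (m y.1) (fs y.1) (pt (N y.1) (p y.1) y.2)).symm) h

end

end Vale.Agent.P337
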