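import Vale.Agent.P337.MComp

/-!
# P337: interface between the polynomial time layer and the counting hierarchy layer

`PTDef.lean`: the functions; `MComp.lean`: `PTB.inP` (the bridge to machines).
-/
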