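import Vale.Agent.P337.PTDef
import Vale.Agent.P337.StubPT

/-!
# P337: polynomial time functions between coded types
-/

namespace Vale.Agent.P337

theorem pairL_cons (a : Bool) (x y : List Bool) : pairL (a :: x) y = a :: a :: pairL x y := by
  simp [pairL]

theorem pairL_nil (y : List Bool) : pairL [] y = false :: true :: y := by
  simp [pairL]

theorem bval_bits (n : ℕ) : bval n.bits = n := by
  induction n using Nat.binaryRec' with
  | zero => simp [bval]
  | bit b n h ih =>
    rw [Nat.bits_append_bit n b h, bval, ih, Nat.bit_val]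
    ring

/-- Types with a string code. -/
class Code (α : Type) where
  code : α → List Bool
  inj : Function.Injective code

export Code (code)

instance : Code (List Bool) := ⟨id, fun _ _ h => h⟩

instance : Code Bool := ⟨fun b => [b], fun a b h => by simpa using h⟩

instance : Code Unit := ⟨fun _ => [], fun _ _ _ => rfl⟩

instance {α β : Type} [Code α] [Code β] : Code (α × β) :=
  ⟨fun x => pairL (code x.1) (code x.2), fun a b h => by
    have h1 := congrArg fstL h
    have h2 := congrArg sndL h
    simp only [fstL_pairL, sndL_pairL] at h1 h2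
    exact Prod.ext (Code.inj h1) (Code.inj h2)⟩

instance : Code ℕ := ⟨Nat.bits, fun a b h => by
  have h1 := congrArg bval h
  rwa [bval_bits, bval_bits] at h1⟩

instance {α : Type} [Code α] {P : α → Prop} : Code {a // P a} :=
  ⟨fun a => code a.val, fun _ _ h => Subtype.ext (Code.inj h)⟩

theorem code_subtype {α : Type} [Code α] {P : α → Prop} (a : {a // P a}) :
    code a = code a.val := rfl

theorem code_pair {α β : Type} [Code α] [Code β] (a : α) (b : β) :
    code (a, b) = pairL (code a) (code b) := rfl

@[simp] theorem code_list (l : List Bool) : code l = l := rfl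

@[simp] theorem code_bool (b : Bool) : code b = [b] := rfl

theorem code_nat (n : ℕ) : code n = n.bits := rfl

/-- Polynomial time functions between coded types. -/
def PTime {α β : Type} [Code α] [Code β] (f : α → β) : Prop :=
  ∃ g : List Bool → List Bool, PT g ∧ ∀ a, g (code a) = code (f a)

section

variable {α β γ δ : Type} [Code α] [Code β] [Code γ] [Code δ]

theorem PTime.of_PT {g : List Bool → List Bool} (hg : PT g) : PTime g := ⟨g, hg, fun _ => rfl⟩

theorem PTime.congr {f f' : α → β} (h : ∀ a, f a = f' a) (hf : PTime f) : PTime f' := by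
  obtain ⟨g, h1, h2⟩ := hf
  exact ⟨g, h1, fun a => by rw [h2, h]⟩

theorem PTime.id : PTime (fun a : α => a) := ⟨fun x => x, PT.id, fun _ => rfl⟩

theorem PTime.comp {g : β → γ} {f : α → β} (hg : PTime g) (hf : PTime f) :
    PTime (fun a => g (f a)) := by
  obtain ⟨G, h1, h2⟩ := hg
  obtain ⟨F, h3, h4⟩ := hf
  exact ⟨fun x => G (F x), h1.comp h3, fun a => by beta_reduce; rw [h4, h2]⟩

theorem PTime.pair {f : α → β} {g : α → γ} (hf : PTime f) (hg : PTime g) :
    PTime (fun a => (f a, g a)) := by
  obtain ⟨F, h1, h2⟩ := hf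
  obtain ⟨G, h3, h4⟩ := hg
  exact ⟨fun x => pairL (F x) (G x), h1.pair h3, fun a => by beta_reduce; rw [h2, h4]; rfl⟩

theorem PTime.fst : PTime (fun x : α × β => x.1) :=
  ⟨fun x => fstL x, PT.id.fst, fun _ => fstL_pairL _ _⟩

theorem PTime.snd : PTime (fun x : α × β => x.2) :=
  ⟨fun x => sndL x, PT.id.snd, fun _ => sndL_pairL _ _⟩

theorem PTime.val {P : α → Prop} : PTime (fun a : {a // P a} => a.val) :=
  ⟨fun x => x, PT.id, fun _ => rfl⟩

theorem PTime.const (b : β) : PTime (fun _ : α => b) :=
  ⟨fun _ => code b, PT.const _, fun _ => rfl⟩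

/-- the code of an element is polynomial time -/
theorem PTime.code : PTime (fun a : α => Code.code a) := ⟨fun x => x, PT.id, fun _ => rfl⟩

theorem PTime.ite {c : α → Bool} {f g : α → β} (hc : PTime c) (hf : PTime f) (hg : PTime g) :
    PTime (fun a => if c a then f a else g a) := by
  obtain ⟨C, h1, h2⟩ := hc
  obtain ⟨F, h3, h4⟩ := hf
  obtain ⟨G, h5, h6⟩ := hg
  refine ⟨fun x => if (C x).headD false then F x else G x, PT.ite (PTB.head h1) h3 h5,
    fun a => ?_⟩
  have : (C (Code.code a)).headD false = c a := by rw [h2]; rfl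
  simp only [this, h4, h6]
  split_ifs <;> rfl

theorem PTime.length_le {f : α → β} (hf : PTime f) :
    ∃ r : Polynomial ℕ, ∀ a, (Code.code (f a)).length ≤ r.eval (Code.code a).length := by
  obtain ⟨F, h1, h2⟩ := hf
  obtain ⟨r, hr⟩ := h1.len
  exact ⟨r, fun a => by rw [← h2]; exact hr _⟩

/-- apply a polynomial time function of two arguments -/
theorem PTime.map2 {h : β × γ → δ} {f : α → β} {g : α → γ} (hh : PTime h) (hf : PTime f)
    (hg : PTime g) : PTime (fun a => h (f a, g a)) := hh.comp (hf.pair hg)

theorem PTime.not {c : α → Bool} (hc : PTime c) : PTime (fun a => !c a) :=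
  (PTime.ite hc (PTime.const false) (PTime.const true)).congr fun a => by cases c a <;> rfl

theorem PTime.and {c d : α → Bool} (hc : PTime c) (hd : PTime d) :
    PTime (fun a => c a && d a) :=
  (PTime.ite hc hd (PTime.const false)).congr fun a => by cases c a <;> simp

theorem PTime.or {c d : α → Bool} (hc : PTime c) (hd : PTime d) :
    PTime (fun a => c a || d a) :=
  (PTime.ite hc (PTime.const true) hd).congr fun a => by cases c a <;> simp

theorem PTime.le {f g : α → ℕ} (hf : PTime f) (hg : PTime g) :
    PTime (fun a => decide (f a ≤ g a)) := by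
  obtain ⟨F, h1, h2⟩ := hf
  obtain ⟨G, h3, h4⟩ := hg
  refine ⟨_, PTB.le h1 h3, fun a => ?_⟩
  beta_reduce
  rw [h2, h4, code_nat, code_nat, bval_bits, bval_bits]
  rfl

theorem PTime.lt {f g : α → ℕ} (hf : PTime f) (hg : PTime g) :
    PTime (fun a => decide (f a < g a)) :=
  (PTime.not (PTime.le hg hf)).congr fun a => by
    by_cases h : f a < g a
    · simp [h]
    · simp [h, not_lt.1 h]

theorem PTime.eq {f g : α → β} [DecidableEq β] (hf : PTime f) (hg : PTime g) :
    PTime (fun a => decide (f a = g a)) := by
  obtain ⟨F, h1, h2⟩ := hf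
  obtain ⟨G, h3, h4⟩ := hg
  refine ⟨_, PTB.eq h1 h3, fun a => ?_⟩
  beta_reduce
  rw [h2, h4, code_bool]
  congr 1
  exact decide_eq_decide.2 ⟨fun h => Code.inj h, fun h => by rw [h]⟩

/-- the natural number with given binary digits, least significant digit first -/
theorem PTime.bval {f : α → List Bool} (hf : PTime f) : PTime (fun a => bval (f a)) := by
  obtain ⟨F, h1, h2⟩ := hf
  exact ⟨_, h1.bits, fun a => by beta_reduce; rw [h2, code_list, code_nat]⟩

theorem PTime.unary (q : Polynomial ℕ) {f : α → List Bool} (hf : PTime f) :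
    PTime (fun a => List.replicate (q.eval (f a).length) true) := by
  obtain ⟨F, h1, h2⟩ := hf
  exact ⟨_, h1.unary q, fun a => by beta_reduce; rw [h2, code_list, code_list]⟩

theorem PTime.take {f g : α → List Bool} (hf : PTime f) (hg : PTime g) :
    PTime (fun a => (f a).take (g a).length) := by
  obtain ⟨F, h1, h2⟩ := hf
  obtain ⟨G, h3, h4⟩ := hg
  exact ⟨_, h1.take h3, fun a => by
    beta_reduce; rw [h2, h4, code_list, code_list, code_list]⟩

theorem PTime.drop {f g : α → List Bool} (hf : PTime f) (hg : PTime g) :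
    PTime (fun a => (f a).drop (g a).length) := by
  obtain ⟨F, h1, h2⟩ := hf
  obtain ⟨G, h3, h4⟩ := hg
  exact ⟨_, h1.drop h3, fun a => by
    beta_reduce; rw [h2, h4, code_list, code_list, code_list]⟩

theorem PTime.append {f g : α → List Bool} (hf : PTime f) (hg : PTime g) :
    PTime (fun a => f a ++ g a) := by
  obtain ⟨F, h1, h2⟩ := hf
  obtain ⟨G, h3, h4⟩ := hg
  exact ⟨_, h1.append h3, fun a => by
    beta_reduce; rw [h2, h4, code_list, code_list, code_list]⟩

theorem PTime.cons (b : Bool) {f : α → List Bool} (hf : PTime f) :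
    PTime (fun a => b :: f a) := by
  obtain ⟨F, h1, h2⟩ := hf
  exact ⟨_, h1.cons b, fun a => by beta_reduce; rw [h2, code_list, code_list]⟩

theorem PTime.tail {f : α → List Bool} (hf : PTime f) : PTime (fun a => (f a).tail) := by
  obtain ⟨F, h1, h2⟩ := hf
  exact ⟨_, h1.tail, fun a => by beta_reduce; rw [h2, code_list, code_list]⟩

theorem PTime.headD {f : α → List Bool} (hf : PTime f) : PTime (fun a => (f a).headD false) := by
  obtain ⟨F, h1, h2⟩ := hf
  exact ⟨_, PTB.head h1, fun a => by beta_reduce; rw [h2, code_list, code_bool]⟩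

end

end Vale.Agent.P337
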