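import Vale.Agent.P337.Cnt
import Vale.Agent.P337.Typed

/-!
# P337: the levels of the counting hierarchy and their closure properties (string level)
-/

namespace Vale.Agent.P337

theorem cnt_bval_lt (n z : ℕ) : cnt n (fun y => bval y < z) = min z (2 ^ n) := by
  induction n generalizing z with
  | zero =>
    by_cases h : z = 0
    · subst h; simp [cnt_zero]
    · have : 0 < z := Nat.pos_of_ne_zero h
      simp [cnt_zero, bval, this]
      omega
  | succ n ih =>
    rw [cnt_succ]
    have h1 : cnt n (fun y => bval (true :: y) < z) = cnt n (fun y => bval y < z / 2) :=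
      cnt_congr fun y _ => by simp only [bval, Bool.toNat_true]; omega
    have h2 : cnt n (fun y => bval (false :: y) < z) = cnt n (fun y => bval y < (z + 1) / 2) :=
      cnt_congr fun y _ => by simp only [bval, Bool.toNat_false]; omega
    rw [h1, h2, ih, ih, pow_succ]
    omega

theorem cnt_one (P : List Bool → Prop) :
    cnt 1 P = cnt 0 (fun y => P (true :: y)) + cnt 0 (fun y => P (false :: y)) := cnt_succ 0 P

theorem cnt_le_bval (n z : ℕ) : cnt n (fun y => z ≤ bval y) = 2 ^ n - min z (2 ^ n) := by
  have h := cnt_add_not n fun y => bval y < z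
  rw [cnt_bval_lt] at h
  have h2 : cnt n (fun y => ¬ bval y < z) = cnt n (fun y => z ≤ bval y) :=
    cnt_congr fun y _ => not_lt
  rw [h2] at h
  omega

theorem bval_lt (y : List Bool) : bval y < 2 ^ y.length := by
  induction y with
  | nil => simp [bval]
  | cons b l ih =>
    rw [bval, List.length_cons, pow_succ]
    have := Bool.toNat_lt b
    omega

theorem bval_replicate (n : ℕ) : bval (List.replicate n true) = 2 ^ n - 1 := by
  induction n with
  | zero => simp [bval]
  | succ n ih =>
    rw [List.replicate_succ, bval, ih, pow_succ]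
    have := Nat.one_le_two_pow (n := n)
    simp only [Bool.toNat_true]
    omega

theorem eval_mono (q : Polynomial ℕ) {a b : ℕ} (h : a ≤ b) : q.eval a ≤ q.eval b := by
  rw [Polynomial.eval_eq_sum, Polynomial.eval_eq_sum]
  exact Finset.sum_le_sum fun i _ => Nat.mul_le_mul_left _ (Nat.pow_le_pow_left h i)

open Classical in
/-- The levels of the counting hierarchy, starting with the internal class of polynomial time. -/
def Lev : ℕ → Set (List Bool) → Prop
  | 0, L => PTB fun x => decide (x ∈ L)
  | j + 1, L => ∃ A : Set (List Bool), Lev j A ∧ ∃ q : Polynomial ℕ, ∀ x : List Bool,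
      x ∈ L ↔ 2 ^ q.eval x.length < 2 * cnt (q.eval x.length) fun y => pairL x y ∈ A

theorem Lev.zero_of {X : Set (List Bool)} (i : ∀ x, Decidable (x ∈ X))
    (h : PT fun x => [@decide (x ∈ X) (i x)]) : Lev 0 X := by
  have e : i = fun x => Classical.propDecidable (x ∈ X) := Subsingleton.elim _ _
  subst e
  exact h

theorem Lev.chLevel {j : ℕ} {L : Set (List Bool)} (h : Lev j L) : CHLevel j L := by
  induction j generalizing L with
  | zero => exact PTB.inP h
  | succ j ih =>
    obtain ⟨A, hA, q, hq⟩ := h
    exact ⟨A, ih hA, q, hq⟩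

/-- closure under polynomial time reductions -/
theorem Lev.preimage {j : ℕ} {L : Set (List Bool)} (h : Lev j L) {f : List Bool → List Bool}
    (hf : PT f) : Lev j {x | f x ∈ L} := by
  classical
  induction j generalizing L f with
  | zero =>
    have h' : PT fun x => [decide (x ∈ L)] := h
    exact PT.comp h' hf
  | succ j ih =>
    obtain ⟨A, hA, q, hq⟩ := h
    obtain ⟨r, hr⟩ := hf.len
    have hF : PT fun u => pairL (f (fstL u)) ((sndL u).take
        (List.replicate (q.eval (f (fstL u)).length) true).length) :=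
      (hf.comp PT.id.fst).pair (PT.id.snd.take (PT.unary q (hf.comp PT.id.fst)))
    refine ⟨_, ih hA hF, q.comp r, fun x => ?_⟩
    have hle : q.eval (f x).length ≤ (q.comp r).eval x.length := by
      rw [Polynomial.eval_comp]
      exact eval_mono q (hr x)
    obtain ⟨m, hm⟩ := Nat.exists_eq_add_of_le hle
    rw [hm]
    simp only [Set.mem_ofPred_eq, fstL_pairL, sndL_pairL, List.length_replicate]
    rw [cnt_take _ m fun y => pairL (f x) y ∈ A, hq (f x), pow_add, ← mul_assoc]
    exact (Nat.mul_lt_mul_right (Nat.pos_of_ne_zero (by positivity))).symm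

/-- padding the quantifier -/
theorem Lev.pad {j : ℕ} {A : Set (List Bool)} (h : Lev j A) {q Q : Polynomial ℕ}
    (hqQ : ∀ n, q.eval n ≤ Q.eval n) : ∃ B, Lev j B ∧ ∀ x : List Bool,
      (2 ^ Q.eval x.length < 2 * cnt (Q.eval x.length) fun y => pairL x y ∈ B) ↔
      (2 ^ q.eval x.length < 2 * cnt (q.eval x.length) fun y => pairL x y ∈ A) := by
  have hF : PT fun u => pairL (fstL u) ((sndL u).take
      (List.replicate (q.eval (fstL u).length) true).length) :=
    PT.id.fst.pair (PT.id.snd.take (PT.unary q PT.id.fst))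
  refine ⟨_, h.preimage hF, fun x => ?_⟩
  obtain ⟨m, hm⟩ := Nat.exists_eq_add_of_le (hqQ x.length)
  rw [hm]
  simp only [Set.mem_ofPred_eq, fstL_pairL, sndL_pairL, List.length_replicate]
  rw [cnt_take _ m fun y => pairL x y ∈ A, pow_add, ← mul_assoc]
  exact Nat.mul_lt_mul_right (Nat.pos_of_ne_zero (by positivity))

/-- case distinction by a polynomial time predicate -/
theorem Lev.join {j : ℕ} {A B : Set (List Bool)} (hA : Lev j A) (hB : Lev j B)
    {c : List Bool → Bool} (hc : PTB c) : Lev j {x | if c x then x ∈ A else x ∈ B} := by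
  classical
  induction j generalizing A B c with
  | zero =>
    have h : PT fun x => if c x then [decide (x ∈ A)] else [decide (x ∈ B)] := PT.ite hc hA hB
    have : (fun x => if c x then [decide (x ∈ A)] else [decide (x ∈ B)]) =
        fun x => [decide (x ∈ {x | if c x then x ∈ A else x ∈ B})] := by
      funext x
      by_cases hx : c x <;> simp [hx]
    rw [this] at h
    exact Lev.zero_of _ h
  | succ j ih =>
    obtain ⟨A', hA', qA, hqA⟩ := hA
    obtain ⟨B', hB', qB, hqB⟩ := hB
    obtain ⟨A'', hA'', hA2⟩ := hA'.pad (Q := qA + qB) (q := qA) fun n => by simp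
    obtain ⟨B'', hB'', hB2⟩ := hB'.pad (Q := qA + qB) (q := qB) fun n => by simp
    have hc' : PTB fun u => c (fstL u) := PT.comp hc PT.id.fst
    refine ⟨_, ih hA'' hB'' hc', qA + qB, fun x => ?_⟩
    simp only [Set.mem_ofPred_eq, fstL_pairL]
    by_cases hx : c x
    · simp only [hx, if_true]
      rw [hA2, hqA]
    · simp only [hx, Bool.false_eq_true, if_false]
      rw [hB2, hqB]

/-- counting with a polynomial time threshold -/
theorem Lev.count_gt {j : ℕ} {A : Set (List Bool)} (hA : Lev j A) (q : Polynomial ℕ)
    {g : List Bool → List Bool} (hg : PT g) :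
    Lev (j + 1) {x | bval (g x) < cnt (q.eval x.length) fun y => pairL x y ∈ A} := by
  classical
  have hF : PT fun u => pairL (fstL u) (sndL u).tail := PT.id.fst.pair PT.id.snd.tail
  have h1 := hA.preimage hF
  have h2 : Lev 0 {u | bval (g (fstL u)) ≤ bval (sndL u).tail} :=
    Lev.zero_of (fun u => Nat.decLe _ _) (PTB.le (hg.comp PT.id.fst) PT.id.snd.tail)
  have hup : ∀ {i : ℕ} {L : Set (List Bool)}, Lev i L → Lev (i + 1) L := by
    intro i L hL
    refine ⟨_, hL.preimage PT.id.fst, 0, fun x => ?_⟩
    by_cases hx : x ∈ L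
    · simp [cnt_zero, hx]
    · simp [cnt_zero, hx]
  have h3 : Lev j {u | bval (g (fstL u)) ≤ bval (sndL u).tail} := by
    clear hA h1
    induction j with
    | zero => exact h2
    | succ j ih => exact hup ih
  refine ⟨_, h1.join h3 (PTB.head PT.id.snd), q + 1, fun x => ?_⟩
  have e : (q + 1 : Polynomial ℕ).eval x.length = q.eval x.length + 1 := by simp
  rw [e, cnt_succ]
  simp only [Set.mem_ofPred_eq, fstL_pairL, sndL_pairL, List.headD_cons, List.tail_cons, if_true,
    Bool.false_eq_true, if_false]
  rw [cnt_le_bval, pow_succ]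
  have h5 := cnt_le (q.eval x.length) fun y => pairL x y ∈ A
  omega

theorem Lev.up {j : ℕ} {L : Set (List Bool)} (h : Lev j L) : Lev (j + 1) L := by
  classical
  refine ⟨_, h.preimage PT.id.fst, 0, fun x => ?_⟩
  by_cases hx : x ∈ L
  · simp [cnt_zero, hx]
  · simp [cnt_zero, hx]

theorem Lev.up_le {i j : ℕ} {L : Set (List Bool)} (h : Lev i L) (hij : i ≤ j) : Lev j L := by
  induction hij with
  | refl => exact h
  | step _ ih => exact ih.up

/-- complements, at the same level -/
theorem Lev.compl {j : ℕ} {L : Set (List Bool)} (h : Lev j L) : Lev j {x | x ∉ L} := by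
  classical
  induction j generalizing L with
  | zero =>
    have h1 : PT fun x => if decide (x ∈ L) then [false] else [true] :=
      PT.ite h (PT.const _) (PT.const _)
    have : (fun x => if decide (x ∈ L) then [false] else [true]) =
        fun x => [decide (x ∈ {x | x ∉ L})] := by
      funext x
      by_cases hx : x ∈ L <;> simp [hx]
    rw [this] at h1
    exact Lev.zero_of _ h1
  | succ j ih =>
    obtain ⟨A, hA, q, hq⟩ := h
    have hF : PT fun u => pairL (fstL u) (sndL u).tail := PT.id.fst.pair PT.id.snd.tail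
    have h1 := ((ih hA).preimage hF).count_gt (q + 1) (PT.unary q PT.id)
    convert h1 using 1
    ext x
    have e : (q + 1 : Polynomial ℕ).eval x.length = q.eval x.length + 1 := by simp
    simp only [Set.mem_ofPred_eq, fstL_pairL, sndL_pairL]
    rw [e, cnt_tail _ fun y => pairL x y ∉ A, bval_replicate, hq]
    have h5 := cnt_add_not (q.eval x.length) fun y => pairL x y ∈ A
    have := Nat.one_le_two_pow (n := q.eval x.length)
    omega

theorem Lev.and {j : ℕ} {A B : Set (List Bool)} (hA : Lev j A) (hB : Lev j B) :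
    Lev (j + 1) {x | x ∈ A ∧ x ∈ B} := by
  classical
  have h := ((hA.preimage PT.id.fst).join (hB.preimage PT.id.fst)
    (PTB.head PT.id.snd)).count_gt 1 (PT.const [true])
  convert h using 1
  ext x
  simp only [Set.mem_ofPred_eq, fstL_pairL, sndL_pairL, Polynomial.eval_one]
  rw [cnt_one]
  by_cases h1 : x ∈ A <;> by_cases h2 : x ∈ B <;> simp [cnt_zero, h1, h2, bval]

theorem Lev.or {j : ℕ} {A B : Set (List Bool)} (hA : Lev j A) (hB : Lev j B) :
    Lev (j + 1) {x | x ∈ A ∨ x ∈ B} := by
  classical
  have h := ((hA.preimage PT.id.fst).join (hB.preimage PT.id.fst)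
    (PTB.head PT.id.snd)).count_gt 1 (PT.const [])
  convert h using 1
  ext x
  simp only [Set.mem_ofPred_eq, fstL_pairL, sndL_pairL, Polynomial.eval_one]
  rw [cnt_one]
  by_cases h1 : x ∈ A <;> by_cases h2 : x ∈ B <;> simp [cnt_zero, h1, h2, bval]

theorem Lev.exists {j : ℕ} {A : Set (List Bool)} (hA : Lev j A) (q : Polynomial ℕ) :
    Lev (j + 1) {x | ∃ y : List Bool, y.length = q.eval x.length ∧ pairL x y ∈ A} := by
  have h := hA.count_gt q (PT.const [])
  convert h using 1
  ext x
  simp only [Set.mem_ofPred_eq, bval]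
  exact cnt_pos.symm

theorem Lev.forall {j : ℕ} {A : Set (List Bool)} (hA : Lev j A) (q : Polynomial ℕ) :
    Lev (j + 1) {x | ∀ y : List Bool, y.length = q.eval x.length → pairL x y ∈ A} := by
  have h := (hA.compl.exists q).compl
  convert h using 1
  ext x
  simp

end Vale.Agent.P337
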