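import Vale.Agent.P337.Defs

/-!
# P337: polynomial time functions on strings

`PT` is the smallest class of total functions on strings that contains a few basic functions and is
closed under composition, pairing, case distinction and polynomially bounded iteration.  Another
file shows that these functions are computed by machines in polynomial time.
-/

namespace Vale.Agent.P337

/-- numeric value of a bit string, least significant bit first -/
def bval : List Bool → ℕ
  | [] => 0
  | b :: l => b.toNat + 2 * bval l

/-- first component of a pair, a total function -/
def fstL : List Bool → List Bool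
  | b :: c :: l => if b = c then b :: fstL l else []
  | _ => []

/-- second component of a pair, a total function -/
def sndL : List Bool → List Bool
  | b :: c :: l => if b = c then sndL l else l
  | _ => []

/-- polynomial time total functions on strings -/
inductive PT : (List Bool → List Bool) → Prop
  | id : PT fun x => x
  | comp {f g : List Bool → List Bool} : PT f → PT g → PT fun x => f (g x)
  | pair {f g : List Bool → List Bool} : PT f → PT g → PT fun x => pairL (f x) (g x)
  | fstL : PT fstL
  | sndL : PT sndL
  | nil : PT fun _ => []
  | consL (b : Bool) : PT fun x => b :: x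
  | tailL : PT fun x => x.tail
  | isNil : PT fun x => [x.isEmpty]
  | iteL {c f g : List Bool → List Bool} : PT c → PT f → PT g →
      PT fun x => if (c x).headD false then f x else g x
  | iterL {s l g : List Bool → List Bool} : PT s → PT l → PT g → (q : Polynomial ℕ) →
      (∀ x i, i ≤ (l x).length → (s^[i] (g x)).length ≤ q.eval x.length) →
      PT fun x => s^[(l x).length] (g x)

/-- polynomial time predicates on strings -/
def PTB (c : List Bool → Bool) : Prop := PT fun x => [c x]

/-! ### Pairs -/

@[simp] theorem fstL_pairL (x y : List Bool) : fstL (pairL x y) = x := by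
  induction x with
  | nil => simp [pairL, fstL]
  | cons b x ih => simpa [pairL, fstL] using ih

@[simp] theorem sndL_pairL (x y : List Bool) : sndL (pairL x y) = y := by
  induction x with
  | nil => simp [pairL, sndL]
  | cons b x ih => simpa [pairL, sndL] using ih

@[simp] theorem length_pairL (x y : List Bool) :
    (pairL x y).length = 2 * x.length + 2 + y.length := by
  induction x with
  | nil => simp [pairL]; omega
  | cons b x ih =>
    simp only [pairL, List.flatMap_cons, List.cons_append, List.nil_append, List.length_cons] at ih ⊢
    omega

theorem length_fstL_le : ∀ x : List Bool, 2 * (fstL x).length ≤ x.length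
  | [] => by simp [fstL]
  | [_] => by simp [fstL]
  | b :: c :: l => by
    have := length_fstL_le l
    by_cases h : b = c
    · simp only [fstL, if_pos h, List.length_cons]; omega
    · simp [fstL, if_neg h]

theorem length_sndL_le : ∀ x : List Bool, (sndL x).length ≤ x.length
  | [] => by simp [sndL]
  | [_] => by simp [sndL]
  | b :: c :: l => by
    have := length_sndL_le l
    by_cases h : b = c
    · simp only [sndL, if_pos h, List.length_cons]; omega
    · simp only [sndL, if_neg h, List.length_cons]; omega

variable {f g h : List Bool → List Bool} {c d : List Bool → Bool}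

/-! ### Length bound -/

theorem eval_le_eval (q : Polynomial ℕ) {m n : ℕ} (h : m ≤ n) : q.eval m ≤ q.eval n := by
  induction q using Polynomial.induction_on' with
  | add p q hp hq => simpa using Nat.add_le_add hp hq
  | monomial k a => simpa using Nat.mul_le_mul_left a (Nat.pow_le_pow_left h k)

theorem PT.len (hf : PT f) : ∃ q : Polynomial ℕ, ∀ x, (f x).length ≤ q.eval x.length := by
  induction hf with
  | id => exact ⟨Polynomial.X, fun x => by simp⟩
  | @comp f g _ _ ihf ihg =>
    obtain ⟨p, hp⟩ := ihf
    obtain ⟨q, hq⟩ := ihg
    refine ⟨p.comp q, fun x => ?_⟩
    rw [Polynomial.eval_comp]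
    exact (hp _).trans (eval_le_eval p (hq x))
  | @pair f g _ _ ihf ihg =>
    obtain ⟨p, hp⟩ := ihf
    obtain ⟨q, hq⟩ := ihg
    refine ⟨2 * p + 2 + q, fun x => ?_⟩
    have h1 := hp x
    have h2 := hq x
    simp only [length_pairL, Polynomial.eval_add, Polynomial.eval_mul, Polynomial.eval_ofNat]
    omega
  | fstL => exact ⟨Polynomial.X, fun x => by have := length_fstL_le x; simp; omega⟩
  | sndL => exact ⟨Polynomial.X, fun x => by simpa using length_sndL_le x⟩
  | nil => exact ⟨0, fun x => by simp⟩
  | consL b => exact ⟨Polynomial.X + 1, fun x => by simp⟩
  | tailL => exact ⟨Polynomial.X, fun x => by simp⟩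
  | isNil => exact ⟨1, fun x => by simp⟩
  | @iteL c f g _ _ _ _ ihf ihg =>
    obtain ⟨p, hp⟩ := ihf
    obtain ⟨q, hq⟩ := ihg
    refine ⟨p + q, fun x => ?_⟩
    have h1 := hp x
    have h2 := hq x
    rw [Polynomial.eval_add]
    show (if (c x).headD false then f x else g x).length ≤ _
    split <;> omega
  | @iterL s l g _ _ _ q hb _ _ _ => exact ⟨q, fun x => hb x _ le_rfl⟩

/-! ### First closure properties -/

theorem PT.fst (hf : PT f) : PT fun x => Vale.Agent.P337.fstL (f x) := .comp .fstL hf
theorem PT.snd (hf : PT f) : PT fun x => Vale.Agent.P337.sndL (f x) := .comp .sndL hf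
theorem PT.cons (b : Bool) (hf : PT f) : PT fun x => b :: f x := .comp (.consL b) hf
theorem PT.tail (hf : PT f) : PT fun x => (f x).tail := .comp .tailL hf

theorem PT.const (l : List Bool) : PT fun _ => l := by
  induction l with
  | nil => exact .nil
  | cons b l ih => exact ih.cons b

theorem PT.ite (hc : PTB c) (hf : PT f) (hg : PT g) : PT fun x => if c x then f x else g x :=
  PT.iteL hc hf hg

theorem PTB.const (b : Bool) : PTB fun _ => b := PT.const [b]

theorem PTB.ite (hc : PTB c) {d e : List Bool → Bool} (hd : PTB d) (he : PTB e) :
    PTB fun x => if c x then d x else e x := by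
  have := PT.ite hc hd he
  unfold PTB
  convert this using 2 with x
  show [if c x then d x else e x] = _
  cases c x <;> rfl

theorem PTB.comp (hc : PTB c) (hf : PT f) : PTB fun x => c (f x) := PT.comp hc hf

theorem PTB.not (hc : PTB c) : PTB fun x => !c x := by
  convert hc.ite (PTB.const false) (PTB.const true) using 2 with x
  cases hx : c x <;> simp

theorem PTB.and (hc : PTB c) (hd : PTB d) : PTB fun x => c x && d x := by
  convert hc.ite hd (PTB.const false) using 2 with x
  cases hx : c x <;> simp

theorem PTB.or (hc : PTB c) (hd : PTB d) : PTB fun x => c x || d x := by
  convert hc.ite (PTB.const true) hd using 2 with x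
  cases hx : c x <;> simp

theorem PTB.head (hf : PT f) : PTB fun x => (f x).headD false := by
  have := PT.iteL hf (PT.const [true]) (PT.const [false])
  unfold PTB
  convert this using 2 with x
  show [(f x).headD false] = _
  cases (f x).headD false <;> rfl

theorem PTB.isEmpty (hf : PT f) : PTB fun x => (f x).isEmpty := PT.comp .isNil hf

/-! ### Moving bits from one string to another -/

/-- move the first bit of the first component to the second component -/
def moveL (s : List Bool) : List Bool :=
  if (fstL s).isEmpty then s else
    if (fstL s).headD false then pairL (fstL s).tail (true :: sndL s)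
    else pairL (fstL s).tail (false :: sndL s)

theorem PT.moveL : PT moveL :=
  PT.ite (PTB.isEmpty .fstL) .id (PT.ite (PTB.head .fstL)
    (.pair (.tail .fstL) (.cons true .sndL)) (.pair (.tail .fstL) (.cons false .sndL)))

theorem moveL_pairL_cons (b : Bool) (x y : List Bool) :
    moveL (pairL (b :: x) y) = pairL x (b :: y) := by
  cases b <;> simp [moveL]

theorem moveL_pairL_nil (y : List Bool) : moveL (pairL [] y) = pairL [] y := by
  simp [moveL]

theorem moveL_iterate (n : ℕ) : ∀ x y : List Bool,
    moveL^[n] (pairL x y) = pairL (x.drop n) ((x.take n).reverse ++ y) := by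
  induction n with
  | zero => intro x y; simp
  | succ n ih =>
    intro x y
    rw [Function.iterate_succ_apply]
    cases x with
    | nil => rw [moveL_pairL_nil, ih]; simp
    | cons b x => rw [moveL_pairL_cons, ih]; simp

/-- `n` moves, where `n` is the length of `l x` -/
theorem PT.moves {l : List Bool → List Bool} (hl : PT l) (hf : PT f) (hg : PT g) :
    PT fun x => pairL ((f x).drop (l x).length) (((f x).take (l x).length).reverse ++ g x) := by
  obtain ⟨p, hp⟩ := hf.len
  obtain ⟨q, hq⟩ := hg.len
  have := PT.iterL PT.moveL hl (PT.pair hf hg) (2 * p + 2 + (p + q)) (fun x i _ => by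
    have h1 := hp x
    have h2 := hq x
    rw [moveL_iterate]
    simp only [length_pairL, Polynomial.eval_add, Polynomial.eval_mul, Polynomial.eval_ofNat,
      List.length_append, List.length_reverse, List.length_take, List.length_drop]
    omega)
  simpa only [moveL_iterate] using this

theorem PT.reverse (hf : PT f) : PT fun x => (f x).reverse := by
  simpa using (PT.moves hf hf .nil).snd

theorem PT.take (hf : PT f) (hg : PT g) : PT fun x => (f x).take (g x).length := by
  simpa using (PT.moves hg hf .nil).snd.reverse

theorem PT.drop (hf : PT f) (hg : PT g) : PT fun x => (f x).drop (g x).length := by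
  simpa using (PT.moves hg hf .nil).fst

theorem PT.append (hf : PT f) (hg : PT g) : PT fun x => f x ++ g x := by
  have := (PT.moves hf.reverse hf.reverse hg).snd
  simp only [sndL_pairL, List.take_length, List.reverse_reverse] at this
  exact this

/-! ### Unary numbers -/

theorem iterate_cons_true (n : ℕ) (l : List Bool) :
    (fun x => true :: x)^[n] l = List.replicate n true ++ l := by
  induction n with
  | zero => simp
  | succ n ih => rw [Function.iterate_succ_apply', ih, List.replicate_succ]; simp

theorem PT.ones (hf : PT f) : PT fun x => List.replicate (f x).length true := by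
  obtain ⟨p, hp⟩ := hf.len
  have := PT.iterL (PT.consL true) hf .nil p (fun x i hi => by
    rw [iterate_cons_true]
    simpa using hi.trans (hp x))
  simpa only [iterate_cons_true, List.append_nil] using this

theorem mulStep_iterate (n a : ℕ) (u : List Bool) (hu : u = List.replicate a true) :
    (fun s => pairL (fstL s) (fstL s ++ sndL s))^[n] (pairL u []) =
      pairL u (List.replicate (n * a) true) := by
  induction n with
  | zero => simp
  | succ n ih =>
    rw [Function.iterate_succ_apply', ih]
    simp only [fstL_pairL, sndL_pairL]
    rw [hu, ← List.replicate_add]
    congr 2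
    ring

theorem PT.mulU (hf : PT f) (hg : PT g) :
    PT fun x => List.replicate ((f x).length * (g x).length) true := by
  obtain ⟨p, hp⟩ := hf.len
  obtain ⟨q, hq⟩ := hg.len
  have := PT.iterL (s := fun s => pairL (P337.fstL s) (P337.fstL s ++ P337.sndL s))
    (PT.pair .fstL (PT.append .fstL .sndL)) hf (.pair hg.ones .nil) (2 * q + 2 + p * q)
    (fun x i hi => by
      have h1 := hp x
      have h2 := hq x
      rw [mulStep_iterate i (g x).length _ rfl]
      simp only [length_pairL, Polynomial.eval_add, Polynomial.eval_mul, Polynomial.eval_ofNat,
        List.length_replicate]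
      have h3 : i * (g x).length ≤ p.eval x.length * q.eval x.length :=
        Nat.mul_le_mul (hi.trans h1) h2
      omega)
  have h4 := this.snd
  convert h4 using 2 with x
  rw [mulStep_iterate _ (g x).length _ rfl, sndL_pairL]

theorem PT.unary (q : Polynomial ℕ) (hf : PT f) :
    PT fun x => List.replicate (q.eval (f x).length) true := by
  induction q using Polynomial.induction_on' with
  | add p q hp hq =>
    simpa only [Polynomial.eval_add, List.replicate_add] using hp.append hq
  | monomial k a =>
    have h1 : ∀ k, PT fun x => List.replicate ((f x).length ^ k) true := by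
      intro k
      induction k with
      | zero => simpa using PT.const [true]
      | succ k ih =>
        have := ih.mulU hf
        simpa only [List.length_replicate, pow_succ] using this
    have := (PT.const (List.replicate a true)).mulU (h1 k)
    simpa only [List.length_replicate, Polynomial.eval_monomial] using this

/-! ### Normal form of a bit string -/

theorem stripStep_iterate : ∀ (n : ℕ) (l : List Bool), l.length ≤ n →
    (fun s : List Bool => if s.headD false then s else s.tail)^[n] l = l.dropWhile (fun b => !b)
  | 0, l, h => by
    have : l = [] := List.eq_nil_of_length_eq_zero (by omega)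
    simp [this]
  | n + 1, l, h => by
    rw [Function.iterate_succ_apply]
    cases l with
    | nil => exact stripStep_iterate n [] (by simp)
    | cons b l =>
      cases b with
      | false => simpa using stripStep_iterate n l (by simpa using h)
      | true =>
        have h1 : ∀ k : ℕ, (fun s : List Bool => if s.headD false then s else s.tail)^[k]
            (true :: l) = true :: l := by
          intro k
          induction k with
          | zero => rfl
          | succ k ih => rw [Function.iterate_succ_apply', ih]; rfl
        simpa using h1 n

theorem PT.strip (hf : PT f) : PT fun x => (f x).dropWhile (fun b => !b) := by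
  obtain ⟨p, hp⟩ := hf.len
  have h1 : PT fun s : List Bool => if s.headD false then s else s.tail := .iteL .id .id .tailL
  have h2 : ∀ (i : ℕ) (l : List Bool),
      ((fun s : List Bool => if s.headD false then s else s.tail)^[i] l).length ≤ l.length := by
    intro i
    induction i with
    | zero => intro l; simp
    | succ i ih =>
      intro l
      rw [Function.iterate_succ_apply]
      refine (ih _).trans ?_
      split
      · exact le_rfl
      · simp
  have := PT.iterL h1 hf hf p (fun x i _ => (h2 i _).trans (hp x))
  simpa only [stripStep_iterate _ _ le_rfl] using this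

theorem bits_bval (l : List Bool) : (bval l).bits = (l.reverse.dropWhile (fun b => !b)).reverse := by
  induction l with
  | nil => simp [bval]
  | cons b l ih =>
    have h1 : bval (b :: l) = Nat.bit b (bval l) := by
      rw [Nat.bit_val, bval, add_comm]
    rw [h1]
    by_cases h0 : bval l = 0
    · rw [h0] at ih ⊢
      have h2 : l.reverse.dropWhile (fun b => !b) = [] := by
        simpa using ih.symm
      rw [List.reverse_cons, List.dropWhile_append, h2]
      cases b <;> simp
    · rw [Nat.bits_append_bit _ _ (fun h => absurd h h0), ih, List.reverse_cons,
        List.dropWhile_append]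
      have h2 : l.reverse.dropWhile (fun b => !b) ≠ [] := by
        intro h
        rw [h] at ih
        apply h0
        rw [← Nat.size_eq_zero, ← Nat.size_eq_bits_len, ih]
        rfl
      simp [h2]

theorem PT.bits (hf : PT f) : PT fun x => (bval (f x)).bits := by
  simpa only [bits_bval] using hf.reverse.strip.reverse

/-! ### Comparison -/

/-- one step of the comparison of two numbers -/
def cmpStep (s : List Bool) : List Bool :=
  pairL (fstL s).tail (pairL (fstL (sndL s)).tail
    (if (fstL s).headD false then (if (fstL (sndL s)).headD false then sndL (sndL s) else [false])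
      else (if (fstL (sndL s)).headD false then [true] else sndL (sndL s))))

theorem PT.cmpStep : PT cmpStep :=
  .pair (.tail .fstL) (.pair (.tail (.comp .fstL .sndL))
    (.iteL .fstL (.iteL (.comp .fstL .sndL) (.comp .sndL .sndL) (.const _))
      (.iteL (.comp .fstL .sndL) (.const _) (.comp .sndL .sndL))))

theorem bval_head_tail (l : List Bool) : bval l = (l.headD false).toNat + 2 * bval l.tail := by
  cases l <;> simp [bval]

theorem cmpStep_pairL (x y : List Bool) (c : Bool) :
    cmpStep (pairL x (pairL y [c])) = pairL x.tail (pairL y.tail
      [if x.headD false then (if y.headD false then c else false)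
        else (if y.headD false then true else c)]) := by
  simp only [cmpStep, fstL_pairL, sndL_pairL]
  cases x.headD false <;> cases y.headD false <;> rfl

theorem cmpStep_iterate : ∀ (n : ℕ) (x y : List Bool) (c : Bool), ∃ d : Bool,
    cmpStep^[n] (pairL x (pairL y [c])) = pairL (x.drop n) (pairL (y.drop n) [d]) ∧
    (x.length ≤ n → y.length ≤ n →
      (d = true ↔ bval x < bval y ∨ (bval x = bval y ∧ c = true)))
  | 0, x, y, c => by
    refine ⟨c, by simp, fun hx hy => ?_⟩
    have h1 : x = [] := List.eq_nil_of_length_eq_zero (by omega)
    have h2 : y = [] := List.eq_nil_of_length_eq_zero (by omega)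
    simp [h1, h2]
  | n + 1, x, y, c => by
    obtain ⟨d, h1, h2⟩ := cmpStep_iterate n x.tail y.tail
      (if x.headD false then (if y.headD false then c else false)
        else (if y.headD false then true else c))
    refine ⟨d, ?_, fun hx hy => ?_⟩
    · rw [Function.iterate_succ_apply, cmpStep_pairL, h1, List.drop_tail, List.drop_tail]
    · rw [h2 (by simp; omega) (by simp; omega), bval_head_tail x, bval_head_tail y]
      cases x.headD false <;> cases y.headD false <;> simp <;> omega

theorem PTB.le (hf : PT f) (hg : PT g) : PTB fun x => decide (bval (f x) ≤ bval (g x)) := by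
  obtain ⟨p, hp⟩ := hf.len
  obtain ⟨q, hq⟩ := hg.len
  have := PT.iterL PT.cmpStep (hf.append hg) (.pair hf (.pair hg (.const [true])))
    (2 * p + 2 + (2 * q + 2 + 1)) (fun x i _ => by
      obtain ⟨d, hd, -⟩ := cmpStep_iterate i (f x) (g x) true
      have h1 := hp x
      have h2 := hq x
      rw [hd]
      simp only [length_pairL, Polynomial.eval_add, Polynomial.eval_mul, Polynomial.eval_ofNat,
        Polynomial.eval_one, List.length_drop, List.length_singleton]
      omega)
  have h3 := this.snd.snd
  unfold PTB
  convert h3 using 2 with x
  obtain ⟨d, hd, h4⟩ := cmpStep_iterate (f x ++ g x).length (f x) (g x) true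
  rw [hd]
  simp only [sndL_pairL]
  have h5 := h4 (by simp) (by simp)
  congr 1
  rw [Bool.eq_iff_iff, h5]
  simp only [decide_eq_true_eq, and_true]
  omega

theorem bval_append_true_inj : ∀ x y : List Bool, bval (x ++ [true]) = bval (y ++ [true]) → x = y
  | [], [], _ => rfl
  | [], b :: y, h => by
    have h1 : 1 ≤ bval (y ++ [true]) := by
      clear h
      induction y with
      | nil => simp [bval]
      | cons c y ih => simp only [List.cons_append, bval]; omega
    simp only [List.nil_append, List.cons_append, bval, Bool.toNat_true, mul_zero, add_zero] at h
    omega
  | b :: x, [], h => by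
    have h1 : 1 ≤ bval (x ++ [true]) := by
      clear h
      induction x with
      | nil => simp [bval]
      | cons c y ih => simp only [List.cons_append, bval]; omega
    simp only [List.nil_append, List.cons_append, bval, Bool.toNat_true, mul_zero, add_zero] at h
    omega
  | b :: x, c :: y, h => by
    simp only [List.cons_append, bval] at h
    have h1 : b = c := by
      cases b <;> cases c <;> simp at h ⊢ <;> omega
    subst h1
    rw [bval_append_true_inj x y (by omega)]

theorem PTB.eq (hf : PT f) (hg : PT g) : PTB fun x => decide (f x = g x) := by
  have h1 := (PTB.le (hf.append (.const [true])) (hg.append (.const [true]))).and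
    (PTB.le (hg.append (.const [true])) (hf.append (.const [true])))
  convert h1 using 2 with x
  rw [Bool.eq_iff_iff]
  simp only [decide_eq_true_eq, Bool.and_eq_true]
  constructor
  · intro h; simp [h]
  · intro h
    exact bval_append_true_inj _ _ (le_antisymm h.1 h.2)

/-! ### Iteration with a parameter and truncation -/

/-- Iteration with a parameter; the bound is needed only for the intermediate results that occur
(here expressed by truncating them to the length `q (|x|)`). -/
theorem PT.clamp {s l : List Bool → List Bool} (hs : PT s) (hl : PT l) (hg : PT g)
    (q : Polynomial ℕ) :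
    PT fun x => (fun y => (s (pairL x y)).take (q.eval x.length))^[(l x).length]
      ((g x).take (q.eval x.length)) := by
  have hstep : PT fun z => pairL (P337.fstL z) ((s z).take (q.eval (P337.fstL z).length)) := by
    have := PT.pair .fstL (hs.take (PT.unary q .fstL))
    simpa only [List.length_replicate] using this
  have hinit : PT fun x => pairL x ((g x).take (q.eval x.length)) := by
    have := PT.pair .id (hg.take (PT.unary q .id))
    simpa only [List.length_replicate] using this
  have key : ∀ (i : ℕ) (x : List Bool),
      (fun z => pairL (P337.fstL z) ((s z).take (q.eval (P337.fstL z).length)))^[i]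
        (pairL x ((g x).take (q.eval x.length))) =
      pairL x ((fun y => (s (pairL x y)).take (q.eval x.length))^[i]
        ((g x).take (q.eval x.length))) := by
    intro i x
    induction i with
    | zero => rfl
    | succ i ih =>
      rw [Function.iterate_succ_apply', Function.iterate_succ_apply', ih]
      simp only [fstL_pairL]
  have hlen : ∀ (i : ℕ) (x : List Bool),
      ((fun y => (s (pairL x y)).take (q.eval x.length))^[i]
        ((g x).take (q.eval x.length))).length ≤ q.eval x.length := by
    intro i x
    cases i with
    | zero => simp
    | succ i =>
      rw [Function.iterate_succ_apply']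
      simp
  have := (PT.iterL hstep hl hinit (2 * Polynomial.X + 2 + q) (fun x i _ => by
    rw [key]
    have := hlen i x
    simp only [length_pairL, Polynomial.eval_add, Polynomial.eval_mul, Polynomial.eval_ofNat,
      Polynomial.eval_X]
    omega)).snd
  simpa only [key, sndL_pairL] using this

end Vale.Agent.P337
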