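import Vale.Agent.P337.PTBridge
import Vale.Agent.P337.PTDef

/-!
# P337 [P1, P2]: polynomial time string functions on stack machines

Programs over stacks indexed by `ℕ` (all alphabets `Bool`), parametrised by the input stack `i`,
the output stack `o` and the first scratch stack `s`.
-/

namespace Vale.Agent.P337

open Vale.Agent.P314.TM Function

/-- Programs on bit stacks indexed by `ℕ`. -/
abbrev BProg : Type := NProg

/-- States of the stacks. -/
abbrev St : Type := ℕ → List Bool

/-- `f` is computed by programs which read the stack `i`, write on the (empty) stack `o`, use the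
(empty) scratch stacks from `s` on and leave everything else unchanged, in polynomial time. -/
def Comp (f : List Bool → List Bool) : Prop :=
  ∃ (P : ℕ → ℕ → ℕ → BProg) (w : ℕ) (T : Polynomial ℕ), ∀ i o s, i ≠ o → i < s → o < s →
    Below (s + w) (P i o s) ∧ ∀ S : St, (∀ k, s ≤ k → S k = []) → S o = [] →
      RunsIn (P i o s) S (update S o (f (S i))) (T.eval (S i).length)

theorem poly_mono (p : Polynomial ℕ) {a b : ℕ} (h : a ≤ b) : p.eval a ≤ p.eval b := by
  rw [Polynomial.eval_eq_sum_range, Polynomial.eval_eq_sum_range]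
  gcongr

/-! ## Sizes -/

theorem run_len {p : BProg} {S S' : St} {t : ℕ} (h : Run p S S' t) (k : ℕ) :
    (S' k).length ≤ (S k).length + t := by
  induction h with
  | skip S => omega
  | push j a S =>
    by_cases hk : k = j
    · subst hk
      simp
    · simp [hk]
  | pop j S =>
    by_cases hk : k = j
    · subst hk
      simp
      omega
    · simp [hk]
  | seq _ _ ih1 ih2 => omega
  | iteT _ _ ih => omega
  | iteF _ _ ih => omega
  | loopF _ => omega
  | loopT _ _ _ ih1 ih2 => omega

/-! ## Primitive loops -/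

theorem rpush (k : ℕ) (a : Bool) (S : St) :
    RunsIn (.push k a : BProg) S (update S k (a :: S k)) 1 := RunsIn.push (Γ := fun _ => Bool) k a S

theorem rpop (k : ℕ) (S : St) :
    RunsIn (.pop k : BProg) S (update S k (S k).tail) 1 := RunsIn.pop (Γ := fun _ => Bool) k S

/-- is the top symbol `true` -/
def isT : Option Bool → Bool
  | some true => true
  | _ => false

/-- is the top symbol `false` -/
def isF : Option Bool → Bool
  | some false => true
  | _ => false

/-- pop `a` and run `body x` for every symbol `x` of the stack `a` -/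
def each (a : ℕ) (body : Bool → BProg) : BProg :=
  .loop a Option.isSome (.ite a isT (.seq (.pop a) (body true)) (.seq (.pop a) (body false)))

theorem runs_each {a : ℕ} {body : Bool → BProg} (c : ℕ) (st : List Bool → List Bool → St)
    (ha : ∀ l d, st l d a = l)
    (hb : ∀ x l d, RunsIn (body x) (update (st (x :: l) d) a l) (st l (x :: d)) c) :
    ∀ l d, RunsIn (each a body) (st l d) (st [] (l.reverse ++ d)) ((c + 3) * l.length + 1)
  | [], d => ⟨1, by simp, .loopF (by rw [ha]; rfl)⟩
  | x :: l, d => by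
    obtain ⟨t', ht', hr'⟩ := runs_each c st ha hb l (x :: d)
    have h1 : RunsIn (.seq (.pop a) (body x)) (st (x :: l) d) (st l (x :: d)) (1 + c) :=
      (RunsIn.pop a (st (x :: l) d)).seq (by rw [ha]; exact hb x l d)
    have h2 : RunsIn (.ite a isT (.seq (.pop a) (body true)) (.seq (.pop a) (body false)))
        (st (x :: l) d) (st l (x :: d)) (1 + c + 1) := by
      cases x with
      | true => exact RunsIn.iteT (by rw [ha]; rfl) h1
      | false => exact RunsIn.iteF (by rw [ha]; rfl) h1
    obtain ⟨t, ht, hr⟩ := h2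
    have hr2 : RunsIn (each a body) (st (x :: l) d) (st [] (l.reverse ++ x :: d))
        ((c + 3) * (x :: l).length + 1) := by
      refine ⟨1 + t + t', ?_, .loopT (by rw [ha]; rfl) hr hr'⟩
      simp only [List.length_cons, Nat.mul_add, Nat.mul_one]
      omega
    simpa using hr2

/-- move the stack `a` on the stack `b`, reversing the order -/
def mv (a b : ℕ) : BProg := each a fun x => .push b x

theorem runs_mv {a b : ℕ} (hab : a ≠ b) (S : St) :
    RunsIn (mv a b) S (update (update S a []) b ((S a).reverse ++ S b))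
      (4 * (S a).length + 1) := by
  have h := runs_each (a := a) (body := fun x => .push b x) 1
    (fun l d => update (update S a l) b (d ++ S b))
    (fun l d => by simp [hab])
    (fun x l d => by
      refine (rpush b x _).congr rfl ?_
      funext k
      by_cases h1 : k = b
      · subst h1; simp [hab.symm]
      · by_cases h2 : k = a
        · subst h2; simp [h1]
        · simp [h1, h2]) (S a) []
  refine h.congr ?_ ?_
  · simp
  · simp

/-- move the stack `s` on the stacks `i` and `o`, reversing the order -/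
def mv2 (s i o : ℕ) : BProg := each s fun x => .seq (.push i x) (.push o x)

theorem runs_mv2 {s i o : ℕ} (h1 : s ≠ i) (h2 : s ≠ o) (h3 : i ≠ o) (S : St) :
    RunsIn (mv2 s i o) S
      (update (update (update S s []) i ((S s).reverse ++ S i)) o ((S s).reverse ++ S o))
      (5 * (S s).length + 1) := by
  have h := runs_each (a := s) (body := fun x => .seq (.push i x) (.push o x)) 2
    (fun l d => update (update (update S s l) i (d ++ S i)) o (d ++ S o))
    (fun l d => by simp [h1, h2])
    (fun x l d => by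
      refine ((rpush i x _).seq (rpush o x _)).congr rfl ?_
      funext k
      by_cases e1 : k = o
      · subst e1; simp [h2.symm, h3.symm]
      · by_cases e2 : k = i
        · subst e2; simp [h1.symm, e1]
        · by_cases e3 : k = s
          · subst e3; simp [e1, e2]
          · simp [e1, e2, e3]) (S s) []
  refine h.congr ?_ ?_
  · simp
  · simp

/-- move the stack `a` on the stack `b`, reversing the order and doubling the symbols -/
def dbl (a b : ℕ) : BProg := each a fun x => .seq (.push b x) (.push b x)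

theorem runs_dbl {a b : ℕ} (hab : a ≠ b) (S : St) :
    RunsIn (dbl a b) S
      (update (update S a []) b ((S a).reverse.flatMap (fun x => [x, x]) ++ S b))
      (5 * (S a).length + 1) := by
  have h := runs_each (a := a) (body := fun x => .seq (.push b x) (.push b x)) 2
    (fun l d => update (update S a l) b (d.flatMap (fun x => [x, x]) ++ S b))
    (fun l d => by simp [hab])
    (fun x l d => by
      refine ((rpush b x _).seq (rpush b x _)).congr rfl ?_
      funext k
      by_cases h1 : k = b
      · subst h1; simp [hab.symm]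
      · by_cases h2 : k = a
        · subst h2; simp [h1]
        · simp [h1, h2]) (S a) []
  refine h.congr ?_ ?_
  · simp
  · simp

/-- clear the stack `a` -/
def cl (a : ℕ) : BProg := each a fun _ => .skip

theorem runs_cl (a : ℕ) (S : St) : RunsIn (cl a) S (update S a []) (4 * (S a).length + 1) := by
  have h := runs_each (a := a) (body := fun _ => .skip) 1
    (fun l d => update S a l)
    (fun l d => by simp)
    (fun x l d => (RunsIn.skip _).congr rfl (by simp)) (S a) []
  refine h.congr ?_ ?_
  · simp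
  · simp

/-- copy the stack `i` on the stack `o` with the scratch stack `s` -/
def cp (i o s : ℕ) : BProg := .seq (mv i s) (mv2 s i o)

theorem runs_cp {i o s : ℕ} (h1 : s ≠ i) (h2 : s ≠ o) (h3 : i ≠ o) (S : St) (hs : S s = []) :
    RunsIn (cp i o s) S (update S o (S i ++ S o)) (9 * (S i).length + 2) := by
  have e1 := runs_mv h1.symm S
  have e2 := runs_mv2 h1 h2 h3 (update (update S i []) s ((S i).reverse ++ S s))
  refine ((e1.seq e2).mono ?_).congr rfl ?_
  · simp [hs]
    omega
  · funext k
    by_cases q1 : k = o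
    · subst q1; simp [h2.symm, h3.symm, hs]
    · by_cases q2 : k = i
      · subst q2; simp [h1.symm, q1, hs]
      · by_cases q3 : k = s
        · subst q3; simp [q1, q2, hs]
        · simp [q1, q2, q3]

theorem below_each {n a : ℕ} {body : Bool → BProg} (ha : a < n) (hb : ∀ x, Below n (body x)) :
    Below n (each a body) := ⟨ha, ha, ⟨ha, hb true⟩, ⟨ha, hb false⟩⟩

theorem below_mv {n a b : ℕ} (ha : a < n) (hb : b < n) : Below n (mv a b) :=
  below_each ha fun _ => hb

theorem below_mv2 {n a b c : ℕ} (ha : a < n) (hb : b < n) (hc : c < n) : Below n (mv2 a b c) :=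
  below_each ha fun _ => ⟨hb, hc⟩

theorem below_dbl {n a b : ℕ} (ha : a < n) (hb : b < n) : Below n (dbl a b) :=
  below_each ha fun _ => ⟨hb, hb⟩

theorem below_cl {n a : ℕ} (ha : a < n) : Below n (cl a) :=
  below_each ha fun _ => trivial

theorem below_cp {n a b c : ℕ} (ha : a < n) (hb : b < n) (hc : c < n) : Below n (cp a b c) :=
  ⟨below_mv ha hc, below_mv2 hc ha hb⟩

/-! ## Closure -/

variable {f g h : List Bool → List Bool}

theorem Comp.id : Comp fun x => x := by
  refine ⟨fun i o s => cp i o s, 1, 9 * Polynomial.X + 2, fun i o s h1 h2 h3 => ⟨?_, ?_⟩⟩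
  · exact below_cp (by omega) (by omega) (by omega)
  · intro S hS ho
    refine ((runs_cp (by omega) (by omega) h1 S (hS s le_rfl)).mono ?_).congr rfl ?_
    · simp
    · rw [ho, List.append_nil]

theorem Comp.comp (hf : Comp f) (hg : Comp g) : Comp fun x => f (g x) := by
  obtain ⟨P, w, T, hP⟩ := hf
  obtain ⟨Q, w', T', hQ⟩ := hg
  refine ⟨fun i o s => .seq (Q i s (s + 1)) (.seq (P s o (s + 1)) (cl s)), w + w' + 1,
    T' + (T.comp T' + (4 * T' + 1)), fun i o s h1 h2 h3 => ?_⟩
  obtain ⟨b1, r1⟩ := hQ i s (s + 1) (by omega) (by omega) (by omega)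
  obtain ⟨b2, r2⟩ := hP s o (s + 1) (by omega) (by omega) (by omega)
  refine ⟨⟨b1.mono (by omega), b2.mono (by omega), below_cl (by omega)⟩, fun S hS ho => ?_⟩
  have e1 := r1 S (fun k hk => hS k (by omega)) (hS s le_rfl)
  have hlen : (g (S i)).length ≤ T'.eval (S i).length := by
    obtain ⟨t, ht, hr⟩ := e1
    have := run_len hr s
    simp only [update_self, hS s le_rfl, List.length_nil] at this
    omega
  have e2 := r2 (update S s (g (S i)))
    (fun k hk => by rw [update_of_ne (by omega)]; exact hS k (by omega))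
    (by rw [update_of_ne (by omega)]; exact ho)
  have e3 := runs_cl s (update (update S s (g (S i))) o (f ((update S s (g (S i))) s)))
  refine ((e1.seq (e2.seq e3)).mono ?_).congr rfl ?_
  · have h5 := poly_mono T hlen
    simp only [update_self, update_of_ne (show s ≠ o by omega), Polynomial.eval_add,
      Polynomial.eval_comp, Polynomial.eval_mul, Polynomial.eval_one, Polynomial.eval_ofNat]
    omega
  · funext k
    by_cases q1 : k = o
    · subst q1
      simp [show k ≠ s by omega]
    · by_cases q2 : k = s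
      · subst q2
        simp [q1, hS k le_rfl]
      · simp [q1, q2]

/-! ## Register files -/

/-- The state `S` with new contents of the stacks `o, s, s + 1, s + 2, s + 3`. -/
def rg (S : St) (o s : ℕ) (d a b c e : List Bool) : St := fun k =>
  if k = o then d else if k = s then a else if k = s + 1 then b else if k = s + 2 then c
  else if k = s + 3 then e else S k

section rg
variable {S : St} {o s : ℕ} {d a b c e : List Bool}

theorem rg_o : rg S o s d a b c e o = d := by simp [rg]
theorem rg_0 (h : o < s) : rg S o s d a b c e s = a := by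
  simp [rg, show s ≠ o by omega]
theorem rg_1 (h : o < s) : rg S o s d a b c e (s + 1) = b := by
  simp [rg, show s + 1 ≠ o by omega]
theorem rg_2 (h : o < s) : rg S o s d a b c e (s + 2) = c := by
  simp [rg, show s + 2 ≠ o by omega]
theorem rg_3 (h : o < s) : rg S o s d a b c e (s + 3) = e := by
  simp [rg, show s + 3 ≠ o by omega]
theorem rg_i {i : ℕ} (h1 : i ≠ o) (h2 : i < s) : rg S o s d a b c e i = S i := by
  simp [rg, h1, show i ≠ s by omega, show i ≠ s + 1 by omega, show i ≠ s + 2 by omega,
    show i ≠ s + 3 by omega]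
theorem ud_o (d' : List Bool) : update (rg S o s d a b c e) o d' = rg S o s d' a b c e := by
  funext k
  by_cases h : k = o
  · subst h; simp [rg]
  · simp [rg, h]
theorem ud_0 (h : o < s) (a' : List Bool) :
    update (rg S o s d a b c e) s a' = rg S o s d a' b c e := by
  funext k
  by_cases h1 : k = s
  · subst h1; simp [rg, show k ≠ o by omega]
  · simp [rg, h1]
theorem ud_1 (h : o < s) (b' : List Bool) :
    update (rg S o s d a b c e) (s + 1) b' = rg S o s d a b' c e := by
  funext k
  by_cases h1 : k = s + 1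
  · subst h1; simp [rg, show s + 1 ≠ o by omega]
  · simp [rg, h1]
theorem ud_2 (h : o < s) (c' : List Bool) :
    update (rg S o s d a b c e) (s + 2) c' = rg S o s d a b c' e := by
  funext k
  by_cases h1 : k = s + 2
  · subst h1; simp [rg, show s + 2 ≠ o by omega]
  · simp [rg, h1]
theorem ud_3 (h : o < s) (e' : List Bool) :
    update (rg S o s d a b c e) (s + 3) e' = rg S o s d a b c e' := by
  funext k
  by_cases h1 : k = s + 3
  · subst h1; simp [rg, show s + 3 ≠ o by omega]
  · simp [rg, h1]
theorem rg_init (hS : ∀ k, s ≤ k → S k = []) (ho : S o = []) : rg S o s [] [] [] [] [] = S := by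
  funext k
  unfold rg
  split_ifs with h1 h2 h3 h4 h5
  · rw [h1, ho]
  · exact (hS k (by omega)).symm
  · exact (hS k (by omega)).symm
  · exact (hS k (by omega)).symm
  · exact (hS k (by omega)).symm
  · rfl
theorem rg_out (hS : ∀ k, s ≤ k → S k = []) (d : List Bool) :
    rg S o s d [] [] [] [] = update S o d := by
  funext k
  unfold rg
  by_cases h1 : k = o
  · subst h1; simp
  · simp only [h1, if_false, ne_eq, not_false_eq_true, update_of_ne]
    split_ifs with h2 h3 h4 h5
    · exact (hS k (by omega)).symm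
    · exact (hS k (by omega)).symm
    · exact (hS k (by omega)).symm
    · exact (hS k (by omega)).symm
    · rfl
theorem rg_ge1 (h : o < s) (hS : ∀ k, s ≤ k → S k = []) {k : ℕ} (hk : s + 1 ≤ k) :
    rg S o s d a [] [] [] k = [] := by
  unfold rg
  split_ifs
  any_goals first | rfl | omega | exact hS k (by omega)
theorem rg_ge2 (h : o < s) (hS : ∀ k, s ≤ k → S k = []) {k : ℕ} (hk : s + 2 ≤ k) :
    rg S o s d a b [] [] k = [] := by
  unfold rg
  split_ifs
  any_goals first | rfl | omega | exact hS k (by omega)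
theorem rg_ge3 (h : o < s) (hS : ∀ k, s ≤ k → S k = []) {k : ℕ} (hk : s + 3 ≤ k) :
    rg S o s d a b c [] k = [] := by
  unfold rg
  split_ifs
  any_goals first | rfl | omega | exact hS k (by omega)
theorem rg_ge4 (h : o < s) (hS : ∀ k, s ≤ k → S k = []) {k : ℕ} (hk : s + 4 ≤ k) :
    rg S o s d a b c e k = [] := by
  unfold rg
  split_ifs
  any_goals first | rfl | omega | exact hS k (by omega)

end rg

/-- The specification of `Comp` for given programs. -/
def Spec (f : List Bool → List Bool) (P : ℕ → ℕ → ℕ → BProg) (w : ℕ) (T : Polynomial ℕ) : Prop :=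
  ∀ i o s, i ≠ o → i < s → o < s →
    Below (s + w) (P i o s) ∧ ∀ S : St, (∀ k, s ≤ k → S k = []) → S o = [] →
      RunsIn (P i o s) S (update S o (f (S i))) (T.eval (S i).length)

theorem Spec.len {P w T} (h : Spec f P w T) (x : List Bool) :
    (f x).length ≤ T.eval x.length := by
  obtain ⟨-, h⟩ := h 0 1 2 (by omega) (by omega) (by omega)
  obtain ⟨t, ht, hr⟩ := h (update (fun _ => []) 0 x) (fun k hk => by
    rw [update_of_ne (by omega)]) (by simp)
  have := run_len hr 1
  simp at this ht
  omega

theorem Comp.len (h : Comp f) : ∃ T : Polynomial ℕ, ∀ x, (f x).length ≤ T.eval x.length := by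
  obtain ⟨P, w, T, h⟩ := h
  exact ⟨T, Spec.len h⟩

theorem Comp.pair (hf : Comp f) (hg : Comp g) : Comp fun x => pairL (f x) (g x) := by
  obtain ⟨P, w, T, hP⟩ := hf
  obtain ⟨Q, w', T', hQ⟩ := hg
  have hlf := Spec.len hP
  have hlg := Spec.len hQ
  refine ⟨fun i o s => .seq (P i s (s + 2)) (.seq (Q i (s + 1) (s + 2)) (.seq (mv (s + 1) (s + 2))
    (.seq (mv (s + 2) o) (.seq (.push o true) (.seq (.push o false) (.seq (mv s (s + 2))
    (dbl (s + 2) o))))))), w + w' + 3,
    T + (T' + (4 * T' + 1 + (4 * T' + 1 + (1 + (1 + (4 * T + 1 + (5 * T + 1))))))),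
    fun i o s h1 h2 h3 => ?_⟩
  obtain ⟨b1, r1⟩ := hP i s (s + 2) (by omega) (by omega) (by omega)
  obtain ⟨b2, r2⟩ := hQ i (s + 1) (s + 2) (by omega) (by omega) (by omega)
  refine ⟨⟨b1.mono (by omega), b2.mono (by omega), below_mv (by omega) (by omega),
    below_mv (by omega) (by omega), show o < _ by omega, show o < _ by omega,
    below_mv (by omega) (by omega), below_dbl (by omega) (by omega)⟩, fun S hS ho => ?_⟩
  have hi : ∀ d a b c e, rg S o s d a b c e i = S i := fun d a b c e => rg_i h1 h2
  have e1 := r1 (rg S o s [] [] [] [] []) (fun k hk => rg_ge2 h3 hS hk) (rg_0 h3)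
  rw [hi, ud_0 h3] at e1
  have e2 := r2 (rg S o s [] (f (S i)) [] [] []) (fun k hk => rg_ge2 h3 hS hk) (rg_1 h3)
  rw [hi, ud_1 h3] at e2
  have e3 := runs_mv (show s + 1 ≠ s + 2 by omega) (rg S o s [] (f (S i)) (g (S i)) [] [])
  rw [rg_1 h3, rg_2 h3, ud_1 h3, ud_2 h3] at e3
  have e4 := runs_mv (show s + 2 ≠ o by omega)
    (rg S o s [] (f (S i)) [] ((g (S i)).reverse ++ []) [])
  rw [rg_2 h3, rg_o, ud_2 h3, ud_o] at e4
  have e5 := rpush o true (rg S o s (((g (S i)).reverse ++ []).reverse ++ []) (f (S i)) [] [] [])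
  rw [rg_o, ud_o] at e5
  have e6 := rpush o false
    (rg S o s (true :: (((g (S i)).reverse ++ []).reverse ++ [])) (f (S i)) [] [] [])
  rw [rg_o, ud_o] at e6
  have e7 := runs_mv (show s ≠ s + 2 by omega)
    (rg S o s (false :: true :: (((g (S i)).reverse ++ []).reverse ++ [])) (f (S i)) [] [] [])
  rw [rg_0 h3, rg_2 h3, ud_0 h3, ud_2 h3] at e7
  have e8 := runs_dbl (show s + 2 ≠ o by omega)
    (rg S o s (false :: true :: (((g (S i)).reverse ++ []).reverse ++ [])) [] []
      ((f (S i)).reverse ++ []) [])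
  rw [rg_2 h3, rg_o, ud_2 h3, ud_o] at e8
  refine ((e1.seq (e2.seq (e3.seq (e4.seq (e5.seq (e6.seq (e7.seq e8))))))).mono ?_).congr
    (rg_init hS ho) ?_
  · have := hlf (S i)
    have := hlg (S i)
    simp only [Polynomial.eval_add, Polynomial.eval_mul, Polynomial.eval_one,
      Polynomial.eval_ofNat, List.length_append, List.length_reverse, List.length_nil]
    omega
  · rw [rg_out hS]
    simp [pairL]

theorem Comp.nil : Comp fun _ => [] := by
  refine ⟨fun i o s => .skip, 0, 1, fun i o s h1 h2 h3 => ⟨trivial, fun S hS ho => ?_⟩⟩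
  refine ((RunsIn.skip S).mono (by simp)).congr rfl ?_
  rw [← ho, update_eq_self]

theorem Comp.cons (b : Bool) : Comp (List.cons b) := by
  refine ⟨fun i o s => .seq (cp i o s) (.push o b), 1, 9 * Polynomial.X + 2 + 1,
    fun i o s h1 h2 h3 => ⟨⟨below_cp (by omega) (by omega) (by omega), show o < _ by omega⟩,
    fun S hS ho => ?_⟩⟩
  have e1 := runs_cp (show s ≠ i by omega) (show s ≠ o by omega) h1 S (hS s le_rfl)
  have e2 := rpush o b (update S o (S i ++ S o))
  refine ((e1.seq e2).mono (by simp)).congr rfl ?_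
  simp [ho]

theorem Comp.tail : Comp List.tail := by
  refine ⟨fun i o s => .seq (cp i o s) (.pop o), 1, 9 * Polynomial.X + 2 + 1,
    fun i o s h1 h2 h3 => ⟨⟨below_cp (by omega) (by omega) (by omega), show o < _ by omega⟩,
    fun S hS ho => ?_⟩⟩
  have e1 := runs_cp (show s ≠ i by omega) (show s ≠ o by omega) h1 S (hS s le_rfl)
  have e2 := rpop o (update S o (S i ++ S o))
  refine ((e1.seq e2).mono (by simp)).congr rfl ?_
  simp [ho]

theorem Comp.isNil : Comp fun x => [x.isEmpty] := by
  refine ⟨fun i o s => .ite i Option.isSome (.push o false) (.push o true), 0, 2,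
    fun i o s h1 h2 h3 => ⟨⟨show i < _ by omega, show o < _ by omega, show o < _ by omega⟩,
    fun S hS ho => ?_⟩⟩
  rcases hx : S i with _ | ⟨x, l⟩
  · refine ((RunsIn.iteF (k := i) (test := Option.isSome) (p := .push o false)
      (by rw [hx]; rfl) (rpush o true S)).mono ?_).congr rfl ?_
    · simp
    · simp [ho]
  · refine ((RunsIn.iteT (k := i) (test := Option.isSome) (q := .push o true)
      (by rw [hx]; rfl) (rpush o false S)).mono ?_).congr rfl ?_
    · simp
    · simp [ho]

theorem Comp.ite (hh : Comp h) (hf : Comp f) (hg : Comp g) :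
    Comp fun x => if (h x).headD false then f x else g x := by
  obtain ⟨R, w'', T'', hR⟩ := hh
  obtain ⟨P, w, T, hP⟩ := hf
  obtain ⟨Q, w', T', hQ⟩ := hg
  have hlh := Spec.len hR
  refine ⟨fun i o s => .seq (R i s (s + 1)) (.ite s isT (.seq (P i o (s + 1)) (cl s))
    (.seq (Q i o (s + 1)) (cl s))), w + w' + w'' + 1,
    T'' + (T + T' + (4 * T'' + 1) + 1), fun i o s h1 h2 h3 => ?_⟩
  obtain ⟨b0, r0⟩ := hR i s (s + 1) (by omega) (by omega) (by omega)
  obtain ⟨b1, r1⟩ := hP i o (s + 1) (by omega) (by omega) (by omega)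
  obtain ⟨b2, r2⟩ := hQ i o (s + 1) (by omega) (by omega) (by omega)
  refine ⟨⟨b0.mono (by omega), show s < _ by omega,
    ⟨b1.mono (by omega), below_cl (by omega)⟩,
    ⟨b2.mono (by omega), below_cl (by omega)⟩⟩, fun S hS ho => ?_⟩
  have hi : ∀ d a b c e, rg S o s d a b c e i = S i := fun d a b c e => rg_i h1 h2
  have e0 := r0 (rg S o s [] [] [] [] []) (fun k hk => rg_ge1 h3 hS hk) (rg_0 h3)
  rw [hi, ud_0 h3] at e0
  have e1 := r1 (rg S o s [] (h (S i)) [] [] []) (fun k hk => rg_ge1 h3 hS hk) rg_o
  rw [hi, ud_o] at e1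
  have e2 := r2 (rg S o s [] (h (S i)) [] [] []) (fun k hk => rg_ge1 h3 hS hk) rg_o
  rw [hi, ud_o] at e2
  have e3 := runs_cl s (rg S o s (f (S i)) (h (S i)) [] [] [])
  rw [rg_0 h3, ud_0 h3, rg_out hS] at e3
  have e4 := runs_cl s (rg S o s (g (S i)) (h (S i)) [] [] [])
  rw [rg_0 h3, ud_0 h3, rg_out hS] at e4
  have hl := hlh (S i)
  by_cases hb : (h (S i)).headD false
  · have e5 := RunsIn.iteT (k := s) (test := isT) (q := (.seq (Q i o (s + 1)) (cl s)))
      (S := rg S o s [] (h (S i)) [] [] []) (by
        rw [rg_0 h3]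
        rcases hx : h (S i) with _ | ⟨x, l⟩
        · rw [hx] at hb; simp at hb
        · rw [hx] at hb; simp at hb; subst hb; rfl) (e1.seq e3)
    refine ((e0.seq e5).mono ?_).congr (rg_init hS ho) ?_
    · simp only [Polynomial.eval_add, Polynomial.eval_mul, Polynomial.eval_one,
        Polynomial.eval_ofNat]
      omega
    · simp only [hb, if_true]
  · have e5 := RunsIn.iteF (k := s) (test := isT) (p := (.seq (P i o (s + 1)) (cl s)))
      (S := rg S o s [] (h (S i)) [] [] []) (by
        rw [rg_0 h3]
        rcases hx : h (S i) with _ | ⟨x, l⟩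
        · rfl
        · rw [hx] at hb; simp at hb; subst hb; rfl) (e2.seq e4)
    refine ((e0.seq e5).mono ?_).congr (rg_init hS ho) ?_
    · simp only [Polynomial.eval_add, Polynomial.eval_mul, Polynomial.eval_one,
        Polynomial.eval_ofNat]
      omega
    · show update S o (g (S i)) =
        update S o (if (h (S i)).headD false then f (S i) else g (S i))
      rw [if_neg hb]

/-! ## Splitting a pair -/

/-- Read the doubled symbols of the stack `s` while the flag `s + 1` is set. -/
def scan (s : ℕ) : BProg :=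
  .loop (s + 1) Option.isSome
    (.ite s Option.isSome
      (.ite s isT
        (.seq (.pop s) (.ite s isT (.seq (.pop s) (.push (s + 2) true)) (.pop (s + 1))))
        (.seq (.pop s) (.ite s isF (.seq (.pop s) (.push (s + 2) false)) (.pop (s + 1)))))
      (.pop (s + 1)))

theorem below_scan {n s : ℕ} (h : s + 2 < n) : Below n (scan s) := by
  refine ⟨by omega, by omega, ⟨by omega, ⟨?_, ⟨by omega, ⟨?_, ?_⟩, ?_⟩⟩,
    ⟨?_, ⟨by omega, ⟨?_, ?_⟩, ?_⟩⟩⟩, ?_⟩ <;> · show _ < n; omega

theorem runs_scan {S : St} {o s : ℕ} (h3 : o < s) (d e : List Bool) :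
    ∀ x c : List Bool, ∃ r : List Bool, r.tail = sndL x ∧ r.length ≤ x.length ∧
      RunsIn (scan s) (rg S o s d x [true] c e) (rg S o s d r [] ((fstL x).reverse ++ c) e)
        (7 * x.length + 7)
  | [], c => by
    refine ⟨[], rfl, le_rfl, ?_⟩
    have e1 := rpop (s + 1) (rg S o s d [] [true] c e)
    rw [rg_1 h3, ud_1 h3] at e1
    have e2 : RunsIn (.ite s Option.isSome
      (.ite s isT
        (.seq (.pop s) (.ite s isT (.seq (.pop s) (.push (s + 2) true)) (.pop (s + 1))))
        (.seq (.pop s) (.ite s isF (.seq (.pop s) (.push (s + 2) false)) (.pop (s + 1)))))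
      (.pop (s + 1)) : BProg) _ _ _ := RunsIn.iteF (by rw [rg_0 h3]; rfl) e1
    obtain ⟨t, ht, hr⟩ := e2
    refine ⟨1 + t + 1, ?_, .loopT (by rw [rg_1 h3]; rfl) hr (.loopF (by rw [rg_1 h3]; rfl))⟩
    simp only [List.length_nil]
    omega
  | [b], c => by
    refine ⟨[], rfl, by simp, ?_⟩
    have e1 := rpop s (rg S o s d [b] [true] c e)
    rw [rg_0 h3, ud_0 h3] at e1
    have e2 := rpop (s + 1) (rg S o s d [] [true] c e)
    rw [rg_1 h3, ud_1 h3] at e2
    have e3 : RunsIn (.ite s Option.isSome
      (.ite s isT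
        (.seq (.pop s) (.ite s isT (.seq (.pop s) (.push (s + 2) true)) (.pop (s + 1))))
        (.seq (.pop s) (.ite s isF (.seq (.pop s) (.push (s + 2) false)) (.pop (s + 1)))))
      (.pop (s + 1)) : BProg) (rg S o s d [b] [true] c e) (rg S o s d [] [] c e)
        (1 + (1 + 1) + 1 + 1) := by
      refine RunsIn.iteT (by rw [rg_0 h3]; rfl) ?_
      cases b with
      | true =>
        refine RunsIn.iteT (by rw [rg_0 h3]; rfl) (e1.seq ?_)
        exact RunsIn.iteF (by rw [List.tail_cons, rg_0 h3]; rfl) e2
      | false =>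
        refine RunsIn.iteF (by rw [rg_0 h3]; rfl) (e1.seq ?_)
        exact RunsIn.iteF (by rw [List.tail_cons, rg_0 h3]; rfl) e2
    obtain ⟨t, ht, hr⟩ := e3
    refine ⟨1 + t + 1, ?_, .loopT (by rw [rg_1 h3]; rfl) hr (.loopF (by rw [rg_1 h3]; rfl))⟩
    simp only [List.length_cons]
    omega
  | b :: b' :: l, c => by
    have e1 := rpop s (rg S o s d (b :: b' :: l) [true] c e)
    rw [rg_0 h3, ud_0 h3, List.tail_cons] at e1
    by_cases hb : b = b'
    · subst hb
      obtain ⟨r, hr1, hr2, t', ht', hr3⟩ := runs_scan h3 d e l (b :: c)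
      refine ⟨r, ?_, ?_, ?_⟩
      · rw [hr1, sndL, if_pos rfl]
      · simp only [List.length_cons]
        omega
      · have e2 := rpop s (rg S o s d (b :: l) [true] c e)
        rw [rg_0 h3, ud_0 h3, List.tail_cons] at e2
        have e3 := rpush (s + 2) b (rg S o s d l [true] c e)
        rw [rg_2 h3, ud_2 h3] at e3
        have e4 : RunsIn (.ite s Option.isSome
          (.ite s isT
            (.seq (.pop s) (.ite s isT (.seq (.pop s) (.push (s + 2) true)) (.pop (s + 1))))
            (.seq (.pop s) (.ite s isF (.seq (.pop s) (.push (s + 2) false)) (.pop (s + 1)))))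
          (.pop (s + 1)) : BProg) (rg S o s d (b :: b :: l) [true] c e)
            (rg S o s d l [true] (b :: c) e) (1 + (1 + 1 + 1) + 1 + 1) := by
          refine RunsIn.iteT (by rw [rg_0 h3]; rfl) ?_
          cases b with
          | true =>
            refine RunsIn.iteT (by rw [rg_0 h3]; rfl) (e1.seq ?_)
            exact RunsIn.iteT (by rw [rg_0 h3]; rfl) (e2.seq e3)
          | false =>
            refine RunsIn.iteF (by rw [rg_0 h3]; rfl) (e1.seq ?_)
            exact RunsIn.iteT (by rw [rg_0 h3]; rfl) (e2.seq e3)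
        obtain ⟨t, ht, hr⟩ := e4
        have hfin : RunsIn (scan s) (rg S o s d (b :: b :: l) [true] c e)
            (rg S o s d r [] ((fstL l).reverse ++ b :: c) e) (7 * (b :: b :: l).length + 7) := by
          refine ⟨1 + t + t', ?_, .loopT (by rw [rg_1 h3]; rfl) hr hr3⟩
          simp only [List.length_cons]
          omega
        refine hfin.congr rfl ?_
        rw [fstL, if_pos rfl]
        simp
    · refine ⟨b' :: l, ?_, by simp, ?_⟩
      · rw [sndL, if_neg hb, List.tail_cons]
      · have e2 := rpop (s + 1) (rg S o s d (b' :: l) [true] c e)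
        rw [rg_1 h3, ud_1 h3] at e2
        have e4 : RunsIn (.ite s Option.isSome
          (.ite s isT
            (.seq (.pop s) (.ite s isT (.seq (.pop s) (.push (s + 2) true)) (.pop (s + 1))))
            (.seq (.pop s) (.ite s isF (.seq (.pop s) (.push (s + 2) false)) (.pop (s + 1)))))
          (.pop (s + 1)) : BProg) (rg S o s d (b :: b' :: l) [true] c e)
            (rg S o s d (b' :: l) [] c e) (1 + (1 + 1) + 1 + 1) := by
          refine RunsIn.iteT (by rw [rg_0 h3]; rfl) ?_
          cases b with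
          | true =>
            have hb' : b' = false := by cases b' <;> simp_all
            subst hb'
            refine RunsIn.iteT (by rw [rg_0 h3]; rfl) (e1.seq ?_)
            exact RunsIn.iteF (by rw [rg_0 h3]; rfl) e2
          | false =>
            have hb' : b' = true := by cases b' <;> simp_all
            subst hb'
            refine RunsIn.iteF (by rw [rg_0 h3]; rfl) (e1.seq ?_)
            exact RunsIn.iteF (by rw [rg_0 h3]; rfl) e2
        obtain ⟨t, ht, hr⟩ := e4
        have hfin : RunsIn (scan s) (rg S o s d (b :: b' :: l) [true] c e)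
            (rg S o s d (b' :: l) [] c e) (7 * (b :: b' :: l).length + 7) := by
          refine ⟨1 + t + 1, ?_, .loopT (by rw [rg_1 h3]; rfl) hr (.loopF (by rw [rg_1 h3]; rfl))⟩
          simp only [List.length_cons]
          omega
        refine hfin.congr rfl ?_
        rw [fstL, if_neg hb]
        simp

theorem Comp.fstL : Comp Vale.Agent.P337.fstL := by
  refine ⟨fun i o s => .seq (cp i s (s + 1)) (.seq (.push (s + 1) true) (.seq (scan s)
    (.seq (cl s) (mv (s + 2) o)))), 3,
    (9 * Polynomial.X + 2) + (1 + ((7 * Polynomial.X + 7) + ((4 * Polynomial.X + 1) +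
      (4 * Polynomial.X + 1)))), fun i o s h1 h2 h3 => ?_⟩
  refine ⟨⟨below_cp (by omega) (by omega) (by omega), show s + 1 < _ by omega,
    below_scan (by omega), below_cl (by omega), below_mv (by omega) (by omega)⟩,
    fun S hS ho => ?_⟩
  have hi : ∀ d a b c e, rg S o s d a b c e i = S i := fun d a b c e => rg_i h1 h2
  have e1 := runs_cp (show s + 1 ≠ i by omega) (show s + 1 ≠ s by omega) (show i ≠ s by omega)
    (rg S o s [] [] [] [] []) (rg_1 h3)
  rw [hi, rg_0 h3, ud_0 h3, List.append_nil] at e1
  have e2 := rpush (s + 1) true (rg S o s [] (S i) [] [] [])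
  rw [rg_1 h3, ud_1 h3] at e2
  obtain ⟨r, hr1, hr2, e3⟩ := runs_scan (S := S) h3 [] [] (S i) []
  have e4 := runs_cl s (rg S o s [] r [] ((Vale.Agent.P337.fstL (S i)).reverse ++ []) [])
  rw [rg_0 h3, ud_0 h3] at e4
  have e5 := runs_mv (show s + 2 ≠ o by omega)
    (rg S o s [] [] [] ((Vale.Agent.P337.fstL (S i)).reverse ++ []) [])
  rw [rg_2 h3, rg_o, ud_2 h3, ud_o] at e5
  have hl := length_fstL_le (S i)
  refine ((e1.seq (e2.seq (e3.seq (e4.seq e5)))).mono ?_).congr (rg_init hS ho) ?_
  · simp only [Polynomial.eval_add, Polynomial.eval_mul, Polynomial.eval_one,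
      Polynomial.eval_ofNat, Polynomial.eval_X, List.length_append, List.length_reverse,
      List.length_nil]
    omega
  · rw [rg_out hS]
    simp

theorem Comp.sndL : Comp Vale.Agent.P337.sndL := by
  refine ⟨fun i o s => .seq (cp i s (s + 1)) (.seq (.push (s + 1) true) (.seq (scan s)
    (.seq (.pop s) (.seq (cl (s + 2)) (.seq (mv s (s + 1)) (mv (s + 1) o)))))), 3,
    (9 * Polynomial.X + 2) + (1 + ((7 * Polynomial.X + 7) + (1 + ((4 * Polynomial.X + 1) +
      ((4 * Polynomial.X + 1) + (4 * Polynomial.X + 1)))))), fun i o s h1 h2 h3 => ?_⟩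
  refine ⟨⟨below_cp (by omega) (by omega) (by omega), show s + 1 < _ by omega,
    below_scan (by omega), show s < _ by omega, below_cl (by omega),
    below_mv (by omega) (by omega), below_mv (by omega) (by omega)⟩, fun S hS ho => ?_⟩
  have hi : ∀ d a b c e, rg S o s d a b c e i = S i := fun d a b c e => rg_i h1 h2
  have e1 := runs_cp (show s + 1 ≠ i by omega) (show s + 1 ≠ s by omega) (show i ≠ s by omega)
    (rg S o s [] [] [] [] []) (rg_1 h3)
  rw [hi, rg_0 h3, ud_0 h3, List.append_nil] at e1
  have e2 := rpush (s + 1) true (rg S o s [] (S i) [] [] [])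
  rw [rg_1 h3, ud_1 h3] at e2
  obtain ⟨r, hr1, hr2, e3⟩ := runs_scan (S := S) h3 [] [] (S i) []
  have e4 := rpop s (rg S o s [] r [] ((Vale.Agent.P337.fstL (S i)).reverse ++ []) [])
  rw [rg_0 h3, ud_0 h3, hr1] at e4
  have e5 := runs_cl (s + 2) (rg S o s [] (Vale.Agent.P337.sndL (S i)) []
    ((Vale.Agent.P337.fstL (S i)).reverse ++ []) [])
  rw [rg_2 h3, ud_2 h3] at e5
  have e6 := runs_mv (show s ≠ s + 1 by omega)
    (rg S o s [] (Vale.Agent.P337.sndL (S i)) [] [] [])
  rw [rg_0 h3, rg_1 h3, ud_0 h3, ud_1 h3] at e6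
  have e7 := runs_mv (show s + 1 ≠ o by omega)
    (rg S o s [] [] ((Vale.Agent.P337.sndL (S i)).reverse ++ []) [] [])
  rw [rg_1 h3, rg_o, ud_1 h3, ud_o] at e7
  have hl := length_fstL_le (S i)
  have hl' := length_sndL_le (S i)
  refine ((e1.seq (e2.seq (e3.seq (e4.seq (e5.seq (e6.seq e7)))))).mono ?_).congr
    (rg_init hS ho) ?_
  · simp only [Polynomial.eval_add, Polynomial.eval_mul, Polynomial.eval_one,
      Polynomial.eval_ofNat, Polynomial.eval_X, List.length_append, List.length_reverse,
      List.length_nil]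
    omega
  · rw [rg_out hS]
    simp

/-! ## Iteration -/

theorem runs_iter {S : St} {o s : ℕ} (h3 : o < s) (hS : ∀ k, s ≤ k → S k = []) (R : BProg)
    {T : Polynomial ℕ}
    (hR : ∀ S : St, (∀ k, s + 3 ≤ k → S k = []) → S (s + 2) = [] →
      RunsIn R S (update S (s + 2) (f (S (s + 1)))) (T.eval (S (s + 1)).length)) (Bd : ℕ) :
    ∀ (m y : List Bool), (∀ i, i ≤ m.length → (f^[i] y).length ≤ Bd) →
      RunsIn (.loop s Option.isSome (.seq (.pop s) (.seq R (.seq (cl (s + 1))
        (.seq (mv (s + 2) (s + 3)) (mv (s + 3) (s + 1)))))))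
        (rg S o s [] m y [] []) (rg S o s [] [] (f^[m.length] y) [] [])
        (m.length * (T.eval Bd + 12 * Bd + 5) + 1)
  | [], y, _ => ⟨1, by simp, .loopF (by rw [rg_0 h3]; rfl)⟩
  | z :: m, y, hy => by
    have ih := runs_iter h3 hS R hR Bd m (f y) (fun i hi => by
      have := hy (i + 1) (by simp only [List.length_cons]; omega)
      rwa [Function.iterate_succ_apply] at this)
    have e1 := rpop s (rg S o s [] (z :: m) y [] [])
    rw [rg_0 h3, ud_0 h3, List.tail_cons] at e1
    have e2 := hR (rg S o s [] m y [] []) (fun k hk => rg_ge3 h3 hS hk) (rg_2 h3)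
    rw [rg_1 h3, ud_2 h3] at e2
    have e3 := runs_cl (s + 1) (rg S o s [] m y (f y) [])
    rw [rg_1 h3, ud_1 h3] at e3
    have e4 := runs_mv (show s + 2 ≠ s + 3 by omega) (rg S o s [] m [] (f y) [])
    rw [rg_2 h3, rg_3 h3, ud_2 h3, ud_3 h3] at e4
    have e5 := runs_mv (show s + 3 ≠ s + 1 by omega)
      (rg S o s [] m [] [] ((f y).reverse ++ []))
    rw [rg_3 h3, rg_1 h3, ud_3 h3, ud_1 h3] at e5
    obtain ⟨t, ht, hr⟩ := e1.seq (e2.seq (e3.seq (e4.seq e5)))
    obtain ⟨t', ht', hr'⟩ := ih
    have hy0 := hy 0 (Nat.zero_le _)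
    have hy1 := hy 1 (by simp)
    simp only [Function.iterate_zero, id_eq, Function.iterate_one] at hy0 hy1
    have hT := poly_mono T hy0
    have heq : ((f y).reverse ++ []).reverse ++ [] = f y := by simp
    rw [heq] at hr
    rw [List.length_cons, Function.iterate_succ_apply]
    refine ⟨1 + t + t', ?_, .loopT (by rw [rg_0 h3]; rfl) hr hr'⟩
    simp only [List.length_append, List.length_reverse, List.length_nil] at ht
    rw [Nat.add_mul, Nat.one_mul]
    omega

theorem Comp.iter (hf : Comp f) (hh : Comp h) (hg : Comp g) (q : Polynomial ℕ)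
    (hq : ∀ x i, i ≤ (h x).length → (f^[i] (g x)).length ≤ q.eval x.length) :
    Comp fun x => f^[(h x).length] (g x) := by
  obtain ⟨R, w'', T'', hR⟩ := hf
  obtain ⟨P, w, T, hP⟩ := hh
  obtain ⟨Q, w', T', hQ⟩ := hg
  have hlh := Spec.len hP
  refine ⟨fun i o s => .seq (P i s (s + 2)) (.seq (Q i (s + 1) (s + 2)) (.seq
    (.loop s Option.isSome (.seq (.pop s) (.seq (R (s + 1) (s + 2) (s + 3)) (.seq (cl (s + 1))
        (.seq (mv (s + 2) (s + 3)) (mv (s + 3) (s + 1)))))))
    (.seq (mv (s + 1) (s + 2)) (mv (s + 2) o)))), w + w' + w'' + 4,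
    T + (T' + ((T * (T''.comp q + 12 * q + 5) + 1) + ((4 * q + 1) + (4 * q + 1)))),
    fun i o s h1 h2 h3 => ?_⟩
  obtain ⟨b0, r0⟩ := hR (s + 1) (s + 2) (s + 3) (by omega) (by omega) (by omega)
  obtain ⟨b1, r1⟩ := hP i s (s + 2) (by omega) (by omega) (by omega)
  obtain ⟨b2, r2⟩ := hQ i (s + 1) (s + 2) (by omega) (by omega) (by omega)
  refine ⟨⟨b1.mono (by omega), b2.mono (by omega), ⟨show s < _ by omega, show s < _ by omega,
    b0.mono (by omega), below_cl (by omega), below_mv (by omega) (by omega),
    below_mv (by omega) (by omega)⟩, below_mv (by omega) (by omega),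
    below_mv (by omega) (by omega)⟩, fun S hS ho => ?_⟩
  have hi : ∀ d a b c e, rg S o s d a b c e i = S i := fun d a b c e => rg_i h1 h2
  have e1 := r1 (rg S o s [] [] [] [] []) (fun k hk => rg_ge2 h3 hS hk) (rg_0 h3)
  rw [hi, ud_0 h3] at e1
  have e2 := r2 (rg S o s [] (h (S i)) [] [] []) (fun k hk => rg_ge2 h3 hS hk) (rg_1 h3)
  rw [hi, ud_1 h3] at e2
  have e3 := runs_iter h3 hS (R (s + 1) (s + 2) (s + 3)) r0 (q.eval (S i).length) (h (S i))
    (g (S i)) (hq (S i))
  have e4 := runs_mv (show s + 1 ≠ s + 2 by omega)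
    (rg S o s [] [] (f^[(h (S i)).length] (g (S i))) [] [])
  rw [rg_1 h3, rg_2 h3, ud_1 h3, ud_2 h3] at e4
  have e5 := runs_mv (show s + 2 ≠ o by omega)
    (rg S o s [] [] [] ((f^[(h (S i)).length] (g (S i))).reverse ++ []) [])
  rw [rg_2 h3, rg_o, ud_2 h3, ud_o] at e5
  refine ((e1.seq (e2.seq (e3.seq (e4.seq e5)))).mono ?_).congr (rg_init hS ho) ?_
  · have hb := hq (S i) _ le_rfl
    have hm := Nat.mul_le_mul_right (T''.eval (q.eval (S i).length) + 12 * q.eval (S i).length + 5)
      (hlh (S i))
    simp only [Polynomial.eval_add, Polynomial.eval_mul, Polynomial.eval_one,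
      Polynomial.eval_ofNat, Polynomial.eval_comp, List.length_append, List.length_reverse,
      List.length_nil]
    omega
  · rw [rg_out hS]
    simp

/-! ## All functions of `PT` -/

theorem PT.toComp (hf : PT f) : Comp f := by
  induction hf with
  | id => exact Comp.id
  | comp _ _ ihf ihg => exact ihf.comp ihg
  | pair _ _ ihf ihg => exact ihf.pair ihg
  | fstL => exact Comp.fstL
  | sndL => exact Comp.sndL
  | nil => exact Comp.nil
  | consL b => exact Comp.cons b
  | tailL => exact Comp.tail
  | isNil => exact Comp.isNil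
  | iteL _ _ _ ihc ihf ihg => exact ihc.ite ihf ihg
  | iterL _ _ _ q hq ihs ihl ihg => exact ihs.iter ihl ihg q hq

open Classical in
theorem PTB.inP {L : Set (List Bool)} (h : PTB fun x => decide (x ∈ L)) : InP L := by
  obtain ⟨P, w, T, hP⟩ := PT.toComp h
  obtain ⟨hb, hr⟩ := hP 0 1 2 (by omega) (by omega) (by omega)
  refine inP_of_comp w (P 0 1 2) (hb.mono (by omega)) T (fun x => decide (x ∈ L))
    (fun x => by simp) (fun S hS => ?_)
  exact hr S (fun k hk => hS k (by omega)) (hS 1 (by omega))

end Vale.Agent.P337
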