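import Vale.Agent.P337.Alg
import Vale.Agent.P337.CoefMod

/-!
# P337, T5a: coefficient extraction mod p for `tau` and first derivatives
-/

namespace Vale.Agent.P337

open MvPolynomial

section T5
variable {p : ℕ} [Fact p.Prime] {N : ℕ}

/-- [T5a] -/
theorem coeff_extract (Q : MvPolynomial (Fin N) (ZMod p)) (a : Fin N →₀ ℕ)
    (hQ : Q.totalDegree < p - 1) (ha : ∀ i, a i < p - 1) :
    coeff a Q = (-1) ^ N * ∑ x : Fin N → (ZMod p)ˣ,
      eval (fun i => (x i : ZMod p)) Q * ∏ i, (((x i)⁻¹ : (ZMod p)ˣ) : ZMod p) ^ a i := by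
  have h := mvcoeff_eq_sum Q a
    (fun i => lt_of_le_of_lt (MvPolynomial.degreeOf_le_totalDegree Q i) hQ) ha
  rw [Fintype.card_fin] at h
  rw [h]
  simp only [Units.val_inv_eq_inv_val]

/-- [T5b] `τ` mod `p` -/
theorem tau_modp {m E : ℕ} (hm : 0 < m) {f : Fin N → MvPolynomial (Fin N) (ZMod p)}
    (hf : ∀ i, (f i).totalDegree < m) (g : MvPolynomial (Fin N) (ZMod p))
    (hE : g.totalDegree ≤ E) (hp : m * N * (E + 2) + E + 2 < p) :
    tau m E f g = (-1) ^ N * ∑ x : Fin N → (ZMod p)ˣ,
      eval (fun i => (x i : ZMod p)) g *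
        ∏ i, ((((x i)⁻¹ : (ZMod p)ˣ) : ZMod p) ^ (m - 1) *
          ∑ k ∈ Finset.range (E + 1), (eval (fun i => (x i : ZMod p)) (f i) *
            (((x i)⁻¹ : (ZMod p)ˣ) : ZMod p) ^ m) ^ k) := by
  have hterm : ∀ k ∈ Fintype.piFinset (fun _ : Fin N => Finset.range (E + 1)),
      coeff (topExp m k) (g * ∏ i, f i ^ k i)
        = (-1) ^ N * ∑ x : Fin N → (ZMod p)ˣ, eval (fun i => (x i : ZMod p)) g *
          ∏ i, ((((x i)⁻¹ : (ZMod p)ˣ) : ZMod p) ^ (m - 1) *
            (eval (fun i => (x i : ZMod p)) (f i) *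
            (((x i)⁻¹ : (ZMod p)ˣ) : ZMod p) ^ m) ^ k i) := by
    intro k hk
    have hk' : ∀ i, k i ≤ E := fun i => by
      have := Fintype.mem_piFinset.1 hk i
      have := Finset.mem_range.1 this
      omega
    have hdeg : (g * ∏ i, f i ^ k i).totalDegree ≤ E + N * (E * m) := by
      refine (totalDegree_mul _ _).trans (Nat.add_le_add hE ?_)
      refine (totalDegree_finsetProd _ _).trans ?_
      calc ∑ i, (f i ^ k i).totalDegree ≤ ∑ _i : Fin N, E * m := by
            refine Finset.sum_le_sum fun i _ => ?_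
            exact (totalDegree_pow _ _).trans (Nat.mul_le_mul (hk' i) (hf i).le)
        _ = N * (E * m) := by simp
    have h1 : (g * ∏ i, f i ^ k i).totalDegree < p - 1 := by
      have : N * (E * m) ≤ m * N * (E + 2) := by nlinarith [Nat.zero_le (m * N)]
      omega
    have h2 : ∀ i, (topExp m k) i < p - 1 := by
      intro i
      have hN : 0 < N := i.pos
      have e1 : (topExp m k) i = m * (k i + 1) - 1 := rfl
      have e2 : m * (k i + 1) ≤ m * (E + 2) := Nat.mul_le_mul_left _ (by have := hk' i; omega)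
      have e3 : m * (E + 2) ≤ m * N * (E + 2) :=
        Nat.mul_le_mul_right _ (Nat.le_mul_of_pos_right _ hN)
      omega
    rw [coeff_extract _ _ h1 h2]
    congr 1
    refine Finset.sum_congr rfl fun x _ => ?_
    rw [map_mul, map_prod, mul_assoc, ← Finset.prod_mul_distrib]
    congr 1
    refine Finset.prod_congr rfl fun i _ => ?_
    have e1 : (topExp m k) i = (m - 1) + m * k i := by
      have : (topExp m k) i = m * (k i + 1) - 1 := rfl
      rw [this, Nat.mul_add, Nat.mul_one]
      omega
    rw [e1, map_pow, mul_pow, pow_add, pow_mul]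
    ring
  unfold tau
  rw [Finset.sum_congr rfl hterm, ← Finset.mul_sum]
  congr 1
  rw [Finset.sum_comm]
  refine Finset.sum_congr rfl fun x _ => ?_
  rw [← Finset.mul_sum]
  congr 1
  rw [← Finset.prod_univ_sum (fun _ : Fin N => Finset.range (E + 1))
    (fun i k => ((((x i)⁻¹ : (ZMod p)ˣ) : ZMod p) ^ (m - 1) *
            (eval (fun i => (x i : ZMod p)) (f i) *
            (((x i)⁻¹ : (ZMod p)ˣ) : ZMod p) ^ m) ^ k))]
  refine Finset.prod_congr rfl fun i _ => ?_
  rw [Finset.mul_sum]

/-- The line through `x` in direction `e_i`, as a polynomial. -/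
noncomputable def lineMap (i : Fin N) (x : Fin N → ZMod p) (j : Fin N) : Polynomial (ZMod p) :=
  Polynomial.C (x j) + if j = i then Polynomial.X else 0

theorem lineMap_derivative (i : Fin N) (x : Fin N → ZMod p) (Q : MvPolynomial (Fin N) (ZMod p)) :
    Polynomial.derivative (aeval (lineMap i x) Q) = aeval (lineMap i x) (pderiv i Q) := by
  induction Q using MvPolynomial.induction_on with
  | C a => simp [MvPolynomial.algHom_C]
  | add P Q hP hQ => simp only [map_add, hP, hQ]
  | mul_X P j hP =>
    rw [map_mul, Polynomial.derivative_mul, hP, aeval_X, Derivation.leibniz, map_add, smul_eq_mul,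
      smul_eq_mul, map_mul, map_mul, aeval_X, pderiv_X]
    have : Polynomial.derivative (lineMap i x j)
        = aeval (lineMap i x) (Pi.single (M := fun _ => MvPolynomial (Fin N) (ZMod p)) i 1 j) := by
      unfold lineMap
      rcases eq_or_ne j i with rfl | h
      · simp
      · simp [h]
    rw [this]
    ring

theorem lineMap_eval (i : Fin N) (x : Fin N → ZMod p) (Q : MvPolynomial (Fin N) (ZMod p))
    (u : ZMod p) :
    Polynomial.eval u (aeval (lineMap i x) Q) = eval (Function.update x i (x i + u)) Q := by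
  induction Q using MvPolynomial.induction_on with
  | C a => simp [MvPolynomial.algHom_C]
  | add P Q hP hQ => simp only [map_add, Polynomial.eval_add, hP, hQ]
  | mul_X P j hP =>
    rw [map_mul, Polynomial.eval_mul, hP, aeval_X, map_mul, eval_X]
    congr 1
    unfold lineMap
    rcases eq_or_ne j i with rfl | h
    · simp
    · simp [h]

/-- [T5c] first derivatives mod `p` -/
theorem pderiv_modp (h2 : 2 < p) (Q : MvPolynomial (Fin N) (ZMod p)) (hQ : Q.totalDegree < p - 1)
    (i : Fin N)
    (x : Fin N → ZMod p) :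
    eval x (pderiv i Q) = -∑ u : (ZMod p)ˣ,
      eval (Function.update x i (x i + u)) Q * ((u⁻¹ : (ZMod p)ˣ) : ZMod p) := by
  have hdeg : (aeval (lineMap i x) Q).natDegree < p - 1 := by
    refine lt_of_le_of_lt (MvPolynomial.aeval_natDegree_le Q le_rfl (lineMap i x) (n := 1) ?_)
      (by simpa using hQ)
    intro j
    unfold lineMap
    refine (Polynomial.natDegree_add_le _ _).trans ?_
    split_ifs <;> simp
  have h := coeff_eq_neg_sum (aeval (lineMap i x) Q) 1 hdeg (by omega)
  have h3 : (aeval (lineMap i x) Q).coeff 1 = eval x (pderiv i Q) := by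
    have h4 := congrArg (Polynomial.eval 0) (lineMap_derivative i x Q)
    rw [lineMap_eval] at h4
    have h5 : Function.update x i (x i + 0) = x := by simp
    rw [h5] at h4
    rw [← h4, ← Polynomial.coeff_zero_eq_eval_zero, Polynomial.coeff_derivative]
    simp
  rw [← h3, h]
  congr 1
  refine Finset.sum_congr rfl fun u _ => ?_
  rw [lineMap_eval, pow_one, Units.val_inv_eq_inv_val]

end T5

end Vale.Agent.P337
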