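import Vale.Agent.P337.StubFZ
import Vale.Agent.P337.StubPts

/-!
# P337, layer S: polynomials computed pointwise
-/

namespace Vale.Agent.P337

open MvPolynomial

section
variable {α β : Type} [Code α] [Code β] {dom : α → Prop} {p N : α → ℕ}

theorem PE.congr {g g' : ∀ a, MvPolynomial (Fin (N a)) (ZMod (p a))}
    (h : ∀ a, dom a → g a = g' a) (hg : PE dom p N g) : PE dom p N g' :=
  FZ.congr (fun y hy => by rw [h y.1 hy]) hg

theorem PE.mono {dom' : α → Prop} {g : ∀ a, MvPolynomial (Fin (N a)) (ZMod (p a))}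
    (h : ∀ a, dom' a → dom a) (hg : PE dom p N g) : PE dom' p N g :=
  FZ.mono (fun y hy => h y.1 hy) hg

theorem PE.C {v : ∀ a, ZMod (p a)} (hv : FZ dom p v) :
    PE dom p N fun a => C (v a) :=
  FZ.congr (fun y _ => by rw [eval_C]) (hv.comp (PTime.fst (α := α) (β := ℕ)))

theorem PE.X (hΓ : LCtx dom p N) {i : ∀ a, Fin (N a)}
    (hi : FCH fun a => (i a : ℕ)) :
    PE dom p N fun a => X (i a) := by
  have h1 : FCH fun y : α × ℕ => dig (p y.1) y.2 (i y.1 : ℕ) :=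
    FCH_dig (FCH_comp hΓ.fch_p PTime.fst) FCH.snd (FCH_comp hi PTime.fst)
  exact FZ.congr (fun y _ => by rw [eval_X]; rfl) (FZ.natCast h1)

theorem PE.add {g h : ∀ a, MvPolynomial (Fin (N a)) (ZMod (p a))} (hg : PE dom p N g)
    (hh : PE dom p N h) : PE dom p N fun a => g a + h a :=
  FZ.congr (fun y _ => by rw [map_add]) (FZ.add hg hh)

theorem PE.mul {g h : ∀ a, MvPolynomial (Fin (N a)) (ZMod (p a))} (hg : PE dom p N g)
    (hh : PE dom p N h) : PE dom p N fun a => g a * h a :=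
  FZ.congr (fun y _ => by rw [map_mul]) (FZ.mul hg hh)

theorem PE.neg (hΓ : LCtx dom p N) {g : ∀ a, MvPolynomial (Fin (N a)) (ZMod (p a))}
    (hg : PE dom p N g) : PE dom p N fun a => -g a :=
  FZ.congr (fun y _ => by rw [map_neg]) (FZ.neg hΓ.fst hg)

theorem PE.sub (hΓ : LCtx dom p N) {g h : ∀ a, MvPolynomial (Fin (N a)) (ZMod (p a))}
    (hg : PE dom p N g) (hh : PE dom p N h) : PE dom p N fun a => g a - h a :=
  FZ.congr (fun y _ => by rw [map_sub]) (FZ.sub hΓ.fst hg hh)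

theorem PE.pow (hΓ : LCtx dom p N) {g : ∀ a, MvPolynomial (Fin (N a)) (ZMod (p a))}
    (hg : PE dom p N g) {e : α → ℕ} (he : FCH e) : PE dom p N fun a => g a ^ e a :=
  FZ.congr (fun y _ => by rw [map_pow]) (FZ.pow hΓ.fst hg (FCH_comp he PTime.fst))

theorem PE.ite {c : α → Prop} [DecidablePred c] (hc : CHP c)
    {g h : ∀ a, MvPolynomial (Fin (N a)) (ZMod (p a))}
    (hg : PE dom p N g) (hh : PE dom p N h) : PE dom p N fun a => if c a then g a else h a :=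
  FZ.congr (fun y _ => by beta_reduce; split_ifs <;> rfl)
    (FZ.ite (c := fun y : α × ℕ => c y.1) (c' := fun y : α × ℕ => c y.1)
      (hc.comp PTime.fst) (fun _ _ => Iff.rfl) hg hh)

theorem PE.comp {f : β → α} (hf : PTime f) {g : ∀ a, MvPolynomial (Fin (N a)) (ZMod (p a))}
    (hg : PE dom p N g) :
    PE (fun b => dom (f b)) (fun b => p (f b)) (fun b => N (f b)) (fun b => g (f b)) :=
  FZ.comp (f := fun y : β × ℕ => (f y.1, y.2)) ((hf.comp PTime.fst).pair PTime.snd) hg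

/-- exchanging the last two variables of a context -/
theorem PTime.swapLast : PTime fun z : (α × ℕ) × ℕ => ((z.1.1, z.2), z.1.2) :=
  ((PTime.fst.comp PTime.fst).pair PTime.snd).pair (PTime.snd.comp PTime.fst)

theorem PE.subst {D : α × ℕ → Prop} {g : ∀ y : α × ℕ, MvPolynomial (Fin (N y.1)) (ZMod (p y.1))}
    (hg : PE D (fun y => p y.1) (fun y => N y.1) g) {f : α → ℕ} (hf : FCH f)
    (h : ∀ a, dom a → D (a, f a)) : PE dom p N fun a => g (a, f a) := by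
  have h1 : FZ (fun z : (α × ℕ) × ℕ => D (z.1.1, z.2)) (fun z => p z.1.1)
      (fun z => eval (pt (N z.1.1) (p z.1.1) z.1.2) (g (z.1.1, z.2))) :=
    FZ.comp (f := fun z : (α × ℕ) × ℕ => ((z.1.1, z.2), z.1.2)) PTime.swapLast hg
  exact FZ.subst (p := fun y : α × ℕ => p y.1) h1
    (FCH_comp hf (PTime.fst (α := α) (β := ℕ))) (fun y hy => h y.1 hy)

theorem PE.sum {b : α → ℕ} (hb : FCH b)
    {g : ∀ y : α × ℕ, MvPolynomial (Fin (N y.1)) (ZMod (p y.1))}
    (hg : PE (fun y : α × ℕ => dom y.1 ∧ y.2 < b y.1) (fun y => p y.1) (fun y => N y.1) g) :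
    PE dom p N fun a => ∑ i ∈ Finset.range (b a), g (a, i) := by
  have h1 : FZ (fun z : (α × ℕ) × ℕ => dom z.1.1 ∧ z.2 < b z.1.1) (fun z => p z.1.1)
      (fun z => eval (pt (N z.1.1) (p z.1.1) z.1.2) (g (z.1.1, z.2))) :=
    FZ.comp (f := fun z : (α × ℕ) × ℕ => ((z.1.1, z.2), z.1.2)) PTime.swapLast hg
  exact FZ.congr (fun y _ => by rw [map_sum])
    (FZ.sum (dom := fun y : α × ℕ => dom y.1) (p := fun y : α × ℕ => p y.1)
      (FCH_comp hb PTime.fst) h1)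

theorem PE.prod (hΓ : LCtx dom p N) {b : α → ℕ} (hb : FCH b)
    {g : ∀ y : α × ℕ, MvPolynomial (Fin (N y.1)) (ZMod (p y.1))}
    (hg : PE (fun y : α × ℕ => dom y.1 ∧ y.2 < b y.1) (fun y => p y.1) (fun y => N y.1) g) :
    PE dom p N fun a => ∏ i ∈ Finset.range (b a), g (a, i) := by
  have h1 : FZ (fun z : (α × ℕ) × ℕ => dom z.1.1 ∧ z.2 < b z.1.1) (fun z => p z.1.1)
      (fun z => eval (pt (N z.1.1) (p z.1.1) z.1.2) (g (z.1.1, z.2))) :=
    FZ.comp (f := fun z : (α × ℕ) × ℕ => ((z.1.1, z.2), z.1.2)) PTime.swapLast hg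
  exact FZ.congr (fun y _ => by rw [map_prod])
    (FZ.prod (dom := fun y : α × ℕ => dom y.1) (p := fun y : α × ℕ => p y.1) hΓ.fst
      (FCH_comp hb PTime.fst) h1)

/-- evaluation at a point given by its code -/
theorem PE.evalAt {g : ∀ a, MvPolynomial (Fin (N a)) (ZMod (p a))} (hg : PE dom p N g)
    {n : α → ℕ} (hn : FCH n) : FZ dom p fun a => eval (pt (N a) (p a) (n a)) (g a) :=
  FZ.subst (D := fun y : α × ℕ => dom y.1)
    (v := fun y => eval (pt (N y.1) (p y.1) y.2) (g y.1)) hg hn (fun _ h => h)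

/-- coordinates of a point -/
theorem FZ.coord (hΓ : LCtx dom p N) {n : α → ℕ} (hn : FCH n) {i : ∀ a, Fin (N a)}
    (hi : FCH fun a => (i a : ℕ)) : FZ dom p fun a => pt (N a) (p a) (n a) (i a) :=
  FZ.natCast (FCH_dig hΓ.fch_p hn hi)

/-- evaluation at a changed point (uses `pt_update`) -/
theorem PE.evalUpdate (hΓ : LCtx dom p N)
    {g : ∀ a, MvPolynomial (Fin (N a)) (ZMod (p a))} (hg : PE dom p N g)
    {n : α → ℕ} (hn : FCH n) {i : ∀ a, Fin (N a)} (hi : FCH fun a => (i a : ℕ))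
    {c : ∀ a, ZMod (p a)} (hc : FZ dom p c) :
    FZ dom p fun a => eval (Function.update (pt (N a) (p a) (n a)) (i a) (c a)) (g a) := by
  obtain ⟨gc, hgc, hgc'⟩ := hc.val hΓ
  have hpow : FCH fun a => p a ^ (i a : ℕ) := by
    refine FCH_pow hΓ.fch_p hi ?_
    obtain ⟨r, hr⟩ := hΓ.small
    exact ⟨r, fun a => (i a).isLt.le.trans (hr a)⟩
  have hcode : FCH fun a => n a - dig (p a) (n a) (i a) * p a ^ (i a : ℕ) +
      gc a * p a ^ (i a : ℕ) :=
    FCH.add (FCH.sub hn (FCH.mul (FCH_dig hΓ.fch_p hn hi) hpow)) (FCH.mul hgc hpow)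
  refine FZ.congr (fun a ha => ?_) (hg.evalAt hcode)
  have : Fact (p a).Prime := ⟨hΓ.prime a ha⟩
  rw [hgc' a ha, pt_update]

/-- [S3] derivatives (uses `pderiv_formula`) -/
theorem PE.pderiv (hΓ : LCtx dom p N)
    {g : ∀ a, MvPolynomial (Fin (N a)) (ZMod (p a))} (hg : PE dom p N g)
    {i : ∀ a, Fin (N a)} (hi : FCH fun a => (i a : ℕ))
    (hd : ∀ a, dom a → 2 < p a ∧ (g a).totalDegree < p a - 1) :
    PE dom p N fun a => pderiv (i a) (g a) := by
  have hff : PTime fun z : (α × ℕ) × ℕ => z.1.1 := PTime.fst.comp PTime.fst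
  have hΓ3 : LCtx (fun z : (α × ℕ) × ℕ => dom z.1.1) (fun z => p z.1.1) (fun z => N z.1.1) :=
    hΓ.comp hff
  have hn : FCH fun z : (α × ℕ) × ℕ => z.1.2 := FCH.of_ptime (PTime.snd.comp PTime.fst)
  have hi3 : FCH fun z : (α × ℕ) × ℕ => (i z.1.1 : ℕ) := FCH_comp hi hff
  have hg3 : PE (fun z : (α × ℕ) × ℕ => dom z.1.1) (fun z => p z.1.1) (fun z => N z.1.1)
      (fun z => g z.1.1) := hg.comp hff
  have hu : FZ (fun z : (α × ℕ) × ℕ => dom z.1.1) (fun z => p z.1.1)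
      (fun z => ((z.2 + 1 : ℕ) : ZMod (p z.1.1))) :=
    FZ.natCast (FCH.add FCH.snd (FCH.const 1))
  have hc : FZ (fun z : (α × ℕ) × ℕ => dom z.1.1) (fun z => p z.1.1)
      (fun z => pt (N z.1.1) (p z.1.1) z.1.2 (i z.1.1) + ((z.2 + 1 : ℕ) : ZMod (p z.1.1))) :=
    FZ.add (FZ.coord (i := fun z : (α × ℕ) × ℕ => i z.1.1) hΓ3 hn hi3) hu
  have h1 := FZ.mul (hg3.evalUpdate hΓ3 hn (i := fun z : (α × ℕ) × ℕ => i z.1.1) hi3 hc)
    (hu.inv hΓ3)
  have h2 := FZ.sum (dom := fun y : α × ℕ => dom y.1) (p := fun y : α × ℕ => p y.1)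
    (b := fun y => p y.1 - 1) (FCH.sub (FCH_comp hΓ.fch_p PTime.fst) (FCH.const 1))
    (h1.mono (dom' := fun z : (α × ℕ) × ℕ => dom z.1.1 ∧ z.2 < p z.1.1 - 1) fun z hz => hz.1)
  refine FZ.congr (fun y hy => ?_) (h2.neg hΓ.fst)
  have : Fact (p y.1).Prime := ⟨hΓ.prime y.1 hy⟩
  rw [pderiv_formula (hd y.1 hy).1 _ (hd y.1 hy).2]

end

end Vale.Agent.P337
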