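import Vale.Agent.P337.Defs
import Vale.Agent.P314.TMLang

/-!
# P337, P3: from structured programs over the stacks `0, 1, 2, …` to `InP`
-/

namespace Vale.Agent.P337

open Turing Function Vale.Agent.P314.TM

/-- Programs over the stacks `0, 1, 2, …` of bits. -/
abbrev NProg : Type := Prog (fun _ : ℕ => Bool)

/-- The contents of the stacks. -/
abbrev NSt : Type := ℕ → List Bool

/-- All stacks used by the program are `< n`. -/
def Below (n : ℕ) : NProg → Prop
  | .skip => True
  | .push k _ => k < n
  | .pop k => k < n
  | .seq p q => Below n p ∧ Below n q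
  | .ite k _ p q => k < n ∧ Below n p ∧ Below n q
  | .loop k _ p => k < n ∧ Below n p

theorem Below.mono {n n' : ℕ} (h : n ≤ n') : ∀ {p : NProg}, Below n p → Below n' p
  | .skip, _ => trivial
  | .push _ _, hp => lt_of_lt_of_le hp h
  | .pop _, hp => lt_of_lt_of_le hp h
  | .seq _ _, hp => ⟨hp.1.mono h, hp.2.mono h⟩
  | .ite _ _ _ _, hp => ⟨lt_of_lt_of_le hp.1 h, hp.2.1.mono h, hp.2.2.mono h⟩
  | .loop _ _ _, hp => ⟨lt_of_lt_of_le hp.1 h, hp.2.mono h⟩

/-- The same program over the stacks `Fin n`. -/
def restr (n : ℕ) [NeZero n] : NProg → Prog (fun _ : Fin n => Bool)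
  | .skip => .skip
  | .push k a => .push (Fin.ofNat n k) a
  | .pop k => .pop (Fin.ofNat n k)
  | .seq p q => .seq (restr n p) (restr n q)
  | .ite k t p q => .ite (Fin.ofNat n k) t (restr n p) (restr n q)
  | .loop k t p => .loop (Fin.ofNat n k) t (restr n p)

theorem restr_val {n : ℕ} [NeZero n] (S : NSt) {k : ℕ} (hk : k < n) :
    S ((Fin.ofNat n k : Fin n) : ℕ) = S k := by
  congr 1
  exact Nat.mod_eq_of_lt hk

theorem restr_update {n : ℕ} [NeZero n] (S : NSt) {k : ℕ} (hk : k < n) (v : List Bool) :
    (fun i : Fin n => (update S k v : NSt) i)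
      = update (fun i : Fin n => S i) (Fin.ofNat n k) v := by
  funext i
  by_cases h : (i : ℕ) = k
  · have hi : i = Fin.ofNat n k := by
      ext
      rw [h]
      exact (Nat.mod_eq_of_lt hk).symm
    subst hi
    have : ((Fin.ofNat n k : Fin n) : ℕ) = k := Nat.mod_eq_of_lt hk
    rw [update_self, this, update_self]
  · have hi : i ≠ Fin.ofNat n k := by
      rintro rfl
      exact h (Nat.mod_eq_of_lt hk)
    rw [update_of_ne hi, update_of_ne h]

/-- Runs of the restricted program. -/
theorem run_restr {n : ℕ} [NeZero n] {p : NProg} {S S' : NSt} {t : ℕ} (h : Run p S S' t) :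
    Below n p → Run (restr n p) (fun i : Fin n => S i) (fun i : Fin n => S' i) t := by
  induction h with
  | skip S => intro _; exact Run.skip _
  | push k a S =>
    intro hp
    have hp' : k < n := hp
    rw [restr_update S hp']
    have e := restr_val S hp'
    have := Run.push (Γ := fun _ : Fin n => Bool) (Fin.ofNat n k) a (fun i : Fin n => S i)
    rw [e] at this
    exact this
  | pop k S =>
    intro hp
    have hp' : k < n := hp
    rw [restr_update S hp']
    have e := restr_val S hp'
    have := Run.pop (Γ := fun _ : Fin n => Bool) (Fin.ofNat n k) (fun i : Fin n => S i)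
    rw [e] at this
    exact this
  | seq _ _ ih₁ ih₂ =>
    intro hp
    exact Run.seq (ih₁ hp.1) (ih₂ hp.2)
  | @iteT k test p q S S' t hb _ ih =>
    intro hp
    exact Run.iteT ((congrArg (fun l => test l.head?) (restr_val S hp.1)).trans hb) (ih hp.2.1)
  | @iteF k test p q S S' t hb _ ih =>
    intro hp
    exact Run.iteF ((congrArg (fun l => test l.head?) (restr_val S hp.1)).trans hb) (ih hp.2.2)
  | @loopF k test p S hb =>
    intro hp
    exact Run.loopF ((congrArg (fun l => test l.head?) (restr_val S hp.1)).trans hb)
  | @loopT k test p S S' S'' t t' hb _ _ ih₁ ih₂ =>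
    intro hp
    exact Run.loopT ((congrArg (fun l => test l.head?) (restr_val S hp.1)).trans hb)
      (ih₁ hp.2) (ih₂ hp)

/-- The machine of a program over the stacks `0, …, n + 1`; input stack `0`, output stack `1`. -/
def bridgeTM (n : ℕ) (p : NProg) : FinTM2 where
  K := Fin (n + 2)
  k₀ := 0
  k₁ := 1
  Γ := fun _ => Bool
  Λ := Option (restr (n + 2) p).Lbl
  main := some (restr (n + 2) p).start
  ΛFin := have := (restr (n + 2) p).fintypeLbl; inferInstance
  σ := Bool
  initialState := false
  Γk₀Fin := inferInstanceAs (Fintype Bool)
  m := (restr (n + 2) p).machine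

/-- A program over the stacks `0, …, n + 1` which, started with `x` on stack `0` and nothing else,
ends with the answer on stack `1` and nothing else. -/
theorem inP_of_run {L : Set (List Bool)} (n : ℕ) (p : NProg) (hp : Below (n + 2) p)
    (T : Polynomial ℕ) (b : List Bool → Bool) (hb : ∀ x, b x = true ↔ x ∈ L)
    (h : ∀ x, RunsIn p (fun k => if k = 0 then x else []) (fun k => if k = 1 then [b x] else [])
      (T.eval x.length)) : InP L := by
  classical
  have hb' : ∀ x, decide (x ∈ L) = b x := by
    intro x
    by_cases hx : x ∈ L
    · rw [decide_eq_true hx, (hb x).2 hx]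
    · rw [decide_eq_false hx]
      by_contra hcon
      exact hx ((hb x).1 (by
        cases hbx : b x
        · exact absurd hbx.symm (by simpa using hcon)
        · rfl))
  have key : ∀ x : List Bool, Nonempty (TM2OutputsInTime (bridgeTM n p)
      (List.map (Equiv.refl Bool).invFun (id x))
      (Option.some ((List.map (Equiv.refl Bool).invFun)
        (Computability.encodeBool (decide (x ∈ L)))))
      ((T + 1 : Polynomial ℕ).eval x.length)) := by
    intro x
    obtain ⟨t, ht, hr⟩ := h x
    have hm := (run_restr (n := n + 2) hr hp).machine false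
    refine ⟨⟨⟨t + 1, ?_⟩, ?_⟩⟩
    · have hi : initList (bridgeTM n p) (List.map (Equiv.refl Bool).invFun (id x))
          = (⟨some (some (restr (n + 2) p).start), false,
            fun i : Fin (n + 2) => if (i : ℕ) = 0 then x else []⟩ :
            TM2.Cfg (fun _ : Fin (n + 2) => Bool) (Option (restr (n + 2) p).Lbl) Bool) := by
        unfold initList
        congr 1
        refine funext (fun k : Fin (n + 2) => ?_)
        by_cases hk : k = (0 : Fin (n + 2))
        · subst hk
          refine (dif_pos rfl).trans ?_
          exact List.map_id _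
        · refine (dif_neg hk).trans ?_
          have : ¬ ((k : ℕ) = 0) := fun h0 => hk (Fin.ext h0)
          exact (if_neg this).symm
      have ho : haltList (bridgeTM n p) (List.map (Equiv.refl Bool).invFun
            (Computability.encodeBool (decide (x ∈ L))))
          = (⟨none, false, fun i : Fin (n + 2) => if (i : ℕ) = 1 then [b x] else []⟩ :
            TM2.Cfg (fun _ : Fin (n + 2) => Bool) (Option (restr (n + 2) p).Lbl) Bool) := by
        unfold haltList
        congr 1
        refine funext (fun k : Fin (n + 2) => ?_)
        by_cases hk : k = (1 : Fin (n + 2))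
        · subst hk
          refine (dif_pos rfl).trans ?_
          rw [hb' x]
          rfl
        · refine (dif_neg hk).trans ?_
          have : ¬ ((k : ℕ) = 1) := fun h0 => hk (Fin.ext h0)
          exact (if_neg this).symm
      rw [hi]
      exact hm.trans (congrArg some ho.symm)
    · simp only [Polynomial.eval_add, Polynomial.eval_one]
      omega
  refine ⟨{ tm := bridgeTM n p
            inputAlphabet := Equiv.refl Bool
            outputAlphabet := Equiv.refl Bool
            time := T + 1
            outputsFun := fun x => (key x).some }, ?_⟩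
  intro k
  exact inferInstanceAs (Finite Bool)

/-- Empty a stack. -/
def clearP (k : ℕ) : NProg := .loop k Option.isSome (.pop k)

theorem runs_clearP (k : ℕ) (S : NSt) :
    RunsIn (clearP k) S (update S k []) (2 * (S k).length + 1) := by
  have h := RunsIn.loop (k := k) (test := Option.isSome) (p := (.pop k : NProg)) (S k).length
    (fun j => update S k ((S k).drop j)) (fun _ => 1)
    (fun j hj => by
      show ((update S k ((S k).drop j) : NSt) k).head?.isSome = true
      rw [update_self, List.isSome_head?]
      have : ((S k).drop j).length ≠ 0 := by rw [List.length_drop]; omega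
      simpa using hj)
    (by
      show ((update S k ((S k).drop (S k).length) : NSt) k).head?.isSome = false
      rw [update_self, List.drop_length]
      rfl)
    (fun j hj => by
      refine (RunsIn.pop k _).congr rfl ?_
      show update (update S k ((S k).drop j)) k ((update S k ((S k).drop j) : NSt) k).tail = _
      rw [update_self, update_idem, List.tail_drop])
  refine (h.mono ?_).congr ?_ ?_
  · simp
    omega
  · show update S k ((S k).drop 0) = S
    rw [List.drop_zero, update_eq_self]
  · show update S k ((S k).drop (S k).length) = _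
    rw [List.drop_length]

/-- Programs that do not destroy their input. -/
theorem inP_of_comp {L : Set (List Bool)} (n : ℕ) (p : NProg) (hp : Below (n + 2) p)
    (T : Polynomial ℕ) (b : List Bool → Bool) (hb : ∀ x, b x = true ↔ x ∈ L)
    (h : ∀ S : NSt, (∀ k, k ≠ 0 → S k = []) →
      RunsIn p S (update S 1 [b (S 0)]) (T.eval (S 0).length)) : InP L := by
  refine inP_of_run n (.seq p (clearP 0)) ⟨hp, by show 0 < n + 2; omega, by show 0 < n + 2; omega⟩
    (T + (2 * Polynomial.X + 1)) b hb fun x => ?_
  have h1 := h (fun k => if k = 0 then x else []) (fun k hk => if_neg hk)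
  have h2 := runs_clearP 0 (update (fun k => if k = 0 then x else [] : NSt) 1 [b x])
  have e0 : (update (fun k => if k = 0 then x else [] : NSt) 1 [b x] : NSt) 0 = x := by
    rw [update_of_ne (by decide)]
    exact if_pos rfl
  rw [e0] at h2
  refine ((h1.seq h2).mono ?_).congr rfl ?_
  · simp only [Polynomial.eval_add, Polynomial.eval_mul, Polynomial.eval_one, Polynomial.eval_X,
      Polynomial.eval_ofNat, if_pos]
    omega
  · funext k
    rcases k with _ | _ | k
    · rw [update_self]
      rfl
    · rw [update_of_ne (by decide), update_self]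
      rfl
    · rw [update_of_ne (by omega), update_of_ne (by omega)]
      rfl

end Vale.Agent.P337
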