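import Vale.Agent.P337.SDefs

/-!
# P337, S1a: sums over points of `F_p ^ N` as sums over numbers
-/

namespace Vale.Agent.P337

open Finset

section Aux
variable {A : Type*} [AddCommMonoid A]

/-- sums over the units of a finite field -/
theorem sum_units_field {K : Type*} [Field K] [Fintype K] [DecidableEq K] (G : K → A) :
    ∑ t : Kˣ, G t = ∑ x : K, if x = 0 then 0 else G x := by
  have h : ∀ x : K, (if x = 0 then 0 else G x) = if x ≠ 0 then G x else 0 := by
    intro x
    by_cases hx : x = 0 <;> simp [hx]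
  simp only [h]
  rw [← Finset.sum_filter]
  refine Finset.sum_bij' (fun t _ => (t : K))
    (fun x hx => Units.mk0 x (Finset.mem_filter.1 hx).2) ?_ ?_ ?_ ?_ ?_
  · intro t _
    exact Finset.mem_filter.2 ⟨Finset.mem_univ _, t.ne_zero⟩
  · intro x _
    exact Finset.mem_univ _
  · intro t _
    exact Units.ext rfl
  · intro x _
    rfl
  · intro t _
    rfl

/-- sums over tuples of units of a finite field -/
theorem sum_pi_units_field {K : Type*} [Field K] [Fintype K] [DecidableEq K] {N : ℕ}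
    (G : (Fin N → K) → A) :
    ∑ t : Fin N → Kˣ, G (fun i => (t i : K)) =
      ∑ x : Fin N → K, if ∀ i, x i ≠ 0 then G x else 0 := by
  rw [← Finset.sum_filter]
  refine Finset.sum_bij' (fun t _ => fun i => (t i : K))
    (fun x hx => fun i => Units.mk0 (x i) ((Finset.mem_filter.1 hx).2 i)) ?_ ?_ ?_ ?_ ?_
  · intro t _
    exact Finset.mem_filter.2 ⟨Finset.mem_univ _, fun i => (t i).ne_zero⟩
  · intro x _
    exact Finset.mem_univ _
  · intro t _
    funext i
    exact Units.ext rfl
  · intro x _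
    rfl
  · intro t _
    rfl

/-- the residues `0, ..., p - 1` -/
noncomputable def finZMod (p : ℕ) [NeZero p] : Fin p ≃ ZMod p :=
  Equiv.ofBijective (fun a : Fin p => ((a : ℕ) : ZMod p)) (by
    rw [Fintype.bijective_iff_injective_and_card]
    refine ⟨fun a b h => ?_, by rw [Fintype.card_fin, ZMod.card]⟩
    have h2 := congrArg ZMod.val h
    simp only [ZMod.val_natCast_of_lt a.2, ZMod.val_natCast_of_lt b.2] at h2
    exact Fin.ext h2)

theorem sum_zmod (p : ℕ) [NeZero p] (H : ZMod p → A) :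
    ∑ x : ZMod p, H x = ∑ n ∈ range p, H (n : ZMod p) := by
  rw [Finset.sum_range, ← (finZMod p).sum_comp]
  rfl

/-- sums over maps -/
theorem sum_maps_gen (M N : ℕ) (h : 0 < M) (H : (Fin N → Fin M) → A) :
    ∑ x : Fin N → Fin M, H x =
      ∑ n ∈ range (M ^ N), H fun i => ⟨dig M n i, Nat.mod_lt _ h⟩ := by
  rw [Finset.sum_range, ← finFunctionFinEquiv.symm.sum_comp]
  refine Finset.sum_congr rfl fun n _ => ?_
  congr 1

end Aux

section
variable {N : ℕ} {p : ℕ}

/-- [S1a] points of `𝔽_p ^ N` -/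
theorem sum_pt [Fact p.Prime] {M : Type*} [AddCommMonoid M] (F : (Fin N → ZMod p) → M) :
    ∑ n ∈ Finset.range (p ^ N), F (pt N p n) = ∑ x : Fin N → ZMod p, F x := by
  have h := sum_maps_gen (A := M) p N (Nat.pos_of_ne_zero (NeZero.ne p))
    fun x => F (fun i => ((x i : ℕ) : ZMod p))
  have h2 : ∑ x : Fin N → ZMod p, F x =
      ∑ x : Fin N → Fin p, F (fun i => ((x i : ℕ) : ZMod p)) := by
    rw [← (Equiv.piCongrRight fun _ : Fin N => finZMod p).sum_comp]
    rfl
  rw [h2, h]
  rfl

/-- [S1b] maps `[N] → [N]` -/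
theorem sum_mp [NeZero N] {M : Type*} [AddCommMonoid M] (F : (Fin N → Fin N) → M) :
    ∑ n ∈ Finset.range (N ^ N), F (mp N n) = ∑ π : Fin N → Fin N, F π := by
  rw [sum_maps_gen N N (Nat.pos_of_ne_zero (NeZero.ne N))]
  refine Finset.sum_congr rfl fun n _ => ?_
  congr 1
  funext i
  apply Fin.ext
  simp only [mp, Fin.ofNat, dig, Nat.mod_mod]

theorem digit_le (p n i : ℕ) : dig p n i * p ^ i ≤ n := by
  unfold dig
  calc (n / p ^ i % p) * p ^ i ≤ (n / p ^ i) * p ^ i := Nat.mul_le_mul_right _ (Nat.mod_le _ _)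
    _ ≤ n := Nat.div_mul_le_self _ _

theorem digit_add_mul (p : ℕ) (hp : 0 < p) (a b i j : ℕ) (hb : b < p)
    (ha : dig p a i = 0) :
    dig p (a + b * p ^ i) j = if j = i then b else dig p a j := by
  unfold dig at *
  have hpi : 0 < p ^ i := pow_pos hp i
  have hpj : 0 < p ^ j := pow_pos hp j
  rcases lt_trichotomy j i with h | h | h
  · obtain ⟨k, rfl⟩ : ∃ k, i = j + (k + 1) := ⟨i - j - 1, by omega⟩
    rw [if_neg (by omega), show b * p ^ (j + (k + 1)) = p ^ j * (p * (b * p ^ k)) by ring,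
      Nat.add_mul_div_left _ _ hpj, Nat.add_mul_mod_self_left]
  · subst h
    rw [if_pos rfl, Nat.add_mul_div_right _ _ hpj, Nat.add_mod, ha, zero_add, Nat.mod_mod,
      Nat.mod_eq_of_lt hb]
  · obtain ⟨k, rfl⟩ : ∃ k, j = i + (k + 1) := ⟨j - i - 1, by omega⟩
    rw [if_neg (by omega), pow_add, ← Nat.div_div_eq_div_mul, ← Nat.div_div_eq_div_mul,
      Nat.add_mul_div_right _ _ hpi, pow_succ', ← Nat.div_div_eq_div_mul,
      ← Nat.div_div_eq_div_mul]
    congr 2
    have h1 : a / p ^ i = p * (a / p ^ i / p) := by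
      have := Nat.div_add_mod (a / p ^ i) p
      omega
    rw [h1, Nat.mul_add_div hp, Nat.div_eq_of_lt hb, add_zero, Nat.mul_div_cancel_left _ hp]

theorem digit_sub (p : ℕ) (hp : 0 < p) (n i j : ℕ) :
    dig p (n - dig p n i * p ^ i) j = if j = i then 0 else dig p n j := by
  have hle : dig p n i * p ^ i ≤ n := digit_le p n i
  have hdlt : dig p n i < p := Nat.mod_lt _ hp
  have hai : dig p (n - dig p n i * p ^ i) i = 0 := by
    have hd : dig p n i = n / p ^ i % p := rfl
    show (n - dig p n i * p ^ i) / p ^ i % p = 0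
    rw [mul_comm (dig p n i), Nat.sub_mul_div]
    have h1 := Nat.div_add_mod (n / p ^ i) p
    rw [← hd] at h1
    have h2 : n / p ^ i - dig p n i = p * (n / p ^ i / p) := by omega
    rw [h2, Nat.mul_mod_right]
  have h := digit_add_mul p hp (n - dig p n i * p ^ i) (dig p n i) i j hdlt hai
  rw [Nat.sub_add_cancel hle] at h
  by_cases hji : j = i
  · subst hji
    rw [if_pos rfl]
    exact hai
  · rw [if_neg hji] at h ⊢
    exact h.symm

/-- [S1c] changing one coordinate -/
theorem pt_update [Fact p.Prime] (n : ℕ) (i : Fin N) (c : ZMod p) :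
    pt N p (n - dig p n i * p ^ (i : ℕ) + c.val * p ^ (i : ℕ)) =
      Function.update (pt N p n) i c := by
  have hp : 0 < p := Nat.Prime.pos Fact.out
  have h1 := digit_sub p hp n i i
  rw [if_pos rfl] at h1
  funext j
  show (dig p (n - dig p n i * p ^ (i : ℕ) + c.val * p ^ (i : ℕ)) j : ZMod p) = _
  rw [digit_add_mul p hp _ _ i j (ZMod.val_lt c) h1]
  by_cases h : j = i
  · subst h
    rw [if_pos rfl, Function.update_self, ZMod.natCast_val, ZMod.cast_id]
  · have h' : (j : ℕ) ≠ i := fun h' => h (Fin.ext h')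
    rw [if_neg h', Function.update_of_ne h, digit_sub p hp, if_neg h']
    rfl

theorem natCast_eq_zero_of_lt {p n : ℕ} (hn : n < p) : ((n : ZMod p) = 0) ↔ n = 0 := by
  rw [ZMod.natCast_eq_zero_iff]
  constructor
  · intro h
    exact Nat.eq_zero_of_dvd_of_lt h hn
  · rintro rfl
    exact dvd_zero _

/-- [S1d] sums over units -/
theorem sum_units [Fact p.Prime] {M : Type*} [AddCommMonoid M] (F : ZMod p → M) :
    ∑ u : (ZMod p)ˣ, F u = ∑ n ∈ Finset.range (p - 1), F ((n + 1 : ℕ) : ZMod p) := by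
  have hp : 0 < p := Nat.Prime.pos Fact.out
  rw [sum_units_field, sum_zmod]
  have h : ∑ n ∈ range p, (if (n : ZMod p) = 0 then 0 else F (n : ZMod p)) =
      ∑ n ∈ range (p - 1 + 1), (if (n : ZMod p) = 0 then 0 else F (n : ZMod p)) := by
    rw [Nat.sub_add_cancel hp]
  rw [h, Finset.sum_range_succ', Nat.cast_zero, if_pos rfl, add_zero]
  refine Finset.sum_congr rfl fun n hn => ?_
  rw [Finset.mem_range] at hn
  rw [if_neg]
  rw [natCast_eq_zero_of_lt (by omega)]
  exact Nat.succ_ne_zero n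

/-- [S1e] sums over points with unit coordinates -/
theorem sum_pt_units [Fact p.Prime] {M : Type*} [AddCommMonoid M]
    (F : (Fin N → ZMod p) → M) :
    ∑ x : Fin N → (ZMod p)ˣ, F (fun i => (x i : ZMod p)) =
      ∑ n ∈ Finset.range (p ^ N),
        open Classical in if ∏ i, pt N p n i = 0 then 0 else F (pt N p n) := by
  classical
  rw [sum_pi_units_field, ← sum_pt]
  refine Finset.sum_congr rfl fun n _ => ?_
  by_cases h : ∏ i, pt N p n i = 0
  · rw [if_pos h, if_neg]
    intro h2
    rw [Finset.prod_eq_zero_iff] at h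
    obtain ⟨i, _, hi⟩ := h
    exact h2 i hi
  · rw [if_neg h, if_pos]
    intro i hi
    exact h (Finset.prod_eq_zero (Finset.mem_univ i) hi)

end

end Vale.Agent.P337
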