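import Vale.Agent.P337.PtsA
import Vale.Agent.P337.Modp
import Vale.Agent.P337.Closed
import Vale.Agent.P337.DetMaps

/-!
# P337 [S1f]: pointwise formulas
-/

namespace Vale.Agent.P337

open MvPolynomial

section
variable {N : ℕ} {p : ℕ}

/-- [S1f] the explicit formula for `τ` (from `tau_modp`) -/
theorem tau_formula [Fact p.Prime] {m E : ℕ} (hm : 0 < m)
    {f : Fin N → MvPolynomial (Fin N) (ZMod p)} (hf : ∀ i, (f i).totalDegree < m)
    (g : MvPolynomial (Fin N) (ZMod p)) (hE : g.totalDegree ≤ E)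
    (hp : m * N * (E + 2) + E + 2 < p) :
    tau m E f g = (-1) ^ N * ∑ n ∈ Finset.range (p ^ N),
      (open Classical in if ∏ i, pt N p n i = 0 then 0 else eval (pt N p n) g *
        ∏ i, ((pt N p n i)⁻¹ ^ (m - 1) *
          ∑ k ∈ Finset.range (E + 1), (eval (pt N p n) (f i) * (pt N p n i)⁻¹ ^ m) ^ k)) := by
  have h := sum_pt_units (N := N) (p := p) (fun x => eval x g *
        ∏ i, ((x i)⁻¹ ^ (m - 1) *
          ∑ k ∈ Finset.range (E + 1), (eval x (f i) * (x i)⁻¹ ^ m) ^ k))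
  rw [tau_modp hm hf g hE hp]
  congr 1
  rw [← h]
  refine Finset.sum_congr rfl fun x _ => ?_
  simp only [Units.val_inv_eq_inv_val]

/-- [S1g] the explicit formula for `∂_i` (from `pderiv_modp`) -/
theorem pderiv_formula [Fact p.Prime] (h2 : 2 < p) (Q : MvPolynomial (Fin N) (ZMod p))
    (hQ : Q.totalDegree < p - 1) (i : Fin N) (x : Fin N → ZMod p) :
    eval x (pderiv i Q) = -∑ n ∈ Finset.range (p - 1),
      eval (Function.update x i (x i + ((n + 1 : ℕ) : ZMod p))) Q * ((n + 1 : ℕ) : ZMod p)⁻¹ := by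
  have h := sum_units (p := p) (fun u => eval (Function.update x i (x i + u)) Q * u⁻¹)
  rw [pderiv_modp h2 Q hQ i x, ← h]
  congr 1
  refine Finset.sum_congr rfl fun x _ => ?_
  simp only [Units.val_inv_eq_inv_val]

/-- [S1h] the explicit formula for `eh` (from `eh_closed`) -/
theorem eh_formula [Fact p.Prime] {D : ℕ} (hp : D ^ 2 + 1 < p) (s : ℕ → ZMod p) {r : ℕ}
    (hr : r ≤ D) :
    eh s r = -(r.factorial : ZMod p) * ∑ n ∈ Finset.range (p - 1),
      (((n + 1 : ℕ) : ZMod p)⁻¹) ^ r *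
      ∑ a ∈ Finset.range (D + 1), ((a.factorial : ZMod p))⁻¹ *
        (∑ l ∈ Finset.range D, (-1) ^ l * s (l + 1) * ((n + 1 : ℕ) : ZMod p) ^ (l + 1) *
          (((l + 1 : ℕ) : ZMod p))⁻¹) ^ a := by
  have h := sum_units (p := p) (fun u => (u⁻¹) ^ r *
      ∑ a ∈ Finset.range (D + 1), ((a.factorial : ZMod p))⁻¹ *
        (∑ l ∈ Finset.range D, (-1) ^ l * s (l + 1) * u ^ (l + 1) *
          (((l + 1 : ℕ) : ZMod p))⁻¹) ^ a)
  rw [eh_closed hp s hr, ← h]
  congr 1
  refine Finset.sum_congr rfl fun u _ => ?_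
  rw [Units.val_inv_eq_inv_val]
  congr 1
  refine Finset.sum_congr rfl fun a _ => ?_
  congr 2
  refine Finset.sum_nbij' (fun l => l - 1) (fun l => l + 1) ?_ ?_ ?_ ?_ ?_
  · intro l hl
    have := Finset.mem_Icc.1 hl
    exact Finset.mem_range.2 (by omega)
  · intro l hl
    have := Finset.mem_range.1 hl
    exact Finset.mem_Icc.2 (by omega)
  · intro l hl
    have := Finset.mem_Icc.1 hl
    show l - 1 + 1 = l
    omega
  · intro l _
    rfl
  · intro l hl
    have := (Finset.mem_Icc.1 hl).1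
    obtain ⟨k, rfl⟩ : ∃ k, l = k + 1 := ⟨l - 1, by omega⟩
    rfl

/-- [S1i] the Jacobian as a sum over maps (from `det_maps`) -/
theorem jac_formula [NeZero N] {R : Type*} [CommRing R] (m : ℕ)
    (fs : Fin N → MvPolynomial (Fin N) R) (x : Fin N → R) :
    eval x (jac m fs) = ∑ n ∈ Finset.range (N ^ N),
      (∏ i : Fin N, ∏ j : Fin N, if i < j then (if mp N n i < mp N n j then (1 : R) else
        if mp N n j < mp N n i then -1 else 0) else 1) *
        ∏ i : Fin N, eval x (pderiv i (sysF m fs (mp N n i))) := by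
  have h := sum_mp (N := N) (fun π : Fin N → Fin N =>
    (∏ i, ∏ j, if i < j then (if π i < π j then (1 : R) else if π j < π i then -1 else 0) else 1) *
        ∏ i, eval x (pderiv i (sysF m fs (π i))))
  rw [h]
  unfold jac
  rw [RingHom.map_det, det_maps]
  rfl

end

end Vale.Agent.P337
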