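import Mathlib
import Vale.Agent.P337.Alg

/-!
P337, part ALG-S: the sign of the determinant of a multiplication map on a finite-dimensional
commutative real algebra, in terms of the real points (algebra homs to `ℝ`).
-/

namespace Vale.Agent.P337.SignDet

open Module

section Pi

theorem det_blockDiagonal_lin {R ι : Type*} [CommRing R] [Fintype ι] [LinearOrder ι]
    {m : ι → Type*} [∀ i, Fintype (m i)] [∀ i, DecidableEq (m i)]
    (A : ∀ i, Matrix (m i) (m i) R) :
    (Matrix.blockDiagonal' A).det = ∏ i, (A i).det := by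
  have h : (Matrix.blockDiagonal' A).BlockTriangular Sigma.fst := by
    intro x y hxy
    obtain ⟨i, k⟩ := x
    obtain ⟨j, l⟩ := y
    exact Matrix.blockDiagonal'_apply_ne _ _ _ (ne_of_gt hxy)
  rw [h.det_fintype]
  refine Finset.prod_congr rfl fun i _ => ?_
  let e : m i ≃ {x : Σ i, m i // x.1 = i} :=
    { toFun := fun k => ⟨⟨i, k⟩, rfl⟩
      invFun := fun x => x.2 ▸ x.1.2
      left_inv := fun k => rfl
      right_inv := by rintro ⟨⟨j, k⟩, h⟩; subst h; rfl }
  rw [← Matrix.det_submatrix_equiv_self e]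
  congr 1
  ext k l
  simp [Matrix.toSquareBlock_def, e, Matrix.blockDiagonal'_apply_eq]

variable {R : Type*} [CommRing R] {ι : Type*} [Fintype ι] {M : ι → Type*}
  [∀ i, AddCommGroup (M i)] [∀ i, Module R (M i)] [∀ i, Module.Free R (M i)]
  [∀ i, Module.Finite R (M i)]

/-- The determinant of a product map is the product of the determinants. -/
theorem det_piMap (f : ∀ i, M i →ₗ[R] M i) :
    LinearMap.det (LinearMap.pi (fun i => (f i).comp (LinearMap.proj i))) =
      ∏ i, LinearMap.det (f i) := by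
  classical
  let lo : LinearOrder ι := LinearOrder.lift' (Fintype.equivFin ι) (Fintype.equivFin ι).injective
  let b := fun i => Module.Free.chooseBasis R (M i)
  have h : LinearMap.toMatrix (Pi.basis b) (Pi.basis b)
      (LinearMap.pi (fun i => (f i).comp (LinearMap.proj i))) =
      Matrix.blockDiagonal' (fun i => LinearMap.toMatrix (b i) (b i) (f i)) := by
    ext ⟨i, k⟩ ⟨j, l⟩
    rw [LinearMap.toMatrix_apply, Pi.basis_repr, LinearMap.pi_apply, LinearMap.comp_apply,
      LinearMap.proj_apply, Pi.basis_apply]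
    by_cases hij : i = j
    · subst hij
      rw [Pi.single_eq_same, Matrix.blockDiagonal'_apply_eq, LinearMap.toMatrix_apply]
    · rw [Pi.single_eq_of_ne hij, map_zero, map_zero, Matrix.blockDiagonal'_apply_ne _ _ _ hij]
      rfl
  rw [← LinearMap.det_toMatrix (Pi.basis b), h]
  have h2 := det_blockDiagonal_lin (fun i => LinearMap.toMatrix (b i) (b i) (f i))
  convert h2 using 1
  · exact Finset.prod_congr rfl fun i _ => (LinearMap.det_toMatrix (b i) (f i)).symm

end Pi

section Field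

variable {F : Type*} [Field F] [Algebra ℝ F] [FiniteDimensional ℝ F]

/-- In a finite field extension of the reals: if the norm is negative, there is a hom to `ℝ`
at which the element is negative. -/
theorem field_exists_neg (x : F) (h : Algebra.norm ℝ x < 0) : ∃ φ : F →ₐ[ℝ] ℝ, φ x < 0 := by
  rcases Real.nonempty_algEquiv_or F with ⟨⟨e⟩⟩ | ⟨⟨e⟩⟩
  · refine ⟨e.toAlgHom, ?_⟩
    rw [← Algebra.norm_eq_of_algEquiv e, Algebra.norm_self] at h
    exact h
  · rw [← Algebra.norm_eq_of_algEquiv e, Algebra.norm_complex_apply] at h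
    exact absurd h (not_lt.2 (Complex.normSq_nonneg _))

/-- At most one algebra hom from a field extension to `ℝ`. -/
theorem field_subsingleton : Subsingleton (F →ₐ[ℝ] ℝ) := by
  rcases Real.nonempty_algEquiv_or F with ⟨⟨e⟩⟩ | ⟨⟨e⟩⟩
  · refine ⟨fun φ ψ => ?_⟩
    have h : φ.comp e.symm.toAlgHom = ψ.comp e.symm.toAlgHom := Subsingleton.elim _ _
    ext x
    have h2 : ∀ f : F →ₐ[ℝ] ℝ, (f.comp e.symm.toAlgHom) (e x) = f x := fun f => by
      change f (e.symm (e x)) = f x
      rw [e.symm_apply_apply]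
    rw [← h2 φ, ← h2 ψ, h]
  · refine ⟨fun φ ψ => ?_⟩
    have h1 : (φ (e.symm Complex.I)) ^ 2 = -1 := by
      rw [← map_pow, ← map_pow, Complex.I_sq]; simp
    nlinarith [sq_nonneg (φ (e.symm Complex.I))]

theorem field_norm_neg_iff (x : F) : Algebra.norm ℝ x < 0 ↔ ∃ φ : F →ₐ[ℝ] ℝ, φ x < 0 := by
  refine ⟨field_exists_neg x, fun ⟨φ, hφ⟩ => ?_⟩
  rcases Real.nonempty_algEquiv_or F with ⟨⟨e⟩⟩ | ⟨⟨e⟩⟩
  · rw [← Algebra.norm_eq_of_algEquiv e, Algebra.norm_self]
    have : φ = e.toAlgHom := by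
      have := field_subsingleton (F := F)
      exact Subsingleton.elim _ _
    rw [this] at hφ
    exact hφ
  · exfalso
    have h1 : (φ (e.symm Complex.I)) ^ 2 = -1 := by
      rw [← map_pow, ← map_pow, Complex.I_sq]; simp
    nlinarith [sq_nonneg (φ (e.symm Complex.I))]

end Field

section Main

variable {A : Type*} [CommRing A] [Algebra ℝ A]

theorem prod_neg_iff_odd {ι : Type*} (s : Finset ι) (f : ι → ℝ) (h : ∀ i ∈ s, f i ≠ 0) :
    ∏ i ∈ s, f i < 0 ↔ Odd (s.filter (fun i => f i < 0)).card := by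
  classical
  induction s using Finset.induction_on with
  | empty => simp
  | insert a s ha ih =>
    have ih' := ih fun i hi => h i (Finset.mem_insert_of_mem hi)
    have hp : ∏ i ∈ s, f i ≠ 0 :=
      Finset.prod_ne_zero_iff.2 fun i hi => h i (Finset.mem_insert_of_mem hi)
    have ha0 := h a (Finset.mem_insert_self a s)
    rw [Finset.prod_insert ha, Finset.filter_insert]
    by_cases hneg : f a < 0
    · rw [if_pos hneg, Finset.card_insert_of_notMem (by simp [ha]), Nat.odd_add_one, ← ih']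
      constructor
      · intro h1 h2
        exact absurd h1 (not_lt.2 (mul_nonneg_of_nonpos_of_nonpos hneg.le h2.le))
      · intro h1
        exact mul_neg_of_neg_of_pos hneg (lt_of_le_of_ne (not_lt.1 h1) hp.symm)
    · rw [if_neg hneg, ← ih']
      have hpos : 0 < f a := lt_of_le_of_ne (not_lt.1 hneg) ha0.symm
      constructor
      · intro h1
        by_contra h2
        exact absurd h1 (not_lt.2 (mul_nonneg hpos.le (not_lt.1 h2)))
      · intro h1
        exact mul_neg_of_pos_of_neg hpos h1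

/-- The norm on a reduced finite-dimensional real algebra is the product of the norms of the
residue classes at the maximal ideals. -/
theorem norm_eq_prod [FiniteDimensional ℝ A] [IsReduced A] [Fintype (MaximalSpectrum A)] (g : A) :
    Algebra.norm ℝ g =
      ∏ I : MaximalSpectrum A, Algebra.norm ℝ (Ideal.Quotient.mk I.asIdeal g) := by
  have : IsArtinianRing A := IsArtinianRing.of_finite ℝ A
  let e : A ≃ₗ[ℝ] (∀ I : MaximalSpectrum A, A ⧸ I.asIdeal) :=
    (IsArtinianRing.equivPi A).toLinearEquiv.restrictScalars ℝ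
  have h := det_piMap (R := ℝ) (M := fun I : MaximalSpectrum A => A ⧸ I.asIdeal)
    (fun I => Algebra.lmul ℝ (A ⧸ I.asIdeal) (Ideal.Quotient.mk I.asIdeal g))
  rw [Algebra.norm_apply, ← LinearMap.det_conj (Algebra.lmul ℝ A g) e]
  simp only [Algebra.norm_apply]
  rw [← h]
  congr 1
  refine LinearMap.ext fun x => ?_
  obtain ⟨y, rfl⟩ := e.surjective x
  funext I
  simp only [LinearMap.comp_apply, LinearEquiv.coe_coe, LinearEquiv.symm_apply_apply,
    LinearMap.pi_apply, LinearMap.proj_apply, Algebra.coe_lmul_eq_mul, LinearMap.mul_apply']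
  rfl

/-- Real points of the algebra at which `g` is negative correspond to the maximal ideals at
which the norm of `g` is negative. -/
theorem card_neg_eq [FiniteDimensional ℝ A] [Fintype (MaximalSpectrum A)] (g : A) :
    Nat.card {φ : A →ₐ[ℝ] ℝ // φ g < 0} =
      Nat.card {I : MaximalSpectrum A // Algebra.norm ℝ (Ideal.Quotient.mk I.asIdeal g) < 0} := by
  classical
  have hker : ∀ φ : A →ₐ[ℝ] ℝ, (RingHom.ker φ).IsMaximal := fun φ =>
    RingHom.ker_isMaximal_of_surjective φ (fun x => ⟨algebraMap ℝ A x, by simp⟩)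
  have key : ∀ I : MaximalSpectrum A,
      (Algebra.norm ℝ (Ideal.Quotient.mk I.asIdeal g) < 0 ↔
        ∃ ψ : (A ⧸ I.asIdeal) →ₐ[ℝ] ℝ, ψ (Ideal.Quotient.mk I.asIdeal g) < 0) := fun I => by
    let _ : Field (A ⧸ I.asIdeal) := Ideal.Quotient.field I.asIdeal
    exact field_norm_neg_iff _
  have hlift : ∀ (I : MaximalSpectrum A) (φ : A →ₐ[ℝ] ℝ), RingHom.ker φ = I.asIdeal →
      ∃ ψ : (A ⧸ I.asIdeal) →ₐ[ℝ] ℝ, ψ.comp (Ideal.Quotient.mkₐ ℝ I.asIdeal) = φ := by
    intro I φ h
    refine ⟨Ideal.Quotient.liftₐ I.asIdeal φ (fun a ha => ?_), ?_⟩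
    · rw [← h] at ha
      exact ha
    · ext x
      rfl
  refine Nat.card_congr (Equiv.ofBijective (fun φ => ⟨⟨RingHom.ker φ.1, hker φ.1⟩, ?_⟩) ⟨?_, ?_⟩)
  · obtain ⟨ψ, hψ⟩ := hlift ⟨RingHom.ker φ.1, hker φ.1⟩ φ.1 rfl
    rw [key]
    refine ⟨ψ, ?_⟩
    have := φ.2
    rw [← hψ] at this
    exact this
  · intro φ φ' h
    have h1 : RingHom.ker φ.1 = RingHom.ker φ'.1 := by
      have := congrArg (fun x => x.1.asIdeal) h
      exact this
    obtain ⟨ψ, hψ⟩ := hlift ⟨RingHom.ker φ.1, hker φ.1⟩ φ.1 rfl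
    obtain ⟨ψ', hψ'⟩ := hlift ⟨RingHom.ker φ.1, hker φ.1⟩ φ'.1 h1.symm
    have hmax : (RingHom.ker φ.1).IsMaximal := hker φ.1
    let _ : Field (A ⧸ RingHom.ker φ.1) := Ideal.Quotient.field _
    have hs : Subsingleton ((A ⧸ RingHom.ker φ.1) →ₐ[ℝ] ℝ) :=
      field_subsingleton (F := A ⧸ RingHom.ker φ.1)
    have h2 : ψ = ψ' := hs.elim _ _
    apply Subtype.ext
    rw [← hψ, ← hψ', h2]
  · rintro ⟨I, hI⟩
    obtain ⟨ψ, hψ⟩ := (key I).1 hI
    refine ⟨⟨ψ.comp (Ideal.Quotient.mkₐ ℝ I.asIdeal), hψ⟩, ?_⟩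
    apply Subtype.ext
    apply MaximalSpectrum.ext
    refine (I.isMaximal.eq_of_le (hker _).ne_top ?_).symm
    intro a ha
    rw [RingHom.mem_ker]
    change ψ (Ideal.Quotient.mk I.asIdeal a) = 0
    rw [Ideal.Quotient.eq_zero_iff_mem.2 ha, map_zero]

/-- **(S2)** For a reduced finite-dimensional commutative real algebra and `g` of nonzero norm:
the norm is negative iff the number of real points with `g < 0` is odd. -/
theorem norm_neg_iff_odd [FiniteDimensional ℝ A] [IsReduced A] (g : A)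
    (hg : Algebra.norm ℝ g ≠ 0) :
    Algebra.norm ℝ g < 0 ↔ Odd (Nat.card {φ : A →ₐ[ℝ] ℝ // φ g < 0}) := by
  classical
  have : IsArtinianRing A := IsArtinianRing.of_finite ℝ A
  let _ : Fintype (MaximalSpectrum A) := Fintype.ofFinite _
  rw [norm_eq_prod] at hg
  rw [card_neg_eq, norm_eq_prod, prod_neg_iff_odd _ _ fun i hi => Finset.prod_ne_zero_iff.1 hg i hi,
    Nat.card_eq_fintype_card, Fintype.card_subtype]

/-- The norm is nonzero iff `g` is a unit. -/
theorem norm_ne_zero_iff_isUnit [FiniteDimensional ℝ A] (g : A) :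
    Algebra.norm ℝ g ≠ 0 ↔ IsUnit g := by
  constructor
  · intro h
    rw [Algebra.norm_apply] at h
    have hu : IsUnit (LinearMap.det (Algebra.lmul ℝ A g)) := isUnit_iff_ne_zero.2 h
    obtain ⟨x, hx⟩ := (LinearMap.equivOfIsUnitDet hu).surjective (1 : A)
    have hx' : g * x = 1 := by simpa using hx
    exact IsUnit.of_mul_eq_one x hx'
  · intro h
    exact (h.map (Algebra.norm ℝ)).ne_zero

/-- `g` is a unit iff it vanishes at no complex point. -/
theorem isUnit_iff_complex [FiniteDimensional ℝ A] (g : A) :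
    IsUnit g ↔ ∀ φ : A →ₐ[ℝ] ℂ, φ g ≠ 0 := by
  constructor
  · intro h φ
    exact (h.map φ).ne_zero
  · intro h
    by_contra hn
    obtain ⟨I, hI, hgI⟩ := exists_max_ideal_of_mem_nonunits hn
    let _ : Field (A ⧸ I) := Ideal.Quotient.field I
    have hex : Nonempty ((A ⧸ I) →ₐ[ℝ] ℂ) := by
      rcases Real.nonempty_algEquiv_or (A ⧸ I) with ⟨⟨e⟩⟩ | ⟨⟨e⟩⟩
      · exact ⟨(Algebra.ofId ℝ ℂ).comp e.toAlgHom⟩
      · exact ⟨e.toAlgHom⟩
    obtain ⟨ψ⟩ := hex
    refine h (ψ.comp (Ideal.Quotient.mkₐ ℝ I)) ?_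
    change ψ (Ideal.Quotient.mk I g) = 0
    rw [Ideal.Quotient.eq_zero_iff_mem.2 hgI, map_zero]

/-- **(S2, used form)** `A` reduced, `g` nonzero at all complex points, negative at exactly one
real point: then the norm is negative. -/
theorem norm_neg_of_existsUnique [FiniteDimensional ℝ A] [IsReduced A] (g : A)
    (hg : ∀ φ : A →ₐ[ℝ] ℂ, φ g ≠ 0) (h : ∃! φ : A →ₐ[ℝ] ℝ, φ g < 0) :
    Algebra.norm ℝ g < 0 := by
  rw [norm_neg_iff_odd g ((norm_ne_zero_iff_isUnit g).2 ((isUnit_iff_complex g).2 hg))]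
  obtain ⟨φ, hφ, hu⟩ := h
  have : Nat.card {φ : A →ₐ[ℝ] ℝ // φ g < 0} = 1 := by
    rw [Nat.card_eq_one_iff_exists]
    exact ⟨⟨φ, hφ⟩, fun ψ => Subtype.ext (hu ψ.1 ψ.2)⟩
  rw [this]
  exact odd_one

/-- Module form of (S1). -/
theorem exists_neg_module (n : ℕ) : ∀ (M : Type*) [AddCommGroup M] [Module A M] [Module ℝ M]
    [IsScalarTower ℝ A M] [FiniteDimensional ℝ M], finrank ℝ M = n → ∀ g : A,
    LinearMap.det (Algebra.lsmul ℝ ℝ M g) < 0 → ∃ φ : A →ₐ[ℝ] ℝ, φ g < 0 := by
  induction n using Nat.strong_induction_on with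
  | _ n ih =>
  intro M _ _ _ _ _ hn g hdet
  rcases subsingleton_or_nontrivial M with hM | hM
  · rw [LinearMap.det_eq_one_of_subsingleton] at hdet
    linarith
  have hart : IsArtinian A M := isArtinian_of_tower ℝ inferInstance
  obtain ⟨S, hS, -⟩ := (eq_bot_or_exists_atom_le (⊤ : Submodule A M)).resolve_left top_ne_bot
  have hsimple : IsSimpleModule A S := isSimpleModule_iff_isAtom.2 hS
  let W : Submodule ℝ M := S.restrictScalars ℝ
  have he : W ≤ W.comap (Algebra.lsmul ℝ ℝ M g) := fun x hx => S.smul_mem g hx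
  have hmul := LinearMap.det_eq_det_mul_det W (Algebra.lsmul ℝ ℝ M g) he
  have hW : LinearMap.det ((Algebra.lsmul ℝ ℝ M g).restrict he) =
      LinearMap.det (Algebra.lsmul ℝ ℝ S g) := by
    rw [← LinearMap.det_conj _ ((Submodule.restrictScalarsEquiv ℝ A M S).restrictScalars ℝ)]
    congr 1
  have hQ : LinearMap.det (W.mapQ W (Algebra.lsmul ℝ ℝ M g) he) =
      LinearMap.det (Algebra.lsmul ℝ ℝ (M ⧸ S) g) := by
    rw [← LinearMap.det_conj _ ((Submodule.Quotient.restrictScalarsEquiv ℝ S))]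
    congr 1
    refine LinearMap.ext fun x => ?_
    obtain ⟨y, rfl⟩ := Submodule.mkQ_surjective S x
    rfl
  rw [hW, hQ] at hmul
  rw [hmul] at hdet
  rcases mul_neg_iff.1 hdet with ⟨-, h2⟩ | ⟨h1, -⟩
  · have hlt : finrank ℝ (M ⧸ S) < n := by
      have h3 := Submodule.finrank_quotient_add_finrank W
      have h4 : finrank ℝ (M ⧸ S) = finrank ℝ (M ⧸ W) :=
        (Submodule.Quotient.restrictScalarsEquiv ℝ S).finrank_eq.symm
      have h5 : 0 < finrank ℝ W := by
        have : Nontrivial W := by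
          have := hsimple.nontrivial
          exact this
        exact finrank_pos
      omega
    have : FiniteDimensional ℝ (M ⧸ S) :=
      Module.Finite.equiv (Submodule.Quotient.restrictScalarsEquiv ℝ S)
    exact ih _ hlt (M ⧸ S) rfl g h2
  · obtain ⟨I, hI, ⟨e⟩⟩ := isSimpleModule_iff_quot_maximal.1 hsimple
    let _ : Field (A ⧸ I) := Ideal.Quotient.field I
    have : FiniteDimensional ℝ S := inferInstanceAs (FiniteDimensional ℝ W)
    have : FiniteDimensional ℝ (A ⧸ I) := Module.Finite.equiv (e.restrictScalars ℝ)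
    have h3 : LinearMap.det (Algebra.lsmul ℝ ℝ S g) =
        Algebra.norm ℝ (Ideal.Quotient.mk I g) := by
      rw [← LinearMap.det_conj _ (e.restrictScalars ℝ), Algebra.norm_apply]
      congr 1
      refine LinearMap.ext fun x => ?_
      obtain ⟨y, rfl⟩ := e.surjective x
      change e (g • e.symm (e y)) = Ideal.Quotient.mk I g * e y
      rw [e.symm_apply_apply, e.map_smul]
      rfl
    rw [h3] at h1
    obtain ⟨ψ, hψ⟩ := field_exists_neg _ h1
    exact ⟨ψ.comp (Ideal.Quotient.mkₐ ℝ I), hψ⟩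

/-- **(S1)** If the norm of `g` is negative then `g` is negative at some real point (no
reducedness needed). -/
theorem exists_neg_of_norm_neg [FiniteDimensional ℝ A] (g : A) (h : Algebra.norm ℝ g < 0) :
    ∃ φ : A →ₐ[ℝ] ℝ, φ g < 0 :=
  exists_neg_module _ A rfl g h

/-- **(S3)** If `Tr(M_g) = tau (g J)` for all `g`, `J` a unit, then the algebra is reduced,
provided `tau` is nondegenerate. -/
theorem isReduced_of_trace {k B : Type*} [Field k] [CommRing B] [Algebra k B]
    (tau : B →ₗ[k] k) (J : B) (hJ : IsUnit J)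
    (htr : ∀ g, Algebra.trace k B g = tau (g * J))
    (hnd : ∀ g, (∀ u, tau (g * u) = 0) → g = 0) : IsReduced B := by
  refine ⟨fun g hg => ?_⟩
  apply hnd
  intro u
  obtain ⟨j, rfl⟩ := hJ
  have h1 : IsNilpotent (g * (u * (↑j⁻¹ : B))) := (Commute.all _ _).isNilpotent_mul_right hg
  have h2 : Algebra.trace k B (g * (u * (↑j⁻¹ : B))) = 0 := by
    rw [Algebra.trace_apply]
    exact (LinearMap.isNilpotent_trace_of_isNilpotent (h1.map (Algebra.lmul k B))).eq_zero
  rw [htr] at h2
  rw [← h2]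
  congr 1
  rw [mul_assoc, mul_assoc, Units.inv_mul, mul_one]

end Main

section MvPoly

open MvPolynomial

variable {σ ι : Type*} (F : ι → MvPolynomial σ ℝ)

/-- A common zero in an `ℝ`-algebra gives a hom from the quotient algebra. -/
noncomputable def homOfZero {B : Type*} [CommRing B] [Algebra ℝ B] (a : σ → B)
    (ha : ∀ i, aeval a (F i) = 0) :
    (MvPolynomial σ ℝ ⧸ Ideal.span (Set.range F)) →ₐ[ℝ] B :=
  Ideal.Quotient.liftₐ _ (aeval a) (by
    intro f hf
    have : Ideal.span (Set.range F) ≤ RingHom.ker (aeval a : MvPolynomial σ ℝ →ₐ[ℝ] B) := by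
      rw [Ideal.span_le]
      rintro _ ⟨i, rfl⟩
      exact ha i
    exact this hf)

theorem homOfZero_mk {B : Type*} [CommRing B] [Algebra ℝ B] (a : σ → B)
    (ha : ∀ i, aeval a (F i) = 0) (g : MvPolynomial σ ℝ) :
    homOfZero F a ha (Ideal.Quotient.mk _ g) = aeval a g := rfl

/-- Every hom from the quotient algebra comes from a common zero. -/
theorem exists_zero_of_hom {B : Type*} [CommRing B] [Algebra ℝ B]
    (φ : (MvPolynomial σ ℝ ⧸ Ideal.span (Set.range F)) →ₐ[ℝ] B) :
    ∃ a : σ → B, (∀ i, aeval a (F i) = 0) ∧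
      ∀ g, φ (Ideal.Quotient.mk _ g) = aeval a g := by
  have h : ∀ g, φ (Ideal.Quotient.mk _ g) =
      aeval (fun s => φ (Ideal.Quotient.mk _ (X s))) g := fun g => by
    have : φ.comp (Ideal.Quotient.mkₐ ℝ (Ideal.span (Set.range F))) =
        aeval (fun s => φ (Ideal.Quotient.mk _ (X s))) := by
      ext s
      simp
    exact congrArg (fun f : MvPolynomial σ ℝ →ₐ[ℝ] B => f g) this
  refine ⟨_, fun i => ?_, h⟩
  rw [← h, (Ideal.Quotient.eq_zero_iff_mem (I := Ideal.span (Set.range F))).2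
    (Ideal.subset_span ⟨i, rfl⟩), map_zero]

/-- **(S1) for polynomial systems.** -/
theorem exists_zero_of_norm_neg
    [FiniteDimensional ℝ (MvPolynomial σ ℝ ⧸ Ideal.span (Set.range F))] (g : MvPolynomial σ ℝ)
    (h : Algebra.norm ℝ (Ideal.Quotient.mk (Ideal.span (Set.range F)) g) < 0) :
    ∃ a : σ → ℝ, (∀ i, eval a (F i) = 0) ∧ eval a g < 0 := by
  obtain ⟨φ, hφ⟩ := exists_neg_of_norm_neg _ h
  obtain ⟨a, ha, hg⟩ := exists_zero_of_hom F φ
  refine ⟨a, fun i => ?_, ?_⟩
  · simpa [MvPolynomial.aeval_eq_eval] using ha i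
  · rw [hg] at hφ
    simpa [MvPolynomial.aeval_eq_eval] using hφ

/-- **(S2) for polynomial systems.** -/
theorem norm_neg_of_existsUnique_zero
    [FiniteDimensional ℝ (MvPolynomial σ ℝ ⧸ Ideal.span (Set.range F))]
    [IsReduced (MvPolynomial σ ℝ ⧸ Ideal.span (Set.range F))] (g : MvPolynomial σ ℝ)
    (hg : ∀ z : σ → ℂ, (∀ i, aeval z (F i) = 0) → aeval z g ≠ 0)
    (h : ∃! a : σ → ℝ, (∀ i, eval a (F i) = 0) ∧ eval a g < 0) :
    Algebra.norm ℝ (Ideal.Quotient.mk (Ideal.span (Set.range F)) g) < 0 := by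
  apply norm_neg_of_existsUnique
  · intro φ
    obtain ⟨z, hz, hgz⟩ := exists_zero_of_hom F φ
    rw [hgz]
    exact hg z hz
  · obtain ⟨a, ⟨ha, hga⟩, hu⟩ := h
    have ha' : ∀ i, aeval a (F i) = 0 := fun i => by
      simpa [MvPolynomial.aeval_eq_eval] using ha i
    refine ⟨homOfZero F a ha', ?_, ?_⟩
    · change homOfZero F a ha' (Ideal.Quotient.mk _ g) < 0
      rw [homOfZero_mk]
      simpa [MvPolynomial.aeval_eq_eval] using hga
    · intro φ hφ
      obtain ⟨b, hb, hgb⟩ := exists_zero_of_hom F φ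
      have hba : b = a := by
        apply hu
        refine ⟨fun i => by simpa [MvPolynomial.aeval_eq_eval] using hb i, ?_⟩
        have : φ (Ideal.Quotient.mk _ g) < 0 := hφ
        rw [hgb] at this
        simpa [MvPolynomial.aeval_eq_eval] using this
      subst hba
      refine AlgHom.ext fun x => ?_
      obtain ⟨y, rfl⟩ := Ideal.Quotient.mk_surjective x
      rw [hgb, homOfZero_mk]

end MvPoly

section Sys

open MvPolynomial Vale.Agent.P337

variable {N m : ℕ} {f : Fin N → MvPolynomial (Fin N) ℝ}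

theorem det_mulLeft_eq_norm {k B : Type*} [Field k] [CommRing B] [Algebra k B] (g : B) :
    LinearMap.det (LinearMap.mulLeft k g) = Algebra.norm k g := by
  rw [Algebra.norm_apply]
  congr 1

/-- **(S1) for the systems of the skeleton**: a negative determinant gives a real zero of the
system at which `g` is negative. -/
theorem exists_zero_of_det_neg [FiniteDimensional ℝ (SysA m f)] (g : MvPolynomial (Fin N) ℝ)
    (h : LinearMap.det (LinearMap.mulLeft ℝ (cls m f g)) < 0) :
    ∃ a : Fin N → ℝ, (∀ i, eval a (sysF m f i) = 0) ∧ eval a g < 0 := by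
  rw [det_mulLeft_eq_norm] at h
  have : FiniteDimensional ℝ (MvPolynomial (Fin N) ℝ ⧸ Ideal.span (Set.range (sysF m f))) :=
    inferInstanceAs (FiniteDimensional ℝ (SysA m f))
  exact exists_zero_of_norm_neg (sysF m f) g h

/-- **(S2) for the systems of the skeleton**: the algebra is reduced, `g` vanishes at no complex
zero of the system and is negative at exactly one real zero: then the determinant is negative. -/
theorem det_neg_of_existsUnique [FiniteDimensional ℝ (SysA m f)] [IsReduced (SysA m f)]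
    (g : MvPolynomial (Fin N) ℝ)
    (hg : ∀ z : Fin N → ℂ, (∀ i, aeval z (sysF m f i) = 0) → aeval z g ≠ 0)
    (h : ∃! a : Fin N → ℝ, (∀ i, eval a (sysF m f i) = 0) ∧ eval a g < 0) :
    LinearMap.det (LinearMap.mulLeft ℝ (cls m f g)) < 0 := by
  rw [det_mulLeft_eq_norm]
  have : FiniteDimensional ℝ (MvPolynomial (Fin N) ℝ ⧸ Ideal.span (Set.range (sysF m f))) :=
    inferInstanceAs (FiniteDimensional ℝ (SysA m f))
  have : IsReduced (MvPolynomial (Fin N) ℝ ⧸ Ideal.span (Set.range (sysF m f))) :=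
    inferInstanceAs (IsReduced (SysA m f))
  exact norm_neg_of_existsUnique_zero (sysF m f) g hg h

/-- **(S3) for the systems of the skeleton**, from the trace formula and the duality. -/
theorem isReduced_sysA {k : Type*} [Field k] {f : Fin N → MvPolynomial (Fin N) k}
    [FiniteDimensional k (SysA m f)] (T : SysA m f →ₗ[k] k)
    (hJ : LinearMap.det (LinearMap.mulLeft k (cls m f (jac m f))) ≠ 0)
    (htr : ∀ g : SysA m f, LinearMap.trace k (SysA m f) (LinearMap.mulLeft k g) =
      T (g * cls m f (jac m f)))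
    (hnd : ∀ g : SysA m f, (∀ u, T (g * u) = 0) → g = 0) : IsReduced (SysA m f) := by
  refine isReduced_of_trace T (cls m f (jac m f)) ?_ (fun g => ?_) hnd
  · have hu : IsUnit (LinearMap.det (LinearMap.mulLeft k (cls m f (jac m f)))) :=
      isUnit_iff_ne_zero.2 hJ
    obtain ⟨x, hx⟩ := (LinearMap.equivOfIsUnitDet hu).surjective (1 : SysA m f)
    have hx' : cls m f (jac m f) * x = 1 := by simpa using hx
    exact IsUnit.of_mul_eq_one x hx'
  · rw [← htr, Algebra.trace_apply]
    congr 1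

end Sys

end Vale.Agent.P337.SignDet
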