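import Vale.Agent.P337.Signs

/-!
P337, rows S1 and S2 of the skeleton: see `Signs.lean` (`exists_real_zero`, `det_neg`).
-/
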