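import Vale.Agent.P337.SignDet
import Vale.Agent.P337.Trace
import Vale.Agent.P337.Zeros
import Vale.Agent.P337.Dual

/-!
# P337: [S1], [S2] in the form of the skeleton
-/

namespace Vale.Agent.P337

open MvPolynomial

variable {N : ℕ}

/-- [S1] soundness -/
theorem exists_real_zero {m : ℕ} (hm : 0 < m) {fs : Fin N → MvPolynomial (Fin N) ℝ}
    (hf : ∀ i, (fs i).totalDegree < m) (g : MvPolynomial (Fin N) ℝ)
    (h : LinearMap.det (LinearMap.mulLeft ℝ (cls m fs g)) < 0) :
    ∃ α : Fin N → ℝ, (∀ i, eval α (sysF m fs i) = 0) ∧ eval α g < 0 := by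
  have := sysA_finite hm hf
  exact SignDet.exists_zero_of_det_neg g h

theorem sysA_isReduced {m : ℕ} (hm : 0 < m) {fs : Fin N → MvPolynomial (Fin N) ℝ}
    (hf : ∀ i, (fs i).totalDegree < m)
    (hJ : ∀ α : Fin N → ℂ, (∀ i, aeval α (sysF m fs i) = 0) → aeval α (jac m fs) ≠ 0) :
    IsReduced (SysA m fs) := by
  have := sysA_finite hm hf
  obtain ⟨T, hT⟩ := exists_resL hm hf
  have hs : Function.Surjective (Ideal.Quotient.mk (sysI m fs)) := Ideal.Quotient.mk_surjective
  refine SignDet.isReduced_sysA T ?_ ?_ ?_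
  · rw [SignDet.det_mulLeft_eq_norm]
    rw [SignDet.norm_ne_zero_iff_isUnit, SignDet.isUnit_iff_complex]
    intro φ
    obtain ⟨a, ha, hag⟩ := exists_zero_of_algHom φ
    rw [hag]
    exact hJ a ha
  · intro g
    obtain ⟨g', rfl⟩ := hs g
    have h1 := trace_eq hm hf g' (E := g'.totalDegree + N * (m - 1)) le_rfl
    rw [show (Ideal.Quotient.mk (sysI m fs)) g' = cls m fs g' from rfl, h1]
    rw [← map_mul]
    symm
    apply hT
    exact le_trans (totalDegree_mul _ _) (Nat.add_le_add_left (jac_totalDegree hm hf) _)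
  · intro g hg
    obtain ⟨g', rfl⟩ := hs g
    obtain ⟨s, v, hdeg, hdual, -⟩ := exists_dual hm hf
    have h1 := hdual g' (g'.totalDegree + N * (m - 1)) le_rfl
    change cls m fs g' = 0
    rw [h1]
    apply Finset.sum_eq_zero
    intro a ha
    have h2 : tau m (g'.totalDegree + N * (m - 1)) fs (g' * monomial a 1) = 0 := by
      rw [← hT (g' * monomial a 1)]
      · have := hg (cls m fs (monomial a 1))
        rw [← map_mul] at this
        exact this
      · refine le_trans (totalDegree_mul _ _) (Nat.add_le_add_left ?_ _)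
        exact le_trans (totalDegree_monomial_le _ _) (hdeg a ha)
    rw [h2]
    simp

/-- [S2] completeness -/
theorem det_neg {m : ℕ} (hm : 0 < m) {fs : Fin N → MvPolynomial (Fin N) ℝ}
    (hf : ∀ i, (fs i).totalDegree < m) (g : MvPolynomial (Fin N) ℝ)
    (hJ : ∀ α : Fin N → ℂ, (∀ i, aeval α (sysF m fs i) = 0) → aeval α (jac m fs) ≠ 0)
    (hg : ∀ α : Fin N → ℂ, (∀ i, aeval α (sysF m fs i) = 0) → aeval α g ≠ 0)
    (h1 : ∃! α : Fin N → ℝ, (∀ i, eval α (sysF m fs i) = 0) ∧ eval α g < 0) :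
    LinearMap.det (LinearMap.mulLeft ℝ (cls m fs g)) < 0 := by
  have := sysA_finite hm hf
  have := sysA_isReduced hm hf hJ
  exact SignDet.det_neg_of_existsUnique g hg h1

end Vale.Agent.P337
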