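import Vale.Agent.P337.Sys
import Vale.Agent.P337.Defs

/-!
# P337 skeleton, part R: real zeros, signs, sizes, the main mathematical theorem
-/

namespace Vale.Agent.P337.SkelR

open MvPolynomial Vale.Agent.P337

variable {N : ℕ}

/-! ## [E] eigenvalues -/

/-- [E1] `ehJ g D = D! det (M_g)` -/
theorem ehJ_det {k : Type*} [Field k] [CharZero k] {m E : ℕ} (hm : 0 < m)
    {fs : Fin N → MvPolynomial (Fin N) k} (hf : ∀ i, (fs i).totalDegree < m)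
    (g : MvPolynomial (Fin N) k) (hE : m ^ N * g.totalDegree + N * (m - 1) ≤ E) :
    ehJ m E fs g (m ^ N) =
      ((m ^ N).factorial : k) * LinearMap.det (LinearMap.mulLeft k (cls m fs g)) := sorry

/-- [E2] values at zeros are roots of the characteristic polynomial -/
theorem char_root {k : Type*} [Field k] [CharZero k] {m E : ℕ} (hm : 0 < m)
    {fs : Fin N → MvPolynomial (Fin N) k} (hf : ∀ i, (fs i).totalDegree < m)
    (g : MvPolynomial (Fin N) k) (hE : m ^ N * g.totalDegree + N * (m - 1) ≤ E)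
    (α : Fin N → k) (hα : ∀ i, eval α (sysF m fs i) = 0) :
    ∑ r ∈ Finset.range (m ^ N + 1), (-1) ^ r * (((m ^ N).factorial / r.factorial : ℕ) : k) *
      ehJ m E fs g r * eval α g ^ (m ^ N - r) = 0 := sorry

/-- [E3] `w_{i,r}(u)` is a derivative of the characteristic polynomial of `x_i` -/
theorem wU_eval {m E : ℕ} (hm : 0 < m) {fs : Fin N → MvPolynomial (Fin N) ℝ}
    (hf : ∀ i, (fs i).totalDegree < m) [Module.Finite ℝ (SysA m fs)] (i : Fin N) {r : ℕ} (hr : r ≤ m ^ N)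
    (hE : m ^ N + N * (m - 1) ≤ E) (u : ℝ) :
    ((m ^ N - r).factorial : ℝ) * (wU m E fs i r).eval u = ((m ^ N).factorial : ℝ) *
      (Polynomial.derivative^[m ^ N - r]
        (LinearMap.mulLeft ℝ (cls m fs (X i))).charpoly).eval u := sorry

/-! ## [S] signs -/

/-- [S1] soundness -/
theorem exists_real_zero {m : ℕ} (hm : 0 < m) {fs : Fin N → MvPolynomial (Fin N) ℝ}
    (hf : ∀ i, (fs i).totalDegree < m) (g : MvPolynomial (Fin N) ℝ)
    (h : LinearMap.det (LinearMap.mulLeft ℝ (cls m fs g)) < 0) :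
    ∃ α : Fin N → ℝ, (∀ i, eval α (sysF m fs i) = 0) ∧ eval α g < 0 := sorry

/-- [S2] completeness -/
theorem det_neg {m : ℕ} (hm : 0 < m) {fs : Fin N → MvPolynomial (Fin N) ℝ}
    (hf : ∀ i, (fs i).totalDegree < m) (g : MvPolynomial (Fin N) ℝ)
    (hJ : ∀ α : Fin N → ℂ, (∀ i, aeval α (sysF m fs i) = 0) → aeval α (jac m fs) ≠ 0)
    (hg : ∀ α : Fin N → ℂ, (∀ i, aeval α (sysF m fs i) = 0) → aeval α g ≠ 0)
    (h1 : ∃! α : Fin N → ℝ, (∀ i, eval α (sysF m fs i) = 0) ∧ eval α g < 0) :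
    LinearMap.det (LinearMap.mulLeft ℝ (cls m fs g)) < 0 := sorry

/-- [S2'] the number of complex zeros is at most `m ^ N` -/
theorem card_zeros {m : ℕ} (hm : 0 < m) {fs : Fin N → MvPolynomial (Fin N) ℂ}
    (hf : ∀ i, (fs i).totalDegree < m) :
    {α : Fin N → ℂ | ∀ i, eval α (sysF m fs i) = 0}.Finite ∧
      {α : Fin N → ℂ | ∀ i, eval α (sysF m fs i) = 0}.ncard ≤ m ^ N := sorry

/-- [S3] some small `c` makes all zeros simple -/
theorem exists_c (m : ℕ) (f : MvPolynomial (Fin N) ℤ) (hf : f.totalDegree < m) (hm : 1 < m)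
    (K : ℕ) : ∃ c ≤ m ^ N * (N * m * (m ^ N + 1)), ∀ α : Fin N → ℂ,
      (∀ i, aeval α (sysF m (fK f (K : ℤ) (c : ℤ)) i) = 0) →
        aeval α (jac m (fK f (K : ℤ) (c : ℤ))) ≠ 0 := sorry

/-! ## [N] norms -/

/-- a submultiplicative size function -/
structure Nrm (R : Type*) [CommRing R] where
  ν : R → ℝ
  zero' : ν 0 = 0
  one' : ν 1 ≤ 1
  nn : ∀ x, 0 ≤ ν x
  neg' : ∀ x, ν (-x) = ν x
  add' : ∀ x y, ν (x + y) ≤ ν x + ν y
  mul' : ∀ x y, ν (x * y) ≤ ν x * ν y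

/-- the absolute value on `ℤ` -/
noncomputable def Nrm.int : Nrm ℤ where
  ν x := |(x : ℝ)|
  zero' := by simp
  one' := by simp
  nn _ := abs_nonneg _
  neg' x := by simp
  add' x y := by push_cast; exact abs_add_le _ _
  mul' x y := by push_cast; rw [abs_mul]

/-- the sum of the sizes of the coefficients -/
noncomputable def Nrm.mv {R : Type*} [CommRing R] (n : Nrm R) (σ : Type*) :
    Nrm (MvPolynomial σ R) where
  ν f := ∑ a ∈ f.support, n.ν (coeff a f)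
  zero' := by simp
  one' := sorry
  nn f := Finset.sum_nonneg fun _ _ => n.nn _
  neg' f := sorry
  add' f g := sorry
  mul' f g := sorry

/-- the sum of the sizes of the coefficients -/
noncomputable def Nrm.poly {R : Type*} [CommRing R] (n : Nrm R) : Nrm (Polynomial R) where
  ν f := ∑ a ∈ f.support, n.ν (f.coeff a)
  zero' := by simp
  one' := sorry
  nn f := Finset.sum_nonneg fun _ _ => n.nn _
  neg' f := sorry
  add' f g := sorry
  mul' f g := sorry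

/-- [N1] -/
theorem tau_nrm {R : Type*} [CommRing R] (n : Nrm R) (m E : ℕ)
    (fs : Fin N → MvPolynomial (Fin N) R) (g : MvPolynomial (Fin N) R) (φ : ℝ) (h1 : 1 ≤ φ)
    (hφ : ∀ i, (n.mv (Fin N)).ν (fs i) ≤ φ) :
    n.ν (tau m E fs g) ≤ (E + 1) ^ N * (n.mv (Fin N)).ν g * φ ^ (N * E) := sorry

/-- [N2] -/
theorem jac_nrm {R : Type*} [CommRing R] (n : Nrm R) {m : ℕ} (hm : 0 < m)
    (fs : Fin N → MvPolynomial (Fin N) R) (hf : ∀ i, (fs i).totalDegree < m) (φ : ℝ) (h1 : 1 ≤ φ)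
    (hφ : ∀ i, (n.mv (Fin N)).ν (fs i) ≤ φ) :
    (n.mv (Fin N)).ν (jac m fs) ≤ N.factorial * (2 * m * φ) ^ N := sorry

/-- [N3] size of `ehJ`; here `E₀` is any number `≥ D deg g + N (m - 1)` -/
theorem ehJ_nrm {R : Type*} [CommRing R] (n : Nrm R) {m E E₀ : ℕ} (hm : 0 < m)
    (fs : Fin N → MvPolynomial (Fin N) R) (hf : ∀ i, (fs i).totalDegree < m) (φ : ℝ) (h1 : 1 ≤ φ)
    (hφ : ∀ i, (n.mv (Fin N)).ν (fs i) ≤ φ) (g : MvPolynomial (Fin N) R)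
    (hE₀ : m ^ N * g.totalDegree + N * (m - 1) ≤ E₀) (hE : E₀ ≤ E) (Λ : ℝ) (hΛ : 1 ≤ Λ)
    (hg : (n.mv (Fin N)).ν g ≤ Λ) (a : ℕ)
    (ha : (E₀ + 1) ^ N * (N.factorial * (2 * m * φ) ^ N) * φ ^ (N * E₀) ≤ a) {r : ℕ}
    (hr : r ≤ m ^ N) :
    n.ν (ehJ m E fs g r) ≤ (a + m ^ N : ℝ) ^ (m ^ N) * Λ ^ (m ^ N) := sorry

/-! ## [G] the gap theorem -/

/-- [G] -/
theorem gap : ∃ C : ℕ, ∀ (L N m : ℕ) (f : MvPolynomial (Fin N) ℤ), N ≤ L → m ≤ L → Odd m →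
    f.totalDegree < m → norm1 f ≤ 2 ^ L → (∀ x : Fin N → ℝ, 0 ≤ aeval x f) →
    ∀ B : ℕ, 2 ^ (L + 2) ^ C ≤ B → ∀ c ≤ B,
      ((∃ x : Fin N → ℝ, aeval x f = 0) ↔
        ∃ α : Fin N → ℝ, (∀ i, aeval α (sysF m (fK f (2 ^ B ^ 2) (c : ℤ)) i) = 0) ∧
          aeval α (Hp m f (2 ^ B ^ 2) (c : ℤ)) < (2 : ℝ) ^ B) := sorry

/-! ## [V] sizes at real zeros -/

/-- [V1] real zeros are bounded -/
theorem zero_bound {m : ℕ} (hm : 0 < m) (fs : Fin N → MvPolynomial (Fin N) ℤ)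
    (hf : ∀ i, (fs i).totalDegree < m) (φ : ℝ) (h1 : 1 ≤ φ)
    (hφ : ∀ i, (Nrm.int.mv (Fin N)).ν (fs i) ≤ φ) (α : Fin N → ℝ)
    (hα : ∀ i, aeval α (sysF m fs i) = 0) (i : Fin N) : |α i| ≤ φ := sorry

/-- [V2] values of a polynomial -/
theorem value_bound (g : MvPolynomial (Fin N) ℤ) (φ : ℝ) (h1 : 1 ≤ φ) (α : Fin N → ℝ)
    (hα : ∀ i, |α i| ≤ φ) : |aeval α g| ≤ (Nrm.int.mv (Fin N)).ν g * φ ^ g.totalDegree := sorry

/-- [V3] a nonzero value at a real zero is not too small -/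
theorem value_lower {m E : ℕ} (hm : 0 < m) (fs : Fin N → MvPolynomial (Fin N) ℤ)
    (hf : ∀ i, (fs i).totalDegree < m) (g : MvPolynomial (Fin N) ℤ)
    (hE : m ^ N * g.totalDegree + N * (m - 1) ≤ E) (α : Fin N → ℝ)
    (hα : ∀ i, aeval α (sysF m fs i) = 0) (hg : aeval α g ≠ 0) (A : ℝ)
    (hA : ∀ r ≤ m ^ N, |((ehJ m E fs g r : ℤ) : ℝ)| ≤ A) :
    1 ≤ (m ^ N + 1) * (m ^ N).factorial * A * |aeval α g| := sorry

/-! ## [F] from formulas to polynomials -/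

/-- `(F⁺, F⁻)` of a formula in the variables `x_i = z_{2i}`, `y_j = z_{2j+1}`; `a` = number of
atoms used so far.  The value is `((F⁺, F⁻), a')`. -/
noncomputable def FF {R : Type} [CommRing R] (z : ℕ → R) : Form → ℕ → (R × R) × ℕ
  | .zero p, a =>
    let v : R := polyEval (fun i => z (2 * i)) p
    ((v ^ 2, (v * z (2 * a + 1) - 1) ^ 2), a + 1)
  | .pos p, a =>
    let v : R := polyEval (fun i => z (2 * i)) p
    (((v * z (2 * a + 1) ^ 2 - 1) ^ 2, (v + z (2 * a + 1) ^ 2) ^ 2), a + 1)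
  | .and φ ψ, a =>
    let u : (R × R) × ℕ := FF z φ a
    let v : (R × R) × ℕ := FF z ψ u.2
    ((u.1.1 + v.1.1, u.1.2 * v.1.2), v.2)
  | .or φ ψ, a =>
    let u : (R × R) × ℕ := FF z φ a
    let v : (R × R) × ℕ := FF z ψ u.2
    ((u.1.1 * v.1.1, u.1.2 + v.1.2), v.2)
  | .not φ, a =>
    let u : (R × R) × ℕ := FF z φ a
    ((u.1.2, u.1.1), u.2)

/-- The polynomial `f` of a formula, in `N` variables (variables with index `≥ N` do not occur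
when `N ≥ 2 |toks|`). -/
noncomputable def fPoly (N : ℕ) (φ : Form) : MvPolynomial (Fin N) ℤ :=
  (FF (fun i => if h : i < N then (X ⟨i, h⟩ : MvPolynomial (Fin N) ℤ) else 0) φ 0).1.1

/-- [F1] -/
theorem fPoly_nonneg (N : ℕ) (φ : Form) (x : Fin N → ℝ) : 0 ≤ aeval x (fPoly N φ) := sorry

/-- [F2] -/
theorem fPoly_zero {N : ℕ} (φ : Form) (hN : 2 * φ.toks.length ≤ N) :
    (∃ x : Fin N → ℝ, aeval x (fPoly N φ) = 0) ↔ ∃ x : ℕ → ℝ, φ.Holds x := sorry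

/-- [F3] -/
theorem fPoly_degree (N : ℕ) (φ : Form) : (fPoly N φ).totalDegree ≤ 6 * φ.toks.length := sorry

/-- [F4] -/
theorem fPoly_norm (N : ℕ) (φ : Form) : norm1 (fPoly N φ) ≤ 2 ^ (8 * φ.toks.length) := sorry

/-! ## [M] the main mathematical theorem -/

theorem main_math : ∃ C : ℕ, ∀ (L N m : ℕ) [NeZero N] (f : MvPolynomial (Fin N) ℤ), N ≤ L →
    m ≤ L → Odd m → 1 < m → f.totalDegree < m → norm1 f ≤ 2 ^ L →
    (∀ x : Fin N → ℝ, 0 ≤ aeval x f) → ∀ B : ℕ, 2 ^ (L + 2) ^ C ≤ B →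
      ((∃ c k cc j : ℕ, c ≤ B ∧ k ≤ B ∧ j ≤ m ^ N ∧ XX m (B ^ 12) B f c k cc j < 0) →
        ∃ x : Fin N → ℝ, aeval x f = 0) ∧
      ((∃ x : Fin N → ℝ, aeval x f = 0) →
        ∃ c ≤ B, ∃ k ≤ N * m, ∃ cc < (4 * N * (m ^ N + 1)) ^ (N * m + 1), ∃ j ≤ m ^ N,
          XX m (B ^ 12) B f c k cc j < 0) ∧
      (∀ c ≤ B, ∀ k ≤ B, ∀ cc j, j ≤ m ^ N → |XX m (B ^ 12) B f c k cc j| < 2 ^ B ^ 20) := sorry

end Vale.Agent.P337.SkelR
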