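import Vale.Agent.P337.Sys
import Vale.Agent.P337.SkelR

/-!
# P337 skeleton, part M: the main mathematical theorem, with explicit sizes

`D = m ^ N`, `Z = D + 2 ^ L + 10`, `Z ^ 100 ≤ B`, `N ≤ L`, `m ≤ L`, `‖f‖₁ ≤ 2 ^ L`.
-/

namespace Vale.Agent.P337.SkelM

open MvPolynomial Vale.Agent.P337 Vale.Agent.P337.SkelR

/-- the standing hypotheses -/
structure Std {N : ℕ} (L m : ℕ) (f : MvPolynomial (Fin N) ℤ) (B : ℕ) : Prop where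
  N0 : 0 < N
  NL : N ≤ L
  mL : m ≤ L
  odd : Odd m
  m1 : 1 < m
  deg : f.totalDegree < m
  nrm : norm1 f ≤ 2 ^ L
  nn : ∀ x : Fin N → ℝ, 0 ≤ aeval x f
  hB : (m ^ N + 2 ^ L + 10) ^ 100 ≤ B

/-- [M0] -/
theorem exists_C : ∃ C : ℕ, ∀ L N m : ℕ, N ≤ L → m ≤ L →
    (m ^ N + 2 ^ L + 10) ^ 100 ≤ 2 ^ (L + 2) ^ C := sorry

variable {N : ℕ} {L m : ℕ} {f : MvPolynomial (Fin N) ℤ} {B : ℕ}

/-- [G] the gap theorem (replaces `SkelR.gap`) -/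
theorem gap (h : Std L m f B) {c : ℕ} (hc : c ≤ B) : (∃ x : Fin N → ℝ, aeval x f = 0) ↔
    ∃ α : Fin N → ℝ, (∀ i, aeval α (sysF m (fK f (2 ^ B ^ 2) (c : ℤ)) i) = 0) ∧
      aeval α (Hp m f (2 ^ B ^ 2) (c : ℤ)) < (2 : ℝ) ^ B := sorry

/-- [M-a] degrees -/
theorem fK_deg (h : Std L m f B) (K c : ℤ) (i : Fin N) : (fK f K c i).totalDegree < m := sorry

theorem wP_deg {E : ℕ} (fs : Fin N → MvPolynomial (Fin N) ℤ) (hE : m ^ N + N * (m - 1) ≤ E)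
    (hm : 0 < m) (hf : ∀ i, (fs i).totalDegree < m) (i : Fin N) (r : ℕ) (hr : r ≤ m ^ N) :
    (wP m E fs i r).totalDegree ≤ m ^ N := sorry

theorem tP_deg [NeZero N] (h : Std L m f B) {c cc s : ℕ} (hc : c ≤ B) :
    (tP m (B ^ 12) B f c cc s).totalDegree ≤ m ^ N + 1 := sorry

theorem gP_deg [NeZero N] (h : Std L m f B) {c k cc j : ℕ} (hc : c ≤ B) (hk : k ≤ B) :
    (gP m (B ^ 12) B f c k cc j).totalDegree ≤ B ^ 9 := sorry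

/-- [M-b] sizes of coefficients -/
theorem fK_nrm (h : Std L m f B) {c : ℕ} (hc : c ≤ B) (i : Fin N) :
    (Nrm.int.mv (Fin N)).ν (fK f (2 ^ B ^ 2) (c : ℤ) i) ≤ 2 ^ (B ^ 2 + B) := sorry

theorem tP_nrm [NeZero N] (h : Std L m f B) {c cc s : ℕ} (hc : c ≤ B) :
    (Nrm.int.mv (Fin N)).ν (tP m (B ^ 12) B f c cc s) ≤ 2 ^ B ^ 6 := sorry

theorem gP_nrm [NeZero N] (h : Std L m f B) {c k cc j : ℕ} (hc : c ≤ B) (hk : k ≤ B)
    (hj : j ≤ m ^ N) : (Nrm.int.mv (Fin N)).ν (gP m (B ^ 12) B f c k cc j) ≤ 2 ^ B ^ 16 := sorry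

/-- [M-c] values of the conditions at real zeros -/
theorem tP_val [NeZero N] (h : Std L m f B) {c cc s : ℕ} (hc : c ≤ B) (α : Fin N → ℝ)
    (hα : ∀ i, aeval α (sysF m (fK f (2 ^ B ^ 2) (c : ℤ)) i) = 0) :
    1 ≤ |aeval α (tP m (B ^ 12) B f c cc s)| ∧
      |aeval α (tP m (B ^ 12) B f c cc s)| ≤ 2 ^ B ^ 6 := sorry

/-- [M-d] the sign of `t_0` -/
theorem tP_zero_iff [NeZero N] (h : Std L m f B) {c cc : ℕ} (hc : c ≤ B) (α : Fin N → ℝ)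
    (hα : ∀ i, aeval α (sysF m (fK f (2 ^ B ^ 2) (c : ℤ)) i) = 0) :
    0 < aeval α (tP m (B ^ 12) B f c cc 0) ↔
      aeval α (Hp m f (2 ^ B ^ 2) (c : ℤ)) < (2 : ℝ) ^ B := sorry

/-- [M-e] isolation: if some real zero has `H < 2 ^ B`, then some list of at most `N m`
conditions is satisfied by exactly one real zero with `H < 2 ^ B` -/
theorem isolate [NeZero N] (h : Std L m f B) {c : ℕ} (hc : c ≤ B)
    (hex : ∃ α : Fin N → ℝ, (∀ i, aeval α (sysF m (fK f (2 ^ B ^ 2) (c : ℤ)) i) = 0) ∧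
      aeval α (Hp m f (2 ^ B ^ 2) (c : ℤ)) < (2 : ℝ) ^ B) :
    ∃ k ≤ N * m, ∃ cc < (4 * N * (m ^ N + 1)) ^ (N * m + 1),
      ∃! α : Fin N → ℝ, (∀ i, aeval α (sysF m (fK f (2 ^ B ^ 2) (c : ℤ)) i) = 0) ∧
        ∀ s ∈ Finset.range (k + 1), 0 < aeval α (tP m (B ^ 12) B f c cc s) := sorry

/-- [M1] soundness -/
theorem sound [NeZero N] (h : Std L m f B) {c k cc j : ℕ} (hc : c ≤ B) (hk : k ≤ B)
    (hj : j ≤ m ^ N) (hX : XX m (B ^ 12) B f c k cc j < 0) :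
    ∃ x : Fin N → ℝ, aeval x f = 0 := sorry

/-- [M2] completeness -/
theorem complete [NeZero N] (h : Std L m f B) (hx : ∃ x : Fin N → ℝ, aeval x f = 0) :
    ∃ c ≤ B, ∃ k ≤ N * m, ∃ cc < (4 * N * (m ^ N + 1)) ^ (N * m + 1), ∃ j ≤ m ^ N,
      XX m (B ^ 12) B f c k cc j < 0 := sorry

/-- [M3] size of `XX` -/
theorem XX_bound [NeZero N] (h : Std L m f B) {c k cc j : ℕ} (hc : c ≤ B) (hk : k ≤ B)
    (hj : j ≤ m ^ N) : |XX m (B ^ 12) B f c k cc j| < 2 ^ B ^ 20 := sorry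

/-- [M4] naturality: `XX` over `ZMod p` -/
theorem XX_map [NeZero N] {R S : Type*} [CommRing R] [CommRing S] (φ : R →+* S)
    (f : MvPolynomial (Fin N) R) (m E B c k cc j : ℕ) :
    XX m E B (map φ f) c k cc j = φ (XX m E B f c k cc j) := sorry

end Vale.Agent.P337.SkelM
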