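import Vale.Agent.P337.Alg

/-!
# P337 skeleton, part T: trace formula, characteristic polynomials, reduction mod p
-/

namespace Vale.Agent.P337.SkelT

open MvPolynomial Vale.Agent.P337

/-! ## [T1] the residue functional -/
section T1
variable {R : Type*} [CommRing R] {N : ℕ}

/-- [T1a] independence of the box -/
theorem tau_indep {m E E' : ℕ} (hm : 0 < m) {f : Fin N → MvPolynomial (Fin N) R}
    (hf : ∀ i, (f i).totalDegree < m) {g : MvPolynomial (Fin N) R}
    (hE : g.totalDegree ≤ E) (hE' : g.totalDegree ≤ E') : tau m E f g = tau m E' f g := sorry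

/-- [T1b] linearity -/
theorem tau_add (m E : ℕ) (f : Fin N → MvPolynomial (Fin N) R) (g g' : MvPolynomial (Fin N) R) :
    tau m E f (g + g') = tau m E f g + tau m E f g' := sorry

theorem tau_C_mul (m E : ℕ) (f : Fin N → MvPolynomial (Fin N) R) (a : R)
    (g : MvPolynomial (Fin N) R) : tau m E f (C a * g) = a * tau m E f g := sorry

/-- [T1c] `τ` vanishes on the ideal (telescoping) -/
theorem tau_sysF {m E : ℕ} (hm : 0 < m) {f : Fin N → MvPolynomial (Fin N) R}
    (hf : ∀ i, (f i).totalDegree < m) {g : MvPolynomial (Fin N) R} (j : Fin N)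
    (hE : g.totalDegree + m ≤ E) : tau m E f (g * sysF m f j) = 0 := sorry

/-- [T1d] `τ` kills polynomials of degree `< N (m - 1)` -/
theorem tau_low {m E : ℕ} (hm : 0 < m) {f : Fin N → MvPolynomial (Fin N) R}
    (hf : ∀ i, (f i).totalDegree < m) {g : MvPolynomial (Fin N) R}
    (hg : g.totalDegree < N * (m - 1)) : tau m E f g = 0 := sorry

/-- [T1e] `τ (∏ x_i ^ (m - 1)) = 1` -/
theorem tau_top {m E : ℕ} (hm : 0 < m) {f : Fin N → MvPolynomial (Fin N) R}
    (hf : ∀ i, (f i).totalDegree < m) : tau m E f (∏ i : Fin N, X i ^ (m - 1)) = 1 := sorry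

/-- [T1f] `τ` kills every other monomial of degree `N (m - 1)` -/
theorem tau_mono {m E : ℕ} (hm : 0 < m) {f : Fin N → MvPolynomial (Fin N) R}
    (hf : ∀ i, (f i).totalDegree < m) (a : Fin N →₀ ℕ) (ha : a.sum (fun _ e => e) ≤ N * (m - 1))
    (ha' : ∃ i, a i ≠ m - 1) : tau m E f (monomial a 1) = 0 := sorry

/-- [T1g] change of rings -/
theorem tau_map {S : Type*} [CommRing S] (φ : R →+* S) (m E : ℕ)
    (f : Fin N → MvPolynomial (Fin N) R) (g : MvPolynomial (Fin N) R) :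
    tau m E (fun i => map φ (f i)) (map φ g) = φ (tau m E f g) := sorry

theorem jac_map {S : Type*} [CommRing S] (φ : R →+* S) (m : ℕ)
    (f : Fin N → MvPolynomial (Fin N) R) : jac m (fun i => map φ (f i)) = map φ (jac m f) := sorry

theorem jac_totalDegree {m : ℕ} (hm : 0 < m) {f : Fin N → MvPolynomial (Fin N) R}
    (hf : ∀ i, (f i).totalDegree < m) : (jac m f).totalDegree ≤ N * (m - 1) := sorry

/-- [T1h] `τ(J) = m ^ N` -/
theorem tau_jac {m E : ℕ} (hm : 0 < m) {f : Fin N → MvPolynomial (Fin N) R}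
    (hf : ∀ i, (f i).totalDegree < m) : tau m E f (jac m f) = (m : R) ^ N := sorry

end T1

/-! ## [T2] the Bezoutian -/
section T2
variable {R : Type*} [CommRing R] {N : ℕ}

/-- [T2a] difference quotients; variables `inl i` = `x_i`, `inr i` = `y_i` -/
theorem exists_diff (g : MvPolynomial (Fin N) R) :
    ∃ δ : Fin N → MvPolynomial (Fin N ⊕ Fin N) R,
      rename Sum.inl g - rename Sum.inr g = ∑ j, δ j * (X (Sum.inl j) - X (Sum.inr j)) ∧
      (∀ j, (δ j).totalDegree ≤ g.totalDegree - 1) ∧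
      ∀ j, aeval (Sum.elim X X) (δ j) = pderiv j g := sorry

/-- [T2b] the Bezoutian of the system: a finite sum `∑ u_c ⊗ v_c` with
`∑ u_c v_c ≡ J`, which is annihilated by `x_j ⊗ 1 - 1 ⊗ x_j` in `A ⊗ A`, and
`∑ τ(u_c) v_c ≡ 1`.  Consequence: `g ≡ ∑ τ(g u_c) v_c` for all `g`. -/
theorem exists_dual {m : ℕ} (hm : 0 < m) {f : Fin N → MvPolynomial (Fin N) R}
    (hf : ∀ i, (f i).totalDegree < m) :
    ∃ (s : Finset (Fin N →₀ ℕ)) (v : (Fin N →₀ ℕ) → MvPolynomial (Fin N) R),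
      (∀ a ∈ s, a.sum (fun _ e => e) ≤ N * (m - 1)) ∧
      (∀ (g : MvPolynomial (Fin N) R) (E : ℕ), g.totalDegree + N * (m - 1) ≤ E →
        cls m f g = ∑ a ∈ s, algebraMap R (SysA m f) (tau m E f (g * monomial a 1)) *
          cls m f (v a)) ∧
      cls m f (∑ a ∈ s, monomial a 1 * v a) = cls m f (jac m f) := sorry

end T2

/-! ## [T3] trace formula over a field -/
section T3
variable {k : Type*} [Field k] {N : ℕ}

/-- [T3a] -/
theorem sysA_finite {m : ℕ} (hm : 0 < m) {f : Fin N → MvPolynomial (Fin N) k}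
    (hf : ∀ i, (f i).totalDegree < m) : Module.Finite k (SysA m f) := sorry

/-- [T3b] the trace formula -/
theorem trace_eq {m : ℕ} (hm : 0 < m) {f : Fin N → MvPolynomial (Fin N) k}
    (hf : ∀ i, (f i).totalDegree < m) (g : MvPolynomial (Fin N) k) {E : ℕ}
    (hE : g.totalDegree + N * (m - 1) ≤ E) :
    LinearMap.trace k (SysA m f) (LinearMap.mulLeft k (cls m f g)) = tau m E f (g * jac m f) :=
  sorry

/-- [T3c] -/
theorem finrank_eq [CharZero k] {m : ℕ} (hm : 0 < m) {f : Fin N → MvPolynomial (Fin N) k}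
    (hf : ∀ i, (f i).totalDegree < m) : Module.finrank k (SysA m f) = m ^ N := sorry

end T3

/-! ## [T4] Newton's identities -/
section T4

/-- [T4a] -/
theorem eh_family {R ι : Type*} [CommRing R] [Fintype ι] (a : ι → R) (r : ℕ) :
    eh (fun l => ∑ i, a i ^ l) r = (r.factorial : R) * (Finset.univ.val.map a).esymm r := sorry

theorem eh_map {R S : Type*} [CommRing R] [CommRing S] (φ : R →+* S) (s : ℕ → R) (r : ℕ) :
    eh (fun l => φ (s l)) r = φ (eh s r) := sorry

/-- `eh s r` depends only on `s 1, ..., s r` -/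
theorem eh_congr {R : Type*} [CommRing R] {s s' : ℕ → R} {r : ℕ}
    (h : ∀ l, 1 ≤ l → l ≤ r → s l = s' l) : eh s r = eh s' r := sorry

/-- [T4b] coefficients of the characteristic polynomial -/
theorem charpoly_coeff {k V : Type*} [Field k] [CharZero k] [AddCommGroup V] [Module k V]
    [Module.Finite k V] (M : V →ₗ[k] V) {r : ℕ} (hr : r ≤ Module.finrank k V) :
    eh (fun l => LinearMap.trace k V (M ^ l)) r =
      (-1) ^ r * (r.factorial : k) * M.charpoly.coeff (Module.finrank k V - r) := sorry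

/-- [T4c] determinant -/
theorem eh_det {k V : Type*} [Field k] [CharZero k] [AddCommGroup V] [Module k V]
    [Module.Finite k V] (M : V →ₗ[k] V) :
    eh (fun l => LinearMap.trace k V (M ^ l)) (Module.finrank k V) =
      ((Module.finrank k V).factorial : k) * LinearMap.det M := sorry

/-- [T4d] derivatives of the characteristic polynomial -/
theorem eh_derivative {k V : Type*} [Field k] [CharZero k] [AddCommGroup V] [Module k V]
    [Module.Finite k V] (M : V →ₗ[k] V) (u : k) {r : ℕ} (hr : r ≤ Module.finrank k V) :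
    ((Module.finrank k V - r).factorial : k) *
      eh (fun l => LinearMap.trace k V ((algebraMap k (Module.End k V) u - M) ^ l)) r =
      (r.factorial : k) *
        (Polynomial.derivative^[Module.finrank k V - r] M.charpoly).eval u := sorry

/-- [T4e] a bound: `|s_l| ≤ a Λ^l` for `1 ≤ l ≤ r` implies `|eh s r| ≤ a(a+1)...(a+r-1) Λ^r` -/
theorem eh_bound {R : Type*} [CommRing R] (ν : R → ℝ) (h0 : ν 0 = 0) (h1 : ν 1 ≤ 1)
    (hnn : ∀ x, 0 ≤ ν x) (hneg : ∀ x, ν (-x) = ν x) (hadd : ∀ x y, ν (x + y) ≤ ν x + ν y)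
    (hmul : ∀ x y, ν (x * y) ≤ ν x * ν y) (s : ℕ → R) (a : ℕ) (Λ : ℝ) (hΛ : 0 ≤ Λ) (r : ℕ)
    (hs : ∀ l, 1 ≤ l → l ≤ r → ν (s l) ≤ a * Λ ^ l) :
    ν (eh s r) ≤ (a.ascFactorial r : ℝ) * Λ ^ r := sorry

/-- [T4f] the closed form in `𝔽_p`: for `r ≤ D`, `D ^ 2 + 1 < p`,
`eh s r = - r! ∑_{t ≠ 0} t^{-r} ∑_{a ≤ D} (1/a!) (∑_{1 ≤ l ≤ D} (-1)^{l-1} s_l t^l / l)^a` -/
theorem eh_closed {p : ℕ} [Fact p.Prime] {D : ℕ} (hp : D ^ 2 + 1 < p) (s : ℕ → ZMod p) {r : ℕ}
    (hr : r ≤ D) :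
    eh s r = -(r.factorial : ZMod p) * ∑ t : (ZMod p)ˣ, ((t⁻¹ : (ZMod p)ˣ) : ZMod p) ^ r *
      ∑ a ∈ Finset.range (D + 1), ((a.factorial : ZMod p))⁻¹ *
        (∑ l ∈ Finset.Icc 1 D, (-1) ^ (l - 1) * s l * (t : ZMod p) ^ l * ((l : ZMod p))⁻¹) ^ a :=
  sorry

end T4

/-! ## [T5] coefficient extraction mod p -/
section T5
variable {p : ℕ} [Fact p.Prime] {N : ℕ}

/-- [T5a] -/
theorem coeff_extract (Q : MvPolynomial (Fin N) (ZMod p)) (a : Fin N →₀ ℕ)
    (hQ : Q.totalDegree < p - 1) (ha : ∀ i, a i < p - 1) :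
    coeff a Q = (-1) ^ N * ∑ x : Fin N → (ZMod p)ˣ,
      eval (fun i => (x i : ZMod p)) Q * ∏ i, (((x i)⁻¹ : (ZMod p)ˣ) : ZMod p) ^ a i := sorry

/-- [T5b] `τ` mod `p` -/
theorem tau_modp {m E : ℕ} (hm : 0 < m) {f : Fin N → MvPolynomial (Fin N) (ZMod p)}
    (hf : ∀ i, (f i).totalDegree < m) (g : MvPolynomial (Fin N) (ZMod p))
    (hE : g.totalDegree ≤ E) (hp : m * N * (E + 2) + E + 2 < p) :
    tau m E f g = (-1) ^ N * ∑ x : Fin N → (ZMod p)ˣ,
      eval (fun i => (x i : ZMod p)) g *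
        ∏ i, ((((x i)⁻¹ : (ZMod p)ˣ) : ZMod p) ^ (m - 1) *
          ∑ k ∈ Finset.range (E + 1), (eval (fun i => (x i : ZMod p)) (f i) *
            (((x i)⁻¹ : (ZMod p)ˣ) : ZMod p) ^ m) ^ k) := sorry

/-- [T5c] first derivatives mod `p` -/
theorem pderiv_modp (h2 : 2 < p) (Q : MvPolynomial (Fin N) (ZMod p)) (hQ : Q.totalDegree < p - 1)
    (i : Fin N)
    (x : Fin N → ZMod p) :
    eval x (pderiv i Q) = -∑ u : (ZMod p)ˣ,
      eval (Function.update x i (x i + u)) Q * ((u⁻¹ : (ZMod p)ˣ) : ZMod p) := sorry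

/-- [T5d] determinant as a sum over all maps (product of signs) -/
theorem det_maps {R : Type*} [CommRing R] (A : Matrix (Fin N) (Fin N) R) :
    A.det = ∑ π : Fin N → Fin N,
      (∏ i, ∏ j, if i < j then (if π i < π j then (1 : R) else if π j < π i then -1 else 0) else 1) *
        ∏ i, A (π i) i := sorry

end T5

end Vale.Agent.P337.SkelT
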