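import Vale.Agent.P337.Sys
import Vale.Agent.P337.TauMap
import Vale.Agent.P337.Newton

/-!
# P337, piece [M4]: naturality of `fK`, `Hp`, `ehJ`, `wU`, `wP`, `condP`, `tP`, `gP`, `XX`
-/

namespace Vale.Agent.P337

open MvPolynomial

variable {N : ℕ} {R S : Type*} [CommRing R] [CommRing S]

theorem fK_map (φ : R →+* S) (f : MvPolynomial (Fin N) R) (K c : R) (i : Fin N) :
    fK (map φ f) (φ K) (φ c) i = map φ (fK f K c i) := by
  simp [fK, pderiv_map]

theorem Hp_map (φ : R →+* S) (m : ℕ) (f : MvPolynomial (Fin N) R) (K c : R) :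
    Hp m (map φ f) (φ K) (φ c) = map φ (Hp m f K c) := by
  simp [Hp]

theorem ehJ_map' (φ : R →+* S) (m E : ℕ) (fs : Fin N → MvPolynomial (Fin N) R)
    (g : MvPolynomial (Fin N) R) (r : ℕ) :
    ehJ m E (fun i => map φ (fs i)) (map φ g) r = φ (ehJ m E fs g r) := by
  unfold ehJ
  rw [← eh_map]
  congr 1
  funext l
  rw [jac_map, ← map_pow, ← map_mul, tau_map]

theorem wU_map (φ : R →+* S) (m E : ℕ) (fs : Fin N → MvPolynomial (Fin N) R) (i : Fin N) (r : ℕ) :
    wU m E (fun j => map φ (fs j)) i r = Polynomial.map φ (wU m E fs i r) := by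
  unfold wU
  rw [Polynomial.map_mul, Polynomial.map_C]
  congr 1
  · simp
  · have h := ehJ_map' (Polynomial.mapRingHom φ) m E (fun j => map Polynomial.C (fs j))
      (C Polynomial.X - X i) r
    rw [Polynomial.coe_mapRingHom] at h
    rw [← h]
    congr 1
    · funext j
      have hh : (Polynomial.C).comp φ = (Polynomial.mapRingHom φ).comp Polynomial.C :=
        RingHom.ext fun a => by simp
      rw [map_map, map_map, hh]
    · simp

theorem wP_map (φ : R →+* S) (m E : ℕ) (fs : Fin N → MvPolynomial (Fin N) R) (i : Fin N) (r : ℕ) :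
    wP m E (fun j => map φ (fs j)) i r = map φ (wP m E fs i r) := by
  unfold wP
  rw [wU_map]
  rw [Polynomial.aeval_def, Polynomial.aeval_def, Polynomial.eval₂_map, Polynomial.hom_eval₂]
  congr 1
  · ext a
    simp [algebraMap_eq]
  · simp

theorem sgn_map (φ : R →+* S) (b : ℕ) : φ (sgn b) = sgn b := by
  unfold sgn
  split_ifs <;> simp

theorem condP_map [NeZero N] (φ : R →+* S) (m E B : ℕ) (fs : Fin N → MvPolynomial (Fin N) R)
    (e : ℕ) : condP m E B (fun j => map φ (fs j)) e = map φ (condP m E B fs e) := by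
  unfold condP
  simp [wP_map, sgn_map, map_ofNat]

theorem tP_map [NeZero N] (φ : R →+* S) (m E B : ℕ) (f : MvPolynomial (Fin N) R) (c cc s : ℕ) :
    tP m E B (map φ f) c cc s = map φ (tP m E B f c cc s) := by
  have hK : (2 ^ B ^ 2 : S) = φ (2 ^ B ^ 2) := by simp [map_ofNat]
  have hc : (c : S) = φ c := by simp
  unfold tP
  split_ifs
  · rw [hK, hc, Hp_map]
    simp [map_ofNat]
  · have : fK (map φ f) (2 ^ B ^ 2) (c : S) = fun j => map φ (fK f (2 ^ B ^ 2) (c : R) j) := by
      funext j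
      rw [hK, hc, fK_map]
    rw [this, condP_map]

theorem gP_map [NeZero N] (φ : R →+* S) (m E B : ℕ) (f : MvPolynomial (Fin N) R) (c k cc j : ℕ) :
    gP m E B (map φ f) c k cc j = map φ (gP m E B f c k cc j) := by
  unfold gP
  have : tP m E B (map φ f) c cc = fun s => map φ (tP m E B f c cc s) := by
    funext s
    exact tP_map φ m E B f c cc s
  rw [this, ← map_gg (map φ)]
  simp [map_ofNat]

/-- [M4] -/
theorem XX_map [NeZero N] (φ : R →+* S) (f : MvPolynomial (Fin N) R) (m E B c k cc j : ℕ) :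
    XX m E B (map φ f) c k cc j = φ (XX m E B f c k cc j) := by
  unfold XX
  have hK : (2 ^ B ^ 2 : S) = φ (2 ^ B ^ 2) := by simp [map_ofNat]
  have hc : (c : S) = φ c := by simp
  have : fK (map φ f) (2 ^ B ^ 2) (c : S) = fun j => map φ (fK f (2 ^ B ^ 2) (c : R) j) := by
    funext j
    rw [hK, hc, fK_map]
  rw [this, gP_map, ehJ_map']

end Vale.Agent.P337
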