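import Vale.Agent.P337.StubM
import Vale.Agent.P337.Deg
import Vale.Agent.P337.EhJ
import Vale.Agent.P337.GapFinal
import Vale.Agent.P337.Signs
import Vale.Agent.P337.XMap
import Vale.Agent.P337.SignDet

/-!
# P337, piece [M1]: soundness
-/

namespace Vale.Agent.P337

open MvPolynomial

variable {N : ℕ} {L m : ℕ} {f : MvPolynomial (Fin N) ℤ} {B : ℕ}

theorem aeval_real_map {σ : Type*} (α : σ → ℝ) (p : MvPolynomial σ ℤ) :
    aeval α p = eval α (map (Int.castRingHom ℝ) p) := by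
  rw [eval_map]
  rfl

theorem fK_cast (f : MvPolynomial (Fin N) ℤ) (B c : ℕ) (i : Fin N) :
    fK (map (Int.castRingHom ℝ) f) (2 ^ B ^ 2) (c : ℝ) i =
      map (Int.castRingHom ℝ) (fK f (2 ^ B ^ 2) (c : ℤ) i) := by
  rw [← fK_map]
  simp

theorem fK_cast' (f : MvPolynomial (Fin N) ℤ) (B c : ℕ) :
    fK (map (Int.castRingHom ℝ) f) (2 ^ B ^ 2) (c : ℝ) =
      fun i => map (Int.castRingHom ℝ) (fK f (2 ^ B ^ 2) (c : ℤ) i) :=
  funext fun i => fK_cast f B c i

theorem totalDegree_map_le' {σ R S : Type*} [CommRing R] [CommRing S] (φ : R →+* S)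
    (p : MvPolynomial σ R) : (map φ p).totalDegree ≤ p.totalDegree := by
  exact Finset.sup_mono (support_map_subset φ p)

theorem fK_real_deg (h : Std L m f B) (c : ℕ) (i : Fin N) :
    (fK (map (Int.castRingHom ℝ) f) (2 ^ B ^ 2) (c : ℝ) i).totalDegree < m := by
  rw [fK_cast]
  exact lt_of_le_of_lt (totalDegree_map_le' _ _) (fK_deg h _ _ i)

theorem Z_le (h : Std L m f B) : (m ^ N + 2 ^ L + 10) ^ 100 ≤ B := h.hB

theorem big (h : Std L m f B) : m ^ N * B ^ 9 + N * (m - 1) ≤ B ^ 12 := by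
  have hB := h.hB
  have h1 : m ^ N + 2 ^ L + 10 ≤ B := le_trans (Nat.le_self_pow (by norm_num) _) hB
  have h2 : N ≤ B := by
    have := h.NL
    have h3 : L < 2 ^ L := Nat.lt_two_pow_self
    omega
  have h4 : m ≤ B := by
    have := h.mL
    have h3 : L < 2 ^ L := Nat.lt_two_pow_self
    omega
  have h7 : 0 < 2 ^ L := by positivity
  have h5 : m ^ N ≤ B := by omega
  have h6 : 2 ≤ B := by omega
  calc m ^ N * B ^ 9 + N * (m - 1) ≤ B * B ^ 9 + B * B := by
        apply Nat.add_le_add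
        · exact Nat.mul_le_mul_right _ h5
        · exact Nat.mul_le_mul h2 (by omega)
    _ = B ^ 10 + B ^ 2 := by ring
    _ ≤ B ^ 10 + B ^ 10 := by
        apply Nat.add_le_add_left
        exact Nat.pow_le_pow_right (by omega) (by norm_num)
    _ = 2 * B ^ 10 := by ring
    _ ≤ B * B ^ 10 := Nat.mul_le_mul_right _ h6
    _ = B ^ 11 := by ring
    _ ≤ B ^ 12 := Nat.pow_le_pow_right (by omega) (by norm_num)

theorem XX_real [NeZero N] (h : Std L m f B) {c k cc j : ℕ} (hc : c ≤ B) (hk : k ≤ B) :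
    ((XX m (B ^ 12) B f c k cc j : ℤ) : ℝ) = ((m ^ N).factorial : ℝ) *
      LinearMap.det (LinearMap.mulLeft ℝ
        (cls m (fK (map (Int.castRingHom ℝ) f) (2 ^ B ^ 2) (c : ℝ))
          (gP m (B ^ 12) B (map (Int.castRingHom ℝ) f) c k cc j))) := by
  have h1 := XX_map (Int.castRingHom ℝ) f m (B ^ 12) B c k cc j
  rw [eq_intCast] at h1
  rw [← h1]
  unfold XX
  apply ehJ_det (by have := h.m1; omega)
  · exact fun i => fK_real_deg h c i
  · have h2 : (gP m (B ^ 12) B (map (Int.castRingHom ℝ) f) c k cc j).totalDegree ≤ B ^ 9 := by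
      rw [gP_map]
      exact le_trans (totalDegree_map_le' _ _) (gP_deg h hc hk)
    calc _ ≤ m ^ N * B ^ 9 + N * (m - 1) := by gcongr
      _ ≤ B ^ 12 := big h

/-- the value of `-G'` at a real point -/
theorem eval_gP [NeZero N] (m E B : ℕ) (f : MvPolynomial (Fin N) ℤ) (c k cc j : ℕ)
    (α : Fin N → ℝ) :
    eval α (gP m E B (map (Int.castRingHom ℝ) f) c k cc j) =
      -(4 * (((m ^ N : ℕ) : ℝ) + 1) * gg (B ^ 6) B (Finset.range (k + 1))
        (fun s => aeval α (tP m E B f c cc s)) + j) := by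
  unfold gP
  rw [map_neg, map_add, map_mul, map_gg (eval α), eval_C]
  have : (fun r => (eval α) (tP m E B (map (Int.castRingHom ℝ) f) c cc r)) =
      fun s => aeval α (tP m E B f c cc s) := by
    funext s
    rw [tP_map, aeval_real_map]
  rw [this, eval_C]
  push_cast
  ring

/-- zeros over `ℝ` in the two forms -/
theorem zero_iff (f : MvPolynomial (Fin N) ℤ) (m B c : ℕ) (α : Fin N → ℝ) :
    (∀ i, eval α (sysF m (fK (map (Int.castRingHom ℝ) f) (2 ^ B ^ 2) (c : ℝ)) i) = 0) ↔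
      ∀ i, aeval α (sysF m (fK f (2 ^ B ^ 2) (c : ℤ)) i) = 0 := by
  apply forall_congr'
  intro i
  rw [fK_cast', sysF_map, aeval_real_map]

theorem nine_pow (k : ℕ) : 4 * (k + 1) ≤ 9 ^ (k + 1) := by
  induction k with
  | zero => norm_num
  | succ k ih => rw [pow_succ]; omega

/-- [M1] soundness -/
theorem sound [NeZero N] (h : Std L m f B) {c k cc j : ℕ} (hc : c ≤ B) (hk : k ≤ B)
    (hj : j ≤ m ^ N) (hX : XX m (B ^ 12) B f c k cc j < 0) :
    ∃ x : Fin N → ℝ, aeval x f = 0 := by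
  have hm : 0 < m := by have := h.m1; omega
  have hX' : ((XX m (B ^ 12) B f c k cc j : ℤ) : ℝ) < 0 := by exact_mod_cast hX
  rw [XX_real h hc hk] at hX'
  have hdet : LinearMap.det (LinearMap.mulLeft ℝ
        (cls m (fK (map (Int.castRingHom ℝ) f) (2 ^ B ^ 2) (c : ℝ))
          (gP m (B ^ 12) B (map (Int.castRingHom ℝ) f) c k cc j))) < 0 := by
    by_contra hcon
    push Not at hcon
    have : (0 : ℝ) ≤ ((m ^ N).factorial : ℝ) := Nat.cast_nonneg _
    have := mul_nonneg this hcon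
    linarith
  obtain ⟨α, hα, hg⟩ := exists_real_zero hm (fun i => fK_real_deg h c i) _ hdet
  rw [zero_iff] at hα
  rw [eval_gP] at hg
  apply (gap h hc).2
  refine ⟨α, hα, ?_⟩
  rw [← tP_zero_iff h hc (cc := cc) α hα]
  by_contra hcon
  have hval := tP_val h hc (cc := cc) α hα (s := 0)
  have hneg : aeval α (tP m (B ^ 12) B f c cc 0) < 0 := by
    rcases lt_trichotomy (aeval α (tP m (B ^ 12) B f c cc 0)) 0 with h0 | h0 | h0
    · exact h0
    · rw [h0] at hval
      norm_num at hval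
    · exact absurd h0 hcon
  have hB1 : 1 ≤ B := by
    have := h.hB
    have h7 : 0 < 2 ^ L := by positivity
    have h1 : 1 ≤ (m ^ N + 2 ^ L + 10) ^ 100 := Nat.one_le_pow _ _ (by omega)
    omega
  have hgg := gg_neg (B ^ 6) B (Finset.range (k + 1))
    (fun s => aeval α (tP m (B ^ 12) B f c cc s)) hB1
    (fun r _ => tP_val h hc (cc := cc) α hα (s := r)) ⟨0, by simp, hneg⟩
  have := shift_neg (m ^ N) j hj hgg
  linarith

end Vale.Agent.P337
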