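import Vale.Agent.P337.Sys

/-!
# P337: the standing hypotheses of part M
-/

namespace Vale.Agent.P337

open MvPolynomial

/-- the standing hypotheses -/
structure Std {N : ℕ} (L m : ℕ) (f : MvPolynomial (Fin N) ℤ) (B : ℕ) : Prop where
  N0 : 0 < N
  NL : N ≤ L
  mL : m ≤ L
  odd : Odd m
  m1 : 1 < m
  deg : f.totalDegree < m
  nrm : norm1 f ≤ 2 ^ L
  nn : ∀ x : Fin N → ℝ, 0 ≤ aeval x f
  hB : (m ^ N + 2 ^ L + 10) ^ 100 ≤ B

namespace Std

variable {N : ℕ} {L m : ℕ} {f : MvPolynomial (Fin N) ℤ} {B : ℕ}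

theorem m0 (h : Std L m f B) : 0 < m := by have := h.m1; omega

theorem Z_le (h : Std L m f B) : m ^ N + 2 ^ L + 10 ≤ B :=
  (Nat.le_self_pow (by norm_num) _).trans h.hB

/-- `Z ^ n ≤ B` for `n ≤ 100` -/
theorem Zpow_le (h : Std L m f B) {n : ℕ} (hn : n ≤ 100) : (m ^ N + 2 ^ L + 10) ^ n ≤ B :=
  (Nat.pow_le_pow_right (Nat.succ_pos _) hn).trans h.hB

theorem B10 (h : Std L m f B) : 10 ^ 100 ≤ B :=
  (Nat.pow_le_pow_left (Nat.le_add_left 10 _) 100).trans h.hB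

theorem D_le (h : Std L m f B) : m ^ N ≤ B :=
  le_trans (by rw [add_assoc]; exact Nat.le_add_right _ _) h.Z_le

theorem m_le_D (h : Std L m f B) : m ≤ m ^ N := Nat.le_self_pow h.N0.ne' m

end Std

end Vale.Agent.P337
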