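import Vale.Agent.P337.StubJac
import Vale.Agent.P337.TauTop

/-!
# P337: `τ`, elementary symmetric functions and `ehJ` computed in the counting hierarchy
-/

namespace Vale.Agent.P337

open MvPolynomial

namespace TauAux

section
variable {α : Type} [Code α] {dom : α → Prop} {p N : α → ℕ}

theorem wk {v : ∀ a, ZMod (p a)} (hv : FZ dom p v) (P : α × ℕ → Prop) :
    FZ (fun y : α × ℕ => dom y.1 ∧ P y) (fun y => p y.1) (fun y => v y.1) :=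
  FZ.mono (fun _ h => h.1) (FZ.comp (f := fun y : α × ℕ => y.1) PTime.fst hv)

theorem PE_wk {g : ∀ a, MvPolynomial (Fin (N a)) (ZMod (p a))} (hg : PE dom p N g)
    (P : α × ℕ → Prop) :
    PE (fun y : α × ℕ => dom y.1 ∧ P y) (fun y => p y.1) (fun y => N y.1) (fun y => g y.1) :=
  PE.mono (fun _ h => h.1) (PE.comp (f := fun y : α × ℕ => y.1) PTime.fst hg)

theorem FE_wk [∀ a, NeZero (N a)]
    {fs : ∀ a, Fin (N a) → MvPolynomial (Fin (N a)) (ZMod (p a))}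
    (hf : FE dom p N fs) (P : α × ℕ → Prop) :
    FE (fun y : α × ℕ => dom y.1 ∧ P y) (fun y => p y.1) (fun y => N y.1) (fun y => fs y.1) := by
  have h1 : PTime fun z : (α × ℕ) × ℕ => (z.1.1, z.2) :=
    (PTime.fst.comp PTime.fst).pair PTime.snd
  exact PE.mono (fun _ h => ⟨h.1.1, h.2⟩) (PE.comp (f := fun z : (α × ℕ) × ℕ => (z.1.1, z.2)) h1 hf)

theorem FZ_one : FZ dom p fun a => (1 : ZMod (p a)) :=
  FZ.congr (fun a _ => by simp) (FZ.natCast (FCH.const 1))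

theorem FZ_zero : FZ dom p fun a => (0 : ZMod (p a)) :=
  FZ.congr (fun a _ => by simp) (FZ.natCast (FCH.const 0))

theorem FZ_negone (hΓ : LCtx dom p N) : FZ dom p fun a => (-1 : ZMod (p a)) :=
  FZ.neg hΓ FZ_one

end

end TauAux

open TauAux

section
variable {α β : Type} [Code α] [Code β] {dom : α → Prop} {p N : α → ℕ} [∀ a, NeZero (N a)]

/-- [S5a] (uses `tau_formula`) -/
theorem FZ.tau (hΓ : LCtx dom p N)
    {fs : ∀ a, Fin (N a) → MvPolynomial (Fin (N a)) (ZMod (p a))} (hf : FE dom p N fs)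
    {g : ∀ a, MvPolynomial (Fin (N a)) (ZMod (p a))} (hg : PE dom p N g) {m E : α → ℕ}
    (hm : FCH m) (hE : FCH E)
    (hd : ∀ a, dom a → 0 < m a ∧ (∀ i, (fs a i).totalDegree < m a) ∧
      (g a).totalDegree ≤ E a ∧ m a * N a * (E a + 2) + E a + 2 < p a) :
    FZ dom p fun a => tau (m a) (E a) (fs a) (g a) := by
  classical
  -- contexts
  have hΓ1 := hΓ.ext (fun y => y.2 < p y.1 ^ N y.1)
  have hΓ2 := hΓ1.ext (fun z => z.2 < N z.1.1)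
  have hΓ3 := hΓ2.ext (fun q => q.2 < E q.1.1.1 + 1)
  have ff : PTime fun z : (α × ℕ) × ℕ => z.1.1 := PTime.fst.comp PTime.fst
  have hp2 : FCH fun z : (α × ℕ) × ℕ => p z.1.1 := FCH_comp hΓ.fch_p ff
  have hm2 : FCH fun z : (α × ℕ) × ℕ => m z.1.1 := FCH_comp hm ff
  have hE2 : FCH fun z : (α × ℕ) × ℕ => E z.1.1 := FCH_comp hE ff
  have hN1 : FCH fun z : α × ℕ => N z.1 := FCH_comp hΓ.fch_N PTime.fst
  have hdig : FCH fun z : (α × ℕ) × ℕ => dig (p z.1.1) z.1.2 z.2 :=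
    FCH_dig hp2 (FCH.of_ptime (PTime.snd.comp PTime.fst)) FCH.snd
  have hD : FZ (fun z : (α × ℕ) × ℕ => (dom z.1.1 ∧ z.1.2 < p z.1.1 ^ N z.1.1) ∧ z.2 < N z.1.1)
      (fun z => p z.1.1) (fun z => (dig (p z.1.1) z.1.2 z.2 : ZMod (p z.1.1))) :=
    FZ.natCast hdig
  -- the values of the family
  have hperm : PTime fun z : (α × ℕ) × ℕ => ((z.1.1, z.2), z.1.2) :=
    ((PTime.fst.comp PTime.fst).pair PTime.snd).pair (PTime.snd.comp PTime.fst)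
  have hev : FZ (fun z : (α × ℕ) × ℕ => (dom z.1.1 ∧ z.1.2 < p z.1.1 ^ N z.1.1) ∧ z.2 < N z.1.1)
      (fun z => p z.1.1) (fun z => eval (pt (N z.1.1) (p z.1.1) z.1.2)
        (fs z.1.1 (Fin.ofNat (N z.1.1) z.2))) :=
    FZ.mono (fun _ h => ⟨h.1.1, h.2⟩)
      (FZ.comp (f := fun z : (α × ℕ) × ℕ => ((z.1.1, z.2), z.1.2)) hperm hf)
  have hbase : FZ (fun z : (α × ℕ) × ℕ => (dom z.1.1 ∧ z.1.2 < p z.1.1 ^ N z.1.1) ∧ z.2 < N z.1.1)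
      (fun z => p z.1.1) (fun z => eval (pt (N z.1.1) (p z.1.1) z.1.2)
        (fs z.1.1 (Fin.ofNat (N z.1.1) z.2)) *
          (dig (p z.1.1) z.1.2 z.2 : ZMod (p z.1.1))⁻¹ ^ m z.1.1) :=
    FZ.mul hev (FZ.pow hΓ2 (FZ.inv hΓ2 hD) hm2)
  have hsum : FZ (fun z : (α × ℕ) × ℕ => (dom z.1.1 ∧ z.1.2 < p z.1.1 ^ N z.1.1) ∧ z.2 < N z.1.1)
      (fun z => p z.1.1) (fun z => ∑ k ∈ Finset.range (E z.1.1 + 1),
        (eval (pt (N z.1.1) (p z.1.1) z.1.2) (fs z.1.1 (Fin.ofNat (N z.1.1) z.2)) *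
          (dig (p z.1.1) z.1.2 z.2 : ZMod (p z.1.1))⁻¹ ^ m z.1.1) ^ k) :=
    FZ.sum (p := fun z : (α × ℕ) × ℕ => p z.1.1) (b := fun z : (α × ℕ) × ℕ => E z.1.1 + 1)
      (hE2.add (FCH.const 1))
      (v := fun q : ((α × ℕ) × ℕ) × ℕ =>
        (eval (pt (N q.1.1.1) (p q.1.1.1) q.1.1.2) (fs q.1.1.1 (Fin.ofNat (N q.1.1.1) q.1.2)) *
          (dig (p q.1.1.1) q.1.1.2 q.1.2 : ZMod (p q.1.1.1))⁻¹ ^ m q.1.1.1) ^ q.2)
      (FZ.pow hΓ3 (wk hbase _) FCH.snd)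
  have hprod : FZ (fun y : α × ℕ => dom y.1 ∧ y.2 < p y.1 ^ N y.1)
      (fun y => p y.1) (fun y => ∏ i ∈ Finset.range (N y.1),
        ((dig (p y.1) y.2 i : ZMod (p y.1))⁻¹ ^ (m y.1 - 1) * ∑ k ∈ Finset.range (E y.1 + 1),
        (eval (pt (N y.1) (p y.1) y.2) (fs y.1 (Fin.ofNat (N y.1) i)) *
          (dig (p y.1) y.2 i : ZMod (p y.1))⁻¹ ^ m y.1) ^ k)) :=
    FZ.prod (p := fun y : α × ℕ => p y.1) hΓ1 (b := fun y : α × ℕ => N y.1) hN1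
      (v := fun z : (α × ℕ) × ℕ =>
        ((dig (p z.1.1) z.1.2 z.2 : ZMod (p z.1.1))⁻¹ ^ (m z.1.1 - 1) *
        ∑ k ∈ Finset.range (E z.1.1 + 1),
        (eval (pt (N z.1.1) (p z.1.1) z.1.2) (fs z.1.1 (Fin.ofNat (N z.1.1) z.2)) *
          (dig (p z.1.1) z.1.2 z.2 : ZMod (p z.1.1))⁻¹ ^ m z.1.1) ^ k))
      (FZ.mul (FZ.pow hΓ2 (FZ.inv hΓ2 hD) (hm2.sub (FCH.const 1))) hsum)
  have hprod0 : FZ (fun y : α × ℕ => dom y.1 ∧ y.2 < p y.1 ^ N y.1)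
      (fun y => p y.1) (fun y => ∏ i ∈ Finset.range (N y.1),
        (dig (p y.1) y.2 i : ZMod (p y.1))) :=
    FZ.prod (p := fun y : α × ℕ => p y.1) hΓ1 (b := fun y : α × ℕ => N y.1) hN1
      (v := fun z : (α × ℕ) × ℕ => (dig (p z.1.1) z.1.2 z.2 : ZMod (p z.1.1))) hD
  have hg1 : FZ (fun y : α × ℕ => dom y.1 ∧ y.2 < p y.1 ^ N y.1)
      (fun y => p y.1) (fun y => eval (pt (N y.1) (p y.1) y.2) (g y.1)) :=
    FZ.mono (fun _ h => h.1) hg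
  have hbody := FZ.ite_zero hΓ1 hprod0 FZ_zero (FZ.mul hg1 hprod)
  have hb : FCH fun a => p a ^ N a := FCH_pow hΓ.fch_p hΓ.fch_N hΓ.small
  have hall := FZ.mul (FZ.pow hΓ (FZ_negone hΓ) hΓ.fch_N)
    (FZ.sum (b := fun a => p a ^ N a) hb hbody)
  refine FZ.congr (fun a ha => ?_) hall
  obtain ⟨h0, h1, h2, h3⟩ := hd a ha
  have : Fact (p a).Prime := ⟨hΓ.prime a ha⟩
  rw [tau_formula h0 h1 (g a) h2 h3]
  congr 1
  refine Finset.sum_congr rfl fun n _ => ?_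
  have e1 : ∏ i ∈ Finset.range (N a), (dig (p a) n i : ZMod (p a)) = ∏ i, pt (N a) (p a) n i :=
    Finset.prod_range _
  have e2 : ∏ i ∈ Finset.range (N a),
        ((dig (p a) n i : ZMod (p a))⁻¹ ^ (m a - 1) * ∑ k ∈ Finset.range (E a + 1),
        (eval (pt (N a) (p a) n) (fs a (Fin.ofNat (N a) i)) *
          (dig (p a) n i : ZMod (p a))⁻¹ ^ m a) ^ k) =
      ∏ i, ((pt (N a) (p a) n i)⁻¹ ^ (m a - 1) *
          ∑ k ∈ Finset.range (E a + 1),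
            (eval (pt (N a) (p a) n) (fs a i) * (pt (N a) (p a) n i)⁻¹ ^ m a) ^ k) := by
    rw [Finset.prod_range]
    refine Finset.prod_congr rfl fun i _ => ?_
    rw [Fin.ofNat_val_eq_self]
    rfl
  simp only [e1, e2]

/-- [S5b] (uses `eh_formula`); the power sums are needed for `1 ≤ l ≤ D` only -/
theorem FZ.eh (hΓ : LCtx dom p N) {s : ∀ y : α × ℕ, ZMod (p y.1)} {D r : α → ℕ}
    (hs : FZ (fun y : α × ℕ => dom y.1 ∧ y.2 ≤ D y.1) (fun y => p y.1) s)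
    (hD : FCH D) (hr : FCH r) (hd : ∀ a, dom a → r a ≤ D a ∧ D a ^ 2 + 1 < p a) :
    FZ dom p fun a => eh (fun l => s (a, l)) (r a) := by
  classical
  have hΓ1 := hΓ.ext (fun y => y.2 < p y.1 - 1)
  have hΓ2 := hΓ1.ext (fun z => z.2 < D z.1.1)
  have hΓ3 := hΓ1.ext (fun z => z.2 < D z.1.1 + 1)
  have ff : PTime fun z : (α × ℕ) × ℕ => z.1.1 := PTime.fst.comp PTime.fst
  have fs' : FCH fun z : (α × ℕ) × ℕ => z.1.2 := FCH.of_ptime (PTime.snd.comp PTime.fst)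
  have hsucc : FCH fun z : (α × ℕ) × ℕ => z.2 + 1 := FCH.snd.add (FCH.const 1)
  have hperm : PTime fun z : (α × ℕ) × ℕ => (z.1.1, z.2 + 1) :=
    ff.pair (PTime.add PTime.snd (PTime.const 1))
  have hs2 : FZ (fun z : (α × ℕ) × ℕ => (dom z.1.1 ∧ z.1.2 < p z.1.1 - 1) ∧ z.2 < D z.1.1)
      (fun z => p z.1.1) (fun z => s (z.1.1, z.2 + 1)) :=
    FZ.mono (fun _ h => ⟨h.1.1, h.2⟩)
      (FZ.comp (f := fun z : (α × ℕ) × ℕ => (z.1.1, z.2 + 1)) hperm hs)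
  have hsum : FZ (fun y : α × ℕ => dom y.1 ∧ y.2 < p y.1 - 1) (fun y => p y.1)
      (fun y => ∑ l ∈ Finset.range (D y.1), (-1) ^ l * s (y.1, l + 1) *
        ((y.2 + 1 : ℕ) : ZMod (p y.1)) ^ (l + 1) * (((l + 1 : ℕ) : ZMod (p y.1)))⁻¹) :=
    FZ.sum (p := fun y : α × ℕ => p y.1) (b := fun y : α × ℕ => D y.1) (FCH_comp hD PTime.fst)
      (v := fun z : (α × ℕ) × ℕ => (-1) ^ z.2 * s (z.1.1, z.2 + 1) *
        ((z.1.2 + 1 : ℕ) : ZMod (p z.1.1)) ^ (z.2 + 1) * (((z.2 + 1 : ℕ) : ZMod (p z.1.1)))⁻¹)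
      (FZ.mul (FZ.mul (FZ.mul (FZ.pow hΓ2 (FZ_negone hΓ2) FCH.snd) hs2)
        (FZ.pow hΓ2 (FZ.natCast (fs'.add (FCH.const 1))) hsucc))
        (FZ.inv hΓ2 (FZ.natCast hsucc)))
  have hsum2 : FZ (fun y : α × ℕ => dom y.1 ∧ y.2 < p y.1 - 1) (fun y => p y.1)
      (fun y => ∑ k ∈ Finset.range (D y.1 + 1), ((k.factorial : ZMod (p y.1)))⁻¹ *
        (∑ l ∈ Finset.range (D y.1), (-1) ^ l * s (y.1, l + 1) *
        ((y.2 + 1 : ℕ) : ZMod (p y.1)) ^ (l + 1) * (((l + 1 : ℕ) : ZMod (p y.1)))⁻¹) ^ k) :=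
    FZ.sum (p := fun y : α × ℕ => p y.1) (b := fun y : α × ℕ => D y.1 + 1)
      ((FCH_comp hD PTime.fst).add (FCH.const 1))
      (v := fun z : (α × ℕ) × ℕ => ((z.2.factorial : ZMod (p z.1.1)))⁻¹ *
        (∑ l ∈ Finset.range (D z.1.1), (-1) ^ l * s (z.1.1, l + 1) *
        ((z.1.2 + 1 : ℕ) : ZMod (p z.1.1)) ^ (l + 1) *
          (((l + 1 : ℕ) : ZMod (p z.1.1)))⁻¹) ^ z.2)
      (FZ.mul (FZ.inv hΓ3 (FZ.factorial hΓ3 FCH.snd)) (FZ.pow hΓ3 (wk hsum _) FCH.snd))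
  have hr1 : FCH fun y : α × ℕ => r y.1 := FCH_comp hr PTime.fst
  have hall : FZ dom p (fun a => ∑ n ∈ Finset.range (p a - 1),
      (((n + 1 : ℕ) : ZMod (p a))⁻¹) ^ r a *
      ∑ k ∈ Finset.range (D a + 1), ((k.factorial : ZMod (p a)))⁻¹ *
        (∑ l ∈ Finset.range (D a), (-1) ^ l * s (a, l + 1) * ((n + 1 : ℕ) : ZMod (p a)) ^ (l + 1) *
          (((l + 1 : ℕ) : ZMod (p a)))⁻¹) ^ k) :=
    FZ.sum (p := p) (b := fun a => p a - 1) (hΓ.fch_p.sub (FCH.const 1))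
      (v := fun y : α × ℕ => (((y.2 + 1 : ℕ) : ZMod (p y.1))⁻¹) ^ r y.1 *
      ∑ k ∈ Finset.range (D y.1 + 1), ((k.factorial : ZMod (p y.1)))⁻¹ *
        (∑ l ∈ Finset.range (D y.1), (-1) ^ l * s (y.1, l + 1) *
          ((y.2 + 1 : ℕ) : ZMod (p y.1)) ^ (l + 1) *
          (((l + 1 : ℕ) : ZMod (p y.1)))⁻¹) ^ k)
      (FZ.mul (FZ.pow hΓ1 (FZ.inv hΓ1 (FZ.natCast (FCH.snd.add (FCH.const 1)))) hr1) hsum2)
  refine FZ.congr (fun a ha => ?_) (FZ.mul (FZ.neg hΓ (FZ.factorial hΓ hr)) hall)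
  obtain ⟨h1, h2⟩ := hd a ha
  have : Fact (p a).Prime := ⟨hΓ.prime a ha⟩
  exact (eh_formula h2 (fun l => s (a, l)) h1).symm

/-- [S5c] `ehJ` -/
theorem FZ.ehJ (hΓ : LCtx dom p N)
    {fs : ∀ a, Fin (N a) → MvPolynomial (Fin (N a)) (ZMod (p a))} (hf : FE dom p N fs)
    {g : ∀ a, MvPolynomial (Fin (N a)) (ZMod (p a))} (hg : PE dom p N g) {m E r : α → ℕ}
    (hm : FCH m) (hE : FCH E) (hr : FCH r)
    (hd : ∀ a, dom a → 0 < m a ∧ (∀ i, (fs a i).totalDegree < m a) ∧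
      m a ^ N a * (g a).totalDegree + N a * (m a - 1) ≤ E a ∧ r a ≤ m a ^ N a ∧
      m a * N a * (E a + 2) + E a + 2 < p a ∧ (m a ^ N a) ^ 2 + 1 < p a) :
    FZ dom p fun a => ehJ (m a) (E a) (fs a) (g a) (r a) := by
  have hD : FCH fun a => m a ^ N a := FCH_pow hm hΓ.fch_N hΓ.small
  have hm1 : FCH fun y : α × ℕ => m y.1 := FCH_comp hm PTime.fst
  have hE1 : FCH fun y : α × ℕ => E y.1 := FCH_comp hE PTime.fst
  have hΓ1 := hΓ.ext (fun y => y.2 ≤ m y.1 ^ N y.1)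
  have hjac : PE dom p N fun a => jac (m a) (fs a) := FE.jac hΓ hf hm fun a ha => by
    obtain ⟨h0, h1, h2, h3, h4, h5⟩ := hd a ha
    refine ⟨h0, h1, ?_⟩
    have hN : 0 < N a := Nat.pos_of_ne_zero (NeZero.ne _)
    have h6 : m a * 1 * 2 ≤ m a * N a * (E a + 2) :=
      Nat.mul_le_mul (Nat.mul_le_mul_left _ hN) (by omega)
    omega
  have hs : FZ (fun y : α × ℕ => dom y.1 ∧ y.2 ≤ m y.1 ^ N y.1) (fun y => p y.1)
      (fun y => Vale.Agent.P337.tau (m y.1) (E y.1) (fs y.1) (g y.1 ^ y.2 * jac (m y.1) (fs y.1))) := by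
    refine FZ.tau hΓ1 (FE_wk hf _) (PE.mul (PE.pow hΓ1 (PE_wk hg _) FCH.snd) (PE_wk hjac _))
      hm1 hE1 fun y hy => ?_
    obtain ⟨h0, h1, h2, h3, h4, h5⟩ := hd y.1 hy.1
    refine ⟨h0, h1, ?_, h4⟩
    refine (MvPolynomial.totalDegree_mul _ _).trans (le_trans ?_ h2)
    exact Nat.add_le_add ((MvPolynomial.totalDegree_pow _ _).trans
      (Nat.mul_le_mul_right _ hy.2)) (jac_totalDegree h0 h1)
  exact FZ.eh (p := p) (D := fun a => m a ^ N a) hΓ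
    (s := fun y : α × ℕ => Vale.Agent.P337.tau (m y.1) (E y.1) (fs y.1) (g y.1 ^ y.2 * jac (m y.1) (fs y.1)))
    hs hD hr fun a ha => ⟨(hd a ha).2.2.2.1, (hd a ha).2.2.2.2.2⟩

end

end Vale.Agent.P337
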