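import Vale.Agent.P337.EvF

/-!
# P337: the validity test is polynomial time
-/

namespace Vale.Agent.P337

/-- Number of a phase. -/
def Ph.num : Ph → ℕ
  | .idle => 1
  | .betw => 2
  | .dig => 3
  | .aft => 4
  | .tck => 5

/-- Number code of a state of the automaton. -/
def vnum : Option VSt → ℕ × ℕ
  | some (some (ph, h)) => (ph.num, h)
  | _ => (0, 0)

/-- equality with one of two blocks -/
def is2 (u v w : List Bool) : Bool := decide (u = v) || decide (u = w)

/-- The transition table on number codes. -/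
def vtab (u : List Bool) (ph h : ℕ) : ℕ × ℕ :=
  if decide (ph = 1) then
    if is2 u Tok.plus.bits Tok.minus.bits then (3, h) else
    if is2 u Tok.eq.bits Tok.gt.bits then (1, h + 1) else
    if is2 u Tok.and.bits Tok.or.bits && decide (2 ≤ h) then (1, h - 1) else
    if decide (u = Tok.not.bits) && decide (1 ≤ h) then (1, h) else (0, 0)
  else if decide (ph = 2) then
    if is2 u Tok.plus.bits Tok.minus.bits then (3, h) else
    if is2 u Tok.eq.bits Tok.gt.bits then (1, h + 1) else (0, 0)
  else if decide (ph = 3) then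
    if is2 u Tok.d0.bits Tok.d1.bits then (3, h) else
    if decide (u = Tok.tick.bits) then (5, h) else
    if decide (u = Tok.next.bits) then (4, h) else
    if decide (u = Tok.stop.bits) then (2, h) else (0, 0)
  else if decide (ph = 4) then
    if decide (u = Tok.tick.bits) then (5, h) else
    if decide (u = Tok.next.bits) then (4, h) else
    if decide (u = Tok.stop.bits) then (2, h) else (0, 0)
  else if decide (ph = 5) then
    if decide (u = Tok.tick.bits) then (5, h) else
    if decide (u = Tok.next.bits) then (4, h) else (0, 0)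
  else (0, 0)

theorem vtab_tok (k : Tok) (s : VSt) :
    vtab k.bits (vnum (some s)).1 (vnum (some s)).2 = vnum (some (vstep s k)) := by
  rcases s with _ | ⟨ph, h⟩
  · simp [vnum, vtab, vstep]
  · cases ph <;> cases k <;> (try (simp [vnum, vtab, vstep, Ph.num, is2, Tok.bits]; done))
    · rcases h with _ | _ | h <;> simp [vnum, vtab, vstep, Ph.num, is2, Tok.bits]
    · rcases h with _ | _ | h <;> simp [vnum, vtab, vstep, Ph.num, is2, Tok.bits]
    · rcases h with _ | h <;> simp [vnum, vtab, vstep, Ph.num, is2, Tok.bits]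

theorem vtab_none (u : List Bool) (hu : blockTok u = none) (ph h : ℕ) : vtab u ph h = (0, 0) := by
  have h0 : ∀ k : Tok, u ≠ k.bits := by
    rintro k rfl
    rw [blockTok_bits] at hu
    cases hu
  simp [vtab, is2, h0]

/-- One bit on number codes. -/
def vbstep (S : List Bool × ℕ × ℕ) (b : Bool) : List Bool × ℕ × ℕ :=
  if decide (S.1.length = 3) then ([], vtab (S.1 ++ [b]) S.2.1 S.2.2) else (S.1 ++ [b], S.2)

theorem vbstep_bstep (S : List Bool × Option VSt) (b : Bool) :
    vbstep (S.1, vnum S.2) b = ((bstep vstep S b).1, vnum (bstep vstep S b).2) := by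
  obtain ⟨u, o⟩ := S
  unfold vbstep bstep
  by_cases h : u.length = 3
  · simp only [h, decide_true, if_true]
    rcases hk : blockTok (u ++ [b]) with _ | k
    · rw [vtab_none _ hk]; rfl
    · rw [blockTok_eq_some hk]
      rcases o with _ | s
      · have := vtab_tok k none
        simp only [vnum] at this ⊢
        rw [this]
        cases k <;> rfl
      · rw [vtab_tok]
  · simp [h]

theorem vbstep_foldl (w : List Bool) (S : List Bool × Option VSt) :
    w.foldl vbstep (S.1, vnum S.2) =
      ((w.foldl (bstep vstep) S).1, vnum (w.foldl (bstep vstep) S).2) := by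
  induction w generalizing S with
  | nil => rfl
  | cons b w ih => rw [List.foldl_cons, List.foldl_cons, vbstep_bstep, ih]

theorem vnum_eq_iff (o : Option VSt) : vnum o = (1, 1) ↔ o = some (some (.idle, 1)) := by
  rcases o with _ | _ | ⟨ph, h⟩
  · simp [vnum]
  · simp [vnum]
  · cases ph <;> simp [vnum, Ph.num]

theorem validW_eq (w : List Bool) :
    validW w = decide (w.foldl vbstep ([], 1, 0) = ([], 1, 1)) := by
  unfold validW
  have h := vbstep_foldl w ([], some (some (.idle, 0)))
  have h0 : (([] : List Bool), vnum (some (some (Ph.idle, 0)))) = ([], 1, 0) := rfl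
  rw [h0] at h
  rw [h]
  apply decide_eq_decide.2
  constructor
  · intro h1
    rw [h1]
    rfl
  · intro h1
    rw [Prod.ext_iff] at h1
    exact Prod.ext h1.1 ((vnum_eq_iff _).1 h1.2)

section
variable {α : Type} [Code α]

theorem PTime.is2 {u : α → List Bool} (hu : PTime u) (v w : List Bool) :
    PTime fun a => is2 (u a) v w :=
  PTime.or (PTime.eq hu (PTime.const v)) (PTime.eq hu (PTime.const w))

theorem PTime.isC {u : α → List Bool} (hu : PTime u) (v : List Bool) :
    PTime fun a => decide (u a = v) := PTime.eq hu (PTime.const v)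

theorem PTime.phC {u : α → ℕ} (hu : PTime u) (v : ℕ) :
    PTime fun a => decide (u a = v) := PTime.eq hu (PTime.const v)

theorem PTime.vtab {u : α → List Bool} {ph h : α → ℕ} (hu : PTime u) (hph : PTime ph)
    (hh : PTime h) : PTime fun a => vtab (u a) (ph a) (h a) := by
  have hc : ∀ k : ℕ, PTime fun a => (k, h a) := fun k => (PTime.const k).pair hh
  have h00 : PTime fun _ : α => ((0, 0) : ℕ × ℕ) := PTime.const _
  have h1 : PTime fun a => (1, h a + 1) := (PTime.const 1).pair (PTime.add hh (PTime.const 1))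
  have h2 : PTime fun a => (1, h a - 1) := (PTime.const 1).pair (PTime.sub hh (PTime.const 1))
  have A4 : PTime fun a =>
      if decide (u a = Tok.next.bits) then ((4, h a) : ℕ × ℕ) else
      if decide (u a = Tok.stop.bits) then (2, h a) else (0, 0) :=
    PTime.ite (hu.isC _) (hc 4) (PTime.ite (hu.isC _) (hc 2) h00)
  exact
    PTime.ite (hph.phC 1)
      (PTime.ite (hu.is2 _ _) (hc 3) <| PTime.ite (hu.is2 _ _) h1 <|
        PTime.ite (PTime.and (hu.is2 _ _) (PTime.le (PTime.const 2) hh)) h2 <|
        PTime.ite (PTime.and (hu.isC _) (PTime.le (PTime.const 1) hh)) (hc 1) h00) <|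
    PTime.ite (hph.phC 2)
      (PTime.ite (hu.is2 _ _) (hc 3) <| PTime.ite (hu.is2 _ _) h1 h00) <|
    PTime.ite (hph.phC 3)
      (PTime.ite (hu.is2 _ _) (hc 3) <| PTime.ite (hu.isC _) (hc 5) A4) <|
    PTime.ite (hph.phC 4) (PTime.ite (hu.isC _) (hc 5) A4) <|
    PTime.ite (hph.phC 5)
      (PTime.ite (hu.isC _) (hc 5) <| PTime.ite (hu.isC _) (hc 4) h00) h00

theorem PTime.vbstep {S : α → List Bool × ℕ × ℕ} {b : α → Bool} (hS : PTime S) (hb : PTime b) :
    PTime fun a => vbstep (S a) (b a) := by
  have hu : PTime fun a => (S a).1 ++ [b a] := PTime.append hS.fst' hb.boolToList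
  exact PTime.ite ((PTime.length hS.fst').phC 3)
    ((PTime.const []).pair (PTime.vtab hu hS.snd'.fst' hS.snd'.snd')) (hu.pair hS.snd')

end

theorem vtab_le (u : List Bool) (ph h : ℕ) : (vtab u ph h).1 ≤ 5 ∧ (vtab u ph h).2 ≤ h + 1 := by
  unfold vtab
  refine ite_ok (Q := fun x : ℕ × ℕ => x.1 ≤ 5 ∧ x.2 ≤ h + 1) (fun _ => ?_) fun _ => ?_
  · split_ifs <;> simp; omega
  refine ite_ok (Q := fun x : ℕ × ℕ => x.1 ≤ 5 ∧ x.2 ≤ h + 1) (fun _ => ?_) fun _ => ?_
  · split_ifs <;> simp
  refine ite_ok (Q := fun x : ℕ × ℕ => x.1 ≤ 5 ∧ x.2 ≤ h + 1) (fun _ => ?_) fun _ => ?_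
  · split_ifs <;> simp
  refine ite_ok (Q := fun x : ℕ × ℕ => x.1 ≤ 5 ∧ x.2 ≤ h + 1) (fun _ => ?_) fun _ => ?_
  · split_ifs <;> simp
  refine ite_ok (Q := fun x : ℕ × ℕ => x.1 ≤ 5 ∧ x.2 ≤ h + 1) (fun _ => ?_) fun _ => ?_
  · split_ifs <;> simp
  simp

theorem vbstep_foldl_ok (w : List Bool) {S : List Bool × ℕ × ℕ} {k : ℕ} (h1 : S.1.length ≤ 3)
    (h2 : S.2.1 ≤ 5) (h3 : S.2.2 ≤ k) : (w.foldl vbstep S).1.length ≤ 3 ∧
      (w.foldl vbstep S).2.1 ≤ 5 ∧ (w.foldl vbstep S).2.2 ≤ k + w.length := by
  induction w generalizing S k with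
  | nil => exact ⟨h1, h2, h3⟩
  | cons b w ih =>
    rw [List.foldl_cons, List.length_cons]
    have key : (vbstep S b).1.length ≤ 3 ∧ (vbstep S b).2.1 ≤ 5 ∧ (vbstep S b).2.2 ≤ k + 1 := by
      unfold vbstep
      by_cases h : S.1.length = 3
      · simp only [h, decide_true, if_true]
        have := vtab_le (S.1 ++ [b]) S.2.1 S.2.2
        exact ⟨by simp, this.1, this.2.trans (by omega)⟩
      · simp only [h, decide_false, Bool.false_eq_true, if_false]
        exact ⟨by simp; omega, h2, by omega⟩
    have := ih key.1 key.2.1 key.2.2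
    exact ⟨this.1, this.2.1, by have := this.2.2; omega⟩

/-- The validity test is polynomial time. -/
theorem PTime.validW : PTime P337.validW := by
  have h := PTime.foldBits (α := List Bool) (σ := List Bool × ℕ × ℕ) (l := fun a => a)
    (init := fun _ => ([], 1, 0)) (step := fun x => P337.vbstep x.2.1 x.2.2) PTime.id
    (PTime.const _) (PTime.vbstep PTime.id.snd'.fst' PTime.id.snd'.snd')
    (Polynomial.X + 30) ?_
  · exact (PTime.eq h (PTime.const (([], 1, 1) : List Bool × ℕ × ℕ))).congr fun a =>
      (validW_eq a).symm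
  · intro a i hi
    obtain ⟨h1, h2, h3⟩ := vbstep_foldl_ok (a.take i) (S := ([], 1, 0)) (k := 0) (by simp)
      (by simp) (by simp)
    rcases hS : (a.take i).foldl P337.vbstep ([], 1, 0) with ⟨u, ph, hh⟩
    rw [hS] at h1 h2 h3
    simp only at h1 h2 h3
    have g1 : (Code.code ph).length ≤ 3 := code_nat_le (lt_of_le_of_lt h2 (by norm_num))
    have g2 : (Code.code hh).length ≤ hh := code_nat_le Nat.lt_two_pow_self
    have g3 : (a.take i).length ≤ a.length := by rw [List.length_take]; omega
    simp only [code_pair, length_pairL, code_list, Polynomial.eval_add, Polynomial.eval_X,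
      Polynomial.eval_ofNat]
    omega

end Vale.Agent.P337
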